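import Crest.Agent.R225.Iface

/-!
Row 225 (S0347): shared library for the base nodes B3, B4, B5 (helper565):
survival of affinely independent sets in the special row, ear counts.
-/

set_option autoImplicit false

open Finset
open scoped BigOperators

namespace Crest.Agent.R225
namespace Ear

/-! ### affine relations and linear independence -/

lemma sum_smul_aff {m : ℕ} (Z : Finset (Pt m)) (c : Pt m → ℚ) :
    ∑ g ∈ Z, c g • aff g = (fun k => ∑ g ∈ Z, c g * (g k : ℚ), ∑ g ∈ Z, c g) := by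
  refine Prod.ext ?_ ?_
  · funext k
    simp [aff, Prod.fst_sum, Finset.sum_apply]
  · simp [aff, Prod.snd_sum]

lemma arel_sum_aff {m : ℕ} {Z : Finset (Pt m)} {h : Pt m → ℤ} (hr : ARel Z h) :
    ∑ g ∈ Z, (h g : ℚ) • aff g = 0 := by
  rw [sum_smul_aff]
  obtain ⟨_, h1, h2⟩ := hr
  refine Prod.ext ?_ ?_
  · funext k
    have h3 := congrFun h2 k
    simp only [Finset.sum_apply, Pi.smul_apply, smul_eq_mul, Pi.zero_apply] at h3
    have h4 : ((∑ g ∈ Z, h g * g k : ℤ) : ℚ) = 0 := by rw [h3]; simp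
    push_cast at h4
    simpa using h4
  · have h4 : ((∑ g ∈ Z, h g : ℤ) : ℚ) = 0 := by rw [h1]; simp
    push_cast at h4
    simpa using h4

lemma arel_eq_zero {m : ℕ} {Z : Finset (Pt m)} {h : Pt m → ℤ} (hr : ARel Z h)
    (hind : LinearIndepOn ℚ aff (Z : Set (Pt m))) : h = 0 := by
  rw [linearIndepOn_finset_iff] at hind
  have h1 := hind (fun g => (h g : ℚ)) (arel_sum_aff hr)
  funext g
  by_cases hg : g ∈ Z
  · have := h1 g hg
    exact_mod_cast this
  · exact hr.1 g hg

open scoped Classical in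
/-- E1. the relation of a circuit modulo `J` -/
lemma ear_rel (hB2 : S_B2) {m rX : ℕ} (J Z : Finset (Pt m)) (g0 : Pt m)
    (hbox : ∀ g ∈ J ∪ Z, ∀ k, |g k - g0 k| ≤ rX)
    (hdep : ¬ LinearIndepOn ℚ aff ((J ∪ Z : Finset (Pt m)) : Set (Pt m)))
    (hmin : ∀ z ∈ Z, LinearIndepOn ℚ aff ((J ∪ Z.erase z : Finset (Pt m)) : Set (Pt m))) :
    ∃ h : Pt m → ℤ,
      BRel (J ∪ Z) (((J ∪ Z).card * (rX + 1) : ℝ) ^ (J ∪ Z).card) h ∧ ∀ z ∈ Z, h z ≠ 0 := by
  obtain ⟨h, hne, hB⟩ := hB2 m rX (J ∪ Z) g0 hbox hdep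
  refine ⟨h, hB, ?_⟩
  intro z hz hz0
  apply hne
  refine arel_eq_zero (Z := J ∪ Z.erase z) ?_ (hmin z hz)
  obtain ⟨⟨h1, h2, h3⟩, _⟩ := hB
  have hsub : J ∪ Z.erase z ⊆ J ∪ Z := Finset.union_subset_union_right (Finset.erase_subset _ _)
  have hout : ∀ g, g ∉ J ∪ Z.erase z → h g = 0 := by
    intro g hg
    by_cases hg' : g ∈ J ∪ Z
    · have : g = z := by
        by_contra hgz
        apply hg
        rcases Finset.mem_union.mp hg' with h4 | h4
        · exact Finset.mem_union_left _ h4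
        · exact Finset.mem_union_right _ (Finset.mem_erase.mpr ⟨hgz, h4⟩)
      rw [this]; exact hz0
    · exact h1 g hg'
  refine ⟨hout, ?_, ?_⟩
  · rw [← h2]
    exact Finset.sum_subset hsub (fun g _ hg => hout g hg)
  · rw [← h3]
    exact Finset.sum_subset hsub (fun g _ hg => by rw [hout g hg, zero_smul])

/-! ### circuits modulo `J` as tuples, counting -/


/-- height bound of the relation -/
def hb (rX k : ℕ) : ℕ := (k * (rX + 1)) ^ k


end Ear
end Crest.Agent.R225
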