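import Crest.Agent.R225.Defs

/-!
# Row 225 (S0347): frozen interface statements

Every node is a `def S_xx : Prop`. A node owner proves `theorem prf_xx : S_xx` in
`Crest/Agent/R225/<Node>.lean`. Assembly nodes assume other `S_yy` as hypotheses.
Do NOT change statements; if you think one is false or unusable, mail helper575 at once.

Notation of the paper: `N* = NN n = n log n`; level `i` = number of remaining rows;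
`x_i = xl X i`; `λ_i, τ_i, α_i, δ_i, H_i, M_i, B_i` = `lam, tau, al, dl, Hd, Mb, Bh`;
`2 kk` = order of the energies at level `i`; `sp` = support bound `κ₀N*/x_i`, `κ₀ = c₀/16`.
-/

set_option autoImplicit false

open Finset MeasureTheory
open scoped BigOperators ENNReal

namespace Crest.Agent.R225

/-! ## E. Counting by finite Fourier analysis (Hölder) -/

/-- E1. `#{z ∈ W^k : ∑ h_i z_i = y} ≤ |W|^{k-2q} E_{2q}(W)`.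
Proof: `(ZMod P)^m`, `P` a large prime; `count ≤ avg ∏|S(h_i θ)| ≤ ∏ (avg |S(h_iθ)|^k)^{1/k} = avg|S|^k`. -/
def S_E1 : Prop := ∀ (m k q : ℕ) (W : Finset (Pt m)) (h : Fin k → ℤ) (y : Pt m),
  (∀ i, h i ≠ 0) → 2 * q ≤ k → relCount W h y ≤ W.card ^ (k - 2 * q) * En q W

/-- E2. log-convexity: `avg|S|^k ≤ (avg|S|^2)^{(2q-k)/(2q-2)} (avg|S|^{2q})^{(k-2)/(2q-2)}`, `avg|S|^2=|W|`. -/
def S_E2 : Prop := ∀ (m k q : ℕ) (W : Finset (Pt m)) (h : Fin k → ℤ) (y : Pt m),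
  (∀ i, h i ≠ 0) → 2 ≤ k → k ≤ 2 * q → 2 ≤ q →
  (relCount W h y : ℝ) ≤ (W.card : ℝ) ^ (((2 * q - k : ℕ) : ℝ) / (2 * q - 2 : ℕ)) *
    (En q W : ℝ) ^ (((k - 2 : ℕ) : ℝ) / (2 * q - 2 : ℕ))

open scoped Classical in
/-- E3. several relations: if the coefficient columns contain `2q` disjoint bases then the number
of solutions is at most `|W|^{k-2qd} E_{2q}(W)^d`. -/
def S_E3 : Prop := ∀ (m k q d : ℕ) (W : Finset (Pt m)) (H : Fin d → Fin k → ℤ)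
  (e : Fin (2 * q) × Fin d → Fin k), Function.Injective e →
  (∀ t, (Matrix.of fun l j : Fin d => H l (e (t, j))).det ≠ 0) →
  ((Fintype.piFinset fun _ : Fin k => W).filter fun z => ∀ l, ∑ i, H l i • z i = 0).card
    ≤ W.card ^ (k - 2 * q * d) * En q W ^ d

open scoped Classical in
/-- Thinning: independent `p`-thinning of `W` (Bernstein moments, no partition combinatorics).
`∑_T p^{#distinct points of T} = E[En q (random subset)] = E avg_θ |∑ ζ_g e(θg)|^{2q}`. -/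
def S_Thin : Prop := ∃ C : ℝ, 1 ≤ C ∧ ∀ (m q : ℕ) (W : Finset (Pt m)) (p M : ℝ),
  0 ≤ p → p ≤ 1 → 1 ≤ q → (W.card : ℝ) * p ≤ M → 2 * (q : ℝ) ≤ M →
  ∑ T ∈ ((Fintype.piFinset fun _ : Fin q => W) ×ˢ (Fintype.piFinset fun _ : Fin q => W)).filter
      (fun T => ∑ i, T.1 i = ∑ i, T.2 i),
      p ^ (univ.image T.1 ∪ univ.image T.2).card
    ≤ C ^ q * (p ^ (2 * q) * En q W + ((q : ℝ) * M) ^ q)

/-! ## F. Rows: trigonometric majorants on `ZMod P` -/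

/-- trigonometric polynomial of degree `≤ H` with coefficients bounded by `A` -/
def TrigP {P : ℕ} [NeZero P] (H : ℕ) (A : ℝ) (F : ZMod P → ℝ) : Prop :=
  ∃ c : ℤ → ℂ, (∀ u, ‖c u‖ ≤ A) ∧ c 0 = ((𝔼 x, F x : ℝ) : ℂ) ∧
    ∀ x, (F x : ℂ) = ∑ u ∈ Finset.Icc (-(H : ℤ)) H, c u * ZMod.stdAddChar ((u : ZMod P) * x)

/-- hypotheses on a next-step weight: `0 ≤ f ≤ α`, total variation `≤ 2α` -/
def TVok {P : ℕ} [NeZero P] (α : ℝ) (f : ZMod P → ℝ) : Prop :=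
  (∀ x, 0 ≤ f x ∧ f x ≤ α) ∧ ∑ x, |f (x + 1) - f x| ≤ 2 * α

/-- F1. Fejér majorant and minorant. `f̄ = f + V`, `V(x) = ∑_{|z|≤w}|Δf(x+z)|`, `F⁺ = f̄*κ + α tail`,
`F⁻ = (f-V)*κ - α tail`, `w ≈ δP/8`. -/
def S_F1 : Prop := ∀ (H P : ℕ) [NeZero P] (δ α : ℝ) (f : ZMod P → ℝ),
  0 < δ → δ ≤ 1 → 1000 / δ ^ 2 ≤ H → 1000 * (H : ℝ) ≤ δ * P → 0 < α → TVok α f →
  ∃ Fp Fm : ZMod P → ℝ, TrigP H (2 * α) Fp ∧ TrigP H (2 * α) Fm ∧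
    (∀ x, Fm x ≤ f x ∧ f x ≤ Fp x) ∧ (𝔼 x, Fp x ≤ (𝔼 x, f x) + δ * α) ∧
    ((𝔼 x, f x) - δ * α ≤ 𝔼 x, Fm x)

/-- F2. one-row survival of a set without `H`-bounded affine relations. -/
def S_F2 : Prop := ∀ (m H P rX : ℕ) [Fact P.Prime] (δ α : ℝ) (Z : Finset (Pt m)) (g0 : Pt m)
  (f : Pt m → ZMod P → ℝ),
  0 < δ → δ ≤ 1 → 1000 / δ ^ 2 ≤ H → 1000 * (H : ℝ) ≤ δ * P →
  4 * H * (Z.card + 1) * (rX + 1) < P → 0 < α →
  (∀ g ∈ Z, ∀ k, |g k - g0 k| ≤ rX) → (∀ g ∈ Z, TVok α (f g)) →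
  (∀ h, BRel Z H h → h = 0) →
  𝔼 r : Row P m, ∏ g ∈ Z, f g (res r g) ≤ ∏ g ∈ Z, ((𝔼 x, f g x) + δ * α)

/-- F3. deviation of one row, by the energy of order `2q`. -/
def S_F3 : Prop := ∀ (m H P rX q : ℕ) [Fact P.Prime] (δ α t : ℝ) (W : Finset (Pt m)) (g0 : Pt m)
  (f : Pt m → ZMod P → ℝ),
  0 < δ → δ ≤ 1 → 1000 / δ ^ 2 ≤ H → 1000 * (H : ℝ) ≤ δ * P →
  4 * H * (2 * q + 1) * (rX + 1) < P → 1 ≤ q → 0 < α → 0 < t →
  (∀ g ∈ W, ∀ k, |g k - g0 k| ≤ rX) → (∀ g ∈ W, TVok α (f g)) →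
  (𝔼 r : Row P m, if δ * α * W.card + t < |∑ g ∈ W, f g (res r g) - ∑ g ∈ W, 𝔼 x, f g x|
    then (1 : ℝ) else 0) ≤ 2 * (8 * H * α / t) ^ (2 * q) * En q W

/-! ## G. Linear algebra of affine relations -/

/-- G1. removing one point lowers the rank by at most one, at the price of squaring the height. -/
def S_G1 : Prop := ∀ (m k : ℕ) (Z : Finset (Pt m)) (B : ℝ) (z : Pt m), 1 ≤ B → z ∈ Z →
  RkGe Z B (k + 1) → RkGe (Z.erase z) (2 * B ^ 2) k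

/-- G2. a set of relation rank `≤ k` contains a relation-free subset of size `≥ |Z| - k`. -/
def S_G2 : Prop := ∀ (m k : ℕ) (Z : Finset (Pt m)) (B : ℝ), ¬ RkGe Z B (k + 1) →
  ∃ Z0 ⊆ Z, Z.card ≤ Z0.card + k ∧ ∀ h, BRel Z0 B h → h = 0

open scoped Classical in
/-- G3. greedy disjoint bases, or a nonzero relation of small support (Siegel's lemma). -/
def S_G3 : Prop := ∀ (m d N : ℕ) (Z : Finset (Pt m)) (B : ℝ) (v : Fin d → Pt m → ℤ),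
  1 ≤ d → 1 ≤ B → (∀ l, BRel Z B (v l)) →
  LinearIndependent ℚ (fun l : Fin d => fun g : Pt m => ((v l g : ℤ) : ℚ)) →
  (∃ e : Fin N × Fin d → Pt m, Function.Injective e ∧ (∀ p, e p ∈ Z) ∧
      ∀ t, (Matrix.of fun l j : Fin d => v l (e (t, j))).det ≠ 0) ∨
  (∃ h, h ≠ 0 ∧ BRel Z ((d * B) ^ d) h ∧ (Z.filter fun g => h g ≠ 0).card < N * d)

/-! ## H. The scale step (levels `i + t → i`, `t ≤ Rst`; `Rst` rows = factor `≈ 600`) -/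

/-- numerical facts about the parameters, uniformly in the level -/
def S_Num : Prop := ∀ K : ℝ, ∃ X0 : ℝ, 1 ≤ X0 ∧ ∀ X ≥ X0, ∀ i : ℕ,
  K ≤ xl X i ∧ Real.log (1 / tau X i) ≤ 1500000 * Real.sqrt (xl X i) ∧
  K * Real.sqrt (xl X i) * (1 + Real.log (xl X i)) ≤ (xl X i) ^ (3 / 4 : ℝ) ∧
  K * (xl X i) ^ (3 / 4 : ℝ) ≤ theta * xl X i ∧
  600 * xl X i ≤ xl X (i + Rst) ∧ xl X (i + Rst) ≤ 601 * xl X i ∧
  Real.log (Hd X i) ≤ 22 / 10 * theta * xl X i ∧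
  ∑ j ∈ range i, 1 / lam X j ≤ 1 / (1 + |K|)

/-- Context of the multi-level regime: `I` rows, weights `w`, current rows `rows` at level `lev`. -/
structure Ctx (P m I rX : ℕ) [NeZero P] (X : ℝ) (w : Pt m → List (ZMod P) → ℝ)
    (G : Finset (Pt m)) : Prop where
  hw : WHyp w I (fun j => al X (I - j)) (fun j => tau X (I - j)) (4 / P)
  box : ∃ g0 : Pt m, ∀ g ∈ G, ∀ k, |g k - g0 k| ≤ rX

open scoped Classical in
/-- Surv. A set `Z` of atoms alive at level `i+t` without `Hd (i+t)`-bounded relations survives `t`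
more rows with probability at most `(2 α_{i+t}/(τ_i α_i))^{|Z|}`.
Proof: F2 row by row for `E ∏_{g∈Z} w(g)`, factor `(1+1/λ)` per row and atom, and
`alive ⇒ w ≥ τ_i α_i`. -/
def S_Surv : Prop := ∃ X0 : ℝ, ∀ X ≥ X0, ∀ (m i t rX z : ℕ), t ≤ Rst → ∃ P0 : ℕ, ∀ P ≥ P0,
  ∀ [Fact P.Prime], ∀ (I : ℕ) (w : Pt m → List (ZMod P) → ℝ) (G Z : Finset (Pt m))
    (rows : List (Row P m)), Ctx P m I rX X w G → rows.length + (i + t) = I →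
    Z.card ≤ z → Z ⊆ alive w G rows → (∀ h, BRel Z (Hd X (i + t)) h → h = 0) →
    Ex t (fun rows' => if Z ⊆ alive w G rows' then (1 : ℝ) else 0) rows
      ≤ (2 * al X (i + t) / (tau X i * al X i)) ^ Z.card

open scoped Classical in
/-- HP1. (P1) at level `i` from level `i + Rst`. -/
def S_HP1 : Prop := ∀ c0 Crat : ℝ, 0 < c0 → c0 ≤ 1 / 100 → 1 ≤ Crat → ∃ X0 : ℝ, ∀ X ≥ X0,
  ∃ n0 : ℕ, ∀ n ≥ n0, ∀ (m i rX : ℕ), xl X (i + Rst) ≤ 2 * (n : ℝ) ^ (9 / 10 : ℝ) →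
  ∃ P0 : ℕ, ∀ P ≥ P0, ∀ [Fact P.Prime], ∀ (I : ℕ) (w : Pt m → List (ZMod P) → ℝ)
    (G : Finset (Pt m)) (rows : List (Row P m)), Ctx P m I rX X w G →
    rows.length + (i + Rst) = I →
    ((alive w G rows).card : ℝ) ≤ Mb X Crat n (i + Rst) →
    NoRel (alive w G rows) (Bh X (i + Rst)) (sp X c0 n (i + Rst)) →
    (En (kk X c0 n (i + Rst)) (alive w G rows) : ℝ) ≤
      Mb X Crat n (i + Rst) ^ (2 * kk X c0 n (i + Rst)) * Real.exp (-(c0 / 4 * NN n)) →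
    Ex Rst (fun rows' => if NoRel (alive w G rows') (Bh X i) (sp X c0 n i) then (0 : ℝ) else 1)
      rows ≤ Real.exp (-(c0 / 200 * NN n))

open scoped Classical in
/-- HRC. rank control at level `i` from level `i + Rst`. -/
def S_HRC : Prop := ∀ c0 Crat : ℝ, 0 < c0 → c0 ≤ 1 / 100 → 1 ≤ Crat → ∃ X0 : ℝ, ∀ X ≥ X0,
  ∃ n0 : ℕ, ∀ n ≥ n0, ∀ (m i rX : ℕ), xl X (i + Rst) ≤ 2 * (n : ℝ) ^ (9 / 10 : ℝ) →
  ∃ P0 : ℕ, ∀ P ≥ P0, ∀ [Fact P.Prime], ∀ (I : ℕ) (w : Pt m → List (ZMod P) → ℝ)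
    (G : Finset (Pt m)) (rows : List (Row P m)), Ctx P m I rX X w G →
    rows.length + (i + Rst) = I →
    ((alive w G rows).card : ℝ) ≤ Mb X Crat n (i + Rst) →
    (En (kk X c0 n (i + Rst)) (alive w G rows) : ℝ) ≤
      Mb X Crat n (i + Rst) ^ (2 * kk X c0 n (i + Rst)) * Real.exp (-(c0 / 4 * NN n)) →
    Ex Rst (fun rows' => if NoRel (alive w G rows') (Bh X i) (sp X c0 n i) ∧
        ∃ Z ⊆ alive w G rows', Z.card ≤ 2 * kk X c0 n i ∧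
          RkGe Z (2 * (Hd X (i + Rst) : ℝ) ^ 2) 16 then (1 : ℝ) else 0)
      rows ≤ Real.exp (-(c0 / 2 * NN n))

open scoped Classical in
/-- HP2. energies at level `i` from level `i + t`, on the event of controlled ranks. -/
def S_HP2 : Prop := ∀ c0 Crat : ℝ, 0 < c0 → c0 ≤ 1 / 100 → 1 ≤ Crat → ∃ X0 : ℝ, ∀ X ≥ X0,
  ∃ n0 : ℕ, ∀ n ≥ n0, ∀ (m i t rX : ℕ), 1 ≤ t → t ≤ Rst →
  xl X (i + t) ≤ 2 * (n : ℝ) ^ (9 / 10 : ℝ) →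
  ∃ P0 : ℕ, ∀ P ≥ P0, ∀ [Fact P.Prime], ∀ (I : ℕ) (w : Pt m → List (ZMod P) → ℝ)
    (G : Finset (Pt m)) (rows : List (Row P m)), Ctx P m I rX X w G →
    rows.length + (i + t) = I →
    ((alive w G rows).card : ℝ) ≤ Mb X Crat n (i + t) →
    Ex t (fun rows' => if ∀ Z ⊆ alive w G rows', Z.card ≤ 2 * kk X c0 n i →
          ¬ RkGe Z (Hd X (i + t)) 16 then (En (kk X c0 n i) (alive w G rows') : ℝ) else 0)
      rows ≤ Mb X Crat n i ^ (2 * kk X c0 n i) *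
        (Real.exp (c0 * NN n / (xl X i) ^ (1 / 4 : ℝ) + 16 * xl X (i + t)) *
            ((En (kk X c0 n (i + t)) (alive w G rows) : ℝ) /
              Mb X Crat n (i + t) ^ (2 * kk X c0 n (i + t)))
          + Real.exp (-(95 / 100 * c0 * NN n)))

/-! ## J. The multi-level theorem -/

/-- state after the special first row, ready for the multi-level regime -/
structure GoodStart {P : ℕ} [NeZero P] (n m I rX : ℕ) (X c0 Crat : ℝ) (G : Finset (Pt m))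
    (w : Pt m → List (ZMod P) → ℝ) : Prop where
  box : ∃ g0 : Pt m, ∀ g ∈ G, ∀ k, |g k - g0 k| ≤ rX
  pos : ∀ g ∈ G, 0 < w g []
  lower : 3 / 4 * Real.exp X * NN n ≤ ∑ g ∈ G, w g []
  upper : ∑ g ∈ G, w g [] ≤ 3 / 2 * Crat * Real.exp X * NN n
  clean : NoRelInf G (sp X c0 n (I - Rst))
  rank : ∀ Z ⊆ G, Z.card ≤ 2 * kk X c0 n (I - Rst) → ¬ RkGeInf Z 16
  energy : (En (kk X c0 n I) G : ℝ) ≤ Mb X Crat n I ^ (2 * kk X c0 n I) *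
    Real.exp (-(9 / 10 * c0 * NN n))

open scoped Classical in
/-- J. From F3, HP1, HRC, HP2 (+ Num): the process started from a good state dies with
probability at most `exp(-(c₀/400) N*)`. -/
def S_Multi : Prop := ∀ c0 Crat : ℝ, 0 < c0 → c0 ≤ 1 / 100 → 1 ≤ Crat → ∃ X0 : ℝ, ∀ X ≥ X0,
  ∃ n0 : ℕ, ∀ n ≥ n0, ∀ (m I rX : ℕ), (n : ℝ) ^ (9 / 10 : ℝ) ≤ xl X I →
  xl X I ≤ 2 * (n : ℝ) ^ (9 / 10 : ℝ) →
  ∃ P0 : ℕ, ∀ P ≥ P0, ∀ [Fact P.Prime], ∀ (w : Pt m → List (ZMod P) → ℝ) (G : Finset (Pt m)),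
    Ctx P m I rX X w G → GoodStart n m I rX X c0 Crat G w →
    Ex I (fun rows => if alive w G rows = ∅ then (1 : ℝ) else 0) []
      ≤ Real.exp (-(c0 / 400 * NN n))

/-! ## B. The base: from the full grid to level `I` by one row -/

/-- what the base needs to know about the grid set `G` (points of a convex body) -/
structure GridHyp (n m rX : ℕ) (c1 : ℝ) (G : Finset (Pt m)) : Prop where
  box : ∃ g0 : Pt m, ∀ g ∈ G, ∀ k, |g k - g0 k| ≤ rX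
  rel3 : ∀ (s : ℕ) (h : Fin s → ℤ) (y : Pt m), 3 ≤ s → (∀ i, h i ≠ 0) →
    (relCount G h y : ℝ) ≤ (G.card : ℝ) ^ (s - 1) * Real.exp (-(c1 * n))
  relL : ∀ (s : ℕ) (h : Fin s → ℤ) (y : Pt m), (n : ℝ) ^ (2 / 100 : ℝ) ≤ s → (∀ i, h i ≠ 0) →
    (relCount G h y : ℝ) ≤ (G.card : ℝ) ^ (s - 1) * Real.exp (-(c1 * NN n))
  pair : ∀ c c' : ℤ, c ≠ 0 → c' ≠ 0 → ∃ Y : Finset (Pt m),
    (Y.card : ℝ) ≤ G.card * Real.exp (-(c1 * NN n)) ∧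
    ∀ y, y ∉ Y → (relCount G ![c, c'] y : ℝ) ≤ G.card * Real.exp (-(n : ℝ) ^ (6 / 10 : ℝ))

/-- weight bounds in the full process (`I+1` rows; `α₀` is the tiny bound of the grid weights) -/
noncomputable def alf (X α0 : ℝ) (I j : ℕ) : ℝ := if j = 0 then α0 else al X (I + 1 - j)

noncomputable def tauf (X : ℝ) (I j : ℕ) : ℝ := tau X (I + 1 - j)

/-- hypotheses of the base row -/
structure BaseCtx (P n m I : ℕ) [NeZero P] (X c1 Crat α0 : ℝ) (G : Finset (Pt m))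
    (w : Pt m → List (ZMod P) → ℝ) : Prop where
  grid : GridHyp n m (n ^ 16) c1 G
  hα0 : 0 < α0
  hw : WHyp w (I + 1) (alf X α0 I) (tauf X I) (4 / P)
  pos : ∀ g ∈ G, 0 < w g []
  lower : Real.exp X * NN n ≤ ∑ g ∈ G, w g []
  upper : ∑ g ∈ G, w g [] ≤ Crat * Real.exp X * NN n

/-- B0. affinely independent points have independent uniform residues -/
def S_B0 : Prop := ∀ (m rX k : ℕ), ∃ P0 : ℕ, ∀ P ≥ P0, ∀ [Fact P.Prime],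
  ∀ (J : Finset (Pt m)) (g0 : Pt m) (f : Pt m → ZMod P → ℝ), J.card ≤ k →
    (∀ g ∈ J, ∀ k, |g k - g0 k| ≤ rX) → LinearIndepOn ℚ aff (J : Set (Pt m)) →
    𝔼 r : Row P m, ∏ g ∈ J, f g (res r g) = ∏ g ∈ J, 𝔼 x, f g x

open scoped Classical in
/-- B1. few grid points in a flat -/
def S_B1 : Prop := ∀ (m rX : ℕ) (G J : Finset (Pt m)) (g0 : Pt m),
  (∀ g ∈ G, ∀ k, |g k - g0 k| ≤ rX) →
  (G.filter fun g => aff g ∈ Submodule.span ℚ (aff '' (J : Set (Pt m)))).card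
    ≤ (2 * rX + 1) ^ J.card

/-- B2. bounded integer relations in dependent sets (Siegel) -/
def S_B2 : Prop := ∀ (m rX : ℕ) (Z : Finset (Pt m)) (g0 : Pt m),
  (∀ g ∈ Z, ∀ k, |g k - g0 k| ≤ rX) → ¬ LinearIndepOn ℚ aff (Z : Set (Pt m)) →
  ∃ h, h ≠ 0 ∧ BRel Z ((Z.card * (rX + 1) : ℝ) ^ Z.card) h

open scoped Classical in
/-- B3. concentration of the total weight after the special row (`2k`-th moment, `2k ≈ n^{0.15}`) -/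
def S_B3 : Prop := ∀ c1 Crat : ℝ, 0 < c1 → c1 ≤ 1 → 1 ≤ Crat → ∃ X0 : ℝ, ∀ X ≥ X0,
  ∃ n0 : ℕ, ∀ n ≥ n0, ∀ (m I : ℕ), (n : ℝ) ^ (9 / 10 : ℝ) ≤ xl X I →
  xl X I ≤ 2 * (n : ℝ) ^ (9 / 10 : ℝ) → n ≤ 2 * m → m ≤ n → ∀ G : Finset (Pt m), ∃ P0 : ℕ,
  ∀ P ≥ P0, ∀ [Fact P.Prime], ∀ (α0 : ℝ) (w : Pt m → List (ZMod P) → ℝ),
    BaseCtx P n m I X c1 Crat α0 G w →
    (𝔼 r : Row P m, if |Stot w G [r] - Stot w G []| ≤ 1 / 10 * Stot w G [] then (0 : ℝ) else 1)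
      ≤ Real.exp (-(c1 / 3 * NN n))

open scoped Classical in
/-- B4. cleaning: after deleting few atoms no affinely dependent set of size
`≤ sp (I - Rst) ≈ n^{0.1} log n` is left -/
def S_B4 : Prop := ∀ c1 Crat : ℝ, 0 < c1 → c1 ≤ 1 → 1 ≤ Crat → ∃ X0 : ℝ, ∀ X ≥ X0,
  ∃ n0 : ℕ, ∀ n ≥ n0, ∀ (m I : ℕ), (n : ℝ) ^ (9 / 10 : ℝ) ≤ xl X I →
  xl X I ≤ 2 * (n : ℝ) ^ (9 / 10 : ℝ) → n ≤ 2 * m → m ≤ n → ∀ G : Finset (Pt m), ∃ P0 : ℕ,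
  ∀ P ≥ P0, ∀ [Fact P.Prime], ∀ (α0 : ℝ) (w : Pt m → List (ZMod P) → ℝ),
    BaseCtx P n m I X c1 Crat α0 G w →
    (𝔼 r : Row P m, if ∃ G' ⊆ alive w G [r],
        ((alive w G [r] \ G').card : ℝ) ≤ Mb X Crat n I * Real.exp (-(n : ℝ) ^ (1 / 2 : ℝ)) ∧
        NoRelInf G' (sp X (c1 / 400) n (I - Rst)) then (0 : ℝ) else 1)
      ≤ Real.exp (-(c1 / 3 * NN n))

open scoped Classical in
/-- B5. rank and energy of clean subsets of the alive set -/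
def S_B5 : Prop := ∀ c1 Crat : ℝ, 0 < c1 → c1 ≤ 1 → 1 ≤ Crat → ∃ X0 : ℝ, ∀ X ≥ X0,
  ∃ n0 : ℕ, ∀ n ≥ n0, ∀ (m I : ℕ), (n : ℝ) ^ (9 / 10 : ℝ) ≤ xl X I →
  xl X I ≤ 2 * (n : ℝ) ^ (9 / 10 : ℝ) → n ≤ 2 * m → m ≤ n → ∀ G : Finset (Pt m), ∃ P0 : ℕ,
  ∀ P ≥ P0, ∀ [Fact P.Prime], ∀ (α0 : ℝ) (w : Pt m → List (ZMod P) → ℝ),
    BaseCtx P n m I X c1 Crat α0 G w →
    (𝔼 r : Row P m, if ∀ G' ⊆ alive w G [r], (G'.card : ℝ) ≤ Mb X Crat n I →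
        NoRelInf G' (sp X (c1 / 400) n (I - Rst)) →
        (∀ Z ⊆ G', Z.card ≤ 2 * kk X (c1 / 400) n (I - Rst) → ¬ RkGeInf Z 16) ∧
        (En (kk X (c1 / 400) n I) G' : ℝ) ≤ Mb X Crat n I ^ (2 * kk X (c1 / 400) n I) *
          Real.exp (-(9 / 10 * (c1 / 400) * NN n)) then (0 : ℝ) else 1)
      ≤ Real.exp (-(c1 / 3 * NN n))

open scoped Classical in
/-- Base = B3 + B4 + B5. -/
def S_Base : Prop := ∀ c1 Crat : ℝ, 0 < c1 → c1 ≤ 1 → 1 ≤ Crat → ∃ X0 : ℝ, ∀ X ≥ X0,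
  ∃ n0 : ℕ, ∀ n ≥ n0, ∀ (m I : ℕ), (n : ℝ) ^ (9 / 10 : ℝ) ≤ xl X I →
  xl X I ≤ 2 * (n : ℝ) ^ (9 / 10 : ℝ) → n ≤ 2 * m → m ≤ n → ∀ G : Finset (Pt m), ∃ P0 : ℕ,
  ∀ P ≥ P0, ∀ [Fact P.Prime], ∀ (α0 : ℝ) (w : Pt m → List (ZMod P) → ℝ),
    BaseCtx P n m I X c1 Crat α0 G w →
    (𝔼 r : Row P m, if ∃ G' ⊆ alive w G [r],
        GoodStart n m I (n ^ 16) X (c1 / 400) Crat G' (shiftw w r) then (0 : ℝ) else 1)
      ≤ Real.exp (-(c1 / 4 * NN n))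

open scoped Classical in
/-- PMain = Base + Multi. -/
def S_PMain : Prop := ∀ c1 Crat : ℝ, 0 < c1 → c1 ≤ 1 → 1 ≤ Crat → ∃ X0 : ℝ, ∀ X ≥ X0,
  ∃ n0 : ℕ, ∀ n ≥ n0, ∀ (m I : ℕ), (n : ℝ) ^ (9 / 10 : ℝ) ≤ xl X I →
  xl X I ≤ 2 * (n : ℝ) ^ (9 / 10 : ℝ) → n ≤ 2 * m → m ≤ n → ∀ G : Finset (Pt m), ∃ P0 : ℕ,
  ∀ P ≥ P0, ∀ [Fact P.Prime], ∀ (α0 : ℝ) (w : Pt m → List (ZMod P) → ℝ),
    BaseCtx P n m I X c1 Crat α0 G w →
    Ex (I + 1) (fun rows => if alive w G rows = ∅ then (1 : ℝ) else 0) []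
      ≤ Real.exp (-(c1 / 200000 * NN n))

/-! ## A. The analytic inequality (Young's inequality with a gain, log-concave functions) -/

/-- convolution -/
noncomputable def conv {m : ℕ} (f h : (Fin m → ℝ) → ℝ≥0∞) : (Fin m → ℝ) → ℝ≥0∞ :=
  fun y => ∫⁻ x, f x * h (y - x)



/-- iterated self-convolutions: `FF S j = 1_S^{* 2^j}` -/
noncomputable def FF {m : ℕ} (S : Set (Fin m → ℝ)) : ℕ → (Fin m → ℝ) → ℝ≥0∞
  | 0 => S.indicator 1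
  | j + 1 => conv (FF S j) (FF S j)


/-- A3. `∫ F_j² ≤ κ^{m⌈j/2⌉} V^{2^{j+1}-1}` : from A2 with `g = 2` and `sup F_{j+1} ≤ ∫ F_j²`,
`∫ F_{j+1}² ≤ κ^m sup F_j · V^{3·2^j}`. -/
def S_A3 : Prop := ∃ κ : ℝ, 0 < κ ∧ κ < 1 ∧ ∀ (m j : ℕ) (S : Set (Fin m → ℝ)), Convex ℝ S →
  MeasurableSet S → volume S ≠ ∞ →
  ∫⁻ y, (FF S j y) ^ 2 ≤ ENNReal.ofReal κ ^ (m * ((j + 1) / 2)) * volume S ^ (2 ^ (j + 1) - 1)

/-- A4. small volume of the set of translations/reflections with a large overlap -/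
def S_A4 : Prop := ∃ C : ℝ, 0 < C ∧ ∀ (g m : ℕ) (S : Set (Fin m → ℝ)), 2 ≤ g → Convex ℝ S →
  MeasurableSet S → volume S ≠ ∞ →
  ∫⁻ y, (volume (S ∩ {x | y - x ∈ S})) ^ g ≤
      ENNReal.ofReal (C / Real.sqrt g) ^ m * volume S ^ (g + 1) ∧
  ∫⁻ y, (volume (S ∩ {x | x - y ∈ S})) ^ g ≤
      ENNReal.ofReal (C / Real.sqrt g) ^ m * volume S ^ (g + 1)

/-- AG. integer points of a convex set of moderate size satisfy `GridHyp`.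
From A3, A4, E1, E2 and cube comparison (`S` contains a cube of side `n^7`). -/
def S_GridConvex : Prop := ∃ c1 : ℝ, 0 < c1 ∧ c1 ≤ 1 ∧ ∃ n0 : ℕ, ∀ n ≥ n0, ∀ m : ℕ,
  n ≤ 2 * m → m ≤ n → ∀ (S : Set (Fin m → ℝ)) (G : Finset (Pt m)), Convex ℝ S →
  (∃ p : Fin m → ℝ, ∀ x : Fin m → ℝ, (∀ k, 0 ≤ x k - p k ∧ x k - p k ≤ (n : ℝ) ^ 7) → x ∈ S) →
  (∃ q : Fin m → ℝ, ∀ x ∈ S, ∀ k, |x k - q k| ≤ (n : ℝ) ^ 15) →
  (∀ g, g ∈ G ↔ (fun k => (g k : ℝ)) ∈ S) →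
  GridHyp n m (n ^ 16) c1 G

/-! ## C. Geometry: the row recursion for a general convex body -/



/-- values in `{0} ∪ [τα, α]` -/
def Vals {E : Type*} (α τ : ℝ) (f : E → ℝ≥0∞) : Prop :=
  ∀ x, f x = 0 ∨ (ENNReal.ofReal (τ * α) ≤ f x ∧ f x ≤ ENNReal.ofReal α)

def BddSupp {k : ℕ} (f : (Fin k → ℝ) → ℝ≥0∞) : Prop := ∃ B : ℝ, ∀ x, f x ≠ 0 → ∀ i, |x i| ≤ B

/-- Row. one step of the recursion. `a = Q L̄`, `L̄ = ∫f/∫m`;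
`f'(x) = min(α', sup_c (1/a)∫_c^{c+a} f(x,s)ds) · 1[≥ τ'α']`. -/
def S_Row : Prop := ∃ Λ : ℝ, 1 ≤ Λ ∧ ∀ (k : ℕ) (α τ lm Q : ℝ) (f : (Fin (k + 1) → ℝ) → ℝ≥0∞),
  0 < α → 0 < τ → τ ≤ 1 → Λ ≤ lm → lm ^ 2 ≤ Q → LC f → Measurable f → BddSupp f → Vals α τ f →
  ∫⁻ x, f x ≠ 0 → ∃ (a : ℝ) (f' : (Fin k → ℝ) → ℝ≥0∞), 0 < a ∧ LC f' ∧ Measurable f' ∧
    BddSupp f' ∧ Vals (α * lm / Q) (τ / (2 * lm ^ 2)) f' ∧
    (∀ x, f' x ≠ 0 → ∃ c c', c ≤ c' ∧ c' ≤ c + a ∧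
      f' x = ENNReal.ofReal (1 / a) * ∫⁻ s in Set.Ico c c', f (Fin.snoc x s)) ∧
    ENNReal.ofReal (1 - 100 / lm) * ∫⁻ x, f x ≤ ENNReal.ofReal a * ∫⁻ x, f' x ∧
    ∃ (x : Fin k → ℝ) (s1 s2 : ℝ), f (Fin.snoc x s1) ≠ 0 ∧ f (Fin.snoc x s2) ≠ 0 ∧
      a ≤ 2 * Q * (s2 - s1)

/-- thinning factor of row `j` (from dimension `d+j+1` to `d+j`) -/
noncomputable def Qf (X α0 : ℝ) (I j : ℕ) : ℝ :=
  if j = 0 then al X I * lam X I / α0 else lam X (I - j) * Real.exp (theta * xl X (I - j))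

/-- the chain of functions `U_j` on `ℝ^{d+j}`, `j = 0..I+1`; rows are the last `I+1` coordinates -/
structure Chain (X : ℝ) (d I : ℕ) (α0 : ℝ) (K : Set (Fin (d + (I + 1)) → ℝ)) (a : ℕ → ℝ)
    (U : ∀ j : ℕ, (Fin (d + j) → ℝ) → ℝ≥0∞) : Prop where
  pos : ∀ j, 0 < a j
  top : ∀ x, U (I + 1) x = K.indicator 1 x
  lc : ∀ j ≤ I + 1, LC (U j)
  meas : ∀ j ≤ I + 1, Measurable (U j)
  bdd : ∀ j ≤ I + 1, BddSupp (U j)
  rng : ∀ j ≤ I + 1, Vals (alf X α0 I j) (tauf X I j) (U j)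
  win : ∀ j ≤ I, ∀ x : Fin (d + j) → ℝ, U j x ≠ 0 → ∃ c c', c ≤ c' ∧ c' ≤ c + a j ∧
    U j x = ENNReal.ofReal (1 / a j) * ∫⁻ s in Set.Ico c c', U (j + 1) (Fin.snoc x s)
  mass : volume K ≤ 2 * ENNReal.ofReal (∏ j ∈ range (I + 1), a j) * ∫⁻ x, U 0 x
  seg : ∀ j ≤ I, ∃ (x : Fin (d + j) → ℝ) (s1 s2 : ℝ), U (j + 1) (Fin.snoc x s1) ≠ 0 ∧
    U (j + 1) (Fin.snoc x s2) ≠ 0 ∧ a j ≤ 2 * Qf X α0 I j * (s2 - s1)

/-- Geom. existence of the chain (iterate Row) -/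
def S_Geom : Prop := ∃ X0 : ℝ, ∀ X ≥ X0, ∀ (d I : ℕ) (α0 : ℝ) (K : Set (Fin (d + (I + 1)) → ℝ)),
  0 < α0 → α0 * Real.exp (theta * xl X I) ≤ al X I → IsCompact K → Convex ℝ K →
  volume K ≠ 0 → ∃ a U, Chain X d I α0 K a U

/-- Disc. discretisation of the windows: for a real base point `x` the process of residues. -/
def S_Disc : Prop := ∀ (X : ℝ) (d I : ℕ) (α0 : ℝ) (K : Set (Fin (d + (I + 1)) → ℝ)) (a : ℕ → ℝ)
  (U : ∀ j : ℕ, (Fin (d + j) → ℝ) → ℝ≥0∞), 0 < α0 → Chain X d I α0 K a U →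
  ∀ (P : ℕ) [NeZero P] (x : Fin d → ℝ), ∃ w : List (ZMod P) → ℝ,
    w [] = (U 0 x).toReal ∧
    (∀ l ξ, w l = 0 → w (ξ :: l) = 0) ∧
    (∀ l, l.length ≤ I + 1 → w l = 0 ∨
      (tauf X I l.length * alf X α0 I l.length ≤ w l ∧ w l ≤ alf X α0 I l.length)) ∧
    (∀ l, l.length < I + 1 → |(𝔼 ξ, w (ξ :: l)) - w l| ≤ 4 / P * alf X α0 I (l.length + 1)) ∧
    (∀ l, l.length < I + 1 → ∑ ξ, |w ((ξ + 1) :: l) - w (ξ :: l)| ≤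
      2 * alf X α0 I (l.length + 1)) ∧
    (∀ l, l.length = I + 1 → w l ≠ 0 → ∃ k : Fin (I + 1) → ℤ,
      l.reverse = List.ofFn (fun j => (k j : ZMod P)) ∧
      (Fin.append x (fun j : Fin (I + 1) => a j * k j / P)) ∈ K)

/-! ## D. Position, slices, grid -/

/-- D1. affine position of a bounded convex set with interior: it contains the simplex and is
contained in the parallelepiped of the same edge vectors (maximal volume simplex). -/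
def S_D1 : Prop := ∀ (d : ℕ) (S : Set (Fin d → ℝ)), Convex ℝ S → Bornology.IsBounded S →
  (interior S).Nonempty → ∃ (A : Matrix (Fin d) (Fin d) ℝ) (p : Fin d → ℝ), A.det ≠ 0 ∧
    (∀ z : Fin d → ℝ, (∀ k, 0 ≤ z k ∧ z k ≤ 1 / (d + 1)) → p + A.mulVec z ∈ S) ∧
    (∀ x ∈ S, ∃ z : Fin d → ℝ, (∀ k, |z k| ≤ 2) ∧ x = p + A.mulVec z)

/-- base point map: grid part `g ∈ ℤ^m`, slice coordinates `y ∈ ℝ^r`, translation `t` -/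
def bp {m r : ℕ} (t : Fin (m + r) → ℝ) (A : Matrix (Fin (m + r)) (Fin (m + r)) ℝ) (g : Pt m)
    (y : Fin r → ℝ) : Fin (m + r) → ℝ := t + A.mulVec (Fin.append (fun k => (g k : ℝ)) y)

/-- the good slices `y ∈ [0,2]^r` of a log-concave function on `ℝ^{m+r}` in adapted coordinates -/
structure SliceData (n m r : ℕ) (c1 D Crat Cr : ℝ) (U0 : (Fin (m + r) → ℝ) → ℝ≥0∞)
    (t : Fin (m + r) → ℝ) (A : Matrix (Fin (m + r)) (Fin (m + r)) ℝ)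
    (G : (Fin r → ℝ) → Finset (Pt m)) : Prop where
  det : A.det ≠ 0
  mem : ∀ y : Fin r → ℝ, (∀ l, 0 ≤ y l ∧ y l ≤ 2) → ∀ g, g ∈ G y ↔ U0 (bp t A g y) ≠ 0
  grid : ∀ y : Fin r → ℝ, (∀ l, 0 ≤ y l ∧ y l ≤ 2) → GridHyp n m (n ^ 16) c1 (G y)
  lower : ∀ y : Fin r → ℝ, (∀ l, 0 ≤ y l ∧ y l ≤ 2) → D ≤ ∑ g ∈ G y, (U0 (bp t A g y)).toReal
  upper : ∀ y : Fin r → ℝ, (∀ l, 0 ≤ y l ∧ y l ≤ 2) →
    ∑ g ∈ G y, (U0 (bp t A g y)).toReal ≤ Crat * D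
  mass : ∫⁻ x, U0 x ≤ ENNReal.ofReal (Cr * D * |A.det|)
  segx : ∀ l : Fin m, ∃ p q, U0 p ≠ 0 ∧ U0 q ≠ 0 ∧
    q - p = A.mulVec (Fin.append (Pi.single l ((n : ℝ) ^ 4)) 0)
  segy : ∀ l : Fin r, ∃ (p q : Fin (m + r) → ℝ) (v : Fin m → ℝ), U0 p ≠ 0 ∧ U0 q ≠ 0 ∧
    q - p = A.mulVec (Fin.append v (Pi.single l 1))

/-- Grid. `c1` is absolute; `Crat, Cr` depend on `r` only. -/
def S_Grid : Prop := ∃ c1 : ℝ, 0 < c1 ∧ c1 ≤ 1 ∧ ∀ r : ℕ, ∃ Crat Cr : ℝ, 1 ≤ Crat ∧ 1 ≤ Cr ∧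
  ∃ n0 : ℕ, ∀ n ≥ n0, ∀ m : ℕ, n ≤ 2 * m → m ≤ n →
  ∀ (U0 : (Fin (m + r) → ℝ) → ℝ≥0∞) (τ0 α0 D : ℝ), LC U0 → Measurable U0 → BddSupp U0 →
  0 < τ0 → τ0 ≤ 1 → Real.exp (-(m : ℝ)) ≤ τ0 → 0 < α0 → Vals α0 τ0 U0 → ∫⁻ x, U0 x ≠ 0 →
  0 < D → (n : ℝ) ^ (10 * m) * α0 ≤ D → D ≤ (n : ℝ) ^ (12 * m) * α0 →
  ∃ (t : Fin (m + r) → ℝ) (A : Matrix (Fin (m + r)) (Fin (m + r)) ℝ)
    (G : (Fin r → ℝ) → Finset (Pt m)), SliceData n m r c1 D Crat Cr U0 t A G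

/-! ## K. Amplification and final assembly -/

open scoped Classical in
/-- Amp. cube of `2^r` sets with independent shifts (Markov at each of the `r` steps) -/
def S_Amp : Prop := ∀ (r N : ℕ) (T : Type) [AddCommGroup T] [Fintype T] (ι : Type) [Fintype ι]
  (B : ι → Finset (Fin r) → Finset T) (u : ℝ), 0 ≤ u → 2 ^ r * Fintype.card ι < N →
  (∀ y J, ((B y J).card : ℝ) ≤ u * Fintype.card T) →
  ∃ v : Fin r → T, ∀ y,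
    (((univ : Finset T).filter fun c => ∀ J : Finset (Fin r), c - ∑ i ∈ J, v i ∈ B y J).card : ℝ)
      ≤ (N * u) ^ (2 ^ r) * Fintype.card T

/-- lattice covering property, as in S0347 -/
def Covers {n : ℕ} (g : Matrix (Fin n) (Fin n) ℝ) (K : Set (Fin n → ℝ)) : Prop :=
  ∀ x : Fin n → ℝ, ∃ z : Fin n → ℤ, x - g.mulVec (fun i => (z i : ℝ)) ∈ K

/-- Small. for each dimension some constant works (from D1: tile by the inscribed cube) -/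
def S_Small : Prop := ∀ n : ℕ, ∃ C : ℝ, ∀ K : Set (Fin n → ℝ), IsCompact K → Convex ℝ K →
  (interior K).Nonempty → ∃ g : Matrix (Fin n) (Fin n) ℝ, g.det ≠ 0 ∧ Covers g K ∧
    (volume K).toReal / |g.det| ≤ C

/-- Large. the theorem for large dimension -/
def S_Large : Prop := ∃ (C : ℝ) (n0 : ℕ), ∀ n ≥ n0, ∀ K : Set (Fin n → ℝ), IsCompact K →
  Convex ℝ K → (interior K).Nonempty → ∃ g : Matrix (Fin n) (Fin n) ℝ, g.det ≠ 0 ∧ Covers g K ∧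
    (volume K).toReal / |g.det| ≤ C * NN n

end Crest.Agent.R225
private theorem rz_111df942f8 : type_of% @_root_.Crest.Agent.R225.FF.eq_def := @_root_.Crest.Agent.R225.FF.eq_def -- L338
private theorem rz_fcf5245f94 : type_of% @_root_.Crest.Agent.R225.FF.eq_1 := @_root_.Crest.Agent.R225.FF.eq_1 -- L338
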