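import Crest.Agent.R225.B4Iface
import Crest.Agent.R225.Ear
import Crest.Agent.R225.Num
import Crest.Agent.R225.Iface

-- ▼ part R225/B4Alg
section

/-!
# Row 225 (S0347), node B4 (cleaning): linear algebra (helper925)
-/

set_option autoImplicit false

open Finset
open scoped BigOperators

namespace Crest.Agent.R225
namespace B4

variable {m : ℕ}

lemma mkQ_sum (J Z : Finset (Pt m)) (c : Pt m → ℚ) :
    ∑ z ∈ Z, c z • (((Submodule.span ℚ (aff '' (J : Set (Pt m)))).mkQ ∘ aff) z) =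
      (Submodule.span ℚ (aff '' (J : Set (Pt m)))).mkQ (∑ z ∈ Z, c z • aff z) := by
  rw [map_sum]
  exact Finset.sum_congr rfl fun z _ => by rw [map_smul]; rfl

/-- not dependent mod `J` = independent in the quotient -/
lemma not_dep_iff (J Z : Finset (Pt m)) :
    ¬ Dep J Z ↔ LinearIndepOn ℚ ((Submodule.span ℚ (aff '' (J : Set (Pt m)))).mkQ ∘ aff)
      (Z : Set (Pt m)) := by
  rw [linearIndepOn_finset_iff]
  constructor
  · intro h c hc z hz
    by_contra hne
    apply h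
    refine ⟨c, ⟨z, hz, hne⟩, ?_⟩
    rw [mkQ_sum] at hc
    rwa [Submodule.mkQ_apply, Submodule.Quotient.mk_eq_zero] at hc
  · rintro h ⟨c, ⟨z, hz, hne⟩, hc⟩
    apply hne
    refine h c ?_ z hz
    rw [mkQ_sum, Submodule.mkQ_apply, Submodule.Quotient.mk_eq_zero]
    exact hc

lemma dep_of_mem {J Z : Finset (Pt m)} {z : Pt m} (hz : z ∈ J) (hz' : z ∈ Z) : Dep J Z := by
  classical
  refine ⟨fun g => if g = z then 1 else 0, ⟨z, hz', by simp⟩, ?_⟩
  have : ∑ g ∈ Z, (if g = z then (1 : ℚ) else 0) • aff g = aff z := by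
    rw [Finset.sum_eq_single z]
    · simp
    · intro b _ hb; simp [hb]
    · intro h; exact absurd hz' h
  rw [this]
  exact Submodule.subset_span ⟨z, by exact_mod_cast hz, rfl⟩

open scoped Classical in
theorem prf_circ_ind : S_circ_ind := by
  intro m J Z z hJ hc hz
  have h1 : ¬ Dep J (Z.erase z) := hc.2 _ (Finset.erase_ssubset hz)
  have hdisj : Disjoint J (Z.erase z) := by
    rw [Finset.disjoint_left]
    intro g hg hg'
    exact h1 (dep_of_mem hg hg')
  refine ⟨?_, hdisj⟩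
  rw [not_dep_iff] at h1
  have h2 := LinearIndepOn.union_of_quotient hJ h1
  unfold Ind
  rw [Finset.coe_union]
  exact h2

open scoped Classical in
theorem prf_int_rel (hB2 : S_B2) : S_int_rel := by
  intro m rX J Z g0 hJ hc h2 hbox
  have hmin : ∀ z ∈ Z, LinearIndepOn ℚ aff ((J ∪ Z.erase z : Finset (Pt m)) : Set (Pt m)) :=
    fun z hz => (prf_circ_ind m J Z z hJ hc hz).1
  have hdisj : Disjoint J Z := by
    rw [Finset.disjoint_left]
    intro g hg hg'
    obtain ⟨z, hz, hne⟩ : ∃ z ∈ Z, z ≠ g := by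
      by_contra hcon
      push Not at hcon
      have : Z ⊆ {g} := fun z hz => by rw [Finset.mem_singleton]; exact hcon z hz
      have := Finset.card_le_card this
      rw [Finset.card_singleton] at this
      omega
    exact hc.2 _ (Finset.erase_ssubset hz) (dep_of_mem hg (Finset.mem_erase.mpr ⟨hne.symm, hg'⟩))
  have hdep : ¬ LinearIndepOn ℚ aff ((J ∪ Z : Finset (Pt m)) : Set (Pt m)) := by
    intro hind
    rw [Finset.coe_union] at hind
    have hd : Disjoint (J : Set (Pt m)) (Z : Set (Pt m)) := by exact_mod_cast hdisj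
    have h3 := ((linearIndepOn_union_iff_quotient hd).mp hind).2
    exact (not_dep_iff J Z).mpr h3 hc.1
  obtain ⟨h, hB, hne⟩ := Ear.ear_rel hB2 J Z g0 hbox hdep hmin
  exact ⟨h, hne, hB⟩

/-- a dependent set contains a circuit -/
lemma exists_circ (J : Finset (Pt m)) : ∀ Z : Finset (Pt m), Dep J Z → ∃ Z' ⊆ Z, Circ J Z' := by
  intro Z
  induction Z using Finset.strongInduction with
  | H Z ih =>
    intro hdep
    by_cases h : ∃ Z' ⊂ Z, Dep J Z'
    · obtain ⟨Z', hZ', hd⟩ := h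
      obtain ⟨Z'', h1, h2⟩ := ih Z' hZ' hd
      exact ⟨Z'', h1.trans hZ'.1, h2⟩
    · push Not at h
      exact ⟨Z, Finset.Subset.refl _, hdep, h⟩

open scoped Classical in
theorem prf_clean : S_clean := by
  intro m s0 W J hJ hJW hno Z hZ hZs h hrel
  by_contra hne
  -- `Z` is dependent
  have hdep : Dep J Z := by
    refine ⟨fun g => (h g : ℚ), ?_, ?_⟩
    · by_contra hcon
      push Not at hcon
      apply hne
      funext g
      by_cases hg : g ∈ Z
      · have := hcon g hg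
        exact_mod_cast this
      · exact hrel.1 g hg
    · rw [Ear.arel_sum_aff hrel]
      exact Submodule.zero_mem _
  obtain ⟨Z', hZ', hc⟩ := exists_circ J Z hdep
  have hZW : ∀ z ∈ Z, z ∈ W ∧ aff z ∉ Submodule.span ℚ (aff '' (J : Set (Pt m))) ∧
      ¬ ∃ z' ∈ W, z' ≠ z ∧ Circ J {z, z'} := by
    intro z hz
    have := hZ hz
    rw [Finset.mem_filter] at this
    exact this
  have hZ'W : Z' ⊆ W := fun z hz => (hZW z (hZ' hz)).1
  have hcard : Z'.card ≤ s0 := (Finset.card_le_card hZ').trans hZs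
  rcases Nat.lt_or_ge Z'.card 3 with hlt | hge
  · have h012 : Z'.card = 0 ∨ Z'.card = 1 ∨ Z'.card = 2 := by omega
    rcases h012 with h0 | h1 | h2
    · rw [Finset.card_eq_zero] at h0
      subst h0
      obtain ⟨c, ⟨z, hz, _⟩, _⟩ := hc.1
      simp at hz
    · rw [Finset.card_eq_one] at h1
      obtain ⟨z, rfl⟩ := h1
      obtain ⟨c, ⟨z', hz', hcz⟩, hspan⟩ := hc.1
      rw [Finset.mem_singleton] at hz'
      subst hz'
      rw [Finset.sum_singleton] at hspan
      have hz : z' ∈ Z := hZ' (Finset.mem_singleton_self _)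
      apply (hZW z' hz).2.1
      have := Submodule.smul_mem _ (c z')⁻¹ hspan
      rwa [smul_smul, inv_mul_cancel₀ hcz, one_smul] at this
    · rw [Finset.card_eq_two] at h2
      obtain ⟨z, z', hzz, rfl⟩ := h2
      have hz : z ∈ Z := hZ' (by simp)
      have hz' : z' ∈ Z := hZ' (by simp)
      exact (hZW z hz).2.2 ⟨z', (hZW z' hz').1, hzz.symm, hc⟩
  · exact hno Z' hZ'W hge hcard hc

end B4
end Crest.Agent.R225
end

-- ▼ part R225/B4Count
section

/-!
# Row 225, node B4: counting lemmas (`S_ear`, `S_badY`) (helper435)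
-/

set_option autoImplicit false

open Finset
open scoped BigOperators

namespace Crest.Agent.R225.B4

namespace Cnt

/-- coefficient vectors bounded by `B` -/
noncomputable def coef (ι : Type*) [Fintype ι] [DecidableEq ι] (B : ℕ) : Finset (ι → ℤ) :=
  Fintype.piFinset fun _ : ι => Finset.Icc (-(B : ℤ)) B

lemma card_coef (ι : Type*) [Fintype ι] [DecidableEq ι] (B : ℕ) :
    (coef ι B).card = (2 * B + 1) ^ Fintype.card ι := by
  unfold coef
  rw [Fintype.card_piFinset]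
  simp only [Int.card_Icc, prod_const, card_univ]
  congr 1
  omega

lemma mem_coef {ι : Type*} [Fintype ι] [DecidableEq ι] {B : ℕ} {h : ι → ℤ} :
    h ∈ coef ι B ↔ ∀ i, |h i| ≤ (B : ℤ) := by
  simp [coef, abs_le]

open scoped Classical in
/-- The number of sets `Z` of size `s` that support, together with `J`, an integer combination
with nonzero coefficients on `Z`, all coefficients bounded by `B`. -/
theorem count_sets {m : ℕ} (G J : Finset (Pt m)) (s B : ℕ) (C : ℝ)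
    (hC : ∀ h : Fin s → ℤ, (∀ i, h i ≠ 0) → ∀ y, (relCount G h y : ℝ) ≤ C) :
    (((G.powersetCard s).filter fun Z => ∃ h h' : Pt m → ℤ, (∀ g, |h g| ≤ (B : ℤ)) ∧
      (∀ g, |h' g| ≤ (B : ℤ)) ∧
      (∀ g ∈ Z, h g ≠ 0) ∧ ∑ g ∈ Z, h g • g + ∑ g ∈ J, h' g • g = 0).card : ℝ)
      ≤ (2 * B + 1) ^ (J.card + s) * C := by
  set S := (G.powersetCard s).filter fun Z => ∃ h h' : Pt m → ℤ, (∀ g, |h g| ≤ (B : ℤ)) ∧
      (∀ g, |h' g| ≤ (B : ℤ)) ∧
      (∀ g ∈ Z, h g ≠ 0) ∧ ∑ g ∈ Z, h g • g + ∑ g ∈ J, h' g • g = 0 with hS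
  set K : Finset ((Fin s → ℤ) × (J → ℤ)) :=
    ((coef (Fin s) B).filter fun h => ∀ i, h i ≠ 0) ×ˢ coef J B with hK
  have hsub : S ⊆ K.biUnion fun p =>
      (((Fintype.piFinset fun _ : Fin s => G).filter fun z =>
        ∑ i, p.1 i • z i = -∑ g : J, p.2 g • (g : Pt m))).image fun z => univ.image z := by
    intro Z hZ
    rw [hS, mem_filter, mem_powersetCard] at hZ
    obtain ⟨⟨hZG, hZs⟩, h, h', hB, hB', hne, hsum⟩ := hZ
    set e := Finset.equivFinOfCardEq hZs with he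
    rw [mem_biUnion]
    refine ⟨(fun i => h (e.symm i), fun g => h' g), ?_, ?_⟩
    · rw [hK, mem_product, mem_filter, mem_coef, mem_coef]
      exact ⟨⟨fun i => hB _, fun i => hne _ (e.symm i).2⟩, fun g => hB' _⟩
    · rw [mem_image]
      refine ⟨fun i => (e.symm i : Pt m), ?_, ?_⟩
      · rw [mem_filter, Fintype.mem_piFinset]
        refine ⟨fun i => hZG (e.symm i).2, ?_⟩
        have h1 : ∑ i, h (e.symm i) • (e.symm i : Pt m) = ∑ g ∈ Z, h g • g := by
          rw [← Finset.sum_coe_sort Z (fun g => h g • g)]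
          exact Equiv.sum_comp e.symm (fun g : Z => h g • (g : Pt m))
        have h2 : ∑ g : J, h' g • (g : Pt m) = ∑ g ∈ J, h' g • g :=
          Finset.sum_coe_sort J (fun g => h' g • g)
        simp only
        rw [h1, h2]
        exact eq_neg_of_add_eq_zero_left hsum
      · ext g
        simp only [mem_image, mem_univ, true_and]
        constructor
        · rintro ⟨i, rfl⟩
          exact (e.symm i).2
        · intro hg
          exact ⟨e ⟨g, hg⟩, by simp⟩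
  have hcard : (S.card : ℝ) ≤ ∑ p ∈ K, C := by
    calc (S.card : ℝ) ≤ ((K.biUnion fun p =>
      (((Fintype.piFinset fun _ : Fin s => G).filter fun z =>
        ∑ i, p.1 i • z i = -∑ g : J, p.2 g • (g : Pt m))).image fun z => univ.image z).card : ℝ) := by
          exact_mod_cast card_le_card hsub
      _ ≤ ((∑ p ∈ K, ((((Fintype.piFinset fun _ : Fin s => G).filter fun z =>
        ∑ i, p.1 i • z i = -∑ g : J, p.2 g • (g : Pt m))).image fun z => univ.image z).card : ℕ) : ℝ) := by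
          exact_mod_cast card_biUnion_le
      _ ≤ ∑ p ∈ K, C := by
          push_cast
          refine sum_le_sum fun p hp => ?_
          rw [hK, mem_product, mem_filter] at hp
          refine le_trans ?_ (hC p.1 hp.1.2 (-∑ g : J, p.2 g • (g : Pt m)))
          unfold relCount
          exact_mod_cast card_image_le
  have hC0' : 0 ≤ C := le_trans (Nat.cast_nonneg _) (hC (fun _ => 1) (fun _ => one_ne_zero) 0)
  refine hcard.trans ?_
  rw [sum_const, nsmul_eq_mul]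
  refine mul_le_mul_of_nonneg_right ?_ hC0'
  have h3 : K.card ≤ (2 * B + 1) ^ (J.card + s) := by
    rw [hK, card_product, add_comm J.card s, pow_add]
    refine Nat.mul_le_mul ?_ ?_
    · refine (card_filter_le _ _).trans ?_
      rw [card_coef, Fintype.card_fin]
    · rw [card_coef, Fintype.card_coe]
  exact_mod_cast h3

open scoped Classical in
/-- one linear equation with a nonzero coefficient: the corresponding point is determined -/
lemma relCount_le {m j : ℕ} (G : Finset (Pt m)) (a : Fin j → ℤ) (y : Pt m) (i0 : Fin j)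
    (ha : a i0 ≠ 0) : relCount G a y ≤ G.card ^ (j - 1) := by
  obtain ⟨j', rfl⟩ : ∃ j', j = j' + 1 := ⟨j - 1, by have := i0.2; omega⟩
  have hcard : (Fintype.piFinset fun _ : Fin j' => G).card = G.card ^ (j' + 1 - 1) := by
    rw [Fintype.card_piFinset]; simp
  rw [← hcard]
  unfold relCount
  refine card_le_card_of_injOn (fun z i => z (i0.succAbove i)) ?_ ?_
  · intro z hz
    have hz' := (mem_filter.1 (mem_coe.1 hz)).1
    rw [Fintype.mem_piFinset] at hz'
    exact mem_coe.2 (Fintype.mem_piFinset.2 fun i => hz' _)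
  · intro z hz z' hz' hzz
    have h1 := (mem_filter.1 (mem_coe.1 hz)).2
    have h2 := (mem_filter.1 (mem_coe.1 hz')).2
    rw [Fin.sum_univ_succAbove _ i0] at h1 h2
    have h3 : ∀ i, z (i0.succAbove i) = z' (i0.succAbove i) := fun i => congrFun hzz i
    have h4 : ∑ i, a (i0.succAbove i) • z (i0.succAbove i)
        = ∑ i, a (i0.succAbove i) • z' (i0.succAbove i) :=
      sum_congr rfl fun i _ => by rw [h3 i]
    rw [h4] at h1
    have h5 : a i0 • z i0 = a i0 • z' i0 := by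
      have := h1.trans h2.symm
      exact add_right_cancel this
    have h6 : z i0 = z' i0 := by
      funext k
      have := congrFun h5 k
      simp only [Pi.smul_apply, smul_eq_mul] at this
      exact mul_left_cancel₀ ha this
    funext i
    rcases eq_or_ne i i0 with rfl | hi
    · exact h6
    · obtain ⟨i', rfl⟩ := Fin.exists_succAbove_eq hi
      exact h3 i'

end Cnt

open Cnt

theorem prf_ear : S_int_rel → S_ear := by
  classical
  intro hrel m rX s B G J g0 R hbox hJG hJ hs2 hB hR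
  refine le_trans ?_ (count_sets G J s B R fun h hh y => hR h y hh)
  refine Nat.cast_le.2 (card_le_card ?_)
  intro Z hZ
  rw [mem_filter, mem_powersetCard] at hZ ⊢
  obtain ⟨⟨hZG, hZs⟩, hcirc⟩ := hZ
  refine ⟨⟨hZG, hZs⟩, ?_⟩
  have hbox' : InBox rX g0 (J ∪ Z) := by
    intro g hg
    rcases mem_union.1 hg with h | h
    · exact hbox g (hJG h)
    · exact hbox g (hZG h)
  obtain ⟨h, hne, ⟨hsupp, hs0, hs1⟩, hbd⟩ := hrel m rX J Z g0 hJ hcirc (by omega) hbox'
  have hcard : (J ∪ Z).card ≤ J.card + s := by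
    have := card_union_le J Z
    omega
  have hBle : (((J ∪ Z).card * (rX + 1) : ℝ) ^ (J ∪ Z).card) ≤ B := by
    have h1 : ((J ∪ Z).card * (rX + 1)) ^ (J ∪ Z).card ≤ B := by
      refine le_trans ?_ hB
      rcases Nat.eq_zero_or_pos (J ∪ Z).card with h0 | h0
      · rw [h0, pow_zero]
        rcases Nat.eq_zero_or_pos (J.card + s) with h1 | h1
        · rw [h1]; simp
        · exact Nat.one_le_pow _ _ (Nat.mul_pos h1 (Nat.succ_pos _))
      · exact (Nat.pow_le_pow_left (Nat.mul_le_mul_right _ hcard) _).trans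
          (Nat.pow_le_pow_right (Nat.mul_pos (by omega) (Nat.succ_pos _)) hcard)
    exact_mod_cast h1
  have hb : ∀ g, |h g| ≤ (B : ℤ) := by
    intro g
    have h1 := (hbd g).trans hBle
    have h2 : ((|h g| : ℤ) : ℝ) ≤ ((B : ℤ) : ℝ) := by
      push_cast
      exact h1
    exact_mod_cast h2
  refine ⟨h, fun g => if g ∈ Z then 0 else h g, hb, ?_, hne, ?_⟩
  · intro g
    by_cases hg : g ∈ Z
    · simp [hg]
    · simp only [hg, if_false]; exact hb g
  · have h1 : ∑ g ∈ J ∪ Z, h g • g = ∑ g ∈ Z, h g • g + ∑ g ∈ J \ Z, h g • g := by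
      rw [← sum_union (disjoint_sdiff), union_sdiff_self_eq_union, union_comm]
    have h2 : ∑ g ∈ J, (if g ∈ Z then (0 : ℤ) else h g) • g = ∑ g ∈ J \ Z, h g • g := by
      rw [← sum_sdiff (s₁ := J ∩ Z) (s₂ := J) inter_subset_left]
      have h3 : ∑ g ∈ J ∩ Z, (if g ∈ Z then (0 : ℤ) else h g) • g = 0 :=
        sum_eq_zero fun g hg => by simp [(mem_inter.1 hg).2]
      rw [h3, add_zero, sdiff_inter_self_left]
      exact sum_congr rfl fun g hg => by simp [(mem_sdiff.1 hg).2]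
    rw [h2, ← h1]
    exact hs1

theorem prf_badY : S_badY := by
  classical
  intro m j B G Y
  set S := (G.powersetCard j).filter fun J => ∃ a : Pt m → ℤ, (∃ b ∈ J, a b ≠ 0) ∧
      (∀ b ∈ J, |a b| ≤ (B : ℤ)) ∧ ∑ b ∈ J, a b • b ∈ Y with hS
  set K : Finset (Fin j → ℤ) := (coef (Fin j) B).filter fun h => ∃ i, h i ≠ 0 with hK
  have hsub : S ⊆ (K ×ˢ Y).biUnion fun p =>
      (((Fintype.piFinset fun _ : Fin j => G).filter fun z =>
        ∑ i, p.1 i • z i = p.2)).image fun z => univ.image z := by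
    intro Z hZ
    rw [hS, mem_filter, mem_powersetCard] at hZ
    obtain ⟨⟨hZG, hZs⟩, a, ⟨b, hb, hab⟩, hB, hY⟩ := hZ
    set e := Finset.equivFinOfCardEq hZs with he
    rw [mem_biUnion]
    refine ⟨(fun i => a (e.symm i), ∑ b ∈ Z, a b • b), ?_, ?_⟩
    · rw [mem_product, hK, mem_filter, mem_coef]
      exact ⟨⟨fun i => hB _ (e.symm i).2, e ⟨b, hb⟩, by simpa using hab⟩, hY⟩
    · rw [mem_image]
      refine ⟨fun i => (e.symm i : Pt m), ?_, ?_⟩
      · rw [mem_filter, Fintype.mem_piFinset]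
        refine ⟨fun i => hZG (e.symm i).2, ?_⟩
        simp only
        rw [← Finset.sum_coe_sort Z (fun g => a g • g)]
        exact Equiv.sum_comp e.symm (fun g : Z => a g • (g : Pt m))
      · ext g
        simp only [mem_image, mem_univ, true_and]
        constructor
        · rintro ⟨i, rfl⟩
          exact (e.symm i).2
        · intro hg
          exact ⟨e ⟨g, hg⟩, by simp⟩
  have hcard : S.card ≤ ∑ p ∈ K ×ˢ Y, G.card ^ (j - 1) := by
    refine (card_le_card hsub).trans (card_biUnion_le.trans (sum_le_sum fun p hp => ?_))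
    refine card_image_le.trans ?_
    rw [mem_product, hK, mem_filter] at hp
    obtain ⟨i0, hi0⟩ := hp.1.2
    exact relCount_le G p.1 p.2 i0 hi0
  rw [sum_const, smul_eq_mul, card_product] at hcard
  have hKc : K.card ≤ (2 * B + 1) ^ j := by
    refine (card_filter_le _ _).trans ?_
    rw [card_coef, Fintype.card_fin]
  have h3 : S.card ≤ (2 * B + 1) ^ j * (G.card ^ (j - 1) * Y.card) := by
    refine hcard.trans ?_
    calc K.card * Y.card * G.card ^ (j - 1) ≤ (2 * B + 1) ^ j * Y.card * G.card ^ (j - 1) := by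
          gcongr
      _ = (2 * B + 1) ^ j * (G.card ^ (j - 1) * Y.card) := by ring
  exact_mod_cast h3

end Crest.Agent.R225.B4
end

-- ▼ part R225/B4Prob
section

/-!
# Row 225 (S0347), node B4: probability part (`S_mom`, `S_chain`, `S_surv1`)
-/

set_option autoImplicit false

open Finset
open scoped BigOperators

namespace Crest.Agent.R225
namespace B4


open scoped Classical in
lemma ind_insert {m : ℕ} {J : Finset (Pt m)} {z : Pt m} (hJ : Ind J)
    (hz : aff z ∉ Submodule.span ℚ (aff '' (J : Set (Pt m)))) :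
    Ind (insert z J) ∧ z ∉ J := by
  have hzJ : z ∉ J := by
    intro h
    exact hz (Submodule.subset_span ⟨z, by exact_mod_cast h, rfl⟩)
  refine ⟨?_, hzJ⟩
  unfold Ind at *
  rw [Finset.coe_insert]
  rw [linearIndepOn_insert (by exact_mod_cast hzJ)]
  exact ⟨hJ, hz⟩

open scoped Classical in
lemma mom_aux (hB1 : S_B1) {m rX kmax : ℕ} {Ω : Type} [Fintype Ω] [Nonempty Ω]
    {W : Ω → Finset (Pt m)} {G A : Finset (Pt m)} {g0 : Pt m} {ρ : ℝ} (hRS : RS Ω W G ρ kmax)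
    (hbox : InBox rX g0 G) (hA : A ⊆ G) :
    ∀ k (J : Finset (Pt m)), J ⊆ G → Ind J → J.card + k ≤ kmax →
      (𝔼 ω, (if J ⊆ W ω then (1 : ℝ) else 0) * ((W ω ∩ A).card : ℝ) ^ k) ≤
        ρ ^ J.card * (A.card * ρ + (2 * rX + 1 : ℝ) ^ (J.card + k)) ^ k := by
  have hρ := hRS.nonneg
  intro k
  induction k with
  | zero =>
    intro J hJG hJ hk
    simpa using hRS.surv J hJG hJ (by omega)
  | succ k ih =>
    intro J hJG hJ hk
    set D : ℝ := A.card * ρ + (2 * rX + 1 : ℝ) ^ (J.card + (k + 1)) with hD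
    have hD0 : 0 ≤ D := by positivity
    have hbase : (1 : ℝ) ≤ 2 * rX + 1 := by
      have : (0 : ℝ) ≤ rX := Nat.cast_nonneg _
      linarith
    have hx0 : 0 ≤ ρ ^ J.card := pow_nonneg hρ _
    -- expand one factor
    have e1 : ∀ ω, (if J ⊆ W ω then (1 : ℝ) else 0) * ((W ω ∩ A).card : ℝ) ^ (k + 1) =
        ∑ z ∈ A, (if J ⊆ W ω ∧ z ∈ W ω then (1 : ℝ) else 0) * ((W ω ∩ A).card : ℝ) ^ k := by
      intro ω
      have e2 : ((W ω ∩ A).card : ℝ) = ∑ z ∈ A, if z ∈ W ω then (1 : ℝ) else 0 := by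
        rw [Finset.inter_comm, ← Finset.filter_mem_eq_inter, Finset.card_filter]
        push_cast
        rfl
      rw [pow_succ, ← mul_assoc]
      have e3 : (if J ⊆ W ω then (1 : ℝ) else 0) * ((W ω ∩ A).card : ℝ) ^ k *
          ((W ω ∩ A).card : ℝ) = (if J ⊆ W ω then (1 : ℝ) else 0) * ((W ω ∩ A).card : ℝ) ^ k *
          ∑ z ∈ A, if z ∈ W ω then (1 : ℝ) else 0 := by rw [← e2]
      rw [e3, Finset.mul_sum]
      refine Finset.sum_congr rfl fun z _ => ?_
      by_cases h1 : J ⊆ W ω <;> by_cases h2 : z ∈ W ω <;> simp [h1, h2]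
    rw [Finset.expect_congr rfl (fun ω _ => e1 ω), Finset.expect_sum_comm]
    -- bound each `z`
    have key : ∀ z ∈ A, (𝔼 ω, (if J ⊆ W ω ∧ z ∈ W ω then (1 : ℝ) else 0) *
        ((W ω ∩ A).card : ℝ) ^ k) ≤
        (ρ + if aff z ∈ Submodule.span ℚ (aff '' (J : Set (Pt m))) then 1 else 0) *
          (ρ ^ J.card * D ^ k) := by
      intro z hz
      by_cases hsp : aff z ∈ Submodule.span ℚ (aff '' (J : Set (Pt m)))
      · rw [if_pos hsp]
        have h1 : (𝔼 ω, (if J ⊆ W ω ∧ z ∈ W ω then (1 : ℝ) else 0) *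
            ((W ω ∩ A).card : ℝ) ^ k) ≤
            𝔼 ω, (if J ⊆ W ω then (1 : ℝ) else 0) * ((W ω ∩ A).card : ℝ) ^ k := by
          refine Finset.expect_le_expect fun ω _ => ?_
          apply mul_le_mul_of_nonneg_right _ (by positivity)
          by_cases h1 : J ⊆ W ω <;> by_cases h2 : z ∈ W ω <;> simp [h1, h2]
        have h2 := ih J hJG hJ (by omega)
        have h3 : (A.card * ρ + (2 * rX + 1 : ℝ) ^ (J.card + k)) ^ k ≤ D ^ k := by
          apply pow_le_pow_left₀ (by positivity)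
          rw [hD]
          have := pow_le_pow_right₀ hbase (show J.card + k ≤ J.card + (k + 1) by omega)
          linarith
        calc _ ≤ _ := h1
          _ ≤ _ := h2
          _ ≤ ρ ^ J.card * D ^ k := mul_le_mul_of_nonneg_left h3 hx0
          _ ≤ (ρ + 1) * (ρ ^ J.card * D ^ k) := by
            have : 0 ≤ ρ ^ J.card * D ^ k := by positivity
            nlinarith
      · rw [if_neg hsp, add_zero]
        obtain ⟨hI, hzJ⟩ := ind_insert hJ hsp
        have h1 : (𝔼 ω, (if J ⊆ W ω ∧ z ∈ W ω then (1 : ℝ) else 0) *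
            ((W ω ∩ A).card : ℝ) ^ k) =
            𝔼 ω, (if insert z J ⊆ W ω then (1 : ℝ) else 0) * ((W ω ∩ A).card : ℝ) ^ k := by
          refine Finset.expect_congr rfl fun ω _ => ?_
          congr 1
          by_cases h1 : J ⊆ W ω <;> by_cases h2 : z ∈ W ω <;>
            simp [h1, h2, Finset.insert_subset_iff]
        have hc : (insert z J).card = J.card + 1 := Finset.card_insert_of_notMem hzJ
        have h2 := ih (insert z J) (Finset.insert_subset (hA hz) hJG) hI (by omega)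
        rw [h1]
        refine h2.trans ?_
        rw [hc, pow_succ]
        have h3 : (A.card * ρ + (2 * rX + 1 : ℝ) ^ (J.card + 1 + k)) = D := by
          rw [hD]; congr 2; omega
        rw [h3]
        apply le_of_eq; ring
    refine (Finset.sum_le_sum key).trans ?_
    rw [← Finset.sum_mul]
    have hcount : ∑ z ∈ A, (ρ + if aff z ∈ Submodule.span ℚ (aff '' (J : Set (Pt m)))
        then (1 : ℝ) else 0) ≤ D := by
      rw [Finset.sum_add_distrib, Finset.sum_const, nsmul_eq_mul, hD]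
      have h1 : (∑ z ∈ A, if aff z ∈ Submodule.span ℚ (aff '' (J : Set (Pt m)))
          then (1 : ℝ) else 0) ≤ (2 * rX + 1 : ℝ) ^ J.card := by
        rw [← Finset.sum_filter, Finset.sum_const, nsmul_eq_mul, mul_one]
        have h2 := hB1 m rX G J g0 hbox
        have h3 : (A.filter fun g => aff g ∈ Submodule.span ℚ (aff '' (J : Set (Pt m)))).card ≤
            (G.filter fun g => aff g ∈ Submodule.span ℚ (aff '' (J : Set (Pt m)))).card :=
          Finset.card_le_card (Finset.filter_subset_filter _ hA)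
        calc _ ≤ (((2 * rX + 1) ^ J.card : ℕ) : ℝ) := by exact_mod_cast h3.trans h2
          _ = _ := by push_cast; ring
      have h4 : (2 * rX + 1 : ℝ) ^ J.card ≤ (2 * rX + 1 : ℝ) ^ (J.card + (k + 1)) :=
        pow_le_pow_right₀ hbase (by omega)
      linarith
    calc _ ≤ D * (ρ ^ J.card * D ^ k) := mul_le_mul_of_nonneg_right hcount (by positivity)
      _ = _ := by ring

theorem prf_mom : S_B1 → S_mom := by
  classical
  intro hB1 m rX k kmax Ω _ _ W G J A g0 ρ T hRS hbox hJG hJ hk hA hT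
  have h := mom_aux hB1 hRS hbox hA k J hJG hJ hk
  have hTk : 0 < T ^ k := pow_pos hT k
  have h1 : (𝔼 ω, if J ⊆ W ω ∧ T ≤ ((W ω ∩ A).card : ℝ) then (1 : ℝ) else 0) ≤
      (𝔼 ω, (if J ⊆ W ω then (1 : ℝ) else 0) * ((W ω ∩ A).card : ℝ) ^ k) / T ^ k := by
    rw [Finset.expect_div]
    refine Finset.expect_le_expect fun ω _ => ?_
    by_cases h1 : J ⊆ W ω
    · by_cases h2 : T ≤ ((W ω ∩ A).card : ℝ)
      · simp only [h1, h2, and_self, if_true, one_mul]
        rw [le_div_iff₀ hTk, one_mul]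
        exact pow_le_pow_left₀ hT.le h2 k
      · simp only [h1, h2, and_false, if_false, if_true, one_mul]
        positivity
    · simp [h1]
  refine h1.trans ?_
  rw [div_pow, ← mul_div_assoc]
  exact div_le_div_of_nonneg_right h hTk.le

/-! ### chains -/

lemma sum_biUnion_le_sum {ι α : Type*} [DecidableEq α] (s : Finset ι) (t : ι → Finset α)
    (f : α → ℝ) (hf : ∀ a, 0 ≤ f a) :
    ∑ a ∈ s.biUnion t, f a ≤ ∑ i ∈ s, ∑ a ∈ t i, f a := by
  classical
  have h : s.biUnion t = (s.sigma t).image (fun x => x.2) := by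
    ext a
    simp only [Finset.mem_biUnion, Finset.mem_image, Finset.mem_sigma]
    constructor
    · rintro ⟨i, hi, ha⟩
      exact ⟨⟨i, a⟩, ⟨hi, ha⟩, rfl⟩
    · rintro ⟨⟨i, b⟩, ⟨hi, hb⟩, rfl⟩
      exact ⟨i, hi, hb⟩
  rw [h]
  refine (Finset.sum_image_le_of_nonneg (fun u _ => hf u)).trans ?_
  rw [Finset.sum_sigma]

open scoped Classical in
lemma chn_facts (hC : S_circ_ind) {m : ℕ} {W : Finset (Pt m)} {s1 : ℕ} :
    ∀ t J, Chn W s1 t J → Ind J ∧ J ⊆ W ∧ J.card ≤ t * s1 := by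
  intro t
  induction t with
  | zero =>
    intro J hJ
    simp only [Chn] at hJ
    subst hJ
    refine ⟨?_, Finset.empty_subset _, by simp⟩
    unfold Ind
    rw [Finset.coe_empty]
    exact linearIndepOn_empty ℚ aff
  | succ t ih =>
    intro J' hJ'
    obtain ⟨J, Z, z, hJ, hZW, hz, h3, hs, hc, rfl⟩ := hJ'
    obtain ⟨hI, hJW, hcard⟩ := ih J hJ
    obtain ⟨h1, h2⟩ := hC m J Z z hI hc hz
    refine ⟨h1, Finset.union_subset hJW ((Finset.erase_subset _ _).trans hZW), ?_⟩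
    rw [Finset.card_union_of_disjoint h2, Finset.card_erase_of_mem hz, Nat.succ_mul]
    omega

open scoped Classical in
lemma chn_mono {m : ℕ} {W W' : Finset (Pt m)} (h : W ⊆ W') {s1 : ℕ} :
    ∀ t J, Chn W s1 t J → Chn W' s1 t J := by
  intro t
  induction t with
  | zero => intro J hJ; exact hJ
  | succ t ih =>
    intro J' hJ'
    obtain ⟨J, Z, z, hJ, hZW, hz, h3, hs, hc, rfl⟩ := hJ'
    exact ⟨J, Z, z, ih J hJ, hZW.trans h, hz, h3, hs, hc, rfl⟩

theorem prf_chain : S_circ_ind → S_chain := by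
  classical
  intro hC m s1 L G ρ q hρ hq hstep t
  induction t with
  | zero =>
    intro _
    have h : G.powerset.filter (fun J => Chn G s1 0 J) = {∅} := by
      ext J
      rw [Finset.mem_filter, Finset.mem_powerset, Finset.mem_singleton]
      constructor
      · exact fun h => h.2
      · rintro rfl
        exact ⟨Finset.empty_subset _, rfl⟩
    rw [h]
    simp
  | succ t ih =>
    intro ht
    have ih' := ih (by omega)
    set S := G.powerset.filter (fun J => Chn G s1 t J) with hS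
    have hsub : G.powerset.filter (fun J => Chn G s1 (t + 1) J) ⊆
        S.biUnion fun J => (Icc 3 s1).biUnion fun s =>
          ((G.powersetCard s).filter fun Z => Circ J Z).biUnion fun Z =>
            Z.image fun z => J ∪ Z.erase z := by
      intro J' hJ'
      rw [Finset.mem_filter] at hJ'
      obtain ⟨J, Z, z, hJ, hZW, hz, h3, hs, hc, rfl⟩ := hJ'.2
      rw [Finset.mem_biUnion]
      refine ⟨J, ?_, ?_⟩
      · rw [hS, Finset.mem_filter, Finset.mem_powerset]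
        exact ⟨(chn_facts hC t J hJ).2.1, hJ⟩
      · rw [Finset.mem_biUnion]
        refine ⟨Z.card, Finset.mem_Icc.mpr ⟨h3, hs⟩, ?_⟩
        rw [Finset.mem_biUnion]
        refine ⟨Z, ?_, Finset.mem_image.mpr ⟨z, hz, rfl⟩⟩
        rw [Finset.mem_filter, Finset.mem_powersetCard]
        exact ⟨⟨hZW, rfl⟩, hc⟩
    have hf : ∀ J : Finset (Pt m), 0 ≤ ρ ^ J.card := fun J => pow_nonneg hρ _
    have h1 : ∀ J ∈ S, (∑ J' ∈ ((Icc 3 s1).biUnion fun s =>
          ((G.powersetCard s).filter fun Z => Circ J Z).biUnion fun Z =>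
            Z.image fun z => J ∪ Z.erase z), ρ ^ J'.card) ≤ ρ ^ J.card * q := by
      intro J hJ
      rw [hS, Finset.mem_filter] at hJ
      obtain ⟨hI, hJG, hcard⟩ := chn_facts hC t J hJ.2
      have h2 := hstep J hJG hI (hcard.trans (Nat.mul_le_mul_right _ (by omega)))
      refine (sum_biUnion_le_sum _ _ _ hf).trans ?_
      refine le_trans ?_ (mul_le_mul_of_nonneg_left h2 (hf J))
      rw [Finset.mul_sum]
      refine Finset.sum_le_sum fun s hs => ?_
      refine (sum_biUnion_le_sum _ _ _ hf).trans ?_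
      have h3 : ∀ Z ∈ (G.powersetCard s).filter (fun Z => Circ J Z),
          (∑ J' ∈ Z.image (fun z => J ∪ Z.erase z), ρ ^ J'.card) ≤
            s * (ρ ^ J.card * ρ ^ (s - 1)) := by
        intro Z hZ
        rw [Finset.mem_filter, Finset.mem_powersetCard] at hZ
        refine (Finset.sum_image_le_of_nonneg (fun u _ => hf u)).trans ?_
        have h4 : ∀ z ∈ Z, ρ ^ (J ∪ Z.erase z).card = ρ ^ J.card * ρ ^ (s - 1) := by
          intro z hz
          obtain ⟨h5, h6⟩ := hC m J Z z hI hZ.2 hz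
          rw [Finset.card_union_of_disjoint h6, Finset.card_erase_of_mem hz, hZ.1.2, pow_add]
        rw [Finset.sum_congr rfl h4, Finset.sum_const, nsmul_eq_mul, hZ.1.2]
      refine (Finset.sum_le_sum h3).trans ?_
      rw [Finset.sum_const, nsmul_eq_mul]
      apply le_of_eq
      ring
    calc ∑ J ∈ G.powerset.filter (fun J => Chn G s1 (t + 1) J), ρ ^ J.card
        ≤ _ := Finset.sum_le_sum_of_subset_of_nonneg hsub (fun J _ _ => hf J)
      _ ≤ _ := sum_biUnion_le_sum _ _ _ hf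
      _ ≤ ∑ J ∈ S, ρ ^ J.card * q := Finset.sum_le_sum h1
      _ = (∑ J ∈ S, ρ ^ J.card) * q := by rw [Finset.sum_mul]
      _ ≤ q ^ t * q := mul_le_mul_of_nonneg_right ih' hq
      _ = q ^ (t + 1) := by ring

end B4
end Crest.Agent.R225
end

-- ▼ part R225/B4Iface2
section

/-!
# Row 225 (S0347), node B4: split of `S_core` (deterministic part)
-/

set_option autoImplicit false

open Finset
open scoped BigOperators

namespace Crest.Agent.R225
namespace B4

open scoped Classical in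
/-- points of `G` having a partner in `G` for the relation `c z + c' z' = y` -/
noncomputable def ASet {m : ℕ} (G : Finset (Pt m)) (c c' : ℤ) (y : Pt m) : Finset (Pt m) :=
  G.filter fun z => ∃ z' ∈ G, c • z + c' • z' = y

/-- `|ASet G c c' y| ≤ relCount G ![c, c'] y` -/
def S_ASet : Prop := ∀ (m : ℕ) (G : Finset (Pt m)) (c c' : ℤ) (y : Pt m), c ≠ 0 → c' ≠ 0 →
  (ASet G c c' y).card ≤ relCount G ![c, c'] y

open scoped Classical in
/-- deterministic part of `S_core`: no long chain, no long circuit modulo a small set, and all the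
sets `W ∩ ASet` small ⇒ a good `G'`.
Proof: take `t < L` maximal with `Chn W s1 t J`; `G' = W.filter (...)` of `S_clean`;
`W \ G' ⊆ (W ∩ span J) ∪ ⋃_{(c,c',a)} (W ∩ ASet G c c' (∑ a_b b))`, with `S_int_rel` for `Z = {z,z'}`;
number of types `≤ (2B+1)^(|J|+2)`. -/
def S_det : Prop := ∀ (m rX L s1 s0 B : ℕ) (W G : Finset (Pt m)) (g0 : Pt m) (T : ℝ),
  W ⊆ G → InBox rX g0 G → 0 < T → 3 ≤ s1 → s1 ≤ s0 →
  ((L * s1 + s0 + 2) * (rX + 1)) ^ (L * s1 + s0 + 2) ≤ B →
  (¬ ∃ J, Chn W s1 L J) →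
  (∀ J ⊆ W, Ind J → J.card ≤ L * s1 → ∀ Z ⊆ W, s1 < Z.card → Z.card ≤ s0 → ¬ Circ J Z) →
  (∀ J ⊆ W, Ind J → J.card ≤ L * s1 → ∀ (c c' : ℤ) (a : Pt m → ℤ), c ≠ 0 → c' ≠ 0 →
    |c| ≤ (B : ℤ) → |c'| ≤ (B : ℤ) → (∃ b ∈ J, a b ≠ 0) → (∀ b ∈ J, |a b| ≤ (B : ℤ)) →
    ((W ∩ ASet G c c' (∑ b ∈ J, a b • b)).card : ℝ) < T) →
  ∃ G' ⊆ W, ((W \ G').card : ℝ) ≤ (2 * rX + 1 : ℝ) ^ (L * s1) +
      (2 * B + 1 : ℝ) ^ (L * s1 + s0 + 2) * T ∧ NoRelInf G' s0

end B4
end Crest.Agent.R225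
end

-- ▼ part R225/B4E3
section

/-!
# Row 225, node B4: expectation bound for the exceptional targets (helper435)
-/

set_option autoImplicit false

open Finset
open scoped BigOperators

namespace Crest.Agent.R225.B4

namespace E3

open scoped Classical in
/-- the bad combination property -/
def Bad {m : ℕ} (B : ℕ) (Y J : Finset (Pt m)) : Prop :=
  ∃ a : Pt m → ℤ, (∃ b ∈ J, a b ≠ 0) ∧ (∀ b ∈ J, |a b| ≤ (B : ℤ)) ∧ ∑ b ∈ J, a b • b ∈ Y

open scoped Classical in
lemma sum_bad (hY : S_badY) {m B j N : ℕ} (G Y : Finset (Pt m)) {ρ R δL : ℝ} (hρ : 0 ≤ ρ)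
    (hR : (G.card : ℝ) * ρ ≤ R) (hR1 : 1 ≤ R) (hδL : 0 ≤ δL)
    (hYc : (Y.card : ℝ) ≤ G.card * δL) (hj : j ≤ N) :
    (((G.powersetCard j).filter fun J => Bad B Y J).card : ℝ) * ρ ^ j
      ≤ (2 * B + 1 : ℝ) ^ N * R ^ N * δL := by
  have hb1 : (1 : ℝ) ≤ 2 * B + 1 := by
    have : (0 : ℝ) ≤ B := Nat.cast_nonneg _
    linarith
  have hRHS : 0 ≤ (2 * B + 1 : ℝ) ^ N * R ^ N * δL := by positivity
  rcases Nat.eq_zero_or_pos j with rfl | hj0
  · have h0 : ((G.powersetCard 0).filter fun J => Bad B Y J) = ∅ := by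
      rw [filter_eq_empty_iff]
      intro J hJ hbad
      obtain ⟨a, ⟨b, hb, _⟩, _⟩ := hbad
      rw [powersetCard_zero, mem_singleton] at hJ
      rw [hJ] at hb
      exact absurd hb (notMem_empty _)
    rw [h0]
    simpa using hRHS
  · have h1 := hY m j B G Y
    have h2 : (((G.powersetCard j).filter fun J => Bad B Y J).card : ℝ) ≤
        (2 * B + 1 : ℝ) ^ j * ((G.card : ℝ) ^ (j - 1) * Y.card) := by
      refine le_trans (le_of_eq ?_) h1
      rfl
    obtain ⟨i, rfl⟩ : ∃ i, j = i + 1 := ⟨j - 1, by omega⟩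
    have hGρ : 0 ≤ (G.card : ℝ) * ρ := by positivity
    calc (((G.powersetCard (i + 1)).filter fun J => Bad B Y J).card : ℝ) * ρ ^ (i + 1)
        ≤ (2 * B + 1 : ℝ) ^ (i + 1) * ((G.card : ℝ) ^ (i + 1 - 1) * Y.card) * ρ ^ (i + 1) :=
          mul_le_mul_of_nonneg_right h2 (by positivity)
      _ ≤ (2 * B + 1 : ℝ) ^ (i + 1) * ((G.card : ℝ) ^ (i + 1 - 1) * (G.card * δL)) *
          ρ ^ (i + 1) := by gcongr
      _ = (2 * B + 1 : ℝ) ^ (i + 1) * (((G.card : ℝ) * ρ) ^ (i + 1)) * δL := by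
          rw [Nat.add_sub_cancel, mul_pow]; ring
      _ ≤ (2 * B + 1 : ℝ) ^ N * R ^ N * δL := by
          have h3 : ((G.card : ℝ) * ρ) ^ (i + 1) ≤ R ^ N :=
            (pow_le_pow_left₀ hGρ hR _).trans (pow_le_pow_right₀ hR1 hj)
          have h4 : (2 * B + 1 : ℝ) ^ (i + 1) ≤ (2 * B + 1 : ℝ) ^ N := pow_le_pow_right₀ hb1 hj
          gcongr

end E3

open scoped Classical in
theorem E3 (hY : S_badY) {m L s1 s0 kmax B : ℕ} {Ω : Type} [Fintype Ω] [Nonempty Ω]
    {W : Ω → Finset (Pt m)} {G : Finset (Pt m)} {ρ R δL : ℝ} (hRS : RS Ω W G ρ kmax)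
    (hR : (G.card : ℝ) * ρ ≤ R) (hR1 : 1 ≤ R) (hδL : 0 ≤ δL) (hk : L * s1 ≤ kmax)
    (Y : ℤ → ℤ → Finset (Pt m)) (hYc : ∀ c c', ((Y c c').card : ℝ) ≤ G.card * δL) :
    (𝔼 ω, if ∃ J ⊆ W ω, Ind J ∧ J.card ≤ L * s1 ∧ ∃ (c c' : ℤ) (a : Pt m → ℤ),
        |c| ≤ (B : ℤ) ∧ |c'| ≤ (B : ℤ) ∧ (∃ b ∈ J, a b ≠ 0) ∧ (∀ b ∈ J, |a b| ≤ (B : ℤ)) ∧
        ∑ b ∈ J, a b • b ∈ Y c c' then (1 : ℝ) else 0)
      ≤ (L * s1 + 1) * (2 * B + 1 : ℝ) ^ (L * s1 + s0 + 2) * R ^ (L * s1) * δL := by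
  set N := L * s1 with hN
  set IB := Icc (-(B : ℤ)) B with hIB
  have hρ := hRS.nonneg
  let bad : ℤ → ℤ → ℕ → Finset (Finset (Pt m)) := fun c c' j =>
    ((G.powersetCard j).filter fun J => E3.Bad B (Y c c') J).filter fun J => Ind J
  have hpt : ∀ ω, (if ∃ J ⊆ W ω, Ind J ∧ J.card ≤ N ∧ ∃ (c c' : ℤ) (a : Pt m → ℤ),
        |c| ≤ (B : ℤ) ∧ |c'| ≤ (B : ℤ) ∧ (∃ b ∈ J, a b ≠ 0) ∧ (∀ b ∈ J, |a b| ≤ (B : ℤ)) ∧
        ∑ b ∈ J, a b • b ∈ Y c c' then (1 : ℝ) else 0) ≤
      ∑ p ∈ (IB ×ˢ IB) ×ˢ range (N + 1), ∑ J ∈ bad p.1.1 p.1.2 p.2,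
        if J ⊆ W ω then (1 : ℝ) else 0 := by
    intro ω
    have hnn : ∀ p ∈ (IB ×ˢ IB) ×ˢ range (N + 1), 0 ≤ ∑ J ∈ bad p.1.1 p.1.2 p.2,
        if J ⊆ W ω then (1 : ℝ) else 0 := fun p _ => sum_nonneg fun J _ => by
          split_ifs <;> norm_num
    split_ifs with h
    · obtain ⟨J, hJW, hInd, hJc, c, c', a, hc, hc', hb, hB, hmem⟩ := h
      have hp : ((c, c'), J.card) ∈ (IB ×ˢ IB) ×ˢ range (N + 1) := by
        rw [mem_product, mem_product, hIB, mem_Icc, mem_Icc, mem_range]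
        exact ⟨⟨abs_le.1 hc, abs_le.1 hc'⟩, by omega⟩
      refine le_trans ?_ (single_le_sum hnn hp)
      have hJb : J ∈ bad c c' J.card := by
        simp only [bad, mem_filter, mem_powersetCard]
        exact ⟨⟨⟨hJW.trans (hRS.sub ω), trivial⟩, a, hb, hB, hmem⟩, hInd⟩
      have h2 : (if J ⊆ W ω then (1 : ℝ) else 0) ≤ ∑ J ∈ bad c c' J.card,
          if J ⊆ W ω then (1 : ℝ) else 0 :=
        single_le_sum (f := fun J => if J ⊆ W ω then (1 : ℝ) else 0)
          (fun J _ => by split_ifs <;> norm_num) hJb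
      rw [if_pos hJW] at h2
      exact h2
    · exact sum_nonneg hnn
  refine (expect_le_expect fun ω _ => hpt ω).trans ?_
  rw [expect_sum_comm]
  have hterm : ∀ p ∈ (IB ×ˢ IB) ×ˢ range (N + 1),
      (𝔼 ω, ∑ J ∈ bad p.1.1 p.1.2 p.2, if J ⊆ W ω then (1 : ℝ) else 0) ≤
        (2 * B + 1 : ℝ) ^ N * R ^ N * δL := by
    intro p hp
    rw [expect_sum_comm]
    rw [mem_product, mem_range] at hp
    have h1 : ∀ J ∈ bad p.1.1 p.1.2 p.2, (𝔼 ω, if J ⊆ W ω then (1 : ℝ) else 0) ≤ ρ ^ p.2 := by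
      intro J hJ
      simp only [bad, mem_filter, mem_powersetCard] at hJ
      obtain ⟨⟨⟨hJG, hJc⟩, _⟩, hInd⟩ := hJ
      have := hRS.surv J hJG hInd (by omega)
      rwa [hJc] at this
    refine (sum_le_sum h1).trans ?_
    rw [sum_const, nsmul_eq_mul]
    refine le_trans ?_ (E3.sum_bad hY G (Y p.1.1 p.1.2) hρ hR hR1 hδL (hYc _ _)
      (show p.2 ≤ N by omega))
    refine mul_le_mul_of_nonneg_right ?_ (pow_nonneg hρ _)
    exact_mod_cast card_le_card (filter_subset _ _)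
  refine (sum_le_sum hterm).trans ?_
  rw [sum_const, nsmul_eq_mul, card_product, card_product, card_range]
  have hIBc : IB.card = 2 * B + 1 := by
    rw [hIB, Int.card_Icc]; omega
  rw [hIBc]
  have hb1 : (1 : ℝ) ≤ 2 * B + 1 := by
    have : (0 : ℝ) ≤ B := Nat.cast_nonneg _
    linarith
  have hR0 : 0 ≤ R := zero_le_one.trans hR1
  push_cast
  calc (2 * (B : ℝ) + 1) * (2 * B + 1) * (N + 1) * ((2 * B + 1) ^ N * R ^ N * δL)
      = (N + 1) * (2 * B + 1 : ℝ) ^ (N + 2) * R ^ N * δL := by ring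
    _ ≤ (N + 1) * (2 * B + 1 : ℝ) ^ (N + s0 + 2) * R ^ N * δL := by
        have : (2 * B + 1 : ℝ) ^ (N + 2) ≤ (2 * B + 1 : ℝ) ^ (N + s0 + 2) :=
          pow_le_pow_right₀ hb1 (by omega)
        gcongr
    _ = (L * s1 + 1) * (2 * B + 1 : ℝ) ^ (N + s0 + 2) * R ^ N * δL := by
        rw [hN]; push_cast; ring

end Crest.Agent.R225.B4
end

-- ▼ part R225/B4Core
section

/-!
# Row 225 (S0347), node B4: `S_core` from the pieces
-/

set_option autoImplicit false

open Finset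
open scoped BigOperators

namespace Crest.Agent.R225
namespace B4

/-! ### union bounds -/

lemma exp_union {Ω ι : Type*} [Fintype Ω] [Nonempty Ω] (s : Finset ι) (q : ι → Ω → Prop)
    (p : Ω → Prop) (f : ι → ℝ) [∀ i, DecidablePred (q i)] [DecidablePred p]
    (h : ∀ i ∈ s, (𝔼 ω, if q i ω then (1 : ℝ) else 0) ≤ f i)
    (hp : ∀ ω, p ω → ∃ i ∈ s, q i ω) :
    (𝔼 ω, if p ω then (1 : ℝ) else 0) ≤ ∑ i ∈ s, f i := by
  have h1 : (𝔼 ω, if p ω then (1 : ℝ) else 0) ≤ 𝔼 ω, ∑ i ∈ s, if q i ω then (1 : ℝ) else 0 := by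
    refine Finset.expect_le_expect fun ω _ => ?_
    by_cases hpω : p ω
    · obtain ⟨i, hi, hq⟩ := hp ω hpω
      rw [if_pos hpω]
      have := Finset.single_le_sum (f := fun i => if q i ω then (1 : ℝ) else 0)
        (fun j _ => by split_ifs <;> norm_num) hi
      simp only [hq, if_true] at this
      exact this
    · rw [if_neg hpω]
      exact Finset.sum_nonneg fun j _ => by split_ifs <;> norm_num
  refine h1.trans ?_
  rw [Finset.expect_sum_comm]
  exact Finset.sum_le_sum h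

open scoped Classical in
/-- `∑_{J ⊆ G, |J| ≤ j0} ρ^|J| ≤ (j0+1) R^j0` -/
lemma sum_small_sets {m : ℕ} (G : Finset (Pt m)) (j0 : ℕ) {ρ R : ℝ} (hρ : 0 ≤ ρ)
    (hR : (G.card : ℝ) * ρ ≤ R) (hR1 : 1 ≤ R) :
    ∑ J ∈ G.powerset.filter (fun J => J.card ≤ j0), ρ ^ J.card ≤ (j0 + 1) * R ^ j0 := by
  have hsub : G.powerset.filter (fun J => J.card ≤ j0) ⊆
      (range (j0 + 1)).biUnion fun j => G.powersetCard j := by
    intro J hJ
    rw [Finset.mem_filter, Finset.mem_powerset] at hJ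
    rw [Finset.mem_biUnion]
    exact ⟨J.card, Finset.mem_range.mpr (by omega), Finset.mem_powersetCard.mpr ⟨hJ.1, rfl⟩⟩
  have hf : ∀ J : Finset (Pt m), 0 ≤ ρ ^ J.card := fun J => pow_nonneg hρ _
  calc ∑ J ∈ G.powerset.filter (fun J => J.card ≤ j0), ρ ^ J.card
      ≤ _ := Finset.sum_le_sum_of_subset_of_nonneg hsub (fun J _ _ => hf J)
    _ ≤ _ := sum_biUnion_le_sum _ _ _ hf
    _ ≤ ∑ j ∈ range (j0 + 1), R ^ j0 := by
        refine Finset.sum_le_sum fun j hj => ?_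
        rw [Finset.mem_range] at hj
        have h1 : ∀ J ∈ G.powersetCard j, ρ ^ J.card = ρ ^ j := by
          intro J hJ
          rw [(Finset.mem_powersetCard.mp hJ).2]
        rw [Finset.sum_congr rfl h1, Finset.sum_const, nsmul_eq_mul, Finset.card_powersetCard]
        have h2 : ((G.card.choose j : ℕ) : ℝ) ≤ (G.card : ℝ) ^ j := by
          exact_mod_cast Nat.choose_le_pow G.card j
        calc ((G.card.choose j : ℕ) : ℝ) * ρ ^ j ≤ (G.card : ℝ) ^ j * ρ ^ j :=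
              mul_le_mul_of_nonneg_right h2 (pow_nonneg hρ _)
          _ = (G.card * ρ) ^ j := by rw [mul_pow]
          _ ≤ R ^ j := pow_le_pow_left₀ (by positivity) hR j
          _ ≤ R ^ j0 := pow_le_pow_right₀ hR1 (by omega)
    _ = (j0 + 1) * R ^ j0 := by
        rw [Finset.sum_const, nsmul_eq_mul, Finset.card_range]
        push_cast
        ring

lemma hB_mono {j k rX B : ℕ} (h : j ≤ k) (hk : 1 ≤ k) (hB : (k * (rX + 1)) ^ k ≤ B) :
    (j * (rX + 1)) ^ j ≤ B := by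
  refine le_trans ?_ hB
  calc (j * (rX + 1)) ^ j ≤ (k * (rX + 1)) ^ j := Nat.pow_le_pow_left (Nat.mul_le_mul_right _ h) j
    _ ≤ (k * (rX + 1)) ^ k := Nat.pow_le_pow_right (Nat.mul_pos hk (Nat.succ_pos _)) h

open scoped Classical in
/-- weighted ear count -/
lemma ear_weight (hEar : S_ear) {m rX B N s : ℕ} {G J : Finset (Pt m)} {g0 : Pt m}
    {ρ R δ : ℝ} (hρ : 0 ≤ ρ) (hR : (G.card : ℝ) * ρ ≤ R) (hδ : 0 ≤ δ)
    (hbox : InBox rX g0 G) (hJG : J ⊆ G) (hJ : Ind J) (hs2 : 2 ≤ s) (hN : J.card + s ≤ N)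
    (hN1 : 1 ≤ N) (hB : (N * (rX + 1)) ^ N ≤ B)
    (hrel : ∀ (h : Fin s → ℤ) (y : Pt m), (∀ i, h i ≠ 0) →
      (relCount G h y : ℝ) ≤ (G.card : ℝ) ^ (s - 1) * δ) :
    (((G.powersetCard s).filter fun Z => Circ J Z).card : ℝ) * ρ ^ (s - 1) ≤
      (2 * B + 1 : ℝ) ^ N * R ^ (s - 1) * δ := by
  have h1 := hEar m rX s B G J g0 ((G.card : ℝ) ^ (s - 1) * δ) hbox hJG hJ hs2
    (hB_mono hN hN1 hB) hrel
  have hb1 : (1 : ℝ) ≤ 2 * B + 1 := by
    have : (0 : ℝ) ≤ B := Nat.cast_nonneg _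
    linarith
  have h2 : (2 * B + 1 : ℝ) ^ (J.card + s) ≤ (2 * B + 1 : ℝ) ^ N := pow_le_pow_right₀ hb1 hN
  calc (((G.powersetCard s).filter fun Z => Circ J Z).card : ℝ) * ρ ^ (s - 1)
      ≤ ((2 * B + 1 : ℝ) ^ (J.card + s) * ((G.card : ℝ) ^ (s - 1) * δ)) * ρ ^ (s - 1) :=
        mul_le_mul_of_nonneg_right h1 (pow_nonneg hρ _)
    _ = (2 * B + 1 : ℝ) ^ (J.card + s) * ((G.card * ρ) ^ (s - 1) * δ) := by
        rw [mul_pow]; ring
    _ ≤ (2 * B + 1 : ℝ) ^ N * (R ^ (s - 1) * δ) := by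
        apply mul_le_mul h2 _ (by positivity) (by positivity)
        apply mul_le_mul_of_nonneg_right _ hδ
        exact pow_le_pow_left₀ (by positivity) hR _
    _ = _ := by ring

/-! ### E1: long chains -/

open scoped Classical in
lemma E1 (hC : S_circ_ind) (hEar : S_ear) (hCh : S_chain) {m rX L s1 s0 kmax B : ℕ}
    {Ω : Type} [Fintype Ω] [Nonempty Ω] {W : Ω → Finset (Pt m)} {G : Finset (Pt m)} {g0 : Pt m}
    {ρ R δ3 : ℝ} (hRS : RS Ω W G ρ kmax) (hbox : InBox rX g0 G) (hR : G.card * ρ ≤ R)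
    (hR1 : 1 ≤ R) (hδ3 : 0 ≤ δ3) (hk : L * s1 ≤ kmax) (hs : s1 ≤ s0)
    (hB : ((L * s1 + s0 + 2) * (rX + 1)) ^ (L * s1 + s0 + 2) ≤ B)
    (hrel : ∀ (s : ℕ) (h : Fin s → ℤ) (y : Pt m), 3 ≤ s → (∀ i, h i ≠ 0) →
      (relCount G h y : ℝ) ≤ (G.card : ℝ) ^ (s - 1) * δ3) :
    (𝔼 ω, if ∃ J, Chn (W ω) s1 L J then (1 : ℝ) else 0) ≤
      (s1 ^ 2 * (2 * B + 1 : ℝ) ^ (L * s1 + s0 + 2) * R ^ s1 * δ3) ^ L := by
  have hρ := hRS.nonneg
  set q : ℝ := s1 ^ 2 * (2 * B + 1 : ℝ) ^ (L * s1 + s0 + 2) * R ^ s1 * δ3 with hq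
  have hq0 : 0 ≤ q := by positivity
  have hstep : ∀ J ⊆ G, Ind J → J.card ≤ L * s1 →
      ∑ s ∈ Icc 3 s1, (((G.powersetCard s).filter fun Z => Circ J Z).card : ℝ) * s * ρ ^ (s - 1)
        ≤ q := by
    intro J hJG hJ hJc
    have h1 : ∀ s ∈ Icc 3 s1, (((G.powersetCard s).filter fun Z => Circ J Z).card : ℝ) * s *
        ρ ^ (s - 1) ≤ s1 * ((2 * B + 1 : ℝ) ^ (L * s1 + s0 + 2) * R ^ s1 * δ3) := by
      intro s hs'
      rw [Finset.mem_Icc] at hs'
      have h2 := ear_weight hEar (N := L * s1 + s0 + 2) (s := s) hρ hR hδ3 hbox hJG hJ (by omega)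
        (by omega) (by omega) hB (fun h y => hrel s h y hs'.1)
      have h3 : R ^ (s - 1) ≤ R ^ s1 := pow_le_pow_right₀ hR1 (by omega)
      have h4 : (s : ℝ) ≤ s1 := by exact_mod_cast hs'.2
      calc (((G.powersetCard s).filter fun Z => Circ J Z).card : ℝ) * s * ρ ^ (s - 1)
          = s * ((((G.powersetCard s).filter fun Z => Circ J Z).card : ℝ) * ρ ^ (s - 1)) := by
            ring
        _ ≤ s1 * ((2 * B + 1 : ℝ) ^ (L * s1 + s0 + 2) * R ^ (s - 1) * δ3) := by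
            apply mul_le_mul h4 h2 (by positivity) (by positivity)
        _ ≤ _ := by gcongr
    refine (Finset.sum_le_sum h1).trans ?_
    rw [Finset.sum_const, nsmul_eq_mul, Nat.card_Icc]
    have h5 : ((s1 + 1 - 3 : ℕ) : ℝ) ≤ s1 := by
      have : s1 + 1 - 3 ≤ s1 := by omega
      exact_mod_cast this
    calc ((s1 + 1 - 3 : ℕ) : ℝ) * (s1 * ((2 * B + 1 : ℝ) ^ (L * s1 + s0 + 2) * R ^ s1 * δ3))
        ≤ s1 * (s1 * ((2 * B + 1 : ℝ) ^ (L * s1 + s0 + 2) * R ^ s1 * δ3)) := by gcongr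
      _ = q := by rw [hq]; ring
  have h2 := hCh m s1 L G ρ q hρ hq0 hstep L le_rfl
  refine le_trans ?_ h2
  refine exp_union _ (fun J ω => J ⊆ W ω) _ _ ?_ ?_
  · intro J hJ
    rw [Finset.mem_filter] at hJ
    obtain ⟨hI, hJG, hJc⟩ := chn_facts hC L J hJ.2
    exact hRS.surv J hJG hI (hJc.trans hk)
  · rintro ω ⟨J, hJ⟩
    refine ⟨J, ?_, (chn_facts hC L J hJ).2.1⟩
    rw [Finset.mem_filter, Finset.mem_powerset]
    exact ⟨(chn_facts hC L J hJ).2.1.trans (hRS.sub ω), chn_mono (hRS.sub ω) L J hJ⟩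

/-! ### E2: long circuits -/

open scoped Classical in
lemma E2 (hC : S_circ_ind) (hEar : S_ear) {m rX L s1 s0 kmax B : ℕ}
    {Ω : Type} [Fintype Ω] [Nonempty Ω] {W : Ω → Finset (Pt m)} {G : Finset (Pt m)} {g0 : Pt m}
    {ρ R δL : ℝ} (hRS : RS Ω W G ρ kmax) (hbox : InBox rX g0 G) (hR : G.card * ρ ≤ R)
    (hR1 : 1 ≤ R) (hδL : 0 ≤ δL) (hk : L * s1 + s0 ≤ kmax) (hs3 : 3 ≤ s1)
    (hB : ((L * s1 + s0 + 2) * (rX + 1)) ^ (L * s1 + s0 + 2) ≤ B)
    (hrel : ∀ (s : ℕ) (h : Fin s → ℤ) (y : Pt m), s1 < s → (∀ i, h i ≠ 0) →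
      (relCount G h y : ℝ) ≤ (G.card : ℝ) ^ (s - 1) * δL) :
    (𝔼 ω, if ∃ J ⊆ W ω, Ind J ∧ J.card ≤ L * s1 ∧ ∃ Z ⊆ W ω, s1 < Z.card ∧ Z.card ≤ s0 ∧
        Circ J Z then (1 : ℝ) else 0) ≤
      (L * s1 + 1) * (s0 + 1) * (2 * B + 1 : ℝ) ^ (L * s1 + s0 + 2) * R ^ (L * s1 + s0) * δL := by
  have hρ := hRS.nonneg
  set Λ : ℝ := (2 * B + 1 : ℝ) ^ (L * s1 + s0 + 2) with hΛ
  set SJ := (G.powerset.filter (fun J => J.card ≤ L * s1)).filter Ind with hSJ
  have hsum := sum_small_sets G (L * s1) hρ hR hR1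
  have hΛ0 : 0 ≤ Λ := by rw [hΛ]; positivity
  -- circuits of size `s` modulo a fixed `J`
  have h1 : ∀ J ∈ SJ, ∀ s ∈ Ioc s1 s0,
      (𝔼 ω, if J ⊆ W ω ∧ ∃ Z ⊆ W ω, Z.card = s ∧ Circ J Z then (1 : ℝ) else 0) ≤
        ρ ^ J.card * (Λ * R ^ s0 * δL) := by
    intro J hJ s hs'
    simp only [hSJ, Finset.mem_filter, Finset.mem_powerset] at hJ
    obtain ⟨⟨hJG, hJc⟩, hI⟩ := hJ
    rw [Finset.mem_Ioc] at hs'
    have hu : (𝔼 ω, if J ⊆ W ω ∧ ∃ Z ⊆ W ω, Z.card = s ∧ Circ J Z then (1 : ℝ) else 0) ≤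
        ∑ _Z ∈ (G.powersetCard s).filter (fun Z => Circ J Z), ρ ^ (J.card + (s - 1)) := by
      refine exp_union _ (fun (Z : Finset (Pt m)) ω => J ⊆ W ω ∧ Z ⊆ W ω) _ _ ?_ ?_
      · intro Z hZ
        rw [Finset.mem_filter, Finset.mem_powersetCard] at hZ
        obtain ⟨⟨hZG, hZc⟩, hcirc⟩ := hZ
        have hZne : Z.Nonempty := by
          rw [← Finset.card_pos]; omega
        obtain ⟨z, hz⟩ := hZne
        obtain ⟨h5, h6⟩ := hC m J Z z hI hcirc hz
        have hcard : (J ∪ Z.erase z).card = J.card + (s - 1) := by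
          rw [Finset.card_union_of_disjoint h6, Finset.card_erase_of_mem hz, hZc]
        have h7 := hRS.surv (J ∪ Z.erase z)
          (Finset.union_subset hJG ((Finset.erase_subset _ _).trans hZG)) h5 (by omega)
        rw [hcard] at h7
        refine le_trans (Finset.expect_le_expect fun ω _ => ?_) h7
        by_cases h8 : J ⊆ W ω ∧ Z ⊆ W ω
        · have h9 : J ∪ Z.erase z ⊆ W ω :=
            Finset.union_subset h8.1 ((Finset.erase_subset _ _).trans h8.2)
          rw [if_pos h8, if_pos h9]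
        · rw [if_neg h8]
          split_ifs <;> norm_num
      · rintro ω ⟨hJW, Z, hZW, hZc, hcirc⟩
        refine ⟨Z, ?_, hJW, hZW⟩
        rw [Finset.mem_filter, Finset.mem_powersetCard]
        exact ⟨⟨hZW.trans (hRS.sub ω), hZc⟩, hcirc⟩
    refine hu.trans ?_
    have h3 := ear_weight hEar (N := L * s1 + s0 + 2) (s := s) hρ hR hδL hbox hJG hI (by omega)
      (by omega) (by omega) hB (fun h y => hrel s h y hs'.1)
    rw [Finset.sum_const, nsmul_eq_mul, pow_add]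
    have h4 : R ^ (s - 1) ≤ R ^ s0 := pow_le_pow_right₀ hR1 (by omega)
    have h5 : 0 ≤ ρ ^ J.card := pow_nonneg hρ _
    calc (((G.powersetCard s).filter fun Z => Circ J Z).card : ℝ) *
          (ρ ^ J.card * ρ ^ (s - 1))
        = ρ ^ J.card * ((((G.powersetCard s).filter fun Z => Circ J Z).card : ℝ) *
            ρ ^ (s - 1)) := by ring
      _ ≤ ρ ^ J.card * (Λ * R ^ (s - 1) * δL) := mul_le_mul_of_nonneg_left h3 h5
      _ ≤ ρ ^ J.card * (Λ * R ^ s0 * δL) := by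
          apply mul_le_mul_of_nonneg_left _ h5
          apply mul_le_mul_of_nonneg_right _ hδL
          apply mul_le_mul_of_nonneg_left h4 hΛ0
  -- all sizes
  have h2 : ∀ J ∈ SJ,
      (𝔼 ω, if J ⊆ W ω ∧ ∃ Z ⊆ W ω, s1 < Z.card ∧ Z.card ≤ s0 ∧ Circ J Z then (1 : ℝ) else 0) ≤
        ρ ^ J.card * ((s0 + 1) * (Λ * R ^ s0 * δL)) := by
    intro J hJ
    have hu : (𝔼 ω, if J ⊆ W ω ∧ ∃ Z ⊆ W ω, s1 < Z.card ∧ Z.card ≤ s0 ∧ Circ J Z
        then (1 : ℝ) else 0) ≤ ∑ _s ∈ Ioc s1 s0, ρ ^ J.card * (Λ * R ^ s0 * δL) := by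
      refine exp_union _ (fun (s : ℕ) ω => J ⊆ W ω ∧ ∃ Z ⊆ W ω, Z.card = s ∧ Circ J Z) _ _
        (h1 J hJ) ?_
      rintro ω ⟨hJW, Z, hZW, hZ1, hZ0, hcirc⟩
      exact ⟨Z.card, Finset.mem_Ioc.mpr ⟨hZ1, hZ0⟩, hJW, Z, hZW, rfl, hcirc⟩
    refine hu.trans ?_
    rw [Finset.sum_const, nsmul_eq_mul, Nat.card_Ioc]
    have h6 : ((s0 - s1 : ℕ) : ℝ) ≤ s0 + 1 := by
      have : s0 - s1 ≤ s0 + 1 := by omega
      exact_mod_cast this
    have h7 : 0 ≤ ρ ^ J.card * (Λ * R ^ s0 * δL) := by positivity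
    calc ((s0 - s1 : ℕ) : ℝ) * (ρ ^ J.card * (Λ * R ^ s0 * δL))
        ≤ (s0 + 1) * (ρ ^ J.card * (Λ * R ^ s0 * δL)) := mul_le_mul_of_nonneg_right h6 h7
      _ = _ := by ring
  -- all `J`
  have h3 : (𝔼 ω, if ∃ J ⊆ W ω, Ind J ∧ J.card ≤ L * s1 ∧ ∃ Z ⊆ W ω, s1 < Z.card ∧
      Z.card ≤ s0 ∧ Circ J Z then (1 : ℝ) else 0) ≤
      ∑ J ∈ SJ, ρ ^ J.card * ((s0 + 1) * (Λ * R ^ s0 * δL)) := by
    refine exp_union _ (fun (J : Finset (Pt m)) ω => J ⊆ W ω ∧ ∃ Z ⊆ W ω, s1 < Z.card ∧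
      Z.card ≤ s0 ∧ Circ J Z) _ _ h2 ?_
    rintro ω ⟨J, hJW, hJ, hJc, Z, hZW, hs1, hs0, hcirc⟩
    refine ⟨J, ?_, hJW, Z, hZW, hs1, hs0, hcirc⟩
    simp only [hSJ, Finset.mem_filter, Finset.mem_powerset]
    exact ⟨⟨hJW.trans (hRS.sub ω), hJc⟩, hJ⟩
  refine h3.trans ?_
  rw [← Finset.sum_mul]
  have h8 : ∑ J ∈ SJ, ρ ^ J.card ≤ (L * s1 + 1) * R ^ (L * s1) := by
    refine le_trans (Finset.sum_le_sum_of_subset_of_nonneg (Finset.filter_subset _ _)
      (fun J _ _ => pow_nonneg hρ _)) ?_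
    have := hsum
    push_cast at this
    exact this
  have h9 : 0 ≤ (s0 + 1 : ℝ) * (Λ * R ^ s0 * δL) := by positivity
  calc (∑ J ∈ SJ, ρ ^ J.card) * ((s0 + 1) * (Λ * R ^ s0 * δL))
      ≤ ((L * s1 + 1) * R ^ (L * s1)) * ((s0 + 1) * (Λ * R ^ s0 * δL)) :=
        mul_le_mul_of_nonneg_right h8 h9
    _ = _ := by rw [pow_add]; ring

/-! ### E4: many atoms in a small set -/

open scoped Classical in
lemma E4 (hMom : S_mom) (hAS : S_ASet) {m rX L s1 s0 k kmax B : ℕ}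
    {Ω : Type} [Fintype Ω] [Nonempty Ω] {W : Ω → Finset (Pt m)} {G : Finset (Pt m)} {g0 : Pt m}
    {ρ R δp T : ℝ} (hRS : RS Ω W G ρ kmax) (hbox : InBox rX g0 G) (hR : G.card * ρ ≤ R)
    (hR1 : 1 ≤ R) (hT : 0 < T) (hδp : 0 ≤ δp) (hk : L * s1 + k ≤ kmax)
    (Y : ℤ → ℤ → Finset (Pt m))
    (hYp : ∀ c c' : ℤ, c ≠ 0 → c' ≠ 0 → ∀ y, y ∉ Y c c' →
      (relCount G ![c, c'] y : ℝ) ≤ G.card * δp) :
    (𝔼 ω, if ∃ J ⊆ W ω, Ind J ∧ J.card ≤ L * s1 ∧ ∃ (c c' : ℤ) (a : Pt m → ℤ), c ≠ 0 ∧ c' ≠ 0 ∧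
        |c| ≤ (B : ℤ) ∧ |c'| ≤ (B : ℤ) ∧ (∀ b ∈ J, |a b| ≤ (B : ℤ)) ∧
        ∑ b ∈ J, a b • b ∉ Y c c' ∧
        T ≤ ((W ω ∩ ASet G c c' (∑ b ∈ J, a b • b)).card : ℝ) then (1 : ℝ) else 0) ≤
      (L * s1 + 1) * (2 * B + 1 : ℝ) ^ (L * s1 + s0 + 2) * R ^ (L * s1) *
        ((R * δp + (2 * rX + 1 : ℝ) ^ (L * s1 + k)) / T) ^ k := by
  have hρ := hRS.nonneg
  have hb1 : (1 : ℝ) ≤ 2 * B + 1 := by
    have : (0 : ℝ) ≤ B := Nat.cast_nonneg _
    linarith
  have hr1 : (1 : ℝ) ≤ 2 * rX + 1 := by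
    have : (0 : ℝ) ≤ rX := Nat.cast_nonneg _
    linarith
  set M : ℝ := ((R * δp + (2 * rX + 1 : ℝ) ^ (L * s1 + k)) / T) ^ k with hM
  have hR0 : 0 ≤ R := by linarith
  have hM0 : 0 ≤ M := by rw [hM]; positivity
  set I : Finset ℤ := Icc (-(B : ℤ)) B with hI
  have hIcard : (I.card : ℝ) = 2 * B + 1 := by
    rw [hI, Int.card_Icc]
    have : ((B : ℤ) + 1 - -(B : ℤ)).toNat = 2 * B + 1 := by omega
    rw [this]
    push_cast
    ring
  have hmemI : ∀ x : ℤ, |x| ≤ (B : ℤ) → x ∈ I := by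
    intro x hx
    rw [hI, Finset.mem_Icc]
    exact abs_le.mp hx
  set SJ := (G.powerset.filter (fun J => J.card ≤ L * s1)).filter Ind with hSJ
  have hsum := sum_small_sets G (L * s1) hρ hR hR1
  -- fixed `J`, `c`, `c'` and coefficient vector
  have h1 : ∀ J ∈ SJ, ∀ (c c' : ℤ) (y : Pt m),
      (𝔼 ω, if J ⊆ W ω ∧ c ≠ 0 ∧ c' ≠ 0 ∧ y ∉ Y c c' ∧ T ≤ ((W ω ∩ ASet G c c' y).card : ℝ)
        then (1 : ℝ) else 0) ≤ ρ ^ J.card * M := by
    intro J hJ c c' y
    simp only [hSJ, Finset.mem_filter, Finset.mem_powerset] at hJ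
    obtain ⟨⟨hJG, hJc⟩, hInd⟩ := hJ
    have hnn : 0 ≤ ρ ^ J.card * M := mul_nonneg (pow_nonneg hρ _) hM0
    by_cases hcy : c ≠ 0 ∧ c' ≠ 0 ∧ y ∉ Y c c'
    · obtain ⟨hc, hc', hy⟩ := hcy
      have hAG : ASet G c c' y ⊆ G := Finset.filter_subset _ _
      have h2 := hMom m rX k kmax Ω W G J (ASet G c c' y) g0 ρ T hRS hbox hJG hInd
        (by omega) hAG hT
      have h3 : ((ASet G c c' y).card : ℝ) ≤ G.card * δp :=
        le_trans (by exact_mod_cast hAS m G c c' y hc hc') (hYp c c' hc hc' y hy)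
      have h4 : (((ASet G c c' y).card : ℝ) * ρ + (2 * rX + 1 : ℝ) ^ (J.card + k)) / T ≤
          (R * δp + (2 * rX + 1 : ℝ) ^ (L * s1 + k)) / T := by
        apply div_le_div_of_nonneg_right _ hT.le
        apply add_le_add
        · calc ((ASet G c c' y).card : ℝ) * ρ ≤ (G.card * δp) * ρ :=
                mul_le_mul_of_nonneg_right h3 hρ
            _ = (G.card * ρ) * δp := by ring
            _ ≤ R * δp := mul_le_mul_of_nonneg_right hR hδp
        · exact pow_le_pow_right₀ hr1 (by omega)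
      have h5 : ((((ASet G c c' y).card : ℝ) * ρ + (2 * rX + 1 : ℝ) ^ (J.card + k)) / T) ^ k ≤
          M := by
        rw [hM]
        exact pow_le_pow_left₀ (by positivity) h4 k
      refine le_trans (Finset.expect_le_expect fun ω _ => ?_)
        (h2.trans (mul_le_mul_of_nonneg_left h5 (pow_nonneg hρ _)))
      by_cases h6 : J ⊆ W ω ∧ T ≤ ((W ω ∩ ASet G c c' y).card : ℝ)
      · rw [if_pos h6]
        split_ifs <;> norm_num
      · rw [if_neg h6, if_neg (fun h => h6 ⟨h.1, h.2.2.2.2⟩)]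
    · refine le_trans (le_of_eq ?_) hnn
      apply Finset.expect_eq_zero
      intro ω _
      rw [if_neg]
      intro h
      exact hcy ⟨h.2.1, h.2.2.1, h.2.2.2.1⟩
  -- all coefficient vectors
  have h2 : ∀ J ∈ SJ, ∀ (c c' : ℤ),
      (𝔼 ω, if J ⊆ W ω ∧ ∃ a : Pt m → ℤ, c ≠ 0 ∧ c' ≠ 0 ∧ (∀ b ∈ J, |a b| ≤ (B : ℤ)) ∧
          ∑ b ∈ J, a b • b ∉ Y c c' ∧
          T ≤ ((W ω ∩ ASet G c c' (∑ b ∈ J, a b • b)).card : ℝ) then (1 : ℝ) else 0) ≤
        (2 * B + 1 : ℝ) ^ (L * s1) * (ρ ^ J.card * M) := by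
    intro J hJ c c'
    have hu : (𝔼 ω, if J ⊆ W ω ∧ ∃ a : Pt m → ℤ, c ≠ 0 ∧ c' ≠ 0 ∧ (∀ b ∈ J, |a b| ≤ (B : ℤ)) ∧
          ∑ b ∈ J, a b • b ∉ Y c c' ∧
          T ≤ ((W ω ∩ ASet G c c' (∑ b ∈ J, a b • b)).card : ℝ) then (1 : ℝ) else 0) ≤
        ∑ _a ∈ J.pi (fun _ => I), ρ ^ J.card * M := by
      refine exp_union _ (fun (a : ∀ b ∈ J, ℤ) ω => J ⊆ W ω ∧ c ≠ 0 ∧ c' ≠ 0 ∧
        (∑ b ∈ J.attach, a b.1 b.2 • b.1) ∉ Y c c' ∧
        T ≤ ((W ω ∩ ASet G c c' (∑ b ∈ J.attach, a b.1 b.2 • b.1)).card : ℝ)) _ _ ?_ ?_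
      · intro a _
        exact h1 J hJ c c' _
      · rintro ω ⟨hJW, a, hc, hc', ha, hy, hTle⟩
        refine ⟨fun b _ => a b, ?_, hJW, hc, hc', ?_, ?_⟩
        · rw [Finset.mem_pi]
          intro b hb
          exact hmemI _ (ha b hb)
        · rw [Finset.sum_attach J (fun b => a b • b)]
          exact hy
        · rw [Finset.sum_attach J (fun b => a b • b)]
          exact hTle
    refine hu.trans ?_
    rw [Finset.sum_const, nsmul_eq_mul, Finset.card_pi, Finset.prod_const]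
    push_cast
    rw [hIcard]
    simp only [hSJ, Finset.mem_filter, Finset.mem_powerset] at hJ
    apply mul_le_mul_of_nonneg_right _ (mul_nonneg (pow_nonneg hρ _) hM0)
    exact pow_le_pow_right₀ hb1 hJ.1.2
  -- all `c, c'`
  have h3 : ∀ J ∈ SJ,
      (𝔼 ω, if J ⊆ W ω ∧ ∃ (c c' : ℤ) (a : Pt m → ℤ), c ≠ 0 ∧ c' ≠ 0 ∧
        |c| ≤ (B : ℤ) ∧ |c'| ≤ (B : ℤ) ∧ (∀ b ∈ J, |a b| ≤ (B : ℤ)) ∧
        ∑ b ∈ J, a b • b ∉ Y c c' ∧
        T ≤ ((W ω ∩ ASet G c c' (∑ b ∈ J, a b • b)).card : ℝ) then (1 : ℝ) else 0) ≤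
        (2 * B + 1 : ℝ) ^ (L * s1 + 2) * (ρ ^ J.card * M) := by
    intro J hJ
    have hu : (𝔼 ω, if J ⊆ W ω ∧ ∃ (c c' : ℤ) (a : Pt m → ℤ), c ≠ 0 ∧ c' ≠ 0 ∧
        |c| ≤ (B : ℤ) ∧ |c'| ≤ (B : ℤ) ∧ (∀ b ∈ J, |a b| ≤ (B : ℤ)) ∧
        ∑ b ∈ J, a b • b ∉ Y c c' ∧
        T ≤ ((W ω ∩ ASet G c c' (∑ b ∈ J, a b • b)).card : ℝ) then (1 : ℝ) else 0) ≤
        ∑ _x ∈ I ×ˢ I, (2 * B + 1 : ℝ) ^ (L * s1) * (ρ ^ J.card * M) := by
      refine exp_union _ (fun (x : ℤ × ℤ) ω => J ⊆ W ω ∧ ∃ a : Pt m → ℤ, x.1 ≠ 0 ∧ x.2 ≠ 0 ∧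
          (∀ b ∈ J, |a b| ≤ (B : ℤ)) ∧ ∑ b ∈ J, a b • b ∉ Y x.1 x.2 ∧
          T ≤ ((W ω ∩ ASet G x.1 x.2 (∑ b ∈ J, a b • b)).card : ℝ)) _ _ ?_ ?_
      · intro x _
        exact h2 J hJ x.1 x.2
      · rintro ω ⟨hJW, c, c', a, hc, hc', hcB, hc'B, ha, hy, hTle⟩
        refine ⟨(c, c'), ?_, hJW, a, hc, hc', ha, hy, hTle⟩
        rw [Finset.mem_product]
        exact ⟨hmemI _ hcB, hmemI _ hc'B⟩
    refine hu.trans (le_of_eq ?_)
    rw [Finset.sum_const, nsmul_eq_mul, Finset.card_product]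
    push_cast
    rw [hIcard]
    ring
  -- all `J`
  have h4 : (𝔼 ω, if ∃ J ⊆ W ω, Ind J ∧ J.card ≤ L * s1 ∧ ∃ (c c' : ℤ) (a : Pt m → ℤ),
        c ≠ 0 ∧ c' ≠ 0 ∧
        |c| ≤ (B : ℤ) ∧ |c'| ≤ (B : ℤ) ∧ (∀ b ∈ J, |a b| ≤ (B : ℤ)) ∧
        ∑ b ∈ J, a b • b ∉ Y c c' ∧
        T ≤ ((W ω ∩ ASet G c c' (∑ b ∈ J, a b • b)).card : ℝ) then (1 : ℝ) else 0) ≤
      ∑ J ∈ SJ, (2 * B + 1 : ℝ) ^ (L * s1 + 2) * (ρ ^ J.card * M) := by
    refine exp_union _ (fun (J : Finset (Pt m)) ω => J ⊆ W ω ∧ ∃ (c c' : ℤ) (a : Pt m → ℤ),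
        c ≠ 0 ∧ c' ≠ 0 ∧
        |c| ≤ (B : ℤ) ∧ |c'| ≤ (B : ℤ) ∧ (∀ b ∈ J, |a b| ≤ (B : ℤ)) ∧
        ∑ b ∈ J, a b • b ∉ Y c c' ∧
        T ≤ ((W ω ∩ ASet G c c' (∑ b ∈ J, a b • b)).card : ℝ)) _ _ h3 ?_
    rintro ω ⟨J, hJW, hJ, hJc, c, c', a, h⟩
    refine ⟨J, ?_, hJW, c, c', a, h⟩
    simp only [hSJ, Finset.mem_filter, Finset.mem_powerset]
    exact ⟨⟨hJW.trans (hRS.sub ω), hJc⟩, hJ⟩
  refine h4.trans ?_
  have h8 : ∑ J ∈ SJ, ρ ^ J.card ≤ (L * s1 + 1) * R ^ (L * s1) := by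
    refine le_trans (Finset.sum_le_sum_of_subset_of_nonneg (Finset.filter_subset _ _)
      (fun J _ _ => pow_nonneg hρ _)) ?_
    have := hsum
    push_cast at this
    exact this
  have h9 : ∑ J ∈ SJ, (2 * B + 1 : ℝ) ^ (L * s1 + 2) * (ρ ^ J.card * M) =
      (∑ J ∈ SJ, ρ ^ J.card) * ((2 * B + 1 : ℝ) ^ (L * s1 + 2) * M) := by
    rw [Finset.sum_mul]
    refine Finset.sum_congr rfl fun J _ => by ring
  rw [h9]
  have h10 : (2 * B + 1 : ℝ) ^ (L * s1 + 2) ≤ (2 * B + 1 : ℝ) ^ (L * s1 + s0 + 2) :=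
    pow_le_pow_right₀ hb1 (by omega)
  calc (∑ J ∈ SJ, ρ ^ J.card) * ((2 * B + 1 : ℝ) ^ (L * s1 + 2) * M)
      ≤ ((L * s1 + 1) * R ^ (L * s1)) * ((2 * B + 1 : ℝ) ^ (L * s1 + s0 + 2) * M) := by
        apply mul_le_mul h8 _ (by positivity) (by positivity)
        exact mul_le_mul_of_nonneg_right h10 hM0
    _ = _ := by ring

/-! ### assembly -/

theorem prf_core (hC : S_circ_ind) (hEar : S_ear) (hBadY : S_badY) (hCh : S_chain) (hMom : S_mom)
    (hAS : S_ASet) (hDet : S_det) : S_core := by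
  classical
  intro m rX L s1 s0 k kmax B Ω _ _ W G g0 ρ R T δ3 δL δp Λ hRS hbox hR hR1 hT hδ3 hδL hδp hk hs3
    hs10 hB hΛ hrel3 hrelL hpair
  have hρ := hRS.nonneg
  -- choice of the exceptional sets
  choose! Y hYc hYp using hpair
  set Y' : ℤ → ℤ → Finset (Pt m) := fun c c' => if c ≠ 0 ∧ c' ≠ 0 then Y c c' else ∅ with hY'
  have hY'c : ∀ c c', ((Y' c c').card : ℝ) ≤ G.card * δL := by
    intro c c'
    simp only [hY']
    split_ifs with h
    · exact hYc c c' h.1 h.2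
    · simp; positivity
  have hY'p : ∀ c c' : ℤ, c ≠ 0 → c' ≠ 0 → ∀ y, y ∉ Y' c c' →
      (relCount G ![c, c'] y : ℝ) ≤ G.card * δp := by
    intro c c' hc hc' y hy
    simp only [hY', hc, hc', ne_eq, not_false_eq_true, and_self, if_true] at hy
    exact hYp c c' hc hc' y hy
  have b1 := E1 hC hEar hCh (s0 := s0) hRS hbox hR hR1 hδ3 (by omega) hs10 hB hrel3
  have b2 := E2 hC hEar hRS hbox hR hR1 hδL (by omega) hs3 hB hrelL
  have b3 := E3 hBadY (L := L) (s1 := s1) (s0 := s0) (kmax := kmax) (B := B) hRS hR hR1 hδL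
    (by omega) Y' hY'c
  have b4 := E4 hMom hAS (L := L) (s1 := s1) (s0 := s0) (k := k) (B := B) hRS hbox hR hR1 hT hδp
    (by omega) Y' hY'p
  rw [hΛ] at b1 b2 b3 b4
  refine le_trans ?_ (add_le_add (add_le_add (add_le_add b1 b2) b3) b4)
  rw [← Finset.expect_add_distrib, ← Finset.expect_add_distrib, ← Finset.expect_add_distrib]
  refine Finset.expect_le_expect fun ω _ => ?_
  have hn : ∀ (p : Prop) [Decidable p], (0 : ℝ) ≤ if p then 1 else 0 := by
    intro p _; split_ifs <;> norm_num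
  by_cases g1 : ∃ J, Chn (W ω) s1 L J
  · rw [if_pos g1]
    refine le_trans ?_ (add_le_add (add_le_add (add_le_add le_rfl (hn _)) (hn _)) (hn _))
    split_ifs <;> norm_num
  by_cases g2 : ∃ J ⊆ W ω, Ind J ∧ J.card ≤ L * s1 ∧ ∃ Z ⊆ W ω, s1 < Z.card ∧ Z.card ≤ s0 ∧
      Circ J Z
  · rw [if_pos g2]
    refine le_trans ?_ (add_le_add (add_le_add (add_le_add (hn _) le_rfl) (hn _)) (hn _))
    split_ifs <;> norm_num
  by_cases g3 : ∃ J ⊆ W ω, Ind J ∧ J.card ≤ L * s1 ∧ ∃ (c c' : ℤ) (a : Pt m → ℤ),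
      |c| ≤ (B : ℤ) ∧ |c'| ≤ (B : ℤ) ∧ (∃ b ∈ J, a b ≠ 0) ∧ (∀ b ∈ J, |a b| ≤ (B : ℤ)) ∧
      ∑ b ∈ J, a b • b ∈ Y' c c'
  · rw [if_pos g3]
    refine le_trans ?_ (add_le_add (add_le_add (add_le_add (hn _) (hn _)) le_rfl) (hn _))
    split_ifs <;> norm_num
  by_cases g4 : ∃ J ⊆ W ω, Ind J ∧ J.card ≤ L * s1 ∧ ∃ (c c' : ℤ) (a : Pt m → ℤ),
      c ≠ 0 ∧ c' ≠ 0 ∧ |c| ≤ (B : ℤ) ∧ |c'| ≤ (B : ℤ) ∧ (∀ b ∈ J, |a b| ≤ (B : ℤ)) ∧
      ∑ b ∈ J, a b • b ∉ Y' c c' ∧
      T ≤ ((W ω ∩ ASet G c c' (∑ b ∈ J, a b • b)).card : ℝ)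
  · rw [if_pos g4]
    refine le_trans ?_ (add_le_add (add_le_add (add_le_add (hn _) (hn _)) (hn _)) le_rfl)
    split_ifs <;> norm_num
  -- no bad event: the deterministic part
  have hdet := hDet m rX L s1 s0 B (W ω) G g0 T (hRS.sub ω) hbox hT hs3 hs10 hB g1 (by
      intro J hJW hJ hJc Z hZW hZ1 hZ0 hcirc
      exact g2 ⟨J, hJW, hJ, hJc, Z, hZW, hZ1, hZ0, hcirc⟩) (by
      intro J hJW hJ hJc c c' a hc hc' hcB hc'B hne ha
      by_contra hcon
      rw [not_lt] at hcon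
      by_cases hy : ∑ b ∈ J, a b • b ∈ Y' c c'
      · exact g3 ⟨J, hJW, hJ, hJc, c, c', a, hcB, hc'B, hne, ha, hy⟩
      · exact g4 ⟨J, hJW, hJ, hJc, c, c', a, hc, hc', hcB, hc'B, ha, hy, hcon⟩)
  rw [hΛ] at hdet
  rw [if_pos hdet]
  exact add_nonneg (add_nonneg (add_nonneg (hn _) (hn _)) (hn _)) (hn _)

end B4
end Crest.Agent.R225
end

-- ▼ part R225/B4Det
section

/-!
# Row 225, node B4: deterministic part (`S_ASet`, `S_det`) (helper435)
-/

set_option autoImplicit false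

open Finset
open scoped BigOperators

namespace Crest.Agent.R225.B4

theorem prf_ASet : S_ASet := by
  classical
  intro m G c c' y hc hc'
  unfold ASet relCount
  refine card_le_card_of_injOn
    (fun z => if hz : ∃ z' ∈ G, c • z + c' • z' = y then ![z, hz.choose] else ![z, z]) ?_ ?_
  · intro z hz
    have hz' := mem_filter.1 (mem_coe.1 hz)
    obtain ⟨hzG, hex⟩ := hz'
    refine mem_coe.2 (mem_filter.2 ⟨?_, ?_⟩)
    · rw [Fintype.mem_piFinset]
      intro i
      simp only [hex, dif_pos]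
      fin_cases i
      · exact hzG
      · exact hex.choose_spec.1
    · simp only [hex, dif_pos, Fin.sum_univ_two]
      exact hex.choose_spec.2
  · intro z hz z' hz' h
    have hz1 := (mem_filter.1 (mem_coe.1 hz)).2
    have hz2 := (mem_filter.1 (mem_coe.1 hz')).2
    simp only [hz1, hz2, dif_pos] at h
    exact congrFun h 0

namespace Det

open scoped Classical in
lemma pair_rel (hIR : S_int_rel) {m rX B N : ℕ} {G J : Finset (Pt m)} {g0 : Pt m}
    (hbox : InBox rX g0 G) (hJG : J ⊆ G) (hJ : Ind J) {z z' : Pt m} (hz : z ∈ G) (hz' : z' ∈ G)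
    (hne : z' ≠ z) (hc : Circ J {z, z'}) (hN : J.card + 2 ≤ N) (hB : (N * (rX + 1)) ^ N ≤ B) :
    ∃ (c c' : ℤ) (a : Pt m → ℤ), c ≠ 0 ∧ c' ≠ 0 ∧ |c| ≤ (B : ℤ) ∧ |c'| ≤ (B : ℤ) ∧
      (∃ b ∈ J, a b ≠ 0) ∧ (∀ g, |a g| ≤ (B : ℤ)) ∧ (∀ g ∉ J, a g = 0) ∧
      z ∈ ASet G c c' (∑ b ∈ J, a b • b) := by
  have hZG : ({z, z'} : Finset (Pt m)) ⊆ G := by
    intro g hg
    rw [mem_insert, mem_singleton] at hg
    rcases hg with rfl | rfl
    · exact hz
    · exact hz'
  have hbox' : InBox rX g0 (J ∪ {z, z'}) := by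
    intro g hg
    rcases mem_union.1 hg with h | h
    · exact hbox g (hJG h)
    · exact hbox g (hZG h)
  obtain ⟨h, hnz, ⟨hsupp, hs0, hs1⟩, hbd⟩ := hIR m rX J {z, z'} g0 hJ hc (by rw [card_pair hne.symm]) hbox'
  -- z, z' are not in J
  have hdepsub : ∀ u ∈ J, Dep J ({u} : Finset (Pt m)) := by
    intro u hu
    refine ⟨fun _ => 1, ⟨u, mem_singleton_self _, one_ne_zero⟩, ?_⟩
    rw [sum_singleton, one_smul]
    exact Submodule.subset_span ⟨u, by exact_mod_cast hu, rfl⟩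
  have hzJ : z ∉ J := by
    intro hu
    refine hc.2 {z} ?_ (hdepsub z hu)
    rw [Finset.ssubset_iff_of_subset (by simp)]
    exact ⟨z', by simp, by simpa using hne⟩
  have hz'J : z' ∉ J := by
    intro hu
    refine hc.2 {z'} ?_ (hdepsub z' hu)
    rw [Finset.ssubset_iff_of_subset (by simp)]
    exact ⟨z, by simp, by simpa using hne.symm⟩
  have hdisj : Disjoint J {z, z'} := by
    rw [Finset.disjoint_right]
    intro g hg
    rw [mem_insert, mem_singleton] at hg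
    rcases hg with rfl | rfl
    · exact hzJ
    · exact hz'J
  have hcard : (J ∪ {z, z'}).card ≤ N := by
    have h1 := card_union_le J {z, z'}
    have h2 : ({z, z'} : Finset (Pt m)).card ≤ 2 := card_le_two
    omega
  have hcard0 : 0 < (J ∪ {z, z'}).card := card_pos.2 ⟨z, by simp⟩
  have hBle : (((J ∪ {z, z'}).card * (rX + 1) : ℝ) ^ (J ∪ {z, z'}).card) ≤ B := by
    have h1 : ((J ∪ {z, z'}).card * (rX + 1)) ^ (J ∪ {z, z'}).card ≤ B := by
      refine le_trans ?_ hB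
      exact (Nat.pow_le_pow_left (Nat.mul_le_mul_right _ hcard) _).trans
          (Nat.pow_le_pow_right (Nat.mul_pos (by omega) (Nat.succ_pos _)) hcard)
    exact_mod_cast h1
  have hb : ∀ g, |h g| ≤ (B : ℤ) := by
    intro g
    have h1 := (hbd g).trans hBle
    have h2 : ((|h g| : ℤ) : ℝ) ≤ ((B : ℤ) : ℝ) := by
      push_cast
      exact h1
    exact_mod_cast h2
  have hzz' : z ≠ z' := hne.symm
  rw [sum_union hdisj, sum_pair hzz'] at hs0 hs1
  refine ⟨h z, h z', fun g => if g ∈ J then -h g else 0, hnz z (by simp), hnz z' (by simp),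
    hb z, hb z', ?_, ?_, ?_, ?_⟩
  · by_contra hcon
    push Not at hcon
    have h0 : ∀ b ∈ J, h b = 0 := by
      intro b hbJ
      have := hcon b hbJ
      simpa [hbJ] using this
    have e1 : ∑ g ∈ J, h g = 0 := sum_eq_zero h0
    have e2 : ∑ g ∈ J, h g • g = 0 := sum_eq_zero fun b hbJ => by rw [h0 b hbJ, zero_smul]
    rw [e1, zero_add] at hs0
    rw [e2, zero_add] at hs1
    have e3 : h z' = -h z := by linarith
    rw [e3, neg_smul, ← sub_eq_add_neg, ← smul_sub] at hs1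
    apply hzz'
    funext k
    have := congrFun hs1 k
    simp only [Pi.smul_apply, Pi.sub_apply, smul_eq_mul, Pi.zero_apply] at this
    rcases mul_eq_zero.1 this with h1 | h1
    · exact absurd h1 (hnz z (by simp))
    · linarith
  · intro g
    by_cases hg : g ∈ J
    · simp only [hg, if_true, abs_neg]; exact hb g
    · simp [hg]
  · intro g hg
    simp [hg]
  · unfold ASet
    rw [mem_filter]
    refine ⟨hz, z', hz', ?_⟩
    have e1 : ∑ b ∈ J, (if b ∈ J then -h b else 0) • b = -∑ b ∈ J, h b • b := by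
      rw [← sum_neg_distrib]
      exact sum_congr rfl fun b hbJ => by simp [hbJ]
    rw [e1]
    exact (neg_eq_of_add_eq_zero_right hs1).symm

end Det

theorem prf_det : S_B1 → S_circ_ind → S_int_rel → S_clean → S_det := by
  classical
  intro hB1 hCI hIR hclean m rX L s1 s0 B W G g0 T hWG hbox hT hs1 hs10 hB hnoL hlong hpair
  -- maximal chain
  obtain ⟨t, htL, ⟨J, hJt⟩, hmax⟩ : ∃ t < L, (∃ J, Chn W s1 t J) ∧ ¬ ∃ J, Chn W s1 (t + 1) J := by
    have hex : ∃ t, ¬ ∃ J, Chn W s1 t J := ⟨L, hnoL⟩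
    set t0 := Nat.find hex with ht0
    have h1 : ¬ ∃ J, Chn W s1 t0 J := Nat.find_spec hex
    have h2 : t0 ≠ 0 := by
      intro h0
      apply h1
      rw [h0]
      exact ⟨∅, rfl⟩
    obtain ⟨t, ht⟩ := Nat.exists_eq_succ_of_ne_zero h2
    refine ⟨t, ?_, ?_, ?_⟩
    · have : t0 ≤ L := Nat.find_min' hex hnoL
      omega
    · have := Nat.find_min hex (m := t) (by omega)
      push Not at this
      exact this
    · rw [← Nat.succ_eq_add_one, ← ht]
      exact h1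
  obtain ⟨hInd, hJW, hJc⟩ := chn_facts hCI t J hJt
  have hJL : J.card ≤ L * s1 := hJc.trans (Nat.mul_le_mul_right _ htL.le)
  have hJG : J ⊆ G := hJW.trans hWG
  set G' := W.filter (fun z => aff z ∉ Submodule.span ℚ (aff '' (J : Set (Pt m))) ∧
      ¬ ∃ z' ∈ W, z' ≠ z ∧ Circ J {z, z'}) with hG'
  refine ⟨G', filter_subset _ _, ?_, ?_⟩
  · -- cardinality
    set N := L * s1 + s0 + 2 with hN
    set K : Finset ((ℤ × ℤ) × (J → ℤ)) :=
      ((Icc (-(B : ℤ)) B ×ˢ Icc (-(B : ℤ)) B) ×ˢ Cnt.coef J B).filter fun p =>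
        p.1.1 ≠ 0 ∧ p.1.2 ≠ 0 ∧ ∃ b, p.2 b ≠ 0 with hK
    let ext : (J → ℤ) → Pt m → ℤ := fun a g => if hg : g ∈ J then a ⟨g, hg⟩ else 0
    have hsub : W \ G' ⊆ (W.filter fun g => aff g ∈ Submodule.span ℚ (aff '' (J : Set (Pt m)))) ∪
        K.biUnion fun p => W ∩ ASet G p.1.1 p.1.2 (∑ b ∈ J, ext p.2 b • b) := by
      intro z hz
      rw [mem_sdiff, hG', mem_filter] at hz
      obtain ⟨hzW, hzn⟩ := hz
      rw [mem_union]
      by_cases hsp : aff z ∈ Submodule.span ℚ (aff '' (J : Set (Pt m)))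
      · left
        exact mem_filter.2 ⟨hzW, hsp⟩
      · right
        have hex : ∃ z' ∈ W, z' ≠ z ∧ Circ J {z, z'} := by
          by_contra hcon
          exact hzn ⟨hzW, hsp, hcon⟩
        obtain ⟨z', hz'W, hne, hc⟩ := hex
        obtain ⟨c, c', a, hc0, hc'0, hcB, hc'B, ⟨b, hbJ, hab⟩, haB, ha0, hA⟩ :=
          Det.pair_rel hIR hbox hJG hInd (hWG hzW) (hWG hz'W) hne hc
            (show J.card + 2 ≤ N by rw [hN]; omega) hB
        rw [mem_biUnion]
        refine ⟨((c, c'), fun g => a g), ?_, ?_⟩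
        · rw [hK, mem_filter, mem_product, mem_product, mem_Icc, mem_Icc, Cnt.mem_coef]
          exact ⟨⟨⟨abs_le.1 hcB, abs_le.1 hc'B⟩, fun g => haB _⟩, hc0, hc'0, ⟨b, hbJ⟩, hab⟩
        · rw [mem_inter]
          refine ⟨hzW, ?_⟩
          have e1 : ∑ b ∈ J, ext (fun g => a g) b • b = ∑ b ∈ J, a b • b :=
            sum_congr rfl fun b hb => by simp [ext, hb]
          simp only
          rw [e1]
          exact hA
    have hKc : K.card ≤ (2 * B + 1) ^ N := by
      rw [hK]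
      refine (card_filter_le _ _).trans ?_
      rw [card_product, card_product, Cnt.card_coef, Fintype.card_coe]
      have h1 : (Icc (-(B : ℤ)) B).card = 2 * B + 1 := by
        rw [Int.card_Icc]; omega
      rw [h1]
      calc (2 * B + 1) * (2 * B + 1) * (2 * B + 1) ^ J.card = (2 * B + 1) ^ (J.card + 2) := by ring
        _ ≤ (2 * B + 1) ^ N := Nat.pow_le_pow_right (Nat.succ_pos _) (by omega)
    have h1 : (((W \ G').card : ℕ) : ℝ) ≤
        ((W.filter fun g => aff g ∈ Submodule.span ℚ (aff '' (J : Set (Pt m)))).card : ℝ) +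
        ∑ p ∈ K, ((W ∩ ASet G p.1.1 p.1.2 (∑ b ∈ J, ext p.2 b • b)).card : ℝ) := by
      have h2 := (card_le_card hsub).trans (card_union_le _ _)
      have h3 := h2.trans (Nat.add_le_add_left card_biUnion_le _)
      exact_mod_cast h3
    refine h1.trans (add_le_add ?_ ?_)
    · have h2 := hB1 m rX G J g0 hbox
      have h3 : (W.filter fun g => aff g ∈ Submodule.span ℚ (aff '' (J : Set (Pt m)))).card ≤
          (2 * rX + 1) ^ J.card := (card_le_card (filter_subset_filter _ hWG)).trans h2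
      have h4 : (2 * rX + 1) ^ J.card ≤ (2 * rX + 1) ^ (L * s1) :=
        Nat.pow_le_pow_right (Nat.succ_pos _) hJL
      exact_mod_cast h3.trans h4
    · have h2 : ∀ p ∈ K, ((W ∩ ASet G p.1.1 p.1.2 (∑ b ∈ J, ext p.2 b • b)).card : ℝ) ≤ T := by
        intro p hp
        rw [hK, mem_filter, mem_product, mem_product, mem_Icc, mem_Icc, Cnt.mem_coef] at hp
        obtain ⟨⟨⟨h1, h2⟩, h3⟩, h4, h5, b, hb⟩ := hp
        refine (hpair J hJW hInd hJL p.1.1 p.1.2 (ext p.2) h4 h5 (abs_le.2 h1) (abs_le.2 h2)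
          ⟨b, b.2, ?_⟩ ?_).le
        · simpa [ext] using hb
        · intro b hb
          simp only [ext, hb, dif_pos]
          exact h3 _
      refine (sum_le_sum h2).trans ?_
      rw [sum_const, nsmul_eq_mul]
      refine mul_le_mul_of_nonneg_right ?_ hT.le
      exact_mod_cast hKc
  · -- no small relations
    have hcond : ∀ Z' ⊆ W, 3 ≤ Z'.card → Z'.card ≤ s0 → ¬ Circ J Z' := by
      intro Z' hZ'W h3 hs hcirc
      rcases le_or_gt Z'.card s1 with h4 | h4
      · obtain ⟨z, hz⟩ : Z'.Nonempty := card_pos.1 (by omega)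
        exact hmax ⟨J ∪ Z'.erase z, J, Z', z, hJt, hZ'W, hz, h3, h4, hcirc, rfl⟩
      · exact hlong J hJW hInd hJL Z' hZ'W h4 hs hcirc
    intro Z hZ hZc h hBrel
    exact hclean m s0 W J hInd hJW hcond Z hZ (by exact_mod_cast hZc) h hBrel

end Crest.Agent.R225.B4
end

-- ▼ part R225/B4Num
section

/-!
# Row 225 (S0347), node B4 (cleaning): numerics `S_num4` (helper925)
-/

set_option autoImplicit false

open Finset Filter
open scoped BigOperators

namespace Crest.Agent.R225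
namespace B4

lemma two_exp_le (a : ℝ) : 2 * Real.exp a ≤ Real.exp (a + 1) := by
  rw [Real.exp_add, mul_comm]
  have : (2 : ℝ) ≤ Real.exp 1 := by have := Real.add_one_le_exp (1 : ℝ); linarith
  exact mul_le_mul_of_nonneg_left this (Real.exp_pos a).le

lemma pow_exp_le {y a : ℝ} (hy : 0 ≤ y) (h : y ≤ Real.exp a) (k : ℕ) :
    y ^ k ≤ Real.exp (k * a) := by
  rw [Real.exp_nat_mul]
  exact pow_le_pow_left₀ hy h k

/-- the arithmetic core, in terms of `N = n^{1/200}`, `ℓ = log n` -/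
lemma core_num (c1 N ℓ x R Λ Mb T tinv D : ℝ) (L s1 s0 k : ℕ) (hc1 : 0 < c1) (hc1' : c1 ≤ 1)
    (hN : 1000 / c1 ≤ N) (hℓ1 : 1 ≤ ℓ) (hℓN : ℓ ≤ N) (hL1 : ℓ ≤ L) (hL2 : (L : ℝ) ≤ 2 * N)
    (hs1 : (s1 : ℝ) ≤ N ^ 4) (hs0 : (s0 : ℝ) ≤ N ^ 21)
    (hs0x : s0 * x ≤ 94 / 1000 * c1 * (N ^ 200 * ℓ)) (hx0 : 0 ≤ x) (hx : x ≤ 2 * N ^ 180)
    (hk1 : N ^ 100 ≤ k) (hk2 : (k : ℝ) ≤ N ^ 100 + 1) (hΛ1 : 1 ≤ Λ) (hΛ : Λ ≤ Real.exp (N ^ 46))
    (hR1 : 1 ≤ R) (hR : R ≤ Real.exp (x + N ^ 92)) (hMb : Real.exp (N ^ 180) ≤ Mb)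
    (htinv0 : 0 < tinv) (htinv : tinv ≤ Real.exp (N ^ 91)) (hRM : R = Mb * tinv)
    (hT : T = Mb * Real.exp (-(2 * N ^ 100))) (hD1 : 1 ≤ D) (hD : D ≤ Real.exp (20 * N)) :
    D ^ (L * s1) + Λ * T ≤ Mb * Real.exp (-N ^ 100) ∧
    (s1 ^ 2 * Λ * R ^ s1 * Real.exp (-(c1 * N ^ 200))) ^ L
      + (L * s1 + 1) * (s0 + 1) * Λ * R ^ (L * s1 + s0) * Real.exp (-(c1 * (N ^ 200 * ℓ)))
      + (L * s1 + 1) * Λ * R ^ (L * s1) * Real.exp (-(c1 * (N ^ 200 * ℓ)))
      + (L * s1 + 1) * Λ * R ^ (L * s1) * ((R * Real.exp (-N ^ 120)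
          + D ^ (L * s1 + k)) / T) ^ k
    ≤ Real.exp (-(c1 / 3 * (N ^ 200 * ℓ))) := by
  have hN3 : (1000 : ℝ) ≤ c1 * N := by
    rw [div_le_iff₀ hc1] at hN; linarith
  have hN1000 : (1000 : ℝ) ≤ N := by
    have : (1000 : ℝ) ≤ 1000 / c1 := by rw [le_div_iff₀ hc1]; linarith
    linarith
  have hN1 : (1 : ℝ) ≤ N := by linarith
  have hN0 : (0 : ℝ) ≤ N := by linarith
  have pw : ∀ a b : ℕ, a ≤ b → N ^ a ≤ N ^ b := fun a b h => pow_le_pow_right₀ hN1 h
  have pws : ∀ a b : ℕ, a < b → 1000 * N ^ a ≤ N ^ b := fun a b h => by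
    calc 1000 * N ^ a ≤ N * N ^ a := by
          apply mul_le_mul_of_nonneg_right hN1000 (by positivity)
      _ = N ^ (a + 1) := by ring
      _ ≤ N ^ b := pw _ _ h
  have pwc : ∀ a b : ℕ, a < b → 1000 * N ^ a ≤ c1 * N ^ b := fun a b h => by
    calc 1000 * N ^ a ≤ (c1 * N) * N ^ a := by
          apply mul_le_mul_of_nonneg_right hN3 (by positivity)
      _ = c1 * N ^ (a + 1) := by ring
      _ ≤ c1 * N ^ b := mul_le_mul_of_nonneg_left (pw _ _ h) hc1.le
  have p1 : (1 : ℝ) ≤ N ^ 1 := by simpa using hN1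
  have hMb0 : 0 < Mb := lt_of_lt_of_le (Real.exp_pos _) hMb
  have hT0 : 0 < T := by rw [hT]; exact mul_pos hMb0 (Real.exp_pos _)
  have hLs : ((L * s1 : ℕ) : ℝ) ≤ 2 * N ^ 5 := by
    push_cast
    calc (L : ℝ) * s1 ≤ (2 * N) * N ^ 4 :=
          mul_le_mul hL2 hs1 (Nat.cast_nonneg _) (by linarith)
      _ = 2 * N ^ 5 := by ring
  have hLs0 : (0 : ℝ) ≤ ((L * s1 : ℕ) : ℝ) := Nat.cast_nonneg _
  -- `NN`
  set M : ℝ := N ^ 200 * ℓ with hM
  have hM1 : N ^ 200 ≤ M := by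
    rw [hM]
    have : (0 : ℝ) ≤ N ^ 200 := by positivity
    nlinarith
  have hM2 : M ≤ N ^ 201 := by
    rw [hM, pow_succ]
    exact mul_le_mul_of_nonneg_left hℓN (by positivity)
  -- powers of `D` and `R`
  have hDLs : D ^ (L * s1) ≤ Real.exp (40 * N ^ 6) := by
    refine le_trans (pow_exp_le (by linarith) hD _) ?_
    apply Real.exp_le_exp.mpr
    calc ((L * s1 : ℕ) : ℝ) * (20 * N) ≤ (2 * N ^ 5) * (20 * N) :=
          mul_le_mul_of_nonneg_right hLs (by linarith)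
      _ = 40 * N ^ 6 := by ring
  constructor
  · have a1 : D ^ (L * s1) * 2 ≤ Mb * Real.exp (-N ^ 100) := by
      calc D ^ (L * s1) * 2 ≤ Real.exp (40 * N ^ 6) * 2 :=
            mul_le_mul_of_nonneg_right hDLs (by norm_num)
        _ = 2 * Real.exp (40 * N ^ 6) := by ring
        _ ≤ Real.exp (40 * N ^ 6 + 1) := two_exp_le _
        _ ≤ Real.exp (N ^ 180 + -N ^ 100) := by
            apply Real.exp_le_exp.mpr
            have h1 := pws 6 180 (by norm_num)
            have h2 := pws 100 180 (by norm_num)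
            have h3 := pws 1 180 (by norm_num)
            linarith
        _ = Real.exp (N ^ 180) * Real.exp (-N ^ 100) := Real.exp_add _ _
        _ ≤ Mb * Real.exp (-N ^ 100) := mul_le_mul_of_nonneg_right hMb (Real.exp_pos _).le
    have a2 : Λ * T * 2 ≤ Mb * Real.exp (-N ^ 100) := by
      calc Λ * T * 2 ≤ Real.exp (N ^ 46) * T * 2 := by
            gcongr
        _ = Mb * (2 * Real.exp (N ^ 46) * Real.exp (-(2 * N ^ 100))) := by rw [hT]; ring
        _ ≤ Mb * (Real.exp (N ^ 46 + 1) * Real.exp (-(2 * N ^ 100))) := by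
            gcongr
            exact two_exp_le _
        _ = Mb * Real.exp (N ^ 46 + 1 + -(2 * N ^ 100)) := by rw [Real.exp_add _ (-(2 * N ^ 100))]
        _ ≤ Mb * Real.exp (-N ^ 100) := by
            gcongr
            have h1 := pws 46 100 (by norm_num)
            have h3 := pws 1 100 (by norm_num)
            have h4 : 0 ≤ N ^ 46 := by positivity
            linarith
    linarith
  · have hRpow : ∀ j : ℕ, R ^ j ≤ Real.exp (j * (x + N ^ 92)) := fun j =>
      pow_exp_le (by linarith) hR j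
    have hR0 : 0 < R := by linarith
    have hΛ0 : 0 < Λ := by linarith
    have hRLs : R ^ (L * s1) ≤ Real.exp (N ^ 186) := by
      refine le_trans (hRpow _) ?_
      apply Real.exp_le_exp.mpr
      have h1 : x + N ^ 92 ≤ 3 * N ^ 180 := by
        have := pw 92 180 (by norm_num); linarith
      calc ((L * s1 : ℕ) : ℝ) * (x + N ^ 92) ≤ (2 * N ^ 5) * (3 * N ^ 180) :=
            mul_le_mul hLs h1 (by positivity) (by positivity)
        _ = 6 * N ^ 185 := by ring
        _ ≤ N ^ 186 := by have := pws 185 186 (by norm_num); have : 0 ≤ N ^ 185 := by positivity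
                          linarith
    have hLs1 : (L * s1 + 1 : ℝ) ≤ Real.exp (2 * N ^ 5) := by
      have := Real.add_one_le_exp ((L * s1 : ℕ) : ℝ)
      push_cast at this hLs
      exact le_trans this (Real.exp_le_exp.mpr hLs)
    have hs01 : (s0 + 1 : ℝ) ≤ Real.exp (N ^ 21) :=
      le_trans (Real.add_one_le_exp (s0 : ℝ)) (Real.exp_le_exp.mpr hs0)
    -- term 1
    have t1 : (s1 ^ 2 * Λ * R ^ s1 * Real.exp (-(c1 * N ^ 200))) ^ L
        ≤ Real.exp (-(c1 / 2 * M)) := by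
      have i1 : (s1 : ℝ) ^ 2 ≤ Real.exp (N ^ 8) := by
        have : (s1 : ℝ) ^ 2 ≤ (N ^ 4) ^ 2 := pow_le_pow_left₀ (Nat.cast_nonneg _) hs1 2
        have h2 : (N ^ 4) ^ 2 = N ^ 8 := by ring
        have h3 := Real.add_one_le_exp (N ^ 8)
        linarith
      have i2 : R ^ s1 ≤ Real.exp (3 * N ^ 184) := by
        refine le_trans (hRpow _) ?_
        apply Real.exp_le_exp.mpr
        have h1 : x + N ^ 92 ≤ 3 * N ^ 180 := by
          have := pw 92 180 (by norm_num); linarith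
        calc (s1 : ℝ) * (x + N ^ 92) ≤ N ^ 4 * (3 * N ^ 180) :=
              mul_le_mul hs1 h1 (by positivity) (by positivity)
          _ = 3 * N ^ 184 := by ring
      have i3 : s1 ^ 2 * Λ * R ^ s1 * Real.exp (-(c1 * N ^ 200))
          ≤ Real.exp (-(c1 / 2 * N ^ 200)) := by
        calc s1 ^ 2 * Λ * R ^ s1 * Real.exp (-(c1 * N ^ 200))
            ≤ Real.exp (N ^ 8) * Real.exp (N ^ 46) * Real.exp (3 * N ^ 184) *
              Real.exp (-(c1 * N ^ 200)) := by gcongr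
          _ = Real.exp (N ^ 8 + N ^ 46 + 3 * N ^ 184 + -(c1 * N ^ 200)) := by
              rw [Real.exp_add, Real.exp_add, Real.exp_add]
          _ ≤ Real.exp (-(c1 / 2 * N ^ 200)) := by
              apply Real.exp_le_exp.mpr
              have h1 := pw 8 184 (by norm_num)
              have h2 := pw 46 184 (by norm_num)
              have h3 := pwc 184 200 (by norm_num)
              have h4 : 0 ≤ N ^ 184 := by positivity
              linarith
      calc (s1 ^ 2 * Λ * R ^ s1 * Real.exp (-(c1 * N ^ 200))) ^ L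
          ≤ Real.exp (L * (-(c1 / 2 * N ^ 200))) := pow_exp_le (by positivity) i3 L
        _ ≤ Real.exp (-(c1 / 2 * M)) := by
            apply Real.exp_le_exp.mpr
            have h5 : N ^ 200 * ℓ ≤ N ^ 200 * L := mul_le_mul_of_nonneg_left hL1 (by positivity)
            have h6 : c1 / 2 * (N ^ 200 * ℓ) ≤ c1 / 2 * (N ^ 200 * L) :=
              mul_le_mul_of_nonneg_left h5 (by linarith)
            have h7 : (L : ℝ) * (-(c1 / 2 * N ^ 200)) = -(c1 / 2 * (N ^ 200 * L)) := by ring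
            rw [h7, hM]; linarith
    -- term 2
    have t2 : (L * s1 + 1) * (s0 + 1) * Λ * R ^ (L * s1 + s0) * Real.exp (-(c1 * M))
        ≤ Real.exp (-(c1 / 2 * M)) := by
      have i1 : R ^ s0 ≤ Real.exp (94 / 1000 * c1 * M + N ^ 113) := by
        refine le_trans (hRpow _) ?_
        apply Real.exp_le_exp.mpr
        have h1 : (s0 : ℝ) * N ^ 92 ≤ N ^ 21 * N ^ 92 :=
          mul_le_mul_of_nonneg_right hs0 (by positivity)
        have h2 : N ^ 21 * N ^ 92 = N ^ 113 := by ring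
        have h3 : (s0 : ℝ) * (x + N ^ 92) = s0 * x + s0 * N ^ 92 := by ring
        rw [h3]; linarith
      calc (L * s1 + 1) * (s0 + 1) * Λ * R ^ (L * s1 + s0) * Real.exp (-(c1 * M))
          = (L * s1 + 1) * (s0 + 1) * Λ * (R ^ (L * s1) * R ^ s0) * Real.exp (-(c1 * M)) := by
            rw [pow_add]
        _ ≤ Real.exp (2 * N ^ 5) * Real.exp (N ^ 21) * Real.exp (N ^ 46) *
            (Real.exp (N ^ 186) * Real.exp (94 / 1000 * c1 * M + N ^ 113)) *
            Real.exp (-(c1 * M)) := by gcongr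
        _ = Real.exp (2 * N ^ 5 + N ^ 21 + N ^ 46 + (N ^ 186 +
            (94 / 1000 * c1 * M + N ^ 113)) + -(c1 * M)) := by
            simp only [Real.exp_add]
        _ ≤ Real.exp (-(c1 / 2 * M)) := by
            apply Real.exp_le_exp.mpr
            have h1 := pw 5 186 (by norm_num)
            have h2 := pw 21 186 (by norm_num)
            have h3 := pw 46 186 (by norm_num)
            have h4 := pw 113 186 (by norm_num)
            have h5 := pwc 186 200 (by norm_num)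
            have h6 : c1 * N ^ 200 ≤ c1 * M := mul_le_mul_of_nonneg_left hM1 hc1.le
            have h7 : 0 ≤ N ^ 186 := by positivity
            linarith
    -- term 3
    have t3 : (L * s1 + 1) * Λ * R ^ (L * s1) * Real.exp (-(c1 * M))
        ≤ Real.exp (-(c1 / 2 * M)) := by
      calc (L * s1 + 1) * Λ * R ^ (L * s1) * Real.exp (-(c1 * M))
          ≤ Real.exp (2 * N ^ 5) * Real.exp (N ^ 46) * Real.exp (N ^ 186) *
            Real.exp (-(c1 * M)) := by gcongr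
        _ = Real.exp (2 * N ^ 5 + N ^ 46 + N ^ 186 + -(c1 * M)) := by
            rw [Real.exp_add, Real.exp_add, Real.exp_add]
        _ ≤ Real.exp (-(c1 / 2 * M)) := by
            apply Real.exp_le_exp.mpr
            have h1 := pw 5 186 (by norm_num)
            have h3 := pw 46 186 (by norm_num)
            have h5 := pwc 186 200 (by norm_num)
            have h6 : c1 * N ^ 200 ≤ c1 * M := mul_le_mul_of_nonneg_left hM1 hc1.le
            have h7 : 0 ≤ N ^ 186 := by positivity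
            linarith
    -- term 4
    have t4 : (L * s1 + 1) * Λ * R ^ (L * s1) * ((R * Real.exp (-N ^ 120)
          + D ^ (L * s1 + k)) / T) ^ k ≤ Real.exp (-(c1 / 2 * M)) := by
      have i1 : R * Real.exp (-N ^ 120) / T * 2 ≤ Real.exp (-(N ^ 120 / 2)) := by
        have e1 : R * Real.exp (-N ^ 120) / T = tinv * Real.exp (-N ^ 120) *
            Real.exp (2 * N ^ 100) := by
          rw [hRM, hT, Real.exp_neg (2 * N ^ 100)]
          field_simp
        rw [e1]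
        calc tinv * Real.exp (-N ^ 120) * Real.exp (2 * N ^ 100) * 2
            ≤ Real.exp (N ^ 91) * Real.exp (-N ^ 120) * Real.exp (2 * N ^ 100) * 2 := by gcongr
          _ = 2 * Real.exp (N ^ 91 + -N ^ 120 + 2 * N ^ 100) := by
              rw [Real.exp_add, Real.exp_add]; ring
          _ ≤ Real.exp (N ^ 91 + -N ^ 120 + 2 * N ^ 100 + 1) := two_exp_le _
          _ ≤ Real.exp (-(N ^ 120 / 2)) := by
              apply Real.exp_le_exp.mpr
              have h1 := pw 91 100 (by norm_num)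
              have h2 := pws 100 120 (by norm_num)
              have h3 := pw 1 100 (by norm_num)
              linarith
      have i2 : D ^ (L * s1 + k) / T * 2 ≤ Real.exp (-(N ^ 120 / 2)) := by
        have e1 : D ^ (L * s1 + k) ≤ Real.exp (100 * N ^ 101) := by
          refine le_trans (pow_exp_le (by linarith) hD _) ?_
          apply Real.exp_le_exp.mpr
          have h1 : ((L * s1 + k : ℕ) : ℝ) ≤ 5 * N ^ 100 := by
            push_cast at hLs ⊢
            have h1 := pw 5 100 (by norm_num)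
            have h3 := pw 1 100 (by norm_num)
            linarith
          calc ((L * s1 + k : ℕ) : ℝ) * (20 * N) ≤ (5 * N ^ 100) * (20 * N) :=
                mul_le_mul_of_nonneg_right h1 (by linarith)
            _ = 100 * N ^ 101 := by ring
        rw [div_mul_eq_mul_div, div_le_iff₀ hT0]
        calc D ^ (L * s1 + k) * 2 ≤ Real.exp (100 * N ^ 101) * 2 := by gcongr
          _ = 2 * Real.exp (100 * N ^ 101) := by ring
          _ ≤ Real.exp (100 * N ^ 101 + 1) := two_exp_le _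
          _ ≤ Real.exp (-(N ^ 120 / 2) + (N ^ 180 + -(2 * N ^ 100))) := by
              apply Real.exp_le_exp.mpr
              have h1 := pws 101 180 (by norm_num)
              have h2 := pws 100 180 (by norm_num)
              have h3 := pws 120 180 (by norm_num)
              have h4 := pws 1 180 (by norm_num)
              linarith
          _ = Real.exp (-(N ^ 120 / 2)) * (Real.exp (N ^ 180) * Real.exp (-(2 * N ^ 100))) := by
              rw [Real.exp_add, Real.exp_add]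
          _ ≤ Real.exp (-(N ^ 120 / 2)) * (Mb * Real.exp (-(2 * N ^ 100))) := by gcongr
          _ = Real.exp (-(N ^ 120 / 2)) * T := by rw [hT]
      have i3 : (R * Real.exp (-N ^ 120) + D ^ (L * s1 + k)) / T ≤ Real.exp (-(N ^ 120 / 2)) := by
        rw [add_div]; linarith
      have i4 : ((R * Real.exp (-N ^ 120) + D ^ (L * s1 + k)) / T) ^ k
          ≤ Real.exp (-(N ^ 220 / 2)) := by
        have hD0 : 0 < D := by linarith
        refine le_trans (pow_exp_le (by positivity) i3 k) ?_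
        apply Real.exp_le_exp.mpr
        have h1 : N ^ 100 * (N ^ 120 / 2) ≤ k * (N ^ 120 / 2) :=
          mul_le_mul_of_nonneg_right hk1 (by positivity)
        have h2 : N ^ 100 * (N ^ 120 / 2) = N ^ 220 / 2 := by ring
        linarith
      have hD0 : 0 < D := by linarith
      calc (L * s1 + 1) * Λ * R ^ (L * s1) * ((R * Real.exp (-N ^ 120)
            + D ^ (L * s1 + k)) / T) ^ k
          ≤ Real.exp (2 * N ^ 5) * Real.exp (N ^ 46) * Real.exp (N ^ 186) *
            Real.exp (-(N ^ 220 / 2)) := by gcongr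
        _ = Real.exp (2 * N ^ 5 + N ^ 46 + N ^ 186 + -(N ^ 220 / 2)) := by
            rw [Real.exp_add, Real.exp_add, Real.exp_add]
        _ ≤ Real.exp (-(c1 / 2 * M)) := by
            apply Real.exp_le_exp.mpr
            have h1 := pw 5 186 (by norm_num)
            have h3 := pw 46 186 (by norm_num)
            have h5 := pws 186 220 (by norm_num)
            have h6 : c1 / 2 * M ≤ 1 * N ^ 201 := by
              apply mul_le_mul (by linarith) hM2 _ (by norm_num)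
              rw [hM]; positivity
            have h7 := pws 201 220 (by norm_num)
            have h8 : 0 ≤ N ^ 186 := by positivity
            have h9 : 0 ≤ N ^ 201 := by positivity
            linarith
    have hfin : 4 * Real.exp (-(c1 / 2 * M)) ≤ Real.exp (-(c1 / 3 * M)) := by
      calc 4 * Real.exp (-(c1 / 2 * M)) = 2 * (2 * Real.exp (-(c1 / 2 * M))) := by ring
        _ ≤ 2 * Real.exp (-(c1 / 2 * M) + 1) := by
            have := two_exp_le (-(c1 / 2 * M)); linarith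
        _ ≤ Real.exp (-(c1 / 2 * M) + 1 + 1) := two_exp_le _
        _ ≤ Real.exp (-(c1 / 3 * M)) := by
            apply Real.exp_le_exp.mpr
            have h6 : c1 * N ^ 200 ≤ c1 * M := mul_le_mul_of_nonneg_left hM1 hc1.le
            have h5 := pwc 1 200 (by norm_num)
            linarith
    linarith

end B4
end Crest.Agent.R225
end

-- ▼ part R225/B4Num2
section

/-!
# Row 225 (S0347), node B4 (cleaning): numerics `prf_num4 : S_num4` (helper925)
-/

set_option autoImplicit false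

open Finset Filter
open scoped BigOperators

namespace Crest.Agent.R225
namespace B4

lemma tau_le_one' (X : ℝ) (i : ℕ) : tau X i ≤ 1 := by
  unfold tau
  apply Finset.prod_le_one
  · intro j _; have := NumL.lam_pos X j; positivity
  · intro j _
    have h1 : (1 : ℝ) ≤ lam X j := Real.one_le_exp (Real.sqrt_nonneg _)
    rw [div_le_one (by positivity)]
    nlinarith

lemma inv_tau_le' {X : ℝ} (hX : 4 ≤ X) (i : ℕ) (y : ℝ) (hy : 0 ≤ y) (h : xl X i ≤ 4 * y ^ 2) :
    1 / tau X i ≤ Real.exp (3000000 * y) := by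
  have h1 := NumL.log_tau_le hX i
  have hpos : 0 < 1 / tau X i := by have := NumL.tau_pos X i; positivity
  rw [← Real.log_le_iff_le_exp hpos]
  have h2 : Real.sqrt (xl X i) ≤ 2 * y := by
    apply Real.sqrt_le_iff.mpr
    constructor
    · linarith
    · calc xl X i ≤ 4 * y ^ 2 := h
        _ = (2 * y) ^ 2 := by ring
  linarith

lemma pw' {N : ℝ} (hN1 : 1000 ≤ N) (a b : ℕ) (h : a ≤ b) : N ^ a ≤ N ^ b :=
  pow_le_pow_right₀ (by linarith) h

lemma pws' {N : ℝ} (hN1 : 1000 ≤ N) (a b : ℕ) (h : a < b) : 1000 * N ^ a ≤ N ^ b := by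
  have h0 : 0 ≤ N := by linarith
  calc 1000 * N ^ a ≤ N * N ^ a := by
        apply mul_le_mul_of_nonneg_right hN1 (by positivity)
    _ = N ^ (a + 1) := by ring
    _ ≤ N ^ b := pw' hN1 _ _ h

/-- facts on `s0` -/
lemma num_s0 (c1 N ℓ x y s0 S : ℝ) (hc1 : 0 < c1) (hc1' : c1 ≤ 1) (hN1 : 1000 ≤ N)
    (hNc : 1000 ≤ c1 * N) (hℓ1 : 1 ≤ ℓ) (hℓN : ℓ ≤ N) (hx1 : N ^ 180 ≤ x) (hx2 : x ≤ 2 * N ^ 180)
    (hy : 0 < y) (hxy1 : 600 * y ≤ x) (hxy2 : x ≤ 601 * y)
    (hS : S = c1 / 6400 * (N ^ 200 * ℓ) / y) (hs00 : 0 ≤ s0) (hs0 : s0 ≤ S) :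
    s0 * x ≤ 94 / 1000 * c1 * (N ^ 200 * ℓ) ∧ s0 ≤ N ^ 21 ∧ N ^ 4 ≤ S := by
  have hN0 : 0 < N := by linarith
  have hM0 : 0 < N ^ 200 * ℓ := by positivity
  have hxpos : 0 < x := lt_of_lt_of_le (by positivity) hx1
  have hs0x : s0 * x ≤ 94 / 1000 * c1 * (N ^ 200 * ℓ) := by
    calc s0 * x ≤ (c1 / 6400 * (N ^ 200 * ℓ) / y) * (601 * y) :=
          mul_le_mul (by rw [← hS]; exact hs0) hxy2 hxpos.le (by positivity)
      _ = 601 / 6400 * c1 * (N ^ 200 * ℓ) := by field_simp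
      _ ≤ 94 / 1000 * c1 * (N ^ 200 * ℓ) := by
          apply mul_le_mul_of_nonneg_right _ hM0.le
          linarith
  refine ⟨hs0x, ?_, ?_⟩
  · have h1 : s0 * N ^ 180 ≤ s0 * x := mul_le_mul_of_nonneg_left hx1 hs00
    have h2 : 94 / 1000 * c1 * (N ^ 200 * ℓ) ≤ 1 * (N ^ 200 * N) := by
      apply mul_le_mul (by linarith) _ hM0.le (by norm_num)
      exact mul_le_mul_of_nonneg_left hℓN (by positivity)
    have h3 : s0 * N ^ 180 ≤ N ^ 21 * N ^ 180 := by
      calc s0 * N ^ 180 ≤ 1 * (N ^ 200 * N) := by linarith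
        _ = N ^ 21 * N ^ 180 := by ring
    exact le_of_mul_le_mul_right h3 (by positivity)
  · rw [hS, le_div_iff₀ hy]
    have h1 : N ^ 4 * y ≤ N ^ 4 * N ^ 180 := by
      apply mul_le_mul_of_nonneg_left _ (by positivity)
      linarith
    have h2 : N ^ 4 * N ^ 180 = N ^ 184 := by ring
    have h3 : N ^ 200 * 1 ≤ N ^ 200 * ℓ := mul_le_mul_of_nonneg_left hℓ1 (by positivity)
    have h4 : c1 / 6400 * (N ^ 200 * 1) ≤ c1 / 6400 * (N ^ 200 * ℓ) :=
      mul_le_mul_of_nonneg_left h3 (by positivity)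
    have h5 : c1 / 6400 * (N ^ 200 * 1) = (c1 * N) * N ^ 199 / 6400 := by ring
    have h6 : 1000 * N ^ 199 ≤ (c1 * N) * N ^ 199 :=
      mul_le_mul_of_nonneg_right hNc (by positivity)
    have h7 := pws' hN1 184 199 (by norm_num)
    have h8 : 0 ≤ N ^ 184 := by positivity
    linarith

/-- facts on the heights -/
lemma num_B (N : ℝ) (n L s1 s0 B : ℕ) (Λ : ℝ) (hN1 : 1000 ≤ N) (hn : 1 ≤ n)
    (hpn : N ^ 200 = n) (hnexp : (n : ℝ) ≤ Real.exp N) (hL2 : (L : ℝ) ≤ 2 * N)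
    (hs1 : (s1 : ℝ) ≤ N ^ 4) (hs0 : (s0 : ℝ) ≤ N ^ 21)
    (hB : B = ((L * s1 + s0 + 2) * (n ^ 16 + 1)) ^ (L * s1 + s0 + 2))
    (hΛ : Λ = (2 * B + 1 : ℝ) ^ (L * s1 + s0 + 2)) :
    1 ≤ Λ ∧ Λ ≤ Real.exp (N ^ 46) ∧ 2 * ((n ^ 16 : ℕ) : ℝ) + 1 ≤ Real.exp (20 * N) := by
  have hnpos : (0 : ℝ) < n := by exact_mod_cast hn
  have hN0 : 0 < N := by linarith
  have hn16 : ((n : ℝ) ^ 16) ≤ Real.exp (16 * N) := by
    have := pow_exp_le hnpos.le hnexp 16
    exact_mod_cast this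
  have hn16' : (1 : ℝ) ≤ (n : ℝ) ^ 16 := one_le_pow₀ (by exact_mod_cast hn)
  have hcast : ((n ^ 16 : ℕ) : ℝ) = (n : ℝ) ^ 16 := by push_cast; ring
  have hD : 2 * ((n ^ 16 : ℕ) : ℝ) + 1 ≤ Real.exp (20 * N) := by
    rw [hcast]
    calc 2 * (n : ℝ) ^ 16 + 1 ≤ 2 * (2 * Real.exp (16 * N)) := by linarith
      _ ≤ 2 * Real.exp (16 * N + 1) := by
          have := two_exp_le (16 * N); linarith
      _ ≤ Real.exp (16 * N + 1 + 1) := two_exp_le _
      _ ≤ Real.exp (20 * N) := Real.exp_le_exp.mpr (by linarith)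
  generalize hE : L * s1 + s0 + 2 = E at hB hΛ
  have hEN : (E : ℝ) ≤ N ^ 22 := by
    rw [← hE]; push_cast
    have h1 : (L : ℝ) * s1 ≤ (2 * N) * N ^ 4 :=
      mul_le_mul hL2 hs1 (Nat.cast_nonneg _) (by linarith)
    have h2 : (2 * N) * N ^ 4 = 2 * N ^ 5 := by ring
    have h3 := pw' hN1 5 21 (by norm_num)
    have h4 := pw' hN1 1 21 (by norm_num)
    have h5 := pws' hN1 21 22 (by norm_num)
    rw [pow_one] at h4
    linarith
  have e1 : (E : ℝ) ≤ Real.exp N := by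
    have := pw' hN1 22 200 (by norm_num)
    rw [hpn] at this
    linarith
  have e2 : ((n : ℝ) ^ 16 + 1) ≤ Real.exp (17 * N) := by
    calc ((n : ℝ) ^ 16 + 1) ≤ 2 * Real.exp (16 * N) := by linarith
      _ ≤ Real.exp (16 * N + 1) := two_exp_le _
      _ ≤ Real.exp (17 * N) := Real.exp_le_exp.mpr (by linarith)
  have e3 : (E : ℝ) * ((n : ℝ) ^ 16 + 1) ≤ Real.exp (20 * N) := by
    calc (E : ℝ) * ((n : ℝ) ^ 16 + 1) ≤ Real.exp N * Real.exp (17 * N) :=
          mul_le_mul e1 e2 (by positivity) (Real.exp_pos _).le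
      _ = Real.exp (N + 17 * N) := by rw [Real.exp_add]
      _ ≤ Real.exp (20 * N) := Real.exp_le_exp.mpr (by linarith)
  have hBle : (B : ℝ) ≤ Real.exp (N ^ 22 * (20 * N)) := by
    have e4 : (B : ℝ) = ((E : ℝ) * ((n : ℝ) ^ 16 + 1)) ^ E := by
      rw [hB]; push_cast; ring
    rw [e4]
    refine le_trans (pow_exp_le (by positivity) e3 E) ?_
    apply Real.exp_le_exp.mpr
    exact mul_le_mul_of_nonneg_right hEN (by linarith)
  have hB0 : (0 : ℝ) ≤ B := Nat.cast_nonneg _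
  refine ⟨?_, ?_, hD⟩
  · rw [hΛ]; exact one_le_pow₀ (by linarith)
  · have e5 : (2 * B + 1 : ℝ) ≤ Real.exp (N ^ 24) := by
      have hx1 : 1 ≤ Real.exp (N ^ 22 * (20 * N)) := Real.one_le_exp (by positivity)
      calc (2 * B + 1 : ℝ) ≤ 2 * (2 * Real.exp (N ^ 22 * (20 * N))) := by linarith
        _ ≤ 2 * Real.exp (N ^ 22 * (20 * N) + 1) := by
            have := two_exp_le (N ^ 22 * (20 * N)); linarith
        _ ≤ Real.exp (N ^ 22 * (20 * N) + 1 + 1) := two_exp_le _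
        _ ≤ Real.exp (N ^ 24) := by
            apply Real.exp_le_exp.mpr
            have h1 : N ^ 22 * (20 * N) = 20 * N ^ 23 := by ring
            have h2 := pws' hN1 23 24 (by norm_num)
            have h3 := pw' hN1 0 23 (by norm_num)
            rw [pow_zero] at h3
            rw [h1]; linarith
    rw [hΛ]
    refine le_trans (pow_exp_le (by positivity) e5 E) ?_
    apply Real.exp_le_exp.mpr
    calc (E : ℝ) * N ^ 24 ≤ N ^ 22 * N ^ 24 := mul_le_mul_of_nonneg_right hEN (by positivity)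
      _ = N ^ 46 := by ring

/-- facts on `R` and `Mb` -/
lemma num_R (X Crat N ℓ x : ℝ) (n I : ℕ) (hX : 4 ≤ X) (hCrat : 1 ≤ Crat)
    (hN1 : 12000000 ≤ N) (hC : 2 * Crat ≤ N) (hpn : N ^ 200 = n) (hnexp : (n : ℝ) ≤ Real.exp N)
    (hℓ : ℓ = Real.log n) (hℓ1 : 1 ≤ ℓ) (hℓN : ℓ ≤ N) (hx : x = xl X I) (hx1 : N ^ 180 ≤ x)
    (hx2 : x ≤ 2 * N ^ 180) :
    Real.exp (N ^ 180) ≤ Mb X Crat n I ∧ 1 ≤ 1 / tau X (I + 1) ∧
    1 / tau X (I + 1) ≤ Real.exp (N ^ 91) ∧
    Mb X Crat n I / tau X (I + 1) ≤ Real.exp (x + N ^ 92) := by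
  have hN0 : 0 < N := by linarith
  have hN1' : 1000 ≤ N := by linarith
  have hτ0 := NumL.tau_pos X I
  have hτ1 := tau_le_one' X I
  have hτ0' := NumL.tau_pos X (I + 1)
  have hτ1' := tau_le_one' X (I + 1)
  have htinv1 : 1 ≤ 1 / tau X (I + 1) := by rw [le_div_iff₀ hτ0']; linarith
  have h90 : (N ^ 90) ^ 2 = N ^ 180 := by ring
  have h180 : 0 ≤ N ^ 180 := by positivity
  have htI : 1 / tau X I ≤ Real.exp (3000000 * N ^ 90) :=
    inv_tau_le' hX I _ (by positivity) (by rw [h90, ← hx]; linarith)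
  have htI' : 1 / tau X (I + 1) ≤ Real.exp (3000000 * N ^ 90) := by
    apply inv_tau_le' hX (I + 1) _ (by positivity)
    rw [h90, NumL.xl_succ, ← hx]
    have h1 : 1 + theta ≤ 2 := by unfold theta; norm_num
    calc x * (1 + theta) ≤ (2 * N ^ 180) * 2 :=
          mul_le_mul hx2 h1 (by have := NumL.theta_pos; linarith) (by positivity)
      _ = 4 * N ^ 180 := by ring
  have h12 : 12000000 * N ^ 90 ≤ N ^ 91 := by
    calc 12000000 * N ^ 90 ≤ N * N ^ 90 := mul_le_mul_of_nonneg_right hN1 (by positivity)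
      _ = N ^ 91 := by ring
  have h90' : 0 ≤ N ^ 90 := by positivity
  have hNN : NN n = N ^ 200 * ℓ := by unfold NN; rw [hpn, hℓ]
  have hMbdef : Mb X Crat n I = 2 * Crat * (N ^ 200 * ℓ) * Real.exp x * (1 / tau X I) := by
    unfold Mb; rw [hNN, ← hx]; ring
  have hMbl : Real.exp x ≤ Mb X Crat n I := by
    rw [hMbdef]
    have h1 : (1 : ℝ) ≤ 1 / tau X I := by rw [le_div_iff₀ hτ0]; linarith
    have h3 : (1 : ℝ) ≤ N ^ 200 * ℓ := by
      have h4 := pws' hN1' 0 200 (by norm_num)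
      rw [pow_zero] at h4
      have h5 : N ^ 200 * 1 ≤ N ^ 200 * ℓ := mul_le_mul_of_nonneg_left hℓ1 (by positivity)
      linarith
    have h2 : (1 : ℝ) ≤ 2 * Crat * (N ^ 200 * ℓ) := by
      have h6 : 1 * 1 ≤ (2 * Crat) * (N ^ 200 * ℓ) :=
        mul_le_mul (by linarith) h3 zero_le_one (by linarith)
      linarith
    have h5 := Real.exp_pos x
    calc Real.exp x = 1 * Real.exp x * 1 := by ring
      _ ≤ 2 * Crat * (N ^ 200 * ℓ) * Real.exp x * (1 / tau X I) := by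
          apply mul_le_mul _ h1 zero_le_one (by positivity)
          exact mul_le_mul_of_nonneg_right h2 h5.le
  refine ⟨le_trans (Real.exp_le_exp.mpr hx1) hMbl, htinv1,
    le_trans htI' (Real.exp_le_exp.mpr (by linarith)), ?_⟩
  have hRM : Mb X Crat n I / tau X (I + 1) = Mb X Crat n I * (1 / tau X (I + 1)) := by ring
  rw [hRM, hMbdef]
  have a1 : 2 * Crat ≤ Real.exp N := by
    have h2 := Real.add_one_le_exp N
    linarith
  have a2 : N ^ 200 * ℓ ≤ Real.exp N * Real.exp N := by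
    rw [hpn]
    apply mul_le_mul hnexp _ (by linarith) (Real.exp_pos _).le
    have h2 := Real.add_one_le_exp N
    linarith
  calc 2 * Crat * (N ^ 200 * ℓ) * Real.exp x * (1 / tau X I) * (1 / tau X (I + 1))
      ≤ Real.exp N * (Real.exp N * Real.exp N) * Real.exp x * Real.exp (3000000 * N ^ 90) *
        Real.exp (3000000 * N ^ 90) := by gcongr
    _ = Real.exp (N + (N + N) + x + 3000000 * N ^ 90 + 3000000 * N ^ 90) := by
        simp only [Real.exp_add]
    _ ≤ Real.exp (x + N ^ 92) := by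
        apply Real.exp_le_exp.mpr
        have h1 := pws' hN1' 91 92 (by norm_num)
        have h2 := pw' hN1' 1 91 (by norm_num)
        rw [pow_one] at h2
        linarith

/-- the level of the start is large -/
lemma num_level (X N y : ℝ) (n I : ℕ) (hX : 4 ≤ X) (hN1 : 1000 ≤ N) (hXN : 601 * X + 1 ≤ N)
    (hx1 : N ^ 180 ≤ xl X I) (hy : y = xl X (I - Rst)) :
    0 < y ∧ 600 * y ≤ xl X I ∧ xl X I ≤ 601 * y := by
  have hX0 : 0 ≤ X := by linarith
  have hIR : Rst ≤ I := by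
    by_contra hlt
    push Not at hlt
    have h1 : xl X I ≤ X * (1 + theta) ^ Rst := by
      unfold xl
      apply mul_le_mul_of_nonneg_left _ hX0
      exact pow_le_pow_right₀ (by have := NumL.theta_pos; linarith) hlt.le
    have h2 := NumL.pow_Rst_le
    have h3 : X * (1 + theta) ^ Rst ≤ X * 601 := mul_le_mul_of_nonneg_left h2 hX0
    have h4 := pw' hN1 1 180 (by norm_num)
    rw [pow_one] at h4
    linarith
  have hypos : 0 < y := by rw [hy]; exact NumL.xl_pos (by linarith) _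
  have hxy : xl X I = y * (1 + theta) ^ Rst := by
    rw [hy, ← NumL.xl_add]; congr 1; omega
  refine ⟨hypos, ?_, ?_⟩
  · rw [hxy]; have := NumL.pow_Rst_ge; nlinarith
  · rw [hxy]; have := NumL.pow_Rst_le; nlinarith

theorem prf_num4 : S_num4 := by
  intro c1 Crat hc1 hc1' hCrat
  refine ⟨4, by norm_num, fun X hX => ?_⟩
  -- constants
  obtain ⟨K, hK1, hK2, hK3⟩ : ∃ K : ℝ, 1000 / c1 ≤ K ∧ 2 * Crat ≤ K ∧ 12000000 ≤ K := by
    refine ⟨1000 / c1 + 2 * Crat + 12000000, ?_, ?_, ?_⟩ <;>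
    · have : 0 < 1000 / c1 := by positivity
      linarith
  have t1 : Tendsto (fun n : ℕ => (n : ℝ) ^ (1 / 200 : ℝ)) atTop atTop :=
    (tendsto_rpow_atTop (by norm_num)).comp tendsto_natCast_atTop_atTop
  have hlog : ∀ᶠ n : ℕ in atTop, Real.log (n : ℝ) ≤ (n : ℝ) ^ (1 / 200 : ℝ) := by
    have h1 : (fun x : ℝ => Real.log x) =o[atTop] (fun x : ℝ => x ^ (1 / 200 : ℝ)) :=
      isLittleO_log_rpow_atTop (by norm_num)
    have h2 := tendsto_natCast_atTop_atTop (R := ℝ) |>.eventually (h1.bound one_pos)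
    filter_upwards [h2, eventually_ge_atTop 1] with n hn hn1
    have hn1' : (1 : ℝ) ≤ n := by exact_mod_cast hn1
    rw [Real.norm_of_nonneg (Real.log_nonneg hn1'),
      Real.norm_of_nonneg (Real.rpow_nonneg (by linarith) _), one_mul] at hn
    exact hn
  have ev : ∀ᶠ n : ℕ in atTop, max K (601 * X + 1) ≤ (n : ℝ) ^ (1 / 200 : ℝ) ∧
      Real.log (n : ℝ) ≤ (n : ℝ) ^ (1 / 200 : ℝ) ∧ 3 ≤ n :=
    (t1.eventually_ge_atTop _).and (hlog.and (eventually_ge_atTop 3))
  obtain ⟨n0, hn0⟩ := eventually_atTop.mp ev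
  refine ⟨max n0 2, le_max_right _ _, fun n hn I hI1 hI2 L s1 s0 k B Λ R T hL hs1 hs0 hk hB hΛ hR
    hT => ?_⟩
  obtain ⟨hKn, hlogn, hn3⟩ := hn0 n (le_trans (le_max_left _ _) hn)
  clear hn0 ev hlog t1 hn
  have hn3' : (3 : ℝ) ≤ n := by exact_mod_cast hn3
  have hnpos : (0 : ℝ) < n := by linarith only [hn3']
  have hpow : ∀ a : ℕ, ((n : ℝ) ^ (1 / 200 : ℝ)) ^ a = (n : ℝ) ^ ((a : ℝ) / 200) := fun a => by
    rw [← Real.rpow_natCast, ← Real.rpow_mul hnpos.le]
    congr 1; ring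
  generalize hN : (n : ℝ) ^ (1 / 200 : ℝ) = N at hKn hlogn hpow
  generalize hℓ : Real.log (n : ℝ) = ℓ at hL hlogn
  have hKN : K ≤ N := le_trans (le_max_left _ _) hKn
  have hXN : 601 * X + 1 ≤ N := le_trans (le_max_right _ _) hKn
  have hNc : 1000 / c1 ≤ N := le_trans hK1 hKN
  have hCN : 2 * Crat ≤ N := le_trans hK2 hKN
  have hN1 : (12000000 : ℝ) ≤ N := le_trans hK3 hKN
  have hN1' : (1000 : ℝ) ≤ N := by linarith only [hN1]
  have hN0 : (0 : ℝ) ≤ N := by linarith only [hN1]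
  have hNc2 : (1000 : ℝ) ≤ c1 * N := by rw [div_le_iff₀ hc1] at hNc; linarith only [hNc]
  have hpn : N ^ 200 = n := by rw [hpow]; norm_num
  have hp180 : N ^ 180 = (n : ℝ) ^ (9 / 10 : ℝ) := by rw [hpow]; norm_num
  have hp4 : N ^ 4 = (n : ℝ) ^ (2 / 100 : ℝ) := by rw [hpow]; norm_num
  have hp100 : N ^ 100 = (n : ℝ) ^ (1 / 2 : ℝ) := by rw [hpow]; norm_num
  have hp120 : N ^ 120 = (n : ℝ) ^ (6 / 10 : ℝ) := by rw [hpow]; norm_num
  have hℓ1 : 1 ≤ ℓ := by
    rw [← hℓ, Real.le_log_iff_exp_le hnpos]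
    have := Real.exp_one_lt_d9
    linarith only [this, hn3']
  -- level
  rw [← hp180] at hI1 hI2
  obtain ⟨hypos, hxy1, hxy2⟩ := num_level X N (xl X (I - Rst)) n I hX hN1' hXN hI1 rfl
  have hNN : NN n = N ^ 200 * ℓ := by unfold NN; rw [hpn, hℓ]
  have hsp : sp X (c1 / 400) n (I - Rst) = c1 / 6400 * (N ^ 200 * ℓ) / xl X (I - Rst) := by
    unfold sp; rw [hNN]; ring
  have hsp0 : 0 ≤ sp X (c1 / 400) n (I - Rst) := by rw [hsp]; positivity
  have hs0le : (s0 : ℝ) ≤ sp X (c1 / 400) n (I - Rst) := by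
    rw [hs0]; exact Nat.floor_le hsp0
  obtain ⟨hs0x, hs0N, hS⟩ := num_s0 c1 N ℓ (xl X I) (xl X (I - Rst)) s0
    (sp X (c1 / 400) n (I - Rst)) hc1 hc1' hN1' hNc2 hℓ1 hlogn hI1 hI2 hypos hxy1 hxy2 hsp
    (Nat.cast_nonneg _) hs0le
  have hs1N : (s1 : ℝ) ≤ N ^ 4 := by
    rw [hs1, hp4]; exact Nat.floor_le (by positivity)
  have hs13 : 3 ≤ s1 := by
    rw [hs1, ← hp4]
    apply Nat.le_floor
    have := pws' hN1' 0 4 (by norm_num)
    rw [pow_zero] at this
    push_cast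
    linarith only [this]
  have hs1s0 : s1 ≤ s0 := by
    rw [hs0]
    exact Nat.le_floor (le_trans hs1N hS)
  have hL1 : ℓ ≤ L := by rw [hL]; exact Nat.le_ceil _
  have hL2 : (L : ℝ) ≤ 2 * N := by
    have : (L : ℝ) < ℓ + 1 := by rw [hL]; exact Nat.ceil_lt_add_one (by linarith only [hℓ1])
    linarith only [this, hlogn, hN1]
  have hk1 : N ^ 100 ≤ k := by rw [hk, hp100]; exact Nat.le_ceil _
  have hk2 : (k : ℝ) ≤ N ^ 100 + 1 := by
    have : (k : ℝ) < (n : ℝ) ^ (1 / 2 : ℝ) + 1 := by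
      rw [hk]; exact Nat.ceil_lt_add_one (by positivity)
    rw [hp100]; exact this.le
  have hnexp : (n : ℝ) ≤ Real.exp N := by
    rw [← Real.log_le_iff_le_exp hnpos, hℓ]; exact hlogn
  obtain ⟨hΛ1, hΛ2, hD⟩ := num_B N n L s1 s0 B Λ hN1' (by omega) hpn hnexp hL2 hs1N hs0N hB hΛ
  obtain ⟨hMb, htinv1, htinv, hRle⟩ := num_R X Crat N ℓ (xl X I) n I hX hCrat hN1 hCN hpn hnexp
    hℓ.symm hℓ1 hlogn rfl hI1 hI2
  have hRM : R = Mb X Crat n I * (1 / tau X (I + 1)) := by rw [hR]; ring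
  have hMb0 : 0 < Mb X Crat n I := lt_of_lt_of_le (Real.exp_pos _) hMb
  have hMb1 : 1 ≤ Mb X Crat n I := le_trans (Real.one_le_exp (by positivity)) hMb
  have hR1 : 1 ≤ R := by rw [hRM]; exact one_le_mul_of_one_le_of_one_le hMb1 htinv1
  have hTdef : T = Mb X Crat n I * Real.exp (-(2 * N ^ 100)) := by rw [hT, hp100]
  have hxpos : 0 ≤ xl X I := (NumL.xl_pos (by linarith only [hX]) I).le
  have hD1 : 1 ≤ 2 * ((n ^ 16 : ℕ) : ℝ) + 1 := by
    have : (0 : ℝ) ≤ ((n ^ 16 : ℕ) : ℝ) := Nat.cast_nonneg _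
    linarith only [this]
  have key := core_num c1 N ℓ (xl X I) R Λ (Mb X Crat n I) T (1 / tau X (I + 1))
    (2 * ((n ^ 16 : ℕ) : ℝ) + 1) L s1 s0 k hc1 hc1' hNc hℓ1 hlogn hL1 hL2
    hs1N hs0N hs0x hxpos hI2 hk1 hk2 hΛ1 hΛ2 hR1 (by rw [hR]; exact hRle) hMb
    (by linarith only [htinv1]) htinv hRM hTdef hD1 hD
  refine ⟨hR1, by rw [hTdef]; positivity, hs13, hs1s0, ?_, ?_⟩
  · rw [← hp100]; exact key.1
  · rw [hNN, ← hp120]
    have h2 := key.2
    rw [hpn] at h2 ⊢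
    exact h2

end B4
end Crest.Agent.R225
end

-- ▼ part R225/B012

/-!
# Row 225 (S0347), nodes B0, B1, B2: affine independence, flats, Siegel
-/

set_option autoImplicit false

open Finset MeasureTheory
open scoped BigOperators ENNReal

namespace Crest.Agent.R225

namespace B012

/-- few functionals separate the points of a finite dimensional subspace -/
lemma exists_few_functionals {K V ι : Type*} [Field K] [AddCommGroup V] [Module K V]
    [FiniteDimensional K V] [DecidableEq ι]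
    (ℓ : ι → V →ₗ[K] K) : ∀ (d : ℕ) (U : Submodule K V),
    Module.finrank K U ≤ d → (∀ u ∈ U, (∀ i, ℓ i u = 0) → u = 0) →
    ∃ b : Finset ι, b.card ≤ d ∧ ∀ u ∈ U, (∀ i ∈ b, ℓ i u = 0) → u = 0 := by
  intro d
  induction d with
  | zero =>
    intro U hd _
    have hU : U = ⊥ := by
      rw [← Submodule.finrank_eq_zero (R := K)]; omega
    exact ⟨∅, by simp, fun u hu _ => by simpa [hU] using hu⟩
  | succ d ih =>
    intro U hd hsep
    by_cases hU : U = ⊥
    · exact ⟨∅, by simp, fun u hu _ => by simpa [hU] using hu⟩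
    obtain ⟨u, hu, hu0⟩ := Submodule.exists_mem_ne_zero_of_ne_bot hU
    have : ∃ i, ℓ i u ≠ 0 := by
      by_contra h
      push Not at h
      exact hu0 (hsep u hu h)
    obtain ⟨i, hi⟩ := this
    have hlt : U ⊓ LinearMap.ker (ℓ i) < U := by
      refine lt_of_le_of_ne inf_le_left fun h => hi ?_
      have : u ∈ U ⊓ LinearMap.ker (ℓ i) := by rw [h]; exact hu
      exact this.2
    have hfr := Submodule.finrank_lt_finrank_of_lt hlt
    obtain ⟨b, hb, hb'⟩ := ih (U ⊓ LinearMap.ker (ℓ i)) (by omega)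
      (fun v hv h => hsep v hv.1 h)
    refine ⟨insert i b, (Finset.card_insert_le _ _).trans (by omega), fun v hv h => ?_⟩
    refine hb' v ⟨hv, ?_⟩ fun j hj => h j (Finset.mem_insert_of_mem hj)
    exact h i (Finset.mem_insert_self _ _)

/-- the coordinate functionals relative to the centre `g0` -/
noncomputable def fn {m : ℕ} (g0 : Pt m) : Option (Fin m) → ((Fin m → ℚ) × ℚ) →ₗ[ℚ] ℚ
  | none => LinearMap.snd ℚ _ _
  | some k => (LinearMap.proj k).comp (LinearMap.fst ℚ _ _) - (g0 k : ℚ) • LinearMap.snd ℚ _ _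

/-- integer coordinates relative to the centre -/
def ic {m : ℕ} (g0 : Pt m) (g : Pt m) : Option (Fin m) → ℤ
  | none => 1
  | some k => g k - g0 k

lemma fn_aff {m : ℕ} (g0 g : Pt m) (c : Option (Fin m)) : fn g0 c (aff g) = (ic g0 g c : ℚ) := by
  cases c <;> simp [fn, aff, ic]

lemma fn_sep {m : ℕ} (g0 : Pt m) (u : (Fin m → ℚ) × ℚ) (h : ∀ c, fn g0 c u = 0) : u = 0 := by
  have h0 : u.2 = 0 := by simpa [fn] using h none
  have h1 : u.1 = 0 := by
    funext k
    have := h (some k)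
    simpa [fn, h0] using this
  exact Prod.ext h1 h0

lemma aff_injective {m : ℕ} : Function.Injective (aff : Pt m → _) := by
  intro g g' h
  funext k
  have : (aff g).1 k = (aff g').1 k := by rw [h]
  simpa [aff] using this

end B012

open B012

theorem prf_B1 : S_B1 := by
  classical
  intro m rX G J g0 hG
  set U : Submodule ℚ ((Fin m → ℚ) × ℚ) := Submodule.span ℚ (aff '' (J : Set (Pt m))) with hU
  have hfr : Module.finrank ℚ U ≤ J.card := by
    have := finrank_span_finset_le_card (R := ℚ) (J.image aff)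
    rw [Finset.coe_image] at this
    exact this.trans Finset.card_image_le
  obtain ⟨b, hb, hb'⟩ := exists_few_functionals (fn g0) J.card U hfr
    (fun u _ h => fn_sep g0 u h)
  have hmaps : ∀ g ∈ G.filter (fun g => aff g ∈ U),
      (fun c : b => if (c : Option (Fin m)) = none then (0 : ℤ) else ic g0 g c) ∈
        Fintype.piFinset (fun _ : b => Finset.Icc (-(rX : ℤ)) rX) := by
    intro g hg
    rw [Fintype.mem_piFinset]
    rintro ⟨c, hc⟩
    rw [Finset.mem_Icc, ← abs_le]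
    cases c with
    | none => simp
    | some k => simpa [ic] using hG g (Finset.mem_filter.1 hg).1 k
  have hinj : Set.InjOn
      (fun (g : Pt m) (c : b) => if (c : Option (Fin m)) = none then (0 : ℤ) else ic g0 g c)
      (G.filter (fun g => aff g ∈ U)) := by
    intro g hg g' hg' h
    have hg1 := (Finset.mem_filter.1 (Finset.mem_coe.1 hg)).2
    have hg2 := (Finset.mem_filter.1 (Finset.mem_coe.1 hg')).2
    have : aff g - aff g' = 0 := by
      refine hb' _ (U.sub_mem hg1 hg2) fun c hc => ?_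
      rw [map_sub, fn_aff, fn_aff]
      cases c with
      | none => simp [ic]
      | some k =>
        have := congrFun h ⟨some k, hc⟩
        simp only [reduceCtorEq, if_false] at this
        rw [this, sub_self]
    exact aff_injective (sub_eq_zero.1 this)
  have hcard := Finset.card_le_card_of_injOn _ hmaps hinj
  refine hcard.trans ?_
  rw [Fintype.card_piFinset, Finset.prod_const, Int.card_Icc]
  have h1 : ((rX : ℤ) + 1 - -(rX : ℤ)).toNat = 2 * rX + 1 := by omega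
  rw [h1]
  refine Nat.pow_le_pow_right (by omega) ?_
  simpa using hb


attribute [local instance] Matrix.seminormedAddCommGroup in
lemma B012.siegel {α β : Type*} [Fintype α] [Fintype β] (A : Matrix α β ℤ) (M : ℝ)
    (hM : 1 ≤ M) (hA : ∀ i j, |(A i j : ℝ)| ≤ M)
    (hn : Fintype.card α < Fintype.card β) (hm : 0 < Fintype.card α) :
    ∃ t : β → ℤ, t ≠ 0 ∧ A.mulVec t = 0 ∧ ∀ j, |(t j : ℝ)| ≤ (Fintype.card β * M) ^ Fintype.card β := by
  obtain ⟨t, ht0, htA, ht⟩ := Int.Matrix.exists_ne_zero_int_vec_norm_le A hn hm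
  refine ⟨t, ht0, htA, fun j => ?_⟩
  have h1 : |(t j : ℝ)| ≤ ‖t‖ := by
    have := norm_le_pi_norm t j
    rwa [Int.norm_eq_abs] at this
  have h2 : max 1 ‖A‖ ≤ M := by
    refine max_le hM ?_
    rw [Matrix.norm_le_iff (by linarith)]
    intro i j
    rw [Int.norm_eq_abs]
    exact hA i j
  have hb : (1 : ℝ) ≤ Fintype.card β := by
    exact_mod_cast (by omega : 1 ≤ Fintype.card β)
  have h3 : (1 : ℝ) ≤ (Fintype.card β : ℝ) * max 1 ‖A‖ := by
    have := le_max_left (1 : ℝ) ‖A‖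
    nlinarith
  have hc : (Fintype.card α : ℝ) + 1 ≤ Fintype.card β := by exact_mod_cast hn
  calc |(t j : ℝ)| ≤ ((Fintype.card β : ℝ) * max 1 ‖A‖) ^
        ((Fintype.card α : ℝ) / ((Fintype.card β : ℝ) - Fintype.card α)) := h1.trans ht
    _ ≤ ((Fintype.card β : ℝ) * max 1 ‖A‖) ^ (Fintype.card β : ℝ) := by
        refine Real.rpow_le_rpow_of_exponent_le h3 ?_
        rw [div_le_iff₀ (by linarith)]
        have : (0 : ℝ) ≤ Fintype.card α := Nat.cast_nonneg _
        nlinarith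
    _ = ((Fintype.card β : ℝ) * max 1 ‖A‖) ^ Fintype.card β := Real.rpow_natCast _ _
    _ ≤ (Fintype.card β * M) ^ Fintype.card β := by
        gcongr

theorem prf_B2 : S_B2 := by
  classical
  intro m rX Z g0 hZ hdep
  set U : Submodule ℚ ((Fin m → ℚ) × ℚ) := Submodule.span ℚ (aff '' (Z : Set (Pt m))) with hU
  have hZne : Z.Nonempty := by
    rw [Finset.nonempty_iff_ne_empty]
    rintro rfl
    exact hdep (by simp)
  have hfr : Module.finrank ℚ U < Z.card := by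
    by_contra hlt
    push Not at hlt
    apply hdep
    have : LinearIndependent ℚ (fun g : (Z : Set (Pt m)) => aff (g : Pt m)) := by
      rw [linearIndependent_iff_card_le_finrank_span]
      have h1 : Set.range (fun g : (Z : Set (Pt m)) => aff (g : Pt m)) = aff '' (Z : Set (Pt m)) := by
        ext x; simp
      rw [h1]
      simpa [Set.finrank] using hlt
    exact this
  obtain ⟨b, hb, hb'⟩ := exists_few_functionals (fn g0) (Z.card - 1) U (by omega)
    (fun u _ h => fn_sep g0 u h)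
  have hbne : b.Nonempty := by
    rw [Finset.nonempty_iff_ne_empty]
    rintro rfl
    obtain ⟨g, hg⟩ := hZne
    have h0 : aff g = 0 := hb' _ (Submodule.subset_span ⟨g, hg, rfl⟩) (by simp)
    have : (aff g).2 = 0 := by rw [h0]; rfl
    simp [aff] at this
  obtain ⟨t, ht0, htA, ht⟩ := siegel (α := b) (β := Z) (fun c g => ic g0 g c) ((rX : ℝ) + 1)
    (by have : (0 : ℝ) ≤ rX := Nat.cast_nonneg _
        linarith)
    (by
      rintro ⟨c, hc⟩ ⟨g, hg⟩
      cases c with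
      | none => simp [ic]
      | some k =>
        have h1 : |((g k - g0 k : ℤ) : ℝ)| ≤ rX := by
          exact_mod_cast hZ g hg k
        simpa [ic] using h1.trans (by linarith))
    (by simp only [Fintype.card_coe]; have := hZne.card_pos; omega)
    (by simpa using hbne)
  set h : Pt m → ℤ := fun g => if hg : g ∈ Z then t ⟨g, hg⟩ else 0 with hh
  have hht : ∀ g : Z, h g = t g := fun g => by simp [hh]
  have hvec : ∑ g ∈ Z, (h g : ℚ) • aff g = 0 := by
    refine hb' _ (U.sum_mem fun g hg => U.smul_mem _ (Submodule.subset_span ⟨g, hg, rfl⟩)) ?_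
    intro c hc
    have h1 := congrFun htA ⟨c, hc⟩
    simp only [Matrix.mulVec, dotProduct, Pi.zero_apply] at h1
    rw [map_sum]
    have h2 : ∀ g ∈ Z, (fn g0 c) ((h g : ℚ) • aff g) = ((ic g0 g c * h g : ℤ) : ℚ) := by
      intro g _
      rw [map_smul, fn_aff, smul_eq_mul]; push_cast; ring
    rw [Finset.sum_congr rfl h2, ← Int.cast_sum, Int.cast_eq_zero]
    rw [← h1, ← Finset.sum_coe_sort Z]
    exact Finset.sum_congr rfl fun g _ => by rw [hht]
  refine ⟨h, ?_, ⟨?_, ?_, ?_⟩, ?_⟩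
  · intro h0
    apply ht0
    funext g
    rw [← hht, h0]; rfl
  · intro g hg; simp [hh, hg]
  · have := congrArg Prod.snd hvec
    simp only [Prod.snd_sum, Prod.smul_snd, aff, smul_eq_mul, mul_one, Prod.snd_zero] at this
    exact_mod_cast this
  · funext k
    have := congrFun (congrArg Prod.fst hvec) k
    simp only [Prod.fst_sum, Prod.smul_fst, aff, Finset.sum_apply, Pi.smul_apply, smul_eq_mul,
      Prod.fst_zero, Pi.zero_apply] at this
    simp only [Finset.sum_apply, Pi.smul_apply, smul_eq_mul, Pi.zero_apply]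
    exact_mod_cast this
  · intro g
    by_cases hg : g ∈ Z
    · have := ht ⟨g, hg⟩
      rw [← hht ⟨g, hg⟩] at this
      simpa using this
    · simp only [hh, hg, dif_neg, not_false_eq_true, Int.cast_zero, abs_zero]
      positivity

namespace B012

lemma expect_comp_surj {A B : Type*} [AddCommGroup A] [Fintype A] [AddCommGroup B] [Fintype B]
    (φ : A →+ B) (hφ : Function.Surjective φ) (F : B → ℝ) : 𝔼 a, F (φ a) = 𝔼 b, F b := by
  obtain ⟨s, hs⟩ := hφ.hasRightInverse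
  have h1 : ∀ b : B, 𝔼 a, F (φ a) = 𝔼 a, F (φ a + b) := by
    intro b
    refine (Fintype.expect_equiv (Equiv.addRight (s b)) _ _ fun a => ?_).symm
    simp [hs b]
  have h2 : 𝔼 a, F (φ a) = 𝔼 b : B, 𝔼 a, F (φ a + b) := by
    rw [← Finset.expect_congr rfl fun b _ => h1 b]
    rw [Finset.expect_const ⟨0, Finset.mem_univ _⟩]
  rw [h2, Finset.expect_comm]
  have h3 : ∀ a : A, 𝔼 b : B, F (φ a + b) = 𝔼 b, F b := by
    intro a
    exact Fintype.expect_equiv (Equiv.addLeft (φ a)) _ _ fun b => rfl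
  rw [Finset.expect_congr rfl fun a _ => h3 a, Finset.expect_const ⟨0, Finset.mem_univ _⟩]

lemma expect_prod_indep {J X : Type*} [Fintype J] [DecidableEq J] [Fintype X] (f : J → X → ℝ) :
    𝔼 t : J → X, ∏ g, f g (t g) = ∏ g, 𝔼 x, f g x := by
  simp only [Fintype.expect_eq_sum_div_card]
  rw [Finset.prod_div_distrib, Finset.prod_univ_sum]
  simp [Fintype.piFinset_univ]

lemma common_den {ι : Type*} [Fintype ι] (q : ι → ℚ) :
    ∃ d : ℕ, d ≠ 0 ∧ ∀ i, ∃ z : ℤ, (d : ℚ) * q i = z := by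
  classical
  refine ⟨∏ i, (q i).den, Finset.prod_ne_zero_iff.2 fun i _ => (q i).den_nz, fun i => ?_⟩
  obtain ⟨e, he⟩ := Finset.dvd_prod_of_mem (fun i => (q i).den) (Finset.mem_univ i)
  refine ⟨e * (q i).num, ?_⟩
  rw [he]
  push_cast
  have := Rat.den_mul_eq_num (q i)
  calc ((q i).den : ℚ) * e * q i = e * ((q i).den * q i) := by ring
    _ = _ := by rw [this]

/-- integral dual functionals -/
lemma dual_int {m : ℕ} (J : Finset (Pt m)) (hJ : LinearIndepOn ℚ aff (J : Set (Pt m))) :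
    ∃ d : ℕ, d ≠ 0 ∧ ∃ (c : J → ℤ) (ψ : J → Fin m → ℤ), ∀ g g' : J,
      c g + ∑ k, ψ g k * (g' : Pt m) k = if g = g' then (d : ℤ) else 0 := by
  classical
  have hJ' : LinearIndependent ℚ (fun g : J => aff (g : Pt m)) := hJ
  obtain ⟨Λ, hΛ⟩ := LinearMap.exists_leftInverse_of_injective
    (Finsupp.linearCombination ℚ (fun g : J => aff (g : Pt m))) (LinearMap.ker_eq_bot.2 hJ')
  have h1 : ∀ g g' : J, Λ (aff (g' : Pt m)) g = if g = g' then 1 else 0 := by
    intro g g'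
    have := congrArg (fun l => l (Finsupp.single g' 1)) hΛ
    simp only [LinearMap.comp_apply, Finsupp.linearCombination_single, one_smul,
      LinearMap.id_apply] at this
    rw [this, Finsupp.single_apply]
    simp only [eq_comm]
  obtain ⟨d, hd, hz⟩ := common_den (fun p : J × Option (Fin m) =>
    match p.2 with
    | none => Λ (0, 1) p.1
    | some k => Λ (Pi.single k 1, 0) p.1)
  choose z hz using hz
  refine ⟨d, hd, fun g => z (g, none), fun g k => z (g, some k), fun g g' => ?_⟩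
  have h2 : aff (g' : Pt m) = ((0 : Fin m → ℚ), (1 : ℚ)) +
      ∑ k, ((g' : Pt m) k : ℚ) • ((Pi.single k 1 : Fin m → ℚ), (0 : ℚ)) := by
    refine Prod.ext ?_ ?_
    · funext j
      simp [aff, Prod.fst_sum, Finset.sum_apply, Pi.single_apply]
    · simp [aff, Prod.snd_sum]
  have h3 : (d : ℚ) * Λ (aff (g' : Pt m)) g =
      z (g, none) + ∑ k, (z (g, some k) : ℚ) * (g' : Pt m) k := by
    rw [h2, map_add, map_sum]
    simp only [map_smul, Finsupp.add_apply, Finsupp.finsetSum_apply, Finsupp.smul_apply,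
      smul_eq_mul, mul_add, Finset.mul_sum]
    rw [← hz (g, none)]
    congr 1
    refine Finset.sum_congr rfl fun k _ => ?_
    rw [← hz (g, some k)]
    ring
  rw [h1] at h3
  have h4 : ((z (g, none) + ∑ k, z (g, some k) * (g' : Pt m) k : ℤ) : ℚ) =
      ((if g = g' then (d : ℤ) else 0 : ℤ) : ℚ) := by
    push_cast
    rw [← h3]
    split_ifs <;> simp
  exact_mod_cast h4

end B012

theorem prf_B0 : S_B0 := by
  classical
  intro m rX k
  -- the finite family of boxes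
  set box : Finset (Pt m) := Fintype.piFinset (fun _ : Fin m => Finset.Icc (-(rX : ℤ)) rX)
  have hfam : ∀ J : Finset (Pt m), ∃ d : ℕ, LinearIndepOn ℚ aff (J : Set (Pt m)) → d ≠ 0 ∧
      ∃ (c : J → ℤ) (ψ : J → Fin m → ℤ), ∀ g g' : J,
      c g + ∑ k, ψ g k * (g' : Pt m) k = if g = g' then (d : ℤ) else 0 := by
    intro J
    by_cases hJ : LinearIndepOn ℚ aff (J : Set (Pt m))
    · obtain ⟨d, h1, h2⟩ := dual_int J hJ
      exact ⟨d, fun _ => ⟨h1, h2⟩⟩
    · exact ⟨0, fun h => absurd h hJ⟩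
  choose d hd using hfam
  refine ⟨box.powerset.sup d + 1, ?_⟩
  intro P hP _ J g0 f _ hbox hind
  set J' : Finset (Pt m) := J.image (fun g => g - g0) with hJ'
  have hJ'mem : J' ∈ box.powerset := by
    rw [Finset.mem_powerset]
    intro g hg
    obtain ⟨g1, hg1, rfl⟩ := Finset.mem_image.1 hg
    rw [Fintype.mem_piFinset]
    intro j
    rw [Finset.mem_Icc, ← abs_le]
    exact hbox g1 hg1 j
  have hdP : d J' < P := by
    have := Finset.le_sup (f := d) hJ'mem
    omega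
  have hind' : LinearIndepOn ℚ aff (J' : Set (Pt m)) := by
    rw [hJ', Finset.coe_image]
    refine LinearIndepOn.image_of_comp (f := fun g : Pt m => g - g0) (g := aff) ?_
    let T : ((Fin m → ℚ) × ℚ) →ₗ[ℚ] ((Fin m → ℚ) × ℚ) :=
      LinearMap.prod (LinearMap.fst ℚ _ _ -
        (LinearMap.snd ℚ (Fin m → ℚ) ℚ).smulRight (fun k => (g0 k : ℚ))) (LinearMap.snd ℚ _ _)
    have hT : (aff ∘ fun g : Pt m => g - g0) = T ∘ aff := by
      funext g
      refine Prod.ext ?_ ?_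
      · funext j; simp [T, aff]
      · simp [T, aff]
    rw [hT]
    refine hind.map_injOn T ?_
    intro x _ y _ hxy
    have h2 : x.2 = y.2 := by simpa [T] using congrArg Prod.snd hxy
    refine Prod.ext ?_ h2
    have h1 := congrArg Prod.fst hxy
    simpa [T, h2] using h1
  obtain ⟨hd0, c, ψ, hcψ⟩ := hd J' hind'
  have hdP0 : ((d J' : ℕ) : ZMod P) ≠ 0 := by
    rw [Ne, ZMod.natCast_eq_zero_iff]
    intro h
    exact absurd (Nat.le_of_dvd (Nat.pos_of_ne_zero hd0) h) (by omega)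
  -- the residue map
  let φ : Row P m →+ (J → ZMod P) :=
    { toFun := fun r g => res r (g : Pt m)
      map_zero' := by funext g; simp [res]
      map_add' := by
        intro r r'
        funext g
        simp only [res, Prod.fst_add, Prod.snd_add, Pi.add_apply, add_mul, Finset.sum_add_distrib]
        ring }
  have hmem : ∀ g : J, (g : Pt m) - g0 ∈ J' := fun g => Finset.mem_image_of_mem _ g.2
  have hsurj : Function.Surjective φ := by
    intro t
    set ψt : Fin m → ZMod P := fun j => ∑ g : J, (t g * ((d J' : ℕ) : ZMod P)⁻¹) *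
      (ψ ⟨_, hmem g⟩ j : ZMod P) with hψt
    refine ⟨(∑ g : J, (t g * ((d J' : ℕ) : ZMod P)⁻¹) * (c ⟨_, hmem g⟩ : ZMod P) -
      ∑ j, ψt j * (g0 j : ZMod P), ψt), ?_⟩
    funext g1
    change res _ (g1 : Pt m) = t g1
    have h1 : ∀ g : J, (c ⟨_, hmem g⟩ : ZMod P) + ∑ j, (ψ ⟨_, hmem g⟩ j : ZMod P) *
        (((g1 : Pt m) j : ZMod P) - (g0 j : ZMod P)) = if g = g1 then ((d J' : ℕ) : ZMod P) else 0 := by
      intro g
      have := congrArg (fun z : ℤ => (z : ZMod P)) (hcψ ⟨_, hmem g⟩ ⟨_, hmem g1⟩)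
      simp only [Pi.sub_apply] at this
      push_cast at this
      rw [this]
      have h2 : ((⟨_, hmem g⟩ : J') = ⟨_, hmem g1⟩) ↔ g = g1 := by
        rw [Subtype.mk.injEq, sub_left_inj, Subtype.ext_iff]
      by_cases h3 : g = g1
      · rw [if_pos h3, if_pos (h2.2 h3)]
      · rw [if_neg h3, if_neg (fun h => h3 (h2.1 h))]
    calc res _ (g1 : Pt m)
        = ∑ g : J, (t g * ((d J' : ℕ) : ZMod P)⁻¹) * ((c ⟨_, hmem g⟩ : ZMod P) +
            ∑ j, (ψ ⟨_, hmem g⟩ j : ZMod P) *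
              (((g1 : Pt m) j : ZMod P) - (g0 j : ZMod P))) := by
          simp only [res, mul_add, Finset.sum_add_distrib]
          have h4 : ∑ g : J, (t g * ((d J' : ℕ) : ZMod P)⁻¹) * ∑ j, (ψ ⟨_, hmem g⟩ j : ZMod P) *
              (((g1 : Pt m) j : ZMod P) - (g0 j : ZMod P)) =
              ∑ j, ψt j * (((g1 : Pt m) j : ZMod P) - (g0 j : ZMod P)) := by
            simp only [hψt, Finset.mul_sum, Finset.sum_mul]
            rw [Finset.sum_comm]
            refine Finset.sum_congr rfl fun j _ => Finset.sum_congr rfl fun g _ => ?_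
            ring
          rw [h4]
          simp only [mul_sub, Finset.sum_sub_distrib]
          ring
      _ = ∑ g : J, (t g * ((d J' : ℕ) : ZMod P)⁻¹) *
            (if g = g1 then ((d J' : ℕ) : ZMod P) else 0) := by
          refine Finset.sum_congr rfl fun g _ => ?_
          rw [h1 g]
      _ = t g1 := by
          simp only [mul_ite, mul_zero, Finset.sum_ite_eq', Finset.mem_univ, if_true]
          rw [mul_assoc, inv_mul_cancel₀ hdP0, mul_one]
  have hfin := expect_comp_surj φ hsurj (fun t : J → ZMod P => ∏ g : J, f g (t g))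
  rw [expect_prod_indep (fun g : J => f g)] at hfin
  rw [← Finset.prod_coe_sort J (fun g => 𝔼 x, f g x), ← hfin]
  refine Finset.expect_congr rfl fun r _ => ?_
  rw [← Finset.prod_coe_sort J (fun g => f g (res r g))]
  rfl

end Crest.Agent.R225
private theorem rz_4ecdcbe775 : type_of% @_root_.Crest.Agent.R225.B012.fn.eq_1 := @_root_.Crest.Agent.R225.B012.fn.eq_1 -- L51
private theorem rz_431a72ae33 : type_of% @_root_.Crest.Agent.R225.B012.ic.eq_1 := @_root_.Crest.Agent.R225.B012.ic.eq_1 -- L56
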