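import Crest.Agent.R225.Iface
import Crest.Agent.R225.EarSurv

-- ▼ part R225/G12
section

/-!
# Row 225: nodes G1, G2 (linear algebra of bounded affine relations)
-/

set_option autoImplicit false

open Finset
open scoped BigOperators

namespace Crest.Agent.R225

lemma BRel.mono_left {m : ℕ} {Z Z' : Finset (Pt m)} {B : ℝ} {h : Pt m → ℤ} (hZ : Z ⊆ Z')
    (H : BRel Z B h) : BRel Z' B h := by
  obtain ⟨⟨h1, h2, h3⟩, h4⟩ := H
  refine ⟨⟨fun g hg => h1 g fun hg' => hg (hZ hg'), ?_, ?_⟩, h4⟩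
  · rw [← h2]
    exact (Finset.sum_subset hZ fun g _ hg => h1 g hg).symm
  · rw [← h3]
    exact (Finset.sum_subset hZ fun g _ hg => by rw [h1 g hg, zero_smul]).symm

lemma BRel.mono_right {m : ℕ} {Z : Finset (Pt m)} {B B' : ℝ} {h : Pt m → ℤ} (hB : B ≤ B')
    (H : BRel Z B h) : BRel Z B' h := ⟨H.1, fun g => (H.2 g).trans hB⟩

lemma ARel.erase_of_eq_zero {m : ℕ} {Z : Finset (Pt m)} {z : Pt m} {h : Pt m → ℤ}
    (H : ARel Z h) (hz : h z = 0) : ARel (Z.erase z) h := by
  obtain ⟨h1, h2, h3⟩ := H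
  refine ⟨fun g hg => ?_, ?_, ?_⟩
  · by_cases hgz : g = z
    · rw [hgz, hz]
    · exact h1 g fun hg' => hg (Finset.mem_erase.2 ⟨hgz, hg'⟩)
  · rw [← h2]
    exact Finset.sum_erase _ hz
  · rw [← h3]
    exact Finset.sum_erase _ (by rw [hz, zero_smul])

lemma ARel.comb {m : ℕ} {Z : Finset (Pt m)} {h h' : Pt m → ℤ} (H : ARel Z h) (H' : ARel Z h')
    (a b : ℤ) : ARel Z (fun g => h g * a - h' g * b) := by
  obtain ⟨h1, h2, h3⟩ := H
  obtain ⟨h1', h2', h3'⟩ := H'
  refine ⟨fun g hg => by simp only [h1 g hg, h1' g hg, zero_mul, sub_zero], ?_, ?_⟩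
  · rw [Finset.sum_sub_distrib, ← Finset.sum_mul, ← Finset.sum_mul, h2, h2']
    simp
  · have : ∀ g ∈ Z, (h g * a - h' g * b) • g = a • (h g • g) - b • (h' g • g) := fun g _ => by
      rw [sub_smul, mul_comm (h g), mul_comm (h' g), mul_smul, mul_smul]
    rw [Finset.sum_congr rfl this, Finset.sum_sub_distrib, ← Finset.smul_sum, ← Finset.smul_sum,
      h3, h3']
    simp

theorem prf_G1 : S_G1 := by
  intro m k Z B z hB hz H
  obtain ⟨v, hv, hli⟩ := H
  have hB2 : B ≤ 2 * B ^ 2 := by nlinarith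
  by_cases h0 : ∃ l0, v l0 z ≠ 0
  · obtain ⟨l0, hl0⟩ := h0
    refine ⟨fun l g => v (l0.succAbove l) g * v l0 z - v l0 g * v (l0.succAbove l) z,
      fun l => ⟨?_, fun g => ?_⟩, ?_⟩
    · refine ARel.erase_of_eq_zero ((hv _).1.comb (hv _).1 _ _) ?_
      show v (l0.succAbove l) z * v l0 z - v l0 z * v (l0.succAbove l) z = 0
      ring
    · have e1 := (hv (l0.succAbove l)).2 g
      have e2 := (hv l0).2 z
      have e3 := (hv l0).2 g
      have e4 := (hv (l0.succAbove l)).2 z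
      push_cast
      have hB0 : 0 ≤ B := by linarith
      have f1 : |(v (l0.succAbove l) g : ℝ) * v l0 z| ≤ B * B := by
        rw [abs_mul]; exact mul_le_mul e1 e2 (abs_nonneg _) hB0
      have f2 : |(v l0 g : ℝ) * v (l0.succAbove l) z| ≤ B * B := by
        rw [abs_mul]; exact mul_le_mul e3 e4 (abs_nonneg _) hB0
      calc |(v (l0.succAbove l) g : ℝ) * v l0 z - v l0 g * v (l0.succAbove l) z|
          ≤ |(v (l0.succAbove l) g : ℝ) * v l0 z| + |(v l0 g : ℝ) * v (l0.succAbove l) z| :=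
            abs_sub _ _
        _ ≤ 2 * B ^ 2 := by nlinarith
    · rw [Fintype.linearIndependent_iff] at hli ⊢
      intro c hc
      have key := hli (l0.insertNth (-∑ l, c l * (v (l0.succAbove l) z : ℚ))
        (fun l => c l * (v l0 z : ℚ))) (by
          rw [Fin.sum_univ_succAbove _ l0]
          simp only [Fin.insertNth_apply_same, Fin.insertNth_apply_succAbove]
          funext g
          have hg := congrFun hc g
          simp only [Finset.sum_apply, Pi.smul_apply, smul_eq_mul, Pi.zero_apply,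
            Pi.add_apply] at hg ⊢
          rw [← hg, neg_mul, Finset.sum_mul, neg_add_eq_sub, ← Finset.sum_sub_distrib]
          refine Finset.sum_congr rfl fun l _ => ?_
          push_cast
          ring)
      intro l
      have h1 := key (l0.succAbove l)
      rw [Fin.insertNth_apply_succAbove] at h1
      rcases mul_eq_zero.1 h1 with h2 | h2
      · exact h2
      · exact absurd (by exact_mod_cast h2) hl0
  · push Not at h0
    refine ⟨fun l => v l.castSucc, fun l => ⟨ARel.erase_of_eq_zero (hv _).1 (h0 _), fun g =>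
      ((hv _).2 g).trans hB2⟩, ?_⟩
    exact hli.comp _ (Fin.castSucc_injective k)

lemma RkGe.succ_of_erase {m : ℕ} {Z : Finset (Pt m)} {B : ℝ} {k : ℕ} {z : Pt m}
    {h : Pt m → ℤ} (H : RkGe (Z.erase z) B k) (hh : BRel Z B h) (hz : h z ≠ 0) :
    RkGe Z B (k + 1) := by
  obtain ⟨v, hv, hli⟩ := H
  refine ⟨Fin.cons h v, fun l => ?_, ?_⟩
  · refine Fin.cases ?_ (fun l => ?_) l
    · simpa using hh
    · simpa using (hv l).mono_left (Finset.erase_subset z Z)
  · rw [Fintype.linearIndependent_iff] at hli ⊢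
    intro c hc
    rw [Fin.sum_univ_succ] at hc
    simp only [Fin.cons_zero, Fin.cons_succ] at hc
    have hc0 : c 0 = 0 := by
      have := congrFun hc z
      simp only [Finset.sum_apply, Pi.smul_apply, smul_eq_mul, Pi.zero_apply, Pi.add_apply] at this
      have hv0 : ∀ l : Fin k, v l z = 0 := fun l => (hv l).1.1 z (Finset.notMem_erase z Z)
      simp only [hv0, Int.cast_zero, mul_zero, Finset.sum_const_zero, add_zero] at this
      rcases mul_eq_zero.1 this with h2 | h2
      · exact h2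
      · exact absurd (by exact_mod_cast h2) hz
    rw [hc0, zero_smul, zero_add] at hc
    intro l
    refine Fin.cases hc0 (fun l => ?_) l
    exact hli (fun l => c l.succ) hc l

theorem prf_G2 : S_G2 := by
  intro m k Z B
  induction k generalizing Z with
  | zero =>
    intro hk
    refine ⟨Z, Finset.Subset.refl _, by simp, fun h hh => ?_⟩
    by_contra hne
    refine hk ?_
    obtain ⟨z, hz⟩ : ∃ z, h z ≠ 0 := by
      by_contra hcon
      push Not at hcon
      exact hne (funext hcon)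
    refine RkGe.succ_of_erase (z := z) ⟨fun l => Fin.elim0 l, fun l => Fin.elim0 l, ?_⟩ hh hz
    exact linearIndependent_empty_type
  | succ k ih =>
    intro hk
    by_cases hne : ∀ h, BRel Z B h → h = 0
    · exact ⟨Z, Finset.Subset.refl _, by omega, hne⟩
    · push Not at hne
      obtain ⟨h, hh, hne⟩ := hne
      obtain ⟨z, hz⟩ : ∃ z, h z ≠ 0 := by
        by_contra hcon
        push Not at hcon
        exact hne (funext hcon)
      have hzZ : z ∈ Z := by
        by_contra hcon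
        exact hz (hh.1.1 z hcon)
      obtain ⟨Z0, hZ0, hcard, hrel⟩ := ih (Z.erase z) fun H => hk (H.succ_of_erase hh hz)
      refine ⟨Z0, hZ0.trans (Finset.erase_subset _ _), ?_, hrel⟩
      have := Finset.card_erase_add_one hzZ
      omega

end Crest.Agent.R225
end

-- ▼ part R225/HRCa
section

/-!
# Row 225, node HRC, part a: counting sets with many disjoint column bases
-/

set_option autoImplicit false

open Finset
open scoped BigOperators Nat

namespace Crest.Agent.R225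

/-- `Z` carries `d` relations of height `≤ B` whose columns contain `2q` disjoint bases. -/
def BadCols {m : ℕ} (q d : ℕ) (B : ℝ) (Z : Finset (Pt m)) : Prop :=
  ∃ v : Fin d → Pt m → ℤ, (∀ l, BRel Z B (v l)) ∧
    ∃ e : Fin (2 * q) × Fin d → Pt m, Function.Injective e ∧ (∀ p, e p ∈ Z) ∧
      ∀ t, (Matrix.of fun l j : Fin d => v l (e (t, j))).det ≠ 0

open scoped Classical in
/-- every `k`-set has `k!` enumerations -/
lemma card_mul_factorial_le {α : Type*} [DecidableEq α] (k : ℕ) (W : Finset α)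
    (p : Finset α → Prop) :
    ((W.powersetCard k).filter p).card * k ! ≤
      ((Fintype.piFinset fun _ : Fin k => W).filter fun z =>
        Function.Injective z ∧ p (univ.image z)).card := by
  set T := (Fintype.piFinset fun _ : Fin k => W).filter fun z =>
        Function.Injective z ∧ p (univ.image z) with hT
  have hmap : ∀ z ∈ T, univ.image z ∈ (W.powersetCard k).filter p := by
    intro z hz
    rw [hT, mem_filter, Fintype.mem_piFinset] at hz
    rw [mem_filter, mem_powersetCard]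
    refine ⟨⟨?_, ?_⟩, hz.2.2⟩
    · intro x hx
      obtain ⟨i, _, rfl⟩ := mem_image.1 hx
      exact hz.1 i
    · rw [card_image_of_injective _ hz.2.1, card_univ, Fintype.card_fin]
  rw [card_eq_sum_card_fiberwise (f := fun z => univ.image z) (t := (W.powersetCard k).filter p)
    (s := T) (fun z hz => hmap z hz), ← smul_eq_mul, ← sum_const]
  refine sum_le_sum fun Z hZ => ?_
  rw [mem_filter, mem_powersetCard] at hZ
  obtain ⟨⟨hZW, hZk⟩, hpZ⟩ := hZ
  have e0 : Fin k ≃ Z := (finCongr hZk.symm).trans Z.equivFin.symm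
  have hc : Fintype.card (Fin k ≃ Z) = k ! := by
    rw [Fintype.card_equiv e0, Fintype.card_fin]
  rw [← hc, ← card_univ]
  refine card_le_card_of_injOn (fun e i => ((e i : Z) : α)) ?_ ?_
  · intro e _
    have himg : univ.image (fun i => ((e i : Z) : α)) = Z := by
      ext x
      simp only [mem_image, mem_univ, true_and]
      constructor
      · rintro ⟨i, rfl⟩; exact (e i).2
      · intro hx; exact ⟨e.symm ⟨x, hx⟩, by simp⟩
    simp only [coe_filter, hT, mem_filter, Fintype.mem_piFinset, Set.mem_ofPred_eq]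
    refine ⟨⟨fun i => hZW (e i).2, fun i j hij => e.injective (Subtype.ext hij), ?_⟩, himg⟩
    rw [himg]; exact hpZ
  · intro e _ e' _ hee
    ext i
    exact congrFun hee i

open scoped Classical in
theorem count_badCols (hE3 : S_E3) (m k q d : ℕ) (W : Finset (Pt m)) (B : ℝ) :
    ((W.powersetCard k).filter fun Z => BadCols q d B Z).card * k ! ≤
      (2 * ⌊B⌋₊ + 1) ^ (d * k) * (W.card ^ (k - 2 * q * d) * En q W ^ d) := by
  refine (card_mul_factorial_le k W _).trans ?_
  set Hs : Finset (Fin d → Fin k → ℤ) := Fintype.piFinset fun _ => Fintype.piFinset fun _ =>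
    Finset.Icc (-(⌊B⌋₊ : ℤ)) ⌊B⌋₊ with hHs
  have hHcard : Hs.card = (2 * ⌊B⌋₊ + 1) ^ (d * k) := by
    rw [hHs, Fintype.card_piFinset]
    simp only [Fintype.card_piFinset, prod_const, card_univ, Fintype.card_fin, Int.card_Icc]
    rw [← pow_mul, mul_comm k d]
    congr 1
    omega
  have hsub : ((Fintype.piFinset fun _ : Fin k => W).filter fun z =>
        Function.Injective z ∧ BadCols q d B (univ.image z)) ⊆
      (Hs.filter fun H => ∃ e : Fin (2 * q) × Fin d → Fin k, Function.Injective e ∧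
        ∀ t, (Matrix.of fun l j : Fin d => H l (e (t, j))).det ≠ 0).biUnion fun H =>
        (Fintype.piFinset fun _ : Fin k => W).filter fun z => ∀ l, ∑ i, H l i • z i = 0 := by
    intro z hz
    rw [mem_filter] at hz
    obtain ⟨hzW, hinj, v, hv, e, he, heZ, hdet⟩ := hz
    rw [mem_biUnion]
    refine ⟨fun l i => v l (z i), ?_, ?_⟩
    · rw [mem_filter]
      constructor
      · rw [hHs, Fintype.mem_piFinset]
        intro l
        rw [Fintype.mem_piFinset]
        intro i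
        have h1 := (hv l).2 (z i)
        rw [mem_Icc]
        have h2 : (|v l (z i)| : ℤ) ≤ (⌊B⌋₊ : ℤ) := by
          have h3 : ((|v l (z i)|).toNat : ℝ) ≤ B := by
            have : ((|v l (z i)|).toNat : ℤ) = |v l (z i)| := Int.toNat_of_nonneg (abs_nonneg _)
            have h4 : (((|v l (z i)|).toNat : ℤ) : ℝ) = ((|v l (z i)| : ℤ) : ℝ) := by rw [this]
            rw [Int.cast_natCast] at h4
            rw [h4, Int.cast_abs]
            exact h1
          have h5 := Nat.le_floor h3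
          have : ((|v l (z i)|).toNat : ℤ) = |v l (z i)| := Int.toNat_of_nonneg (abs_nonneg _)
          rw [← this]
          exact_mod_cast h5
        exact abs_le.1 h2
      · have hidx : ∀ p, ∃ i, z i = e p := fun p => by
          obtain ⟨i, _, hi⟩ := mem_image.1 (heZ p)
          exact ⟨i, hi⟩
        choose f hf using hidx
        refine ⟨f, fun p p' hpp => he ?_, fun t => ?_⟩
        · rw [← hf p, ← hf p', hpp]
        · have : (Matrix.of fun l j : Fin d => v l (z (f (t, j)))) =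
              Matrix.of fun l j : Fin d => v l (e (t, j)) := by
            ext l j
            simp only [Matrix.of_apply, hf]
          rw [this]
          exact hdet t
    · rw [mem_filter]
      refine ⟨hzW, fun l => ?_⟩
      have h3 := (hv l).1.2.2
      rw [sum_image fun i _ j _ hij => hinj hij] at h3
      exact h3
  calc _ ≤ _ := card_le_card hsub
    _ ≤ (Hs.filter fun H => ∃ e : Fin (2 * q) × Fin d → Fin k, Function.Injective e ∧
        ∀ t, (Matrix.of fun l j : Fin d => H l (e (t, j))).det ≠ 0).card *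
          (W.card ^ (k - 2 * q * d) * En q W ^ d) := by
        refine card_biUnion_le_card_mul _ _ _ fun H hH => ?_
        rw [mem_filter] at hH
        obtain ⟨_, e, he, hdet⟩ := hH
        exact hE3 m k q d W H e he hdet
    _ ≤ _ := by
        refine Nat.mul_le_mul_right _ ?_
        rw [← hHcard]
        exact card_filter_le _ _

lemma ARel.filter_ne {m : ℕ} {Z : Finset (Pt m)} {h : Pt m → ℤ} (H : ARel Z h) :
    ARel (Z.filter fun g => h g ≠ 0) h := by
  obtain ⟨h1, h2, h3⟩ := H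
  refine ⟨fun g hg => ?_, ?_, ?_⟩
  · by_contra hne
    have hgZ : g ∈ Z := by
      by_contra hgZ
      exact hne (h1 g hgZ)
    exact hg (mem_filter.2 ⟨hgZ, hne⟩)
  · refine (sum_subset (filter_subset _ _) fun g hg hg' => ?_).trans h2
    by_contra hne
    exact hg' (mem_filter.2 ⟨hg, hne⟩)
  · refine (sum_subset (filter_subset _ _) fun g hg hg' => ?_).trans h3
    by_contra hne
    refine hg' (mem_filter.2 ⟨hg, fun h0 => hne ?_⟩)
    rw [h0, zero_smul]



end Crest.Agent.R225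
end

-- ▼ part R225/B5B
section

/-!
# Row 225, node B5, part b: structure of sets carrying `d` independent relations (helper413)
-/

set_option autoImplicit false

open Finset
open scoped BigOperators

namespace Crest.Agent.R225

namespace B5B

variable {m : ℕ}

/-- an integer relation is a rational linear relation between the vectors `aff g` -/
lemma ARel.sum_aff {Z : Finset (Pt m)} {h : Pt m → ℤ} (H : ARel Z h) :
    ∑ g ∈ Z, ((h g : ℤ) : ℚ) • aff g = 0 := by
  obtain ⟨_, h2, h3⟩ := H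
  refine Prod.ext ?_ ?_
  · rw [Prod.fst_sum]
    funext k
    rw [Finset.sum_apply]
    have := congrFun h3 k
    rw [Finset.sum_apply] at this
    simp only [aff, Prod.smul_mk, Pi.smul_apply, smul_eq_mul, Prod.fst_zero, Pi.zero_apply] at this ⊢
    exact_mod_cast this
  · rw [Prod.snd_sum]
    simp only [aff, Prod.smul_mk, smul_eq_mul, mul_one, Prod.snd_zero]
    exact_mod_cast h2

/-- a relation supported on an affinely independent set vanishes -/
lemma ARel.eq_zero_of_indep {Z J : Finset (Pt m)} {h : Pt m → ℤ} (H : ARel Z h)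
    (hJ : LinearIndepOn ℚ aff (J : Set (Pt m))) (hJZ : J ⊆ Z) (hs : ∀ g ∈ Z, g ∉ J → h g = 0) :
    h = 0 := by
  classical
  have h1 := ARel.sum_aff H
  have h2 : ∑ g ∈ J, ((h g : ℤ) : ℚ) • aff g = 0 := by
    rw [← h1]
    refine sum_subset hJZ fun g hg hg' => ?_
    rw [hs g hg hg']; simp
  rw [linearIndepOn_finset_iff] at hJ
  have h3 := hJ (fun g => ((h g : ℤ) : ℚ)) h2
  funext g
  by_cases hg : g ∈ J
  · have := h3 g hg
    exact_mod_cast this
  · by_cases hgZ : g ∈ Z
    · exact hs g hgZ hg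
    · exact H.1 g hgZ

/-- Structure of a set carrying `d` independent relations. -/
theorem exists_basis (hB2 : S_B2) {d rX : ℕ} {Z : Finset (Pt m)} {g0 : Pt m}
    (hbox : ∀ g ∈ Z, ∀ k, |g k - g0 k| ≤ rX) (hrk : RkGeInf Z d) :
    ∃ Z1 ⊆ Z, ∃ J ⊆ Z1, LinearIndepOn ℚ aff (J : Set (Pt m)) ∧ Z1.card = J.card + d ∧
      ∃ v : Fin d → Pt m → ℤ, (∀ l, BRel Z1 ((Z1.card * (rX + 1) : ℝ) ^ Z1.card) (v l)) ∧
        LinearIndependent ℚ (fun l : Fin d => fun g : Pt m => ((v l g : ℤ) : ℚ)) := by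
  classical
  -- a maximal affinely independent subset
  obtain ⟨J', hJ'Z, -, hspan, hJ'⟩ := exists_linearIndepOn_extension
    (K := ℚ) (v := (aff : Pt m → _)) (s := (∅ : Set (Pt m))) (t := (Z : Set (Pt m)))
    (linearIndepOn_empty ℚ _) (Set.empty_subset _)
  have hfin : J'.Finite := Z.finite_toSet.subset hJ'Z
  set J : Finset (Pt m) := hfin.toFinset with hJdef
  have hJc : (J : Set (Pt m)) = J' := by rw [hJdef]; simp
  have hJZ : J ⊆ Z := by
    intro g hg
    have : g ∈ (J : Set (Pt m)) := hg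
    rw [hJc] at this
    exact hJ'Z this
  have hJ : LinearIndepOn ℚ aff (J : Set (Pt m)) := by rw [hJc]; exact hJ'
  -- dependent extensions
  have hdep : ∀ z ∈ Z, z ∉ J → ¬ LinearIndepOn ℚ aff ((insert z J : Finset (Pt m)) : Set (Pt m)) := by
    intro z hz hzJ hcon
    rw [coe_insert, linearIndepOn_insert (by simpa using hzJ)] at hcon
    refine hcon.2 ?_
    rw [hJc]
    exact hspan ⟨z, hz, rfl⟩
  -- at least `d` further points
  obtain ⟨u, hu, huli⟩ := hrk
  have hd : d ≤ (Z \ J).card := by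
    have hli : LinearIndependent ℚ (fun l : Fin d => fun g : (Z \ J : Finset (Pt m)) =>
        ((u l g : ℤ) : ℚ)) := by
      rw [Fintype.linearIndependent_iff] at huli ⊢
      intro c hc
      refine huli c ?_
      -- clear denominators: an integer multiple
      have hc' : ∀ g ∈ Z, g ∉ J → ∑ l, c l * ((u l g : ℤ) : ℚ) = 0 := by
        intro g hg hgJ
        have := congrFun hc ⟨g, mem_sdiff.2 ⟨hg, hgJ⟩⟩
        simpa [Finset.sum_apply] using this
      have hsum : ∑ g ∈ J, (∑ l, c l * ((u l g : ℤ) : ℚ)) • aff g = 0 := by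
        have h1 : ∑ g ∈ Z, (∑ l, c l * ((u l g : ℤ) : ℚ)) • aff g = 0 := by
          simp only [sum_smul, mul_smul]
          rw [sum_comm]
          refine sum_eq_zero fun l _ => ?_
          rw [← smul_sum, ARel.sum_aff (hu l), smul_zero]
        rw [← h1]
        refine sum_subset hJZ fun g hg hg' => ?_
        rw [hc' g hg hg', zero_smul]
      rw [linearIndepOn_finset_iff] at hJ
      have h3 := hJ _ hsum
      funext g
      simp only [Finset.sum_apply, Pi.smul_apply, smul_eq_mul, Pi.zero_apply]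
      by_cases hg : g ∈ J
      · exact h3 g hg
      · by_cases hgZ : g ∈ Z
        · exact hc' g hgZ hg
        · refine sum_eq_zero fun l _ => ?_
          rw [(hu l).1 g hgZ]; simp
    have := hli.fintype_card_le_finrank
    simpa using this
  obtain ⟨T, hT, hTc⟩ := exists_subset_card_eq hd
  have hTZ : T ⊆ Z := hT.trans sdiff_subset
  have hTJ : Disjoint J T := by
    rw [disjoint_right]
    intro g hg
    exact (mem_sdiff.1 (hT hg)).2
  have hZ1 : J ∪ T ⊆ Z := union_subset hJZ hTZ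
  have hcard : (J ∪ T).card = J.card + d := by rw [card_union_of_disjoint hTJ, hTc]
  refine ⟨J ∪ T, hZ1, J, subset_union_left, hJ, hcard, ?_⟩
  -- enumerate `T`
  set e : Fin d ≃ T := (finCongr hTc.symm).trans T.equivFin.symm with he
  have heT : ∀ l, ((e l : T) : Pt m) ∈ T := fun l => (e l).2
  have heZ : ∀ l, ((e l : T) : Pt m) ∈ Z := fun l => hTZ (heT l)
  have heJ : ∀ l, ((e l : T) : Pt m) ∉ J := fun l => (mem_sdiff.1 (hT (heT l))).2
  have hex : ∀ l : Fin d, ∃ h, h ≠ 0 ∧ BRel (insert ((e l : T) : Pt m) J)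
      (((insert ((e l : T) : Pt m) J).card * (rX + 1) : ℝ) ^
        (insert ((e l : T) : Pt m) J).card) h := by
    intro l
    refine hB2 m rX _ g0 ?_ (hdep _ (heZ l) (heJ l))
    intro g hg
    rw [mem_insert] at hg
    rcases hg with rfl | hg
    · exact hbox _ (heZ l)
    · exact hbox _ (hJZ hg)
  choose v hv0 hv using hex
  have hvz : ∀ l, v l ((e l : T) : Pt m) ≠ 0 := by
    intro l hz
    refine hv0 l (ARel.eq_zero_of_indep (hv l).1 hJ (subset_insert _ _) fun g hg hgJ => ?_)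
    rw [mem_insert] at hg
    rcases hg with rfl | hg
    · exact hz
    · exact absurd hg hgJ
  have hvn : ∀ l l', l ≠ l' → v l ((e l' : T) : Pt m) = 0 := by
    intro l l' hll
    refine (hv l).1.1 _ ?_
    rw [mem_insert]
    rintro (h | h)
    · exact hll (e.injective (Subtype.ext h)).symm
    · exact heJ l' h
  refine ⟨v, fun l => ?_, ?_⟩
  · have hsub : insert ((e l : T) : Pt m) J ⊆ J ∪ T := by
      intro g hg
      rw [mem_insert] at hg
      rw [mem_union]
      rcases hg with rfl | hg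
      · exact Or.inr (heT l)
      · exact Or.inl hg
    refine ((hv l).mono_left hsub).mono_right ?_
    have hc1 : (insert ((e l : T) : Pt m) J).card ≤ (J ∪ T).card := card_le_card hsub
    have hc0 : 1 ≤ (insert ((e l : T) : Pt m) J).card :=
      card_pos.2 ⟨_, mem_insert_self _ _⟩
    have hc1' : ((insert ((e l : T) : Pt m) J).card : ℝ) ≤ ((J ∪ T).card : ℝ) := by
      exact_mod_cast hc1
    have hc0' : (1 : ℝ) ≤ ((insert ((e l : T) : Pt m) J).card : ℝ) := by exact_mod_cast hc0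
    have hr : (1 : ℝ) ≤ rX + 1 := by
      have : (0 : ℝ) ≤ rX := Nat.cast_nonneg _
      linarith
    calc _ ≤ ((J ∪ T).card * (rX + 1) : ℝ) ^ (insert ((e l : T) : Pt m) J).card :=
          pow_le_pow_left₀ (by positivity) (mul_le_mul_of_nonneg_right hc1' (by linarith)) _
      _ ≤ _ := pow_le_pow_right₀ (by nlinarith) hc1
  · rw [Fintype.linearIndependent_iff]
    intro c hc l
    have := congrFun hc ((e l : T) : Pt m)
    simp only [Finset.sum_apply, Pi.smul_apply, smul_eq_mul, Pi.zero_apply] at this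
    rw [sum_eq_single l] at this
    · rcases mul_eq_zero.1 this with h | h
      · exact h
      · exact absurd (by exact_mod_cast h) (hvz l)
    · intro l' _ hl'
      rw [hvn l' l hl']; simp
    · intro h; exact absurd (mem_univ l) h

/-- A clean set containing `d` independent relations contains a set with many disjoint column
bases and an affinely independent subset of codimension `d`. -/
theorem exists_badCols (hB2 : S_B2) (hG3 : S_G3) {d q rX : ℕ} {W Z : Finset (Pt m)} {g0 : Pt m}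
    {s : ℝ} (hd : 1 ≤ d) (hbox : ∀ g ∈ W, ∀ k, |g k - g0 k| ≤ rX) (hZW : Z ⊆ W)
    (hclean : NoRelInf W s) (hs : ((2 * q * d : ℕ) : ℝ) ≤ s) (hrk : RkGeInf Z d) :
    ∃ Z1 ⊆ Z, ∃ J ⊆ Z1, LinearIndepOn ℚ aff (J : Set (Pt m)) ∧ Z1.card = J.card + d ∧
      BadCols q d ((Z1.card * (rX + 1) : ℝ) ^ Z1.card) Z1 := by
  classical
  obtain ⟨Z1, hZ1, J, hJ, hJi, hc, v, hv, hli⟩ :=
    exists_basis hB2 (fun g hg => hbox g (hZW hg)) hrk
  refine ⟨Z1, hZ1, J, hJ, hJi, hc, ?_⟩
  have hc1 : (1 : ℝ) ≤ Z1.card := by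
    have : 1 ≤ Z1.card := by omega
    exact_mod_cast this
  have hr : (1 : ℝ) ≤ rX + 1 := by
    have : (0 : ℝ) ≤ rX := Nat.cast_nonneg _
    linarith
  have hB1 : (1 : ℝ) ≤ (Z1.card * (rX + 1) : ℝ) ^ Z1.card := one_le_pow₀ (by nlinarith)
  rcases hG3 m d (2 * q) Z1 _ v hd hB1 hv hli with ⟨e, he, heZ, hdet⟩ | ⟨h, hne, hrel, hsup⟩
  · exact ⟨v, hv, e, he, heZ, hdet⟩
  · exfalso
    refine hne (hclean (Z1.filter fun g => h g ≠ 0) ((filter_subset _ _).trans (hZ1.trans hZW)) ?_ h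
      hrel.1.filter_ne)
    refine le_trans ?_ hs
    exact_mod_cast hsup.le

end B5B

end Crest.Agent.R225
end

-- ▼ part R225/EarNum
section

/-!
Row 225 (S0347): shared library for the base nodes B3, B4, B5 (helper565), part 3:
numerical form of the ear count and first moments.
-/

set_option autoImplicit false

open Finset Filter
open scoped BigOperators

namespace Crest.Agent.R225
namespace Ear

/-- `(2 hb + 1)^k ≤ exp (20 k² log n)` -/
lemma hb_pow_le {n k : ℕ} (hn : 2 ≤ n) (hk : k ≤ n) :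
    (2 * (hb (n ^ 16) k : ℝ) + 1) ^ k ≤ Real.exp (20 * (k : ℝ) ^ 2 * Real.log n) := by
  have hn2 : (2 : ℝ) ≤ n := by exact_mod_cast hn
  have hnpos : (0 : ℝ) < n := by linarith
  rcases Nat.eq_zero_or_pos k with rfl | hk0
  · simp
  have hkn : (k : ℝ) ≤ n := by exact_mod_cast hk
  have h1 : (hb (n ^ 16) k : ℝ) ≤ ((n : ℝ) ^ 18) ^ k := by
    unfold hb
    push_cast
    gcongr
    have h2 : (1 : ℝ) ≤ (n : ℝ) ^ 16 := one_le_pow₀ (by linarith)
    calc (k : ℝ) * ((n : ℝ) ^ 16 + 1) ≤ n * ((n : ℝ) ^ 16 + (n : ℝ) ^ 16) := by gcongr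
      _ = 2 * (n : ℝ) ^ 17 := by ring
      _ ≤ n * (n : ℝ) ^ 17 := by gcongr
      _ = (n : ℝ) ^ 18 := by ring
  have h3 : 2 * (hb (n ^ 16) k : ℝ) + 1 ≤ ((n : ℝ) ^ 20) ^ k := by
    have h4 : (1 : ℝ) ≤ ((n : ℝ) ^ 18) ^ k := one_le_pow₀ (one_le_pow₀ (by linarith))
    have h5 : (3 : ℝ) ≤ ((n : ℝ) ^ 2) ^ k := by
      have h6 : (4 : ℝ) ≤ (n : ℝ) ^ 2 := by nlinarith
      have h7 : (n : ℝ) ^ 2 ≤ ((n : ℝ) ^ 2) ^ k := le_self_pow₀ (by linarith) (by omega)
      linarith
    calc 2 * (hb (n ^ 16) k : ℝ) + 1 ≤ 3 * ((n : ℝ) ^ 18) ^ k := by linarith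
      _ ≤ ((n : ℝ) ^ 2) ^ k * ((n : ℝ) ^ 18) ^ k := by gcongr
      _ = ((n : ℝ) ^ 20) ^ k := by rw [← mul_pow]; congr 1; ring
  calc (2 * (hb (n ^ 16) k : ℝ) + 1) ^ k ≤ (((n : ℝ) ^ 20) ^ k) ^ k := by gcongr
    _ = (n : ℝ) ^ (20 * k ^ 2) := by rw [← pow_mul, ← pow_mul]; congr 1; ring
    _ = Real.exp (20 * (k : ℝ) ^ 2 * Real.log n) := by
        rw [← Real.rpow_natCast, Real.rpow_def_of_pos hnpos]
        congr 1
        push_cast
        ring

lemma isLittleO_aux (a : ℝ) (ha : 0 < a) : ∀ᶠ n : ℕ in atTop,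
    20 * ((n : ℝ) ^ (3 / 10 : ℝ)) ^ 2 * Real.log n ≤ a * n := by
  have h1 : Tendsto (fun x : ℝ => Real.log x / x ^ (4 / 10 : ℝ)) atTop (nhds 0) :=
    (isLittleO_log_rpow_atTop (by norm_num : (0 : ℝ) < 4 / 10)).tendsto_div_nhds_zero
  have h2 : ∀ᶠ x : ℝ in atTop, Real.log x / x ^ (4 / 10 : ℝ) < a / 20 :=
    h1.eventually_lt_const (by positivity)
  have h3 := tendsto_natCast_atTop_atTop (R := ℝ) |>.eventually h2
  filter_upwards [h3, eventually_ge_atTop 1] with n hn hn1
  have hnpos : (0 : ℝ) < n := by exact_mod_cast hn1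
  rw [div_lt_iff₀ (Real.rpow_pos_of_pos hnpos _)] at hn
  have h4 : ((n : ℝ) ^ (3 / 10 : ℝ)) ^ 2 = (n : ℝ) ^ (6 / 10 : ℝ) := by
    rw [← Real.rpow_natCast, ← Real.rpow_mul hnpos.le]
    norm_num
  rw [h4]
  have h5 : (n : ℝ) ^ (6 / 10 : ℝ) * (n : ℝ) ^ (4 / 10 : ℝ) = n := by
    rw [← Real.rpow_add hnpos]
    norm_num
  have h6 : 0 < (n : ℝ) ^ (6 / 10 : ℝ) := Real.rpow_pos_of_pos hnpos _
  calc 20 * (n : ℝ) ^ (6 / 10 : ℝ) * Real.log n
      ≤ 20 * (n : ℝ) ^ (6 / 10 : ℝ) * (a / 20 * (n : ℝ) ^ (4 / 10 : ℝ)) := by gcongr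
    _ = a * ((n : ℝ) ^ (6 / 10 : ℝ) * (n : ℝ) ^ (4 / 10 : ℝ)) := by ring
    _ = a * n := by rw [h5]

/-- numerical facts for ear counts -/
structure EarN (c1 : ℝ) (n : ℕ) : Prop where
  three_le : 3 ≤ n
  small : 20 * ((n : ℝ) ^ (3 / 10 : ℝ)) ^ 2 * Real.log n ≤ c1 / 100 * n

lemma earN (c1 : ℝ) (hc1 : 0 < c1) : ∃ n0 : ℕ, ∀ n ≥ n0, EarN c1 n := by
  obtain ⟨n0, hn0⟩ := eventually_atTop.mp (isLittleO_aux (c1 / 100) (by positivity))
  exact ⟨max n0 3, fun n hn => ⟨(le_max_right _ _).trans hn, hn0 n ((le_max_left _ _).trans hn)⟩⟩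

lemma EarN.le {c1 : ℝ} {n k : ℕ} (h : EarN c1 n) (hk : (k : ℝ) ≤ (n : ℝ) ^ (3 / 10 : ℝ)) :
    (2 * (hb (n ^ 16) k : ℝ) + 1) ^ k ≤ Real.exp (c1 / 100 * n) := by
  have hn3 := h.three_le
  have hn1 : (1 : ℝ) ≤ n := by
    have : 1 ≤ n := by omega
    exact_mod_cast this
  have hkn : k ≤ n := by
    have h1 : (n : ℝ) ^ (3 / 10 : ℝ) ≤ n := by
      calc (n : ℝ) ^ (3 / 10 : ℝ) ≤ (n : ℝ) ^ (1 : ℝ) :=
            Real.rpow_le_rpow_of_exponent_le hn1 (by norm_num)
        _ = n := Real.rpow_one _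
    exact_mod_cast hk.trans h1
  refine (hb_pow_le (by omega) hkn).trans ?_
  apply Real.exp_le_exp.mpr
  refine le_trans ?_ h.small
  have hlog : 0 ≤ Real.log n := Real.log_nonneg hn1
  gcongr



/-! ### first moments -/


end Ear
end Crest.Agent.R225
end

-- ▼ part R225/HP2
section

/-!
# Row 225 (S0347), node HP2 (helper514): averaged energies at level `i` from level `i + t`.
-/

set_option autoImplicit false

open Finset MeasureTheory
open scoped BigOperators ENNReal

namespace Crest.Agent.R225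

namespace HP2

variable {P m : ℕ}

/-! ### Elementary facts on `Ex` -/

theorem Ex_mono [NeZero P] (t : ℕ) (F G : List (Row P m) → ℝ) :
    ∀ rows : List (Row P m), (∀ l : List (Row P m), l.length = t → F (l ++ rows) ≤ G (l ++ rows)) →
      Ex t F rows ≤ Ex t G rows := by
  induction t with
  | zero =>
    intro rows h
    exact h [] rfl
  | succ t ih =>
    intro rows h
    refine Finset.expect_le_expect fun r _ => ih (r :: rows) fun l hl => ?_
    have := h (l ++ [r]) (by simp [hl])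
    simpa using this

theorem Ex_sum [NeZero P] {ι : Type*} (s : Finset ι) (t : ℕ) (F : ι → List (Row P m) → ℝ) :
    ∀ rows : List (Row P m),
      Ex t (fun rows' => ∑ i ∈ s, F i rows') rows = ∑ i ∈ s, Ex t (F i) rows := by
  induction t with
  | zero => intro rows; rfl
  | succ t ih =>
    intro rows
    simp only [Ex]
    simp_rw [ih]
    exact Finset.expect_sum_comm _ _ _

theorem alive_append_subset {w : Pt m → List (ZMod P) → ℝ} [NeZero P] {b : ℕ} {α τ : ℕ → ℝ}
    {ε : ℝ} (hw : WHyp w b α τ ε) (h0 : ∀ j, 0 ≤ τ j * α j) (G : Finset (Pt m)) :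
    ∀ (l rows : List (Row P m)), (l ++ rows).length ≤ b →
      alive w G (l ++ rows) ⊆ alive w G rows := by
  intro l
  induction l with
  | nil => intro rows _; simp
  | cons r l ih =>
    intro rows hl
    have hl' : (l ++ rows).length ≤ b := by simp at hl ⊢; omega
    refine Finset.Subset.trans ?_ (ih rows hl')
    intro g hg
    classical
    simp only [alive, Finset.mem_filter] at hg ⊢
    refine ⟨hg.1, ?_⟩
    have h1 : wt w (r :: l ++ rows) g = w g (res r g :: hist (l ++ rows) g) := rfl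
    have hlen : (hist (l ++ rows) g).length ≤ b := by simpa [hist] using hl'
    have h2 : wt w (l ++ rows) g = w g (hist (l ++ rows) g) := rfl
    rcases hw.rng g (hist (l ++ rows) g) hlen with h | h
    · have := hw.dead g (hist (l ++ rows) g) (res r g) h
      rw [h1, this] at hg
      exact absurd hg.2 (lt_irrefl _)
    · have h3 : 0 ≤ w g (hist (l ++ rows) g) := le_trans (h0 _) h.1
      rcases h3.lt_or_eq with h4 | h4
      · rw [h2]; exact h4
      · have := hw.dead g (hist (l ++ rows) g) (res r g) h4.symm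
        rw [h1, this] at hg
        exact absurd hg.2 (lt_irrefl _)

/-! ### Relation tuples -/

open scoped Classical in
/-- the relation tuples in `W` -/
noncomputable def Tup (k : ℕ) (W : Finset (Pt m)) : Finset ((Fin k → Pt m) × (Fin k → Pt m)) :=
  ((Fintype.piFinset fun _ : Fin k => W) ×ˢ (Fintype.piFinset fun _ : Fin k => W)).filter
    fun p => ∑ i, p.1 i = ∑ i, p.2 i

open scoped Classical in
/-- support of a pair of tuples -/
noncomputable def supp {k : ℕ} (T : (Fin k → Pt m) × (Fin k → Pt m)) : Finset (Pt m) :=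
  univ.image T.1 ∪ univ.image T.2

theorem En_eq (k : ℕ) (W : Finset (Pt m)) : En k W = (Tup k W).card := rfl

theorem supp_subset_iff {k : ℕ} (T : (Fin k → Pt m) × (Fin k → Pt m)) (W : Finset (Pt m)) :
    supp T ⊆ W ↔ (∀ i, T.1 i ∈ W) ∧ ∀ i, T.2 i ∈ W := by
  classical
  simp only [supp, Finset.union_subset_iff, Finset.image_subset_iff, Finset.mem_univ,
    forall_const]

theorem supp_card_le {k : ℕ} (T : (Fin k → Pt m) × (Fin k → Pt m)) : (supp T).card ≤ 2 * k := by
  classical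
  unfold supp
  refine (Finset.card_union_le _ _).trans ?_
  have h1 := Finset.card_image_le (s := (univ : Finset (Fin k))) (f := T.1)
  have h2 := Finset.card_image_le (s := (univ : Finset (Fin k))) (f := T.2)
  simp only [Finset.card_univ, Fintype.card_fin] at h1 h2
  omega

theorem mem_Tup {k : ℕ} {W : Finset (Pt m)} {T : (Fin k → Pt m) × (Fin k → Pt m)} :
    T ∈ Tup k W ↔ supp T ⊆ W ∧ ∑ i, T.1 i = ∑ i, T.2 i := by
  classical
  rw [supp_subset_iff]
  simp [Tup, Finset.mem_filter, Finset.mem_product, Fintype.mem_piFinset]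

theorem Tup_sub {k : ℕ} {W W' : Finset (Pt m)} (h : W' ⊆ W) :
    Tup k W' = (Tup k W).filter (fun T => supp T ⊆ W') := by
  classical
  ext T
  simp only [Finset.mem_filter, mem_Tup]
  constructor
  · rintro ⟨h1, h2⟩; exact ⟨⟨h1.trans h, h2⟩, h1⟩
  · rintro ⟨⟨_, h2⟩, h1⟩; exact ⟨h1, h2⟩

open scoped Classical in
/-- energies of a subset, on an event that only allows supports satisfying `Q`. -/
theorem En_le_sum {k : ℕ} {W W' : Finset (Pt m)} (h : W' ⊆ W) (Q : Finset (Pt m) → Prop)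
    (hQ : ∀ Z ⊆ W', Z.card ≤ 2 * k → Q Z) :
    (En k W' : ℝ) ≤ ∑ T ∈ (Tup k W).filter (fun T => Q (supp T)),
      if supp T ⊆ W' then (1 : ℝ) else 0 := by
  rw [En_eq, Tup_sub h]
  have : ((Tup k W).filter (fun T => supp T ⊆ W')).card =
      (((Tup k W).filter (fun T => Q (supp T))).filter (fun T => supp T ⊆ W')).card := by
    congr 1
    ext T
    simp only [Finset.mem_filter]
    constructor
    · rintro ⟨h1, h2⟩; exact ⟨⟨h1, hQ _ h2 (supp_card_le T)⟩, h2⟩
    · rintro ⟨⟨h1, _⟩, h2⟩; exact ⟨h1, h2⟩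
  rw [this, Finset.sum_ite, Finset.sum_const_zero, add_zero, Finset.sum_const, nsmul_eq_mul,
    mul_one]

/-- one tuple: survival probability -/
theorem surv_one (hG2 : S_G2) {p : ℝ} (hp0 : 0 < p) (hp1 : p ≤ 1) [NeZero P]
    (w : Pt m → List (ZMod P) → ℝ) (G : Finset (Pt m)) (rows : List (Row P m)) (t : ℕ) (B : ℝ)
    (z : ℕ)
    (hS : ∀ Z : Finset (Pt m), Z.card ≤ z → Z ⊆ alive w G rows → (∀ h, BRel Z B h → h = 0) →
      Ex t (fun rows' => by classical exact if Z ⊆ alive w G rows' then (1 : ℝ) else 0) rows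
        ≤ p ^ Z.card)
    (Z : Finset (Pt m)) (hZ : Z.card ≤ z) (hZW : Z ⊆ alive w G rows) (hR : ¬ RkGe Z B 16) :
    Ex t (fun rows' => by classical exact if Z ⊆ alive w G rows' then (1 : ℝ) else 0) rows
        ≤ p ^ Z.card / p ^ 15 := by
  classical
  obtain ⟨Z0, hZ0, hc, hrel⟩ := hG2 m 15 Z B hR
  have h1 := hS Z0 ((Finset.card_le_card hZ0).trans hZ) (hZ0.trans hZW) hrel
  have h2 : Ex t (fun rows' => by classical exact if Z ⊆ alive w G rows' then (1 : ℝ) else 0) rows
      ≤ Ex t (fun rows' => by classical exact if Z0 ⊆ alive w G rows' then (1 : ℝ) else 0) rows := by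
    refine Ex_mono t _ _ rows fun l _ => ?_
    by_cases h : Z ⊆ alive w G (l ++ rows)
    · simp [h, hZ0.trans h]
    · simp only [h, if_false]; split_ifs <;> norm_num
  refine h2.trans (h1.trans ?_)
  rw [le_div_iff₀ (by positivity), ← pow_add]
  exact pow_le_pow_of_le_one hp0.le hp1 hc

/-! ### Monotonicity of energies -/

theorem En_le_relCount (k : ℕ) (W : Finset (Pt m)) :
    En k W ≤ relCount W (Fin.append (fun _ : Fin k => (1 : ℤ)) (fun _ : Fin k => (-1 : ℤ))) 0 := by
  classical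
  rw [En_eq]
  unfold relCount
  refine Finset.card_le_card_of_injOn (fun T => Fin.append T.1 T.2) ?_ ?_
  · intro T hT
    rw [Finset.mem_coe, mem_Tup, supp_subset_iff] at hT
    obtain ⟨⟨h1, h2⟩, h3⟩ := hT
    rw [Finset.mem_coe, Finset.mem_filter, Fintype.mem_piFinset]
    refine ⟨fun i => ?_, ?_⟩
    · refine Fin.addCases (fun i => ?_) (fun i => ?_) i
      · show Fin.append T.1 T.2 _ ∈ W
        rw [Fin.append_left]; exact h1 i
      · show Fin.append T.1 T.2 _ ∈ W
        rw [Fin.append_right]; exact h2 i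
    · rw [Fin.sum_univ_add]
      simp only [Fin.append_left, Fin.append_right, one_smul, neg_smul, Finset.sum_neg_distrib, h3]
      exact add_neg_cancel _
  · intro T _ T' _ h
    have h' : Fin.append T.1 T.2 = Fin.append T'.1 T'.2 := h
    refine Prod.ext ?_ ?_
    · funext i
      have := congrFun h' (Fin.castAdd k i)
      rwa [Fin.append_left, Fin.append_left] at this
    · funext i
      have := congrFun h' (Fin.natAdd k i)
      rwa [Fin.append_right, Fin.append_right] at this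

theorem En_mono (hE1 : S_E1) {k K : ℕ} (hK : K ≤ k) (W : Finset (Pt m)) :
    En k W ≤ W.card ^ (k + k - 2 * K) * En K W := by
  refine (En_le_relCount k W).trans (hE1 m (k + k) K W _ 0 ?_ (by omega))
  intro i
  refine Fin.addCases (fun i => ?_) (fun i => ?_) i
  · rw [Fin.append_left]; norm_num
  · rw [Fin.append_right]; norm_num

open scoped Classical in
/-- the probabilistic core of HP2 -/
theorem core (hG2 : S_G2) {C : ℝ}
    (hThin : ∀ (m q : ℕ) (W : Finset (Pt m)) (p M : ℝ),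
      0 ≤ p → p ≤ 1 → 1 ≤ q → (W.card : ℝ) * p ≤ M → 2 * (q : ℝ) ≤ M →
      ∑ T ∈ ((Fintype.piFinset fun _ : Fin q => W) ×ˢ (Fintype.piFinset fun _ : Fin q => W)).filter
          (fun T => ∑ i, T.1 i = ∑ i, T.2 i),
          p ^ (univ.image T.1 ∪ univ.image T.2).card
        ≤ C ^ q * (p ^ (2 * q) * En q W + ((q : ℝ) * M) ^ q))
    {p : ℝ} (hp0 : 0 < p) (hp1 : p ≤ 1) [NeZero P]
    {w : Pt m → List (ZMod P) → ℝ} {b : ℕ} {α τ : ℕ → ℝ} {ε : ℝ} (hw : WHyp w b α τ ε)
    (h0 : ∀ j, 0 ≤ τ j * α j) (G : Finset (Pt m)) (rows : List (Row P m)) (t : ℕ) (B : ℝ)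
    (hlen : t + rows.length ≤ b) (k : ℕ) (hk : 1 ≤ k) (M : ℝ)
    (hM1 : ((alive w G rows).card : ℝ) * p ≤ M) (hM2 : 2 * (k : ℝ) ≤ M)
    (hS : ∀ Z : Finset (Pt m), Z.card ≤ 2 * k → Z ⊆ alive w G rows →
      (∀ h, BRel Z B h → h = 0) →
      Ex t (fun rows' => if Z ⊆ alive w G rows' then (1 : ℝ) else 0) rows ≤ p ^ Z.card) :
    Ex t (fun rows' => if ∀ Z ⊆ alive w G rows', Z.card ≤ 2 * k →
          ¬ RkGe Z B 16 then (En k (alive w G rows') : ℝ) else 0) rows
      ≤ C ^ k * (p ^ (2 * k) * En k (alive w G rows) + ((k : ℝ) * M) ^ k) / p ^ 15 := by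
  set W := alive w G rows with hW
  have step1 : Ex t (fun rows' => if ∀ Z ⊆ alive w G rows', Z.card ≤ 2 * k →
          ¬ RkGe Z B 16 then (En k (alive w G rows') : ℝ) else 0) rows ≤
      Ex t (fun rows' => ∑ T ∈ (Tup k W).filter (fun T => ¬ RkGe (supp T) B 16),
        if supp T ⊆ alive w G rows' then (1 : ℝ) else 0) rows := by
    refine Ex_mono t _ _ rows fun l hl => ?_
    have hsub : alive w G (l ++ rows) ⊆ W :=
      alive_append_subset hw h0 G l rows (by simp [hl]; omega)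
    by_cases h : ∀ Z ⊆ alive w G (l ++ rows), Z.card ≤ 2 * k → ¬ RkGe Z B 16
    · rw [if_pos h]
      convert En_le_sum hsub (fun Z => ¬ RkGe Z B 16) h
    · rw [if_neg h]
      exact Finset.sum_nonneg fun T _ => by split_ifs <;> norm_num
  refine step1.trans ?_
  rw [Ex_sum]
  have step2 : ∀ T ∈ (Tup k W).filter (fun T => ¬ RkGe (supp T) B 16),
      Ex t (fun rows' => if supp T ⊆ alive w G rows' then (1 : ℝ) else 0) rows ≤
        p ^ (supp T).card / p ^ 15 := by
    intro T hT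
    rw [Finset.mem_filter] at hT
    have := surv_one hG2 hp0 hp1 w G rows t B (2 * k)
      (fun Z h1 h2 h3 => by convert hS Z h1 h2 h3) (supp T) (supp_card_le T)
      ((mem_Tup.1 hT.1).1) hT.2
    convert this
  refine (Finset.sum_le_sum step2).trans ?_
  rw [← Finset.sum_div]
  have hp15 : (0 : ℝ) < p ^ 15 := by positivity
  refine div_le_div_of_nonneg_right ?_ hp15.le
  refine le_trans ?_ (hThin m k W p M hp0.le hp1 hk hM1 hM2)
  refine (Finset.sum_le_sum_of_subset_of_nonneg (Finset.filter_subset _ _) ?_).trans (le_of_eq ?_)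
  · intro T _ _; positivity
  · refine Finset.sum_congr ?_ fun T _ => ?_
    · ext T
      simp [Tup]
    · simp only [supp]

/-! ### Numerics -/

theorem lam_ge_one (X : ℝ) (i : ℕ) : 1 ≤ lam X i := by
  unfold lam; exact Real.one_le_exp (Real.sqrt_nonneg _)

theorem tau_pos (X : ℝ) (i : ℕ) : 0 < tau X i := by
  unfold tau
  refine Finset.prod_pos fun j _ => ?_
  have := lam_ge_one X j
  positivity

theorem tau_le_one (X : ℝ) (i : ℕ) : tau X i ≤ 1 := by
  unfold tau
  refine Finset.prod_le_one (fun j _ => ?_) fun j _ => ?_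
  · have := lam_ge_one X j
    positivity
  · have := lam_ge_one X j
    rw [div_le_one (by positivity)]
    nlinarith

theorem xl_mono {X : ℝ} (hX : 0 ≤ X) {i j : ℕ} (h : i ≤ j) : xl X i ≤ xl X j := by
  unfold xl theta
  refine mul_le_mul_of_nonneg_left (pow_le_pow_right₀ (by norm_num) h) hX

theorem xl_step {X : ℝ} (hX : 0 ≤ X) {i t : ℕ} (h : 1 ≤ t) :
    (1 + theta) * xl X i ≤ xl X (i + t) := by
  have h1 : (1 + theta) * xl X i = xl X (i + 1) := by unfold xl; rw [pow_succ]; ring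
  rw [h1]
  exact xl_mono hX (by omega)

set_option maxHeartbeats 2000000 in
/-- the purely real part of the estimate -/
theorem real_part {x y T T' c0 N C A Crat n9 : ℝ} {k : ℕ} (hx1 : 1 ≤ x) (hxy : x ≤ y)
    (hT0 : 0 ≤ T) (hT0' : 0 ≤ T') (hy : y ≤ 601 * x) (hT' : T' ≤ 1500000 * √y)
    (hC : 1 ≤ C) (hA : Real.log C + 80000000 ≤ A)
    (hA1 : A * √x * (1 + Real.log x) ≤ x ^ (3 / 4 : ℝ)) (hA2 : A * x ^ (3 / 4 : ℝ) ≤ theta * x)
    (hc0 : 0 < c0) (hc1 : c0 ≤ 1 / 100) (hN : 2 ≤ N) (hk1 : c0 * N / x ≤ k)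
    (hk2 : (k : ℝ) ≤ c0 * N / x + 1) (hCrat : 1 ≤ Crat) (hyn : y ≤ 2 * n9)
    (hn9 : 32 * n9 ≤ 4 / 100 * c0 * N) :
    2 * (k : ℝ) ≤ (2 * Crat * N * Real.exp x * Real.exp T) * (2 * Real.exp T') ∧
    C ^ k * (2 * Real.exp T') ^ (2 * k) / (2 * Real.exp T * Real.exp (x - y)) ^ 15 ≤
      Real.exp (c0 * N / x ^ (1 / 4 : ℝ) + 16 * y) ∧
    C ^ k * ((k : ℝ) * ((2 * Crat * N * Real.exp x * Real.exp T) * (2 * Real.exp T'))) ^ k /
        (2 * Real.exp T * Real.exp (x - y)) ^ 15 ≤
      (2 * Crat * N * Real.exp x * Real.exp T) ^ (2 * k) * Real.exp (-(95 / 100 * c0 * N)) := by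
  have hx0 : 0 < x := by linarith
  have hlogC : 0 ≤ Real.log C := Real.log_nonneg hC
  have hC0 : 0 < C := by linarith
  have hsx : 1 ≤ √x := by rw [Real.one_le_sqrt]; exact hx1
  have hlx : 0 ≤ Real.log x := Real.log_nonneg hx1
  have hA0 : 0 < A := by linarith
  have hx34 : 0 < x ^ (3 / 4 : ℝ) := Real.rpow_pos_of_pos hx0 _
  have hx14 : 0 < x ^ (1 / 4 : ℝ) := Real.rpow_pos_of_pos hx0 _
  have hmul : x ^ (3 / 4 : ℝ) * x ^ (1 / 4 : ℝ) = x := by
    rw [← Real.rpow_add hx0]; norm_num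
  -- `√y ≤ 25 √x`
  have hsy : √y ≤ 25 * √x := by
    rw [show (25 : ℝ) * √x = √(625 * x) by
      rw [Real.sqrt_mul (by norm_num), show (625 : ℝ) = 25 ^ 2 by norm_num,
        Real.sqrt_sq (by norm_num)]]
    exact Real.sqrt_le_sqrt (by linarith)
  -- the basic quantity
  have hlog2 : Real.log 2 ≤ 1 := by
    have := Real.log_two_lt_d9; linarith
  have hlog2' : 0 ≤ Real.log 2 := Real.log_nonneg (by norm_num)
  have hbasic : Real.log C + 2 * (Real.log 2 + T') ≤ x ^ (3 / 4 : ℝ) := by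
    refine le_trans ?_ hA1
    have h1 : Real.log C + 2 * (Real.log 2 + T') ≤ A * √x := by
      have : T' ≤ 37500000 * √x := by nlinarith
      nlinarith
    have h2 : A * √x ≤ A * √x * (1 + Real.log x) := by
      have : 0 ≤ A * √x := by positivity
      nlinarith
    linarith
  have h34x : x ^ (3 / 4 : ℝ) ≤ x := by
    have : x ^ (3 / 4 : ℝ) ≤ x ^ (1 : ℝ) := Real.rpow_le_rpow_of_exponent_le hx1 (by norm_num)
    simpa using this
  have hinv : 1 / x ^ (1 / 4 : ℝ) ≤ 1 / 100 := by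
    rw [div_le_div_iff₀ hx14 (by norm_num)]
    have h1 : A * x ^ (3 / 4 : ℝ) ≤ theta * (x ^ (3 / 4 : ℝ) * x ^ (1 / 4 : ℝ)) := by
      rw [hmul]; exact hA2
    have h2 : A ≤ theta * x ^ (1 / 4 : ℝ) := by
      by_contra hcon
      rw [not_le] at hcon
      have : theta * x ^ (1 / 4 : ℝ) * x ^ (3 / 4 : ℝ) < A * x ^ (3 / 4 : ℝ) :=
        mul_lt_mul_of_pos_right hcon hx34
      nlinarith
    unfold theta at h2
    nlinarith
  have hkx : (k : ℝ) * x ^ (3 / 4 : ℝ) ≤ c0 * N / x ^ (1 / 4 : ℝ) + y := by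
    have h1 : (k : ℝ) * x ^ (3 / 4 : ℝ) ≤ (c0 * N / x + 1) * x ^ (3 / 4 : ℝ) :=
      mul_le_mul_of_nonneg_right hk2 hx34.le
    have h2 : (c0 * N / x + 1) * x ^ (3 / 4 : ℝ) = c0 * N / x ^ (1 / 4 : ℝ) + x ^ (3 / 4 : ℝ) := by
      have : c0 * N / x * x ^ (3 / 4 : ℝ) = c0 * N / x ^ (1 / 4 : ℝ) := by
        rw [div_mul_eq_mul_div, div_eq_div_iff hx0.ne' hx14.ne', mul_assoc, hmul]
      rw [add_mul, this, one_mul]
    linarith
  have hNpos : 0 < N := by linarith
  have hkN : (k : ℝ) ≤ N := by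
    have : c0 * N / x ≤ 1 / 100 * N := by
      rw [div_le_iff₀ hx0]
      have : c0 * N ≤ 1 / 100 * N := mul_le_mul_of_nonneg_right hc1 hNpos.le
      nlinarith
    linarith
  have hden : 0 < (2 * Real.exp T * Real.exp (x - y)) ^ 15 := by positivity
  have hden' : Real.exp (-(15 * y)) ≤ (2 * Real.exp T * Real.exp (x - y)) ^ 15 := by
    have h1 : Real.exp (-y) ≤ 2 * Real.exp T * Real.exp (x - y) := by
      have h2 : (1 : ℝ) ≤ 2 * Real.exp T := by
        have := Real.one_le_exp hT0; linarith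
      have h3 : Real.exp (-y) ≤ Real.exp (x - y) := Real.exp_le_exp.2 (by linarith)
      have h4 := Real.exp_pos (x - y)
      nlinarith
    have h5 : Real.exp (-(15 * y)) = Real.exp (-y) ^ 15 := by
      rw [← Real.exp_nat_mul]; congr 1; push_cast; ring
    rw [h5]
    exact pow_le_pow_left₀ (Real.exp_pos _).le h1 15
  have hCk : C ^ k = Real.exp (k * Real.log C) := by
    rw [Real.exp_nat_mul, Real.exp_log hC0]
  have h2T : 2 * Real.exp T' = Real.exp (Real.log 2 + T') := by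
    rw [Real.exp_add, Real.exp_log (by norm_num)]
  have hMpos : 0 < 2 * Crat * N * Real.exp x * Real.exp T := by positivity
  have hMN : N * Real.exp x ≤ 2 * Crat * N * Real.exp x * Real.exp T := by
    have h1 := Real.one_le_exp hT0
    have h2 : (1 : ℝ) ≤ 2 * Crat * Real.exp T := by nlinarith
    have h3 : 0 < N * Real.exp x := by positivity
    calc N * Real.exp x = N * Real.exp x * 1 := by ring
      _ ≤ N * Real.exp x * (2 * Crat * Real.exp T) := mul_le_mul_of_nonneg_left h2 h3.le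
      _ = _ := by ring
  refine ⟨?_, ?_, ?_⟩
  · have h1 := Real.one_le_exp hT0'
    have h2 := Real.one_le_exp hx0.le
    have h3 : N ≤ N * Real.exp x := by nlinarith
    nlinarith
  · rw [div_le_iff₀ hden]
    have hR : Real.exp (c0 * N / x ^ (1 / 4 : ℝ) + 16 * y) * Real.exp (-(15 * y)) ≤
        Real.exp (c0 * N / x ^ (1 / 4 : ℝ) + 16 * y) *
          (2 * Real.exp T * Real.exp (x - y)) ^ 15 :=
      mul_le_mul_of_nonneg_left hden' (Real.exp_pos _).le
    refine le_trans ?_ hR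
    rw [hCk, h2T, ← Real.exp_nat_mul, ← Real.exp_add, ← Real.exp_add]
    refine Real.exp_le_exp.2 ?_
    push_cast
    have : (k : ℝ) * Real.log C + 2 * k * (Real.log 2 + T') =
        k * (Real.log C + 2 * (Real.log 2 + T')) := by ring
    rw [this]
    have h1 : (k : ℝ) * (Real.log C + 2 * (Real.log 2 + T')) ≤ k * x ^ (3 / 4 : ℝ) :=
      mul_le_mul_of_nonneg_left hbasic (Nat.cast_nonneg k)
    linarith
  · set M := 2 * Crat * N * Real.exp x * Real.exp T with hM
    rw [div_le_iff₀ hden]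
    -- `k ≤ M e^{-x}`
    have hkM : (k : ℝ) ≤ M * Real.exp (-x) := by
      have : N ≤ M * Real.exp (-x) := by
        calc N = N * Real.exp x * Real.exp (-x) := by
              rw [mul_assoc, ← Real.exp_add]; simp
          _ ≤ M * Real.exp (-x) := mul_le_mul_of_nonneg_right hMN (Real.exp_pos _).le
      linarith
    have hk0 : (0 : ℝ) ≤ k := Nat.cast_nonneg k
    have h1 : C ^ k * ((k : ℝ) * (M * (2 * Real.exp T'))) ^ k ≤
        M ^ (2 * k) * Real.exp (k * (x ^ (3 / 4 : ℝ) - x)) := by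
      rw [← mul_pow, pow_mul, Real.exp_nat_mul, ← mul_pow]
      refine pow_le_pow_left₀ (by positivity) ?_ k
      have h2 : C * (2 * Real.exp T') ≤ Real.exp (x ^ (3 / 4 : ℝ)) := by
        rw [h2T]
        nth_rewrite 1 [← Real.exp_log hC0]
        rw [← Real.exp_add]
        refine Real.exp_le_exp.2 ?_
        linarith
      calc C * ((k : ℝ) * (M * (2 * Real.exp T')))
          = (C * (2 * Real.exp T')) * ((k : ℝ) * M) := by ring
        _ ≤ Real.exp (x ^ (3 / 4 : ℝ)) * ((M * Real.exp (-x)) * M) := by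
            refine mul_le_mul h2 (mul_le_mul_of_nonneg_right hkM hMpos.le) (by positivity)
              (Real.exp_pos _).le
        _ = M ^ 2 * Real.exp (x ^ (3 / 4 : ℝ) - x) := by
            rw [sub_eq_add_neg, Real.exp_add]; ring
    refine h1.trans ?_
    rw [mul_assoc]
    refine mul_le_mul_of_nonneg_left ?_ (by positivity)
    have hR : Real.exp (-(95 / 100 * c0 * N)) * Real.exp (-(15 * y)) ≤
        Real.exp (-(95 / 100 * c0 * N)) *
          (2 * Real.exp T * Real.exp (x - y)) ^ 15 :=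
      mul_le_mul_of_nonneg_left hden' (Real.exp_pos _).le
    refine le_trans ?_ hR
    rw [← Real.exp_add]
    refine Real.exp_le_exp.2 ?_
    have h3 : (k : ℝ) * (x ^ (3 / 4 : ℝ) - x) ≤ c0 * N / x * (x ^ (3 / 4 : ℝ) - x) :=
      mul_le_mul_of_nonpos_right hk1 (by linarith)
    have h4 : c0 * N / x * (x ^ (3 / 4 : ℝ) - x) = c0 * N * (1 / x ^ (1 / 4 : ℝ)) - c0 * N := by
      have : c0 * N / x * x ^ (3 / 4 : ℝ) = c0 * N * (1 / x ^ (1 / 4 : ℝ)) := by
        rw [div_mul_eq_mul_div, mul_one_div, div_eq_div_iff hx0.ne' hx14.ne', mul_assoc, hmul]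
      rw [mul_sub, this, div_mul_cancel₀ _ hx0.ne']
    have h5 : c0 * N * (1 / x ^ (1 / 4 : ℝ)) ≤ c0 * N * (1 / 100) :=
      mul_le_mul_of_nonneg_left hinv (by positivity)
    nlinarith

theorem exists_n0 (c0 : ℝ) (hc0 : 0 < c0) : ∃ n0 : ℕ, ∀ n ≥ n0,
    2 ≤ NN n ∧ 32 * (n : ℝ) ^ (9 / 10 : ℝ) ≤ 4 / 100 * c0 * NN n := by
  refine ⟨max 3 ⌈(800 / c0) ^ (10 : ℕ)⌉₊, fun n hn => ?_⟩
  have h3 : 3 ≤ n := (le_max_left _ _).trans hn
  have h3' : (3 : ℝ) ≤ n := by exact_mod_cast h3
  have hn0 : (0 : ℝ) < n := by linarith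
  have hlog : 1 ≤ Real.log n := by
    rw [← Real.log_exp 1]
    refine Real.log_le_log (Real.exp_pos 1) ?_
    have := Real.exp_one_lt_d9
    linarith
  have hNN : (n : ℝ) ≤ NN n := by unfold NN; nlinarith
  refine ⟨by linarith, ?_⟩
  have h4 : (800 / c0) ^ (10 : ℕ) ≤ n :=
    (Nat.le_ceil _).trans (by exact_mod_cast (le_max_right _ _).trans hn)
  have h5 : 800 / c0 ≤ (n : ℝ) ^ (1 / 10 : ℝ) := by
    have h6 : ((800 / c0) ^ (10 : ℕ)) ^ (1 / 10 : ℝ) = 800 / c0 := by
      rw [← Real.rpow_natCast, ← Real.rpow_mul (by positivity)]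
      norm_num
    rw [← h6]
    exact Real.rpow_le_rpow (by positivity) h4 (by norm_num)
  have h6 : (n : ℝ) ^ (9 / 10 : ℝ) * (n : ℝ) ^ (1 / 10 : ℝ) = n := by
    rw [← Real.rpow_add hn0]; norm_num
  have h7 : 0 < (n : ℝ) ^ (9 / 10 : ℝ) := Real.rpow_pos_of_pos hn0 _
  have h8 : (n : ℝ) ^ (9 / 10 : ℝ) * (800 / c0) ≤ n := by
    calc (n : ℝ) ^ (9 / 10 : ℝ) * (800 / c0) ≤ (n : ℝ) ^ (9 / 10 : ℝ) * (n : ℝ) ^ (1 / 10 : ℝ) :=
          mul_le_mul_of_nonneg_left h5 h7.le
      _ = n := h6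
  have h9 : 800 * (n : ℝ) ^ (9 / 10 : ℝ) ≤ c0 * n := by
    have : (n : ℝ) ^ (9 / 10 : ℝ) * (800 / c0) = 800 * (n : ℝ) ^ (9 / 10 : ℝ) / c0 := by ring
    rw [this, div_le_iff₀ hc0] at h8
    linarith
  have h10 : c0 * n ≤ c0 * NN n := mul_le_mul_of_nonneg_left hNN hc0.le
  linarith

end HP2

set_option maxHeartbeats 2000000 in
open HP2 in
/-- Node HP2. -/
theorem prf_HP2 (hE1 : S_E1) (hG2 : S_G2) (hThin : S_Thin) (hSurv : S_Surv) (hNum : S_Num) :
    S_HP2 := by
  classical
  obtain ⟨C, hC, hT⟩ := hThin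
  obtain ⟨Xs, hXs⟩ := hSurv
  intro c0 Crat hc0 hc1 hCrat
  obtain ⟨Xn, hXn1, hXn⟩ := hNum (Real.log C + 80000000)
  refine ⟨max Xs Xn, fun X hX => ?_⟩
  have hXs' := hXs X ((le_max_left _ _).trans hX)
  have hXn' := hXn X ((le_max_right _ _).trans hX)
  have hX1 : 1 ≤ X := hXn1.trans ((le_max_right _ _).trans hX)
  have hX0 : 0 ≤ X := by linarith
  obtain ⟨n0, hn0⟩ := exists_n0 c0 hc0
  refine ⟨n0, fun n hn m i t rX ht1 htR hxn => ?_⟩
  obtain ⟨P0, hP0⟩ := hXs' m i t rX (2 * kk X c0 n i) htR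
  refine ⟨P0, fun P hP _ I w G rows hctx hlen hcard => ?_⟩
  obtain ⟨hN2, hn9⟩ := hn0 n hn
  -- notation
  set x := xl X i with hxdef
  set y := xl X (i + t) with hydef
  set N := NN n with hNdef
  set k := kk X c0 n i with hkdef
  set K := kk X c0 n (i + t) with hKdef
  set W := alive w G rows with hWdef
  have hlogC : 0 ≤ Real.log C := Real.log_nonneg hC
  obtain ⟨hx0, hT1, hA1, hA2, h600, h601, -, -⟩ := hXn' i
  obtain ⟨-, hT2, -, -, -, -, -, -⟩ := hXn' (i + t)
  have hx1 : 1 ≤ x := by linarith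
  have hxpos : 0 < x := by linarith
  have hxy : x ≤ y := xl_mono hX0 (by omega)
  have hstep : (1 + theta) * x ≤ y := xl_step hX0 ht1
  have hy601 : y ≤ 601 * x := (xl_mono hX0 (by omega)).trans h601
  have hτ := tau_pos X i
  have hτ' := tau_pos X (i + t)
  set T := Real.log (1 / tau X i) with hTdef
  set T' := Real.log (1 / tau X (i + t)) with hTdef'
  have hT0 : 0 ≤ T := Real.log_nonneg (by rw [le_div_iff₀ hτ]; linarith [tau_le_one X i])
  have hT0' : 0 ≤ T' := Real.log_nonneg (by rw [le_div_iff₀ hτ']; linarith [tau_le_one X (i + t)])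
  have hexpT : Real.exp T = 1 / tau X i := Real.exp_log (by positivity)
  have hexpT' : Real.exp T' = 1 / tau X (i + t) := Real.exp_log (by positivity)
  have hNpos : 0 < N := by linarith
  have hk1 : c0 * N / x ≤ k := Nat.le_ceil _
  have hk2 : (k : ℝ) ≤ c0 * N / x + 1 := (Nat.ceil_lt_add_one (by positivity)).le
  have hkpos : 1 ≤ k := by
    have : (0 : ℝ) < k := lt_of_lt_of_le (by positivity) hk1
    exact_mod_cast this
  have hKk : K ≤ k := by
    refine Nat.ceil_le_ceil ?_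
    exact div_le_div_of_nonneg_left (by positivity) hxpos hxy
  obtain ⟨hr1, hr2, hr3⟩ := real_part (x := x) (y := y) (T := T) (T' := T') (c0 := c0) (N := N)
    (C := C) (A := Real.log C + 80000000) (Crat := Crat) (n9 := (n : ℝ) ^ (9 / 10 : ℝ)) (k := k)
    hx1 hxy hT0 hT0' hy601 hT2 hC le_rfl hA1 hA2 hc0 hc1 hN2 hk1 hk2 hCrat hxn hn9
  -- the survival probability
  set p := 2 * Real.exp T * Real.exp (x - y) with hpdef
  have hp0 : 0 < p := by positivity
  have hpal : 2 * al X (i + t) / (tau X i * al X i) = p := by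
    have h1 : al X (i + t) = Real.exp (x - y) * al X i := by
      unfold al
      rw [← Real.exp_add]
      congr 1
      ring
    have h2 : 0 < al X i := Real.exp_pos _
    rw [h1, hpdef, hexpT]
    field_simp
  have hp1 : p ≤ 1 := by
    have h2 : p = Real.exp (Real.log 2 + T + (x - y)) := by
      rw [Real.exp_add, Real.exp_add, Real.exp_log (by norm_num)]
    rw [h2]
    refine Real.exp_le_one_iff.2 ?_
    have hsx : 1 ≤ √x := by rw [Real.one_le_sqrt]; exact hx1
    have hlx : 0 ≤ Real.log x := Real.log_nonneg hx1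
    have hlog2 : Real.log 2 ≤ 1 := by
      have := Real.log_two_lt_d9; linarith
    have hx34 : 0 < x ^ (3 / 4 : ℝ) := Real.rpow_pos_of_pos hxpos _
    have h3 : (Real.log C + 80000000) * √x ≤ x ^ (3 / 4 : ℝ) := by
      refine le_trans ?_ hA1
      have : 0 ≤ (Real.log C + 80000000) * √x := by positivity
      nlinarith
    have h4 : x ^ (3 / 4 : ℝ) ≤ theta * x := by
      refine le_trans ?_ hA2
      nlinarith
    have h5 : Real.log 2 + T ≤ theta * x := by nlinarith
    have h6 : theta * x ≤ y - x := by linarith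
    linarith
  -- Mb
  have hMi : Mb X Crat n i = 2 * Crat * N * Real.exp x * Real.exp T := by
    rw [hexpT]; unfold Mb; rw [← hNdef, ← hxdef]; ring
  have hMit : p * Mb X Crat n (i + t) = Mb X Crat n i * (2 * Real.exp T') := by
    rw [hMi, hexpT', hpdef]
    unfold Mb
    rw [← hNdef, ← hydef]
    have : Real.exp x = Real.exp (x - y) * Real.exp y := by rw [← Real.exp_add]; congr 1; ring
    rw [this]
    field_simp
  have hMipos : 0 < Mb X Crat n i := by rw [hMi]; positivity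
  have hMitpos : 0 < Mb X Crat n (i + t) := by
    unfold Mb
    have := Real.exp_pos (xl X (i + t))
    positivity
  set M := Mb X Crat n i with hMdef
  set M' := Mb X Crat n (i + t) with hMdef'
  have h0 : ∀ j, 0 ≤ (fun j => tau X (I - j)) j * (fun j => al X (I - j)) j := by
    intro j
    have h1 := tau_pos X (I - j)
    have h2 : 0 < al X (I - j) := Real.exp_pos _
    positivity
  have hcore := core hG2 hT (p := p) hp0 hp1 hctx.hw h0 G rows t (Hd X (i + t)) (by omega) k
    hkpos (M * (2 * Real.exp T')) (by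
      rw [← hMit, mul_comm]
      exact mul_le_mul_of_nonneg_left hcard hp0.le) (by rw [hMi]; exact hr1)
    (fun Z h1 h2 h3 => by
      have := hP0 P hP I w G Z rows hctx hlen h1 h2 h3
      rw [hpal] at this
      exact this)
  refine hcore.trans ?_
  -- first term
  have hEn : (En k W : ℝ) ≤ M' ^ (k + k - 2 * K) * En K W := by
    have h1 : (En k W : ℝ) ≤ (W.card : ℝ) ^ (k + k - 2 * K) * En K W := by
      exact_mod_cast En_mono hE1 hKk W
    refine h1.trans ?_
    exact mul_le_mul_of_nonneg_right (pow_le_pow_left₀ (by positivity) hcard _) (by positivity)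
  have hfirst : p ^ (2 * k) * (En k W : ℝ) ≤
      M ^ (2 * k) * (2 * Real.exp T') ^ (2 * k) * ((En K W : ℝ) / M' ^ (2 * K)) := by
    have h1 : p ^ (2 * k) * (En k W : ℝ) ≤ p ^ (2 * k) * (M' ^ (k + k - 2 * K) * En K W) :=
      mul_le_mul_of_nonneg_left hEn (by positivity)
    refine h1.trans (le_of_eq ?_)
    have h2 : M' ^ (2 * k) = M' ^ (k + k - 2 * K) * M' ^ (2 * K) := by
      rw [← pow_add]; congr 1; omega
    have h3 : M ^ (2 * k) * (2 * Real.exp T') ^ (2 * k) = p ^ (2 * k) * M' ^ (2 * k) := by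
      rw [← mul_pow, ← mul_pow, hMit]
    rw [h3, h2]
    field_simp
  have hCk : 0 < C ^ k := by positivity
  have hp15 : 0 < p ^ 15 := by positivity
  have hEK : 0 ≤ (En K W : ℝ) / M' ^ (2 * K) := by positivity
  have key1 : C ^ k * (p ^ (2 * k) * (En k W : ℝ)) / p ^ 15 ≤
      M ^ (2 * k) * (Real.exp (c0 * N / x ^ (1 / 4 : ℝ) + 16 * y) *
        ((En K W : ℝ) / M' ^ (2 * K))) := by
    calc C ^ k * (p ^ (2 * k) * (En k W : ℝ)) / p ^ 15
        ≤ C ^ k * (M ^ (2 * k) * (2 * Real.exp T') ^ (2 * k) *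
            ((En K W : ℝ) / M' ^ (2 * K))) / p ^ 15 := by
          refine div_le_div_of_nonneg_right ?_ hp15.le
          exact mul_le_mul_of_nonneg_left hfirst hCk.le
      _ = M ^ (2 * k) * ((C ^ k * (2 * Real.exp T') ^ (2 * k) / p ^ 15) *
            ((En K W : ℝ) / M' ^ (2 * K))) := by ring
      _ ≤ _ := by
          refine mul_le_mul_of_nonneg_left ?_ (by positivity)
          exact mul_le_mul_of_nonneg_right hr2 hEK
  have key2 : C ^ k * ((k : ℝ) * (M * (2 * Real.exp T'))) ^ k / p ^ 15 ≤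
      M ^ (2 * k) * Real.exp (-(95 / 100 * c0 * N)) := by
    rw [hMi]; exact hr3
  calc C ^ k * (p ^ (2 * k) * (En k W : ℝ) + ((k : ℝ) * (M * (2 * Real.exp T'))) ^ k) / p ^ 15
      = C ^ k * (p ^ (2 * k) * (En k W : ℝ)) / p ^ 15 +
        C ^ k * ((k : ℝ) * (M * (2 * Real.exp T'))) ^ k / p ^ 15 := by ring
    _ ≤ M ^ (2 * k) * (Real.exp (c0 * N / x ^ (1 / 4 : ℝ) + 16 * y) *
        ((En K W : ℝ) / M' ^ (2 * K))) + M ^ (2 * k) * Real.exp (-(95 / 100 * c0 * N)) :=
        add_le_add key1 key2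
    _ = _ := by ring

end Crest.Agent.R225
end

-- ▼ part R225/B5C

/-!
# Row 225, node B5, part c: one-row first moment of the bad sets (helper979)
-/

set_option autoImplicit false

open Finset
open scoped BigOperators Nat

namespace Crest.Agent.R225

namespace B5C

/-- energy of the grid set from `relL` -/
lemma En_grid {n m rX : ℕ} {c1 : ℝ} {G : Finset (Pt m)} (hG : GridHyp n m rX c1 G) {q : ℕ}
    (hq : (n : ℝ) ^ (2 / 100 : ℝ) ≤ ((q + q : ℕ) : ℝ)) :
    (En q G : ℝ) ≤ (G.card : ℝ) ^ (q + q - 1) * Real.exp (-(c1 * NN n)) := by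
  refine le_trans (by exact_mod_cast HP2.En_le_relCount q G) (hG.relL (q + q) _ 0 hq ?_)
  intro i
  refine Fin.addCases (fun i => ?_) (fun i => ?_) i
  · rw [Fin.append_left]; norm_num
  · rw [Fin.append_right]; norm_num

lemma BadCols.le_card {m q d : ℕ} {B : ℝ} {Z : Finset (Pt m)} (h : BadCols q d B Z) :
    2 * q * d ≤ Z.card := by
  classical
  obtain ⟨v, hv, e, he, heZ, -⟩ := h
  have h1 : (univ.image e).card ≤ Z.card := card_le_card (by
    intro g hg
    obtain ⟨p, -, rfl⟩ := mem_image.1 hg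
    exact heZ p)
  rw [card_image_of_injective _ he] at h1
  simpa [card_univ] using h1

open scoped Classical in
/-- the number of bad sets of size `k` -/
theorem count_k (hE3 : S_E3) {n m q k : ℕ} {c1 : ℝ} {G : Finset (Pt m)}
    (hN : Ear.EarN c1 n) (hG : GridHyp n m (n ^ 16) c1 G)
    (hq : (n : ℝ) ^ (2 / 100 : ℝ) ≤ ((q + q : ℕ) : ℝ)) (hq1 : 1 ≤ q)
    (hk : (k : ℝ) ≤ (n : ℝ) ^ (3 / 10 : ℝ)) :
    (((G.powersetCard k).filter fun Z =>
        BadCols q 16 ((k * ((n ^ 16 : ℕ) + 1) : ℝ) ^ k) Z).card : ℝ) ≤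
      Real.exp (c1 / 100 * n) ^ 16 * ((G.card : ℝ) ^ (k - 16) * Real.exp (-(c1 * NN n)) ^ 16) := by
  by_cases hk2 : 2 * q * 16 ≤ k
  swap
  · have : (G.powersetCard k).filter (fun Z =>
        BadCols q 16 ((k * ((n ^ 16 : ℕ) + 1) : ℝ) ^ k) Z) = ∅ := by
      rw [filter_eq_empty_iff]
      intro Z hZ hbad
      have := BadCols.le_card hbad
      rw [(mem_powersetCard.1 hZ).2] at this
      exact hk2 this
    rw [this]
    simp only [card_empty, Nat.cast_zero]
    positivity
  have h1 := count_badCols hE3 m k q 16 G ((k * ((n ^ 16 : ℕ) + 1) : ℝ) ^ k)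
  have h2 : ((G.powersetCard k).filter fun Z =>
        BadCols q 16 ((k * ((n ^ 16 : ℕ) + 1) : ℝ) ^ k) Z).card ≤
      (2 * ⌊((k * ((n ^ 16 : ℕ) + 1) : ℝ) ^ k)⌋₊ + 1) ^ (16 * k) *
        (G.card ^ (k - 2 * q * 16) * En q G ^ 16) :=
    le_trans (Nat.le_mul_of_pos_right _ (Nat.factorial_pos k)) h1
  have hfl : ⌊((k * ((n ^ 16 : ℕ) + 1) : ℝ) ^ k)⌋₊ = Ear.hb (n ^ 16) k := by
    have : ((k * ((n ^ 16 : ℕ) + 1) : ℝ) ^ k) = ((Ear.hb (n ^ 16) k : ℕ) : ℝ) := by
      unfold Ear.hb; push_cast; ring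
    rw [this, Nat.floor_natCast]
  rw [hfl] at h2
  have h3 : (((G.powersetCard k).filter fun Z =>
        BadCols q 16 ((k * ((n ^ 16 : ℕ) + 1) : ℝ) ^ k) Z).card : ℝ) ≤
      ((2 * (Ear.hb (n ^ 16) k : ℝ) + 1) ^ k) ^ 16 *
        ((G.card : ℝ) ^ (k - 2 * q * 16) * (En q G : ℝ) ^ 16) := by
    rw [← pow_mul, mul_comm k 16]
    exact_mod_cast h2
  refine h3.trans ?_
  have hE := En_grid hG hq
  have e1 : (G.card : ℝ) ^ (k - 2 * q * 16) * ((G.card : ℝ) ^ (q + q - 1)) ^ 16 =
      (G.card : ℝ) ^ (k - 16) := by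
    rw [← pow_mul, ← pow_add]
    congr 1
    omega
  calc ((2 * (Ear.hb (n ^ 16) k : ℝ) + 1) ^ k) ^ 16 *
        ((G.card : ℝ) ^ (k - 2 * q * 16) * (En q G : ℝ) ^ 16)
      ≤ Real.exp (c1 / 100 * n) ^ 16 * ((G.card : ℝ) ^ (k - 2 * q * 16) *
          ((G.card : ℝ) ^ (q + q - 1) * Real.exp (-(c1 * NN n))) ^ 16) := by
        have := hN.le hk
        gcongr
    _ = _ := by rw [mul_pow, ← mul_assoc ((G.card : ℝ) ^ (k - 2 * q * 16)), e1]

/-- the bad event: an alive set of size `≤ K` with many relations -/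
def Bad {m : ℕ} (n q K : ℕ) (W : Finset (Pt m)) : Prop :=
  ∃ Z1 ⊆ W, Z1.card ≤ K ∧ ∃ J ⊆ Z1, LinearIndepOn ℚ aff (J : Set (Pt m)) ∧
    Z1.card = J.card + 16 ∧ BadCols q 16 ((Z1.card * ((n ^ 16 : ℕ) + 1) : ℝ) ^ Z1.card) Z1

open scoped Classical in
/-- first moment -/
theorem prob_bad (hE3 : S_E3) {P n m q K : ℕ} [NeZero P] {c1 ρ R : ℝ} {G : Finset (Pt m)}
    {w : Pt m → List (ZMod P) → ℝ}
    (hN : Ear.EarN c1 n) (hG : GridHyp n m (n ^ 16) c1 G)
    (hq : (n : ℝ) ^ (2 / 100 : ℝ) ≤ ((q + q : ℕ) : ℝ)) (hq1 : 1 ≤ q)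
    (hK : (K : ℝ) ≤ (n : ℝ) ^ (3 / 10 : ℝ)) (hρ : 0 ≤ ρ) (hR1 : 1 ≤ R)
    (hR : (G.card : ℝ) * ρ ≤ R)
    (hsurv : ∀ J' ⊆ G, J'.card ≤ K → LinearIndepOn ℚ aff (J' : Set (Pt m)) →
        (𝔼 r : Row P m, if J' ⊆ alive w G [r] then (1 : ℝ) else 0) ≤ ρ ^ J'.card) :
    (𝔼 r : Row P m, if Bad n q K (alive w G [r]) then (1 : ℝ) else 0) ≤
      (K + 1) * (Real.exp (c1 / 100 * n) ^ 16 * (R ^ K * Real.exp (-(c1 * NN n)) ^ 16)) := by
  -- the family of bad sets of size `k`
  set F : ℕ → Finset (Finset (Pt m)) := fun k => (G.powersetCard k).filter fun Z =>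
    BadCols q 16 ((k * ((n ^ 16 : ℕ) + 1) : ℝ) ^ k) Z with hF
  set F' : ℕ → Finset (Finset (Pt m)) := fun k => (F k).filter fun Z =>
    ∃ J ⊆ Z, LinearIndepOn ℚ aff (J : Set (Pt m)) ∧ Z.card = J.card + 16 with hF'
  have h1 : (𝔼 r : Row P m, if Bad n q K (alive w G [r]) then (1 : ℝ) else 0) ≤
      𝔼 r : Row P m, ∑ k ∈ range (K + 1), ∑ Z ∈ F' k,
        (if Z ⊆ alive w G [r] then (1 : ℝ) else 0) := by
    refine expect_le_expect fun r _ => ?_
    have hnn : ∀ k ∈ range (K + 1), 0 ≤ ∑ Z ∈ F' k,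
        (if Z ⊆ alive w G [r] then (1 : ℝ) else 0) := fun k _ =>
      sum_nonneg fun Z _ => by split_ifs <;> norm_num
    split_ifs with hb
    · obtain ⟨Z1, hZ1, hZK, J, hJ, hJi, hc, hbad⟩ := hb
      have hZG : Z1 ⊆ G := hZ1.trans (filter_subset _ _)
      have hk : Z1.card ∈ range (K + 1) := mem_range.2 (by omega)
      have hZF : Z1 ∈ F' Z1.card := by
        rw [hF', mem_filter, hF, mem_filter, mem_powersetCard]
        exact ⟨⟨⟨hZG, rfl⟩, hbad⟩, J, hJ, hJi, hc⟩
      refine le_trans ?_ (single_le_sum hnn hk)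
      refine le_trans ?_ (single_le_sum (f := fun Z => if Z ⊆ alive w G [r] then (1 : ℝ) else 0)
        (fun Z _ => by split_ifs <;> norm_num) hZF)
      simp [hZ1]
    · exact sum_nonneg hnn
  refine h1.trans ?_
  rw [expect_sum_comm]
  have h2 : ∀ k ∈ range (K + 1), (𝔼 r : Row P m, ∑ Z ∈ F' k,
        (if Z ⊆ alive w G [r] then (1 : ℝ) else 0)) ≤
      Real.exp (c1 / 100 * n) ^ 16 * (R ^ K * Real.exp (-(c1 * NN n)) ^ 16) := by
    intro k hk
    have hkK : k ≤ K := by have := mem_range.1 hk; omega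
    have hkn : (k : ℝ) ≤ (n : ℝ) ^ (3 / 10 : ℝ) := le_trans (by exact_mod_cast hkK) hK
    rw [expect_sum_comm]
    have h3 : ∀ Z ∈ F' k, (𝔼 r : Row P m, if Z ⊆ alive w G [r] then (1 : ℝ) else 0) ≤
        ρ ^ (k - 16) := by
      intro Z hZ
      rw [hF', mem_filter, hF, mem_filter, mem_powersetCard] at hZ
      obtain ⟨⟨⟨hZG, hZk⟩, -⟩, J, hJZ, hJi, hc⟩ := hZ
      have hJk : J.card = k - 16 := by omega
      have h4 := hsurv J (hJZ.trans hZG) (by omega) hJi
      rw [hJk] at h4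
      refine le_trans (expect_le_expect fun r _ => ?_) h4
      split_ifs with h5 h6
      · exact le_rfl
      · exact absurd (hJZ.trans h5) h6
      · norm_num
      · exact le_rfl
    calc (∑ Z ∈ F' k, 𝔼 r : Row P m, if Z ⊆ alive w G [r] then (1 : ℝ) else 0)
        ≤ ∑ _Z ∈ F' k, ρ ^ (k - 16) := sum_le_sum h3
      _ = ((F' k).card : ℝ) * ρ ^ (k - 16) := by rw [sum_const, nsmul_eq_mul]
      _ ≤ ((F k).card : ℝ) * ρ ^ (k - 16) := by
          apply mul_le_mul_of_nonneg_right _ (by positivity)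
          exact_mod_cast card_filter_le _ _
      _ ≤ (Real.exp (c1 / 100 * n) ^ 16 * ((G.card : ℝ) ^ (k - 16) *
            Real.exp (-(c1 * NN n)) ^ 16)) * ρ ^ (k - 16) := by
          apply mul_le_mul_of_nonneg_right _ (by positivity)
          exact count_k hE3 hN hG hq hq1 hkn
      _ = Real.exp (c1 / 100 * n) ^ 16 * (((G.card : ℝ) * ρ) ^ (k - 16) *
            Real.exp (-(c1 * NN n)) ^ 16) := by rw [mul_pow]; ring
      _ ≤ Real.exp (c1 / 100 * n) ^ 16 * (R ^ K * Real.exp (-(c1 * NN n)) ^ 16) := by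
          have h6 : ((G.card : ℝ) * ρ) ^ (k - 16) ≤ R ^ K :=
            (pow_le_pow_left₀ (by positivity) hR _).trans
              (pow_le_pow_right₀ hR1 (by omega))
          gcongr
  refine (sum_le_sum h2).trans ?_
  rw [sum_const, card_range, nsmul_eq_mul]
  push_cast
  exact le_rfl

end B5C

end Crest.Agent.R225
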