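import Crest.Agent.R225.GridRegion_Mg
import Crest.Agent.R225.Base
import Crest.Agent.R225.Num
import Crest.Agent.R225.B5C_Mg
import Crest.Agent.R225.Iface
import Crest.Agent.R225.Defs

-- ▼ part R225/Grid
section

/-!
# Row 225 (S0347), node Grid: `prf_Grid : S_GridConvex → S_D1 → S_Grid`
-/

set_option autoImplicit false

namespace Crest.Agent.R225

theorem prf_Grid (hGC : S_GridConvex) (hD1 : S_D1) : S_Grid :=
  prf_Grid_of hGC hD1 (grid_region hD1)

end Crest.Agent.R225
end

-- ▼ part R225/B5Energy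
section

/-!
# Row 225, node B5, part (ii): energy of clean subsets (deterministic)
-/

set_option autoImplicit false

open Finset MeasureTheory
open scoped BigOperators ENNReal

namespace Crest.Agent.R225

namespace B5E

lemma exists_perm_of_card_fiber {q : ℕ} {α : Type*} [DecidableEq α] (T1 T2 : Fin q → α)
    (h : ∀ g, (univ.filter fun i => T1 i = g).card = (univ.filter fun i => T2 i = g).card) :
    ∃ σ : Equiv.Perm (Fin q), T1 = fun i => T2 (σ i) := by
  have e : ∀ c, {a // T1 a = c} ≃ {b // T2 b = c} := fun c =>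
    Fintype.equivOfCardEq (by
      rw [Fintype.card_subtype, Fintype.card_subtype]
      exact h c)
  refine ⟨Equiv.ofFiberEquiv e, ?_⟩
  funext i
  exact (Equiv.ofFiberEquiv_map e i).symm

open scoped Classical in
/-- a set without short relations has only the diagonal energy -/
theorem En_le_of_noRel {m q : ℕ} {G : Finset (Pt m)} {s : ℝ} (hG : NoRelInf G s)
    (hq : (2 * q : ℝ) ≤ s) : En q G ≤ q.factorial * G.card ^ q := by
  have key : ∀ T1 T2 : Fin q → Pt m, (∀ i, T1 i ∈ G) → (∀ i, T2 i ∈ G) →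
      ∑ i, T1 i = ∑ i, T2 i → ∃ σ : Equiv.Perm (Fin q), T1 = fun i => T2 (σ i) := by
    intro T1 T2 h1 h2 hs
    apply exists_perm_of_card_fiber
    set Z : Finset (Pt m) := univ.image T1 ∪ univ.image T2 with hZ
    have hZG : Z ⊆ G := by
      intro g hg
      rcases mem_union.1 hg with hg | hg
      · obtain ⟨i, -, rfl⟩ := mem_image.1 hg
        exact h1 i
      · obtain ⟨i, -, rfl⟩ := mem_image.1 hg
        exact h2 i
    have hZc : (Z.card : ℝ) ≤ s := by
      refine le_trans ?_ hq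
      have : Z.card ≤ q + q := by
        refine (card_union_le _ _).trans (Nat.add_le_add ?_ ?_)
        · exact card_image_le.trans (by simp)
        · exact card_image_le.trans (by simp)
      have h3 : (Z.card : ℝ) ≤ ((q + q : ℕ) : ℝ) := by exact_mod_cast this
      push_cast at h3
      linarith
    set h : Pt m → ℤ := fun g =>
      ((univ.filter fun i => T1 i = g).card : ℤ) - ((univ.filter fun i => T2 i = g).card : ℤ) with hh
    have e1 : ∀ T : Fin q → Pt m, (∀ i, T i ∈ Z) →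
        ∑ g ∈ Z, ((univ.filter fun i => T i = g).card : ℤ) = q := by
      intro T hT
      have := card_eq_sum_card_fiberwise (f := T) (s := univ) (t := Z) (fun i _ => hT i)
      rw [← Nat.cast_sum, ← this]
      simp
    have e2 : ∀ T : Fin q → Pt m, (∀ i, T i ∈ Z) →
        ∑ g ∈ Z, ((univ.filter fun i => T i = g).card : ℤ) • g = ∑ i, T i := by
      intro T hT
      rw [← sum_fiberwise_of_maps_to (s := univ) (t := Z) (g := T) (fun i _ => hT i)]
      refine sum_congr rfl fun g _ => ?_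
      rw [sum_congr rfl (g := fun _ => g) (fun i hi => (mem_filter.1 hi).2), sum_const]
      simp
    have m1 : ∀ i, T1 i ∈ Z := fun i => mem_union_left _ (mem_image_of_mem _ (mem_univ i))
    have m2 : ∀ i, T2 i ∈ Z := fun i => mem_union_right _ (mem_image_of_mem _ (mem_univ i))
    have hrel : ARel Z h := by
      refine ⟨?_, ?_, ?_⟩
      · intro g hg
        have a1 : (univ.filter fun i => T1 i = g) = ∅ := by
          apply filter_eq_empty_iff.2
          intro i _ hi
          exact hg (hi ▸ m1 i)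
        have a2 : (univ.filter fun i => T2 i = g) = ∅ := by
          apply filter_eq_empty_iff.2
          intro i _ hi
          exact hg (hi ▸ m2 i)
        simp [hh, a1, a2]
      · simp only [hh]
        rw [sum_sub_distrib, e1 T1 m1, e1 T2 m2, sub_self]
      · simp only [hh, sub_smul]
        rw [sum_sub_distrib, e2 T1 m1, e2 T2 m2, hs, sub_self]
    have h0 := hG Z hZG hZc h hrel
    intro g
    have : h g = 0 := by rw [h0]; rfl
    simp only [hh] at this
    have := sub_eq_zero.1 this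
    exact_mod_cast this
  unfold En
  calc _ ≤ (((Fintype.piFinset fun _ : Fin q => G) ×ˢ (univ : Finset (Equiv.Perm (Fin q)))).image
        fun p => ((fun i => p.1 (p.2 i), p.1) : (Fin q → Pt m) × (Fin q → Pt m))).card := by
        apply card_le_card
        intro p hp
        rw [mem_filter, mem_product, Fintype.mem_piFinset, Fintype.mem_piFinset] at hp
        obtain ⟨⟨p1, p2⟩, p3⟩ := hp
        obtain ⟨σ, hσ⟩ := key p.1 p.2 p1 p2 p3
        rw [mem_image]
        refine ⟨(p.2, σ), ?_, ?_⟩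
        · rw [mem_product, Fintype.mem_piFinset]
          exact ⟨p2, mem_univ _⟩
        · ext1
          · exact hσ.symm
          · rfl
    _ ≤ ((Fintype.piFinset fun _ : Fin q => G) ×ˢ (univ : Finset (Equiv.Perm (Fin q)))).card :=
        card_image_le
    _ = q.factorial * G.card ^ q := by
        rw [card_product, Fintype.card_piFinset, card_univ, Fintype.card_perm, Fintype.card_fin]
        simp [mul_comm]

open Filter in
/-- basic facts about the top level `I`: `Rst ≤ I`, `600 x_{I-Rst} ≤ x_I`, `NN/x_I` large. -/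
lemma level_facts (X K : ℝ) (hX : 1 ≤ X) : ∃ n0 : ℕ, ∀ n ≥ n0, ∀ I : ℕ,
    (n : ℝ) ^ (9 / 10 : ℝ) ≤ xl X I → xl X I ≤ 2 * (n : ℝ) ^ (9 / 10 : ℝ) →
    Rst ≤ I ∧ 600 * xl X (I - Rst) ≤ xl X I ∧ xl X I ≤ 601 * xl X (I - Rst) ∧
    K * xl X I ≤ NN n := by
  have t1 : Tendsto (fun n : ℕ => (n : ℝ) ^ (9 / 10 : ℝ)) atTop atTop :=
    (tendsto_rpow_atTop (by norm_num)).comp tendsto_natCast_atTop_atTop
  have t2 : Tendsto (fun n : ℕ => (n : ℝ) ^ (1 / 10 : ℝ)) atTop atTop :=
    (tendsto_rpow_atTop (by norm_num)).comp tendsto_natCast_atTop_atTop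
  have t3 : Tendsto (fun n : ℕ => Real.log (n : ℝ)) atTop atTop :=
    Real.tendsto_log_atTop.comp tendsto_natCast_atTop_atTop
  obtain ⟨n0, hn0⟩ := eventually_atTop.mp ((t1.eventually_gt_atTop (601 * X)).and
    ((t2.eventually_ge_atTop (2 * |K|)).and ((t3.eventually_ge_atTop 1).and
      (eventually_ge_atTop 1))))
  refine ⟨n0, fun n hn I h1 h2 => ?_⟩
  obtain ⟨a1, a2, a3, a4⟩ := hn0 n hn
  have hRI : Rst ≤ I := by
    by_contra hlt
    push Not at hlt
    have h3 : xl X I ≤ xl X Rst := by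
      unfold xl
      apply mul_le_mul_of_nonneg_left _ (by linarith)
      exact pow_le_pow_right₀ (by linarith [NumL.theta_pos]) hlt.le
    have h4 : xl X Rst ≤ 601 * X := by
      unfold xl
      have := NumL.pow_Rst_le
      nlinarith
    linarith
  have hsplit : xl X I = xl X (I - Rst) * (1 + theta) ^ Rst := by
    conv_lhs => rw [show I = (I - Rst) + Rst from by omega]
    exact NumL.xl_add X (I - Rst) Rst
  have hpos : 0 < xl X (I - Rst) := NumL.xl_pos (by linarith) _
  refine ⟨hRI, ?_, ?_, ?_⟩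
  · rw [hsplit]
    have := NumL.pow_Rst_ge
    nlinarith
  · rw [hsplit]
    have := NumL.pow_Rst_le
    nlinarith
  · have hn1 : (0 : ℝ) < n := by
      have : 0 < n := by omega
      exact_mod_cast this
    have e : (n : ℝ) = (n : ℝ) ^ (9 / 10 : ℝ) * (n : ℝ) ^ (1 / 10 : ℝ) := by
      rw [← Real.rpow_add hn1]; norm_num
    have hp : 0 < (n : ℝ) ^ (9 / 10 : ℝ) := by positivity
    have hx0 : 0 < xl X I := NumL.xl_pos (by linarith) _
    calc K * xl X I ≤ |K| * xl X I := by
          apply mul_le_mul_of_nonneg_right (le_abs_self K) hx0.le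
      _ ≤ |K| * (2 * (n : ℝ) ^ (9 / 10 : ℝ)) := mul_le_mul_of_nonneg_left h2 (abs_nonneg K)
      _ = (n : ℝ) ^ (9 / 10 : ℝ) * (2 * |K|) := by ring
      _ ≤ (n : ℝ) ^ (9 / 10 : ℝ) * (n : ℝ) ^ (1 / 10 : ℝ) := mul_le_mul_of_nonneg_left a2 hp.le
      _ = n * 1 := by rw [← e, mul_one]
      _ ≤ n * Real.log n := mul_le_mul_of_nonneg_left a3 hn1.le
      _ = NN n := rfl

lemma tau_le_one (X : ℝ) (i : ℕ) : tau X i ≤ 1 := by
  unfold tau
  apply prod_le_one
  · intro j _
    have := NumL.lam_pos X j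
    positivity
  · intro j _
    have h1 : 1 ≤ lam X j := by
      unfold lam
      exact Real.one_le_exp (Real.sqrt_nonneg _)
    rw [div_le_one (by positivity)]
    nlinarith

/-- Part (ii) of B5: the energy of a clean subset. -/
theorem energy_clean (c1 Crat X : ℝ) (hc : 0 < c1) (hc1 : c1 ≤ 1) (hCr : 1 ≤ Crat) (hX : 1 ≤ X) :
    ∃ n0 : ℕ, ∀ n ≥ n0, ∀ (m I : ℕ), (n : ℝ) ^ (9 / 10 : ℝ) ≤ xl X I →
    xl X I ≤ 2 * (n : ℝ) ^ (9 / 10 : ℝ) → ∀ G' : Finset (Pt m),
    (G'.card : ℝ) ≤ Mb X Crat n I → NoRelInf G' (sp X (c1 / 400) n (I - Rst)) →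
    (En (kk X (c1 / 400) n I) G' : ℝ) ≤ Mb X Crat n I ^ (2 * kk X (c1 / 400) n I) *
      Real.exp (-(9 / 10 * (c1 / 400) * NN n)) := by
  obtain ⟨n0, hn0⟩ := level_facts X (400 * (400 / c1)) hX
  refine ⟨n0, fun n hn m I h1 h2 G' hG hrel => ?_⟩
  obtain ⟨hRI, h600, -, hK⟩ := hn0 n hn I h1 h2
  set c0 : ℝ := c1 / 400 with hc0
  have hc0p : 0 < c0 := by positivity
  have hc0l : c0 ≤ 1 / 400 := by rw [hc0]; linarith
  set x := xl X I with hx
  set x' := xl X (I - Rst) with hx'
  have hxp : 1 ≤ x := BaseN.one_le_xl hX I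
  have hx'p : 1 ≤ x' := BaseN.one_le_xl hX _
  have hNNp : 0 < NN n := by
    have : 0 < 400 * (400 / c1) * x := by positivity
    linarith
  set y : ℝ := c0 * NN n / x with hy
  have hy400 : 400 ≤ y := by
    rw [hy, le_div_iff₀ (by linarith)]
    have : 400 * (400 / c1) * x * c0 = 400 * x := by rw [hc0]; field_simp
    nlinarith
  have hxy : x * y = c0 * NN n := by rw [hy]; field_simp
  set q := kk X c0 n I with hq
  have hq1 : y ≤ q := by rw [hq]; exact Nat.le_ceil _
  have hq2 : (q : ℝ) ≤ y + 1 := by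
    rw [hq]
    exact (Nat.ceil_lt_add_one (by linarith)).le
  have hs : (2 * q : ℝ) ≤ sp X c0 n (I - Rst) := by
    have : 600 / 16 * y ≤ sp X c0 n (I - Rst) := by
      unfold sp
      rw [← hx', hy, le_div_iff₀ (by linarith)]
      rw [show 600 / 16 * (c0 * NN n / x) * x' = c0 / 16 * NN n * (600 * x' / x) by field_simp]
      have h3 : 600 * x' / x ≤ 1 := by rw [div_le_one (by linarith)]; exact h600
      have h4 : 0 ≤ c0 / 16 * NN n := by positivity
      nlinarith
    linarith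
  have hE := En_le_of_noRel (q := q) hrel hs
  have hE' : (En q G' : ℝ) ≤ (q : ℝ) ^ q * Mb X Crat n I ^ q := by
    calc (En q G' : ℝ) ≤ ((q.factorial * G'.card ^ q : ℕ) : ℝ) := by exact_mod_cast hE
      _ = (q.factorial : ℝ) * (G'.card : ℝ) ^ q := by push_cast; rfl
      _ ≤ (q : ℝ) ^ q * Mb X Crat n I ^ q := by
          apply mul_le_mul _ _ (by positivity) (by positivity)
          · exact_mod_cast Nat.factorial_le_pow q
          · exact pow_le_pow_left₀ (by positivity) hG q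
  have hMb : (q : ℝ) * Real.exp x ≤ Mb X Crat n I := by
    unfold Mb
    rw [← hx, le_div_iff₀ (BaseN.tau_pos X I)]
    have h3 : (q : ℝ) ≤ NN n := by
      have : y ≤ c0 * NN n := by
        rw [← hxy]; nlinarith
      nlinarith
    have h4 : 0 < tau X I := BaseN.tau_pos X I
    have h5 : tau X I ≤ 1 := tau_le_one X I
    calc (q : ℝ) * Real.exp x * tau X I ≤ (q : ℝ) * Real.exp x * 1 := by
          apply mul_le_mul_of_nonneg_left h5; positivity
      _ ≤ NN n * Real.exp x * 1 := by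
          have := Real.exp_pos x
          nlinarith
      _ ≤ 2 * Crat * NN n * Real.exp x := by
          have := Real.exp_pos x
          have : 0 < NN n * Real.exp x := by positivity
          nlinarith
  have hMbp : 0 ≤ Mb X Crat n I := le_trans (by positivity) hMb
  calc (En q G' : ℝ) ≤ (q : ℝ) ^ q * Mb X Crat n I ^ q := hE'
    _ = Mb X Crat n I ^ q * ((q : ℝ) ^ q * 1) := by ring
    _ ≤ Mb X Crat n I ^ q * ((q : ℝ) ^ q *
        (Real.exp x ^ q * Real.exp (-(9 / 10 * c0 * NN n)))) := by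
        apply mul_le_mul_of_nonneg_left _ (by positivity)
        apply mul_le_mul_of_nonneg_left _ (by positivity)
        rw [← Real.exp_nat_mul, ← Real.exp_add]
        apply Real.one_le_exp
        have : x * y ≤ q * x := by nlinarith
        rw [hxy] at this
        nlinarith
    _ = Mb X Crat n I ^ q * (((q : ℝ) * Real.exp x) ^ q * Real.exp (-(9 / 10 * c0 * NN n))) := by
        rw [mul_pow]; ring
    _ ≤ Mb X Crat n I ^ q * (Mb X Crat n I ^ q * Real.exp (-(9 / 10 * c0 * NN n))) := by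
        apply mul_le_mul_of_nonneg_left _ (by positivity)
        apply mul_le_mul_of_nonneg_right _ (Real.exp_pos _).le
        exact pow_le_pow_left₀ (by positivity) hMb q
    _ = Mb X Crat n I ^ (2 * q) * Real.exp (-(9 / 10 * c0 * NN n)) := by
        rw [two_mul, pow_add]; ring

end B5E

end Crest.Agent.R225
end

-- ▼ part R225/B5
section

/-!
# Row 225, node B5: rank and energy of clean subsets of the alive set (assembly, helper979)
-/

set_option autoImplicit false

open Finset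
open scoped BigOperators Nat

namespace Crest.Agent.R225

namespace B5C

/-- numerical facts used for the rank part -/
def Num5 (c1 Crat X : ℝ) : Prop := ∃ n0 : ℕ, ∀ n ≥ n0, ∀ I : ℕ,
  (n : ℝ) ^ (9 / 10 : ℝ) ≤ xl X I → xl X I ≤ 2 * (n : ℝ) ^ (9 / 10 : ℝ) →
  ∃ q : ℕ, 1 ≤ q ∧ (n : ℝ) ^ (2 / 100 : ℝ) ≤ ((q + q : ℕ) : ℝ) ∧
    ((2 * kk X (c1 / 400) n (I - Rst) : ℕ) : ℝ) ≤ (n : ℝ) ^ (3 / 10 : ℝ) ∧
    ((2 * q * 16 : ℕ) : ℝ) ≤ sp X (c1 / 400) n (I - Rst) ∧
    1 ≤ Mb X Crat n I / tau X (I + 1) ∧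
    (((2 * kk X (c1 / 400) n (I - Rst) : ℕ) : ℝ) + 1) * (Real.exp (c1 / 100 * n) ^ 16 *
      ((Mb X Crat n I / tau X (I + 1)) ^ (2 * kk X (c1 / 400) n (I - Rst)) *
        Real.exp (-(c1 * NN n)) ^ 16)) ≤ Real.exp (-(c1 / 3 * NN n))

open scoped Classical in
theorem prf_B5_of (hB0 : S_B0) (hB2 : S_B2) (hE3 : S_E3) (hG3 : S_G3)
    (hnum : ∀ c1 Crat : ℝ, 0 < c1 → c1 ≤ 1 → 1 ≤ Crat → ∃ X0 : ℝ, ∀ X ≥ X0, Num5 c1 Crat X) :
    S_B5 := by
  intro c1 Crat hc1 hc1' hCrat
  obtain ⟨X0, hX0⟩ := hnum c1 Crat hc1 hc1' hCrat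
  refine ⟨max X0 1, fun X hX => ?_⟩
  have hX1 : 1 ≤ X := (le_max_right _ _).trans hX
  obtain ⟨n1, hn1⟩ := hX0 X ((le_max_left _ _).trans hX)
  obtain ⟨n2, hn2⟩ := B5E.energy_clean c1 Crat X hc1 hc1' hCrat hX1
  obtain ⟨n3, hn3⟩ := Ear.earN c1 hc1
  refine ⟨max n1 (max n2 n3), fun n hn m I h1 h2 _ _ G => ?_⟩
  have hN := hn3 n ((le_max_right _ _).trans ((le_max_right _ _).trans hn))
  have hen := hn2 n ((le_max_left _ _).trans ((le_max_right _ _).trans hn)) m I h1 h2
  obtain ⟨q, hq1, hq, hK, hsp, hR1, hfin⟩ := hn1 n ((le_max_left _ _).trans hn) I h1 h2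
  have hn2' : 2 ≤ n := by have := hN.three_le; omega
  set K : ℕ := 2 * kk X (c1 / 400) n (I - Rst) with hKdef
  obtain ⟨P0, hP0⟩ := Ear.surv hB0 n I K X G hn2'
  refine ⟨P0, fun P hP => ?_⟩
  intro _ α0 w hctx
  have hsurv := hP0 P hP c1 Crat α0 w hctx
  have hprob := prob_bad hE3 (P := P) (n := n) (m := m) (q := q) (K := K)
    (ρ := Ear.rho X α0 I) (R := Mb X Crat n I / tau X (I + 1)) hN hctx.grid hq hq1 hK
    (Ear.rho_pos hctx.hα0).le hR1 (Ear.R_le hctx) hsurv
  refine le_trans (expect_le_expect fun r _ => ?_) (hprob.trans hfin)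
  by_cases hbad : Bad n q K (alive w G [r])
  · rw [if_pos hbad]
    split_ifs <;> norm_num
  · rw [if_neg hbad, if_pos]
    intro G' hG' hcard hno
    refine ⟨fun Z hZ hZc hrk => hbad ?_, hen G' hcard hno⟩
    obtain ⟨g0, hg0⟩ := hctx.grid.box
    obtain ⟨Z1, hZ1, J, hJ, hJi, hc, hb⟩ := B5B.exists_badCols hB2 hG3 (d := 16) (q := q)
      (rX := n ^ 16) (W := G') (Z := Z) (g0 := g0) (by norm_num)
      (fun g hg k => by exact_mod_cast hg0 g (filter_subset _ _ (hG' hg)) k) hZ hno hsp hrk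
    exact ⟨Z1, hZ1.trans (hZ.trans hG'), (card_le_card hZ1).trans hZc, J, hJ, hJi, hc, hb⟩

end B5C

end Crest.Agent.R225
end

-- ▼ part R225/B5N
section

/-!
# Row 225, node B5: numerics of the rank part (helper979)
-/

set_option autoImplicit false

open Finset Filter
open scoped BigOperators Nat

namespace Crest.Agent.R225

namespace B5C

lemma ev_num (c1 Crat : ℝ) (hc1 : 0 < c1) : ∀ᶠ n : ℕ in atTop,
    3 ≤ n ∧ 1202 * (c1 / 400) * ((n : ℝ) ^ (1 / 10 : ℝ) * Real.log n) + 2 ≤ (n : ℝ) ^ (3 / 10 : ℝ) ∧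
    32 * ((n : ℝ) ^ (2 / 100 : ℝ) + 1) ≤ 18 * (c1 / 400) * (n : ℝ) ^ (1 / 10 : ℝ) ∧
    2 * Crat * (n : ℝ) ^ 2 ≤ Real.exp ((n : ℝ) ^ (45 / 100 : ℝ)) ∧
    (100 * (3 * (9 / theta) + 1)) ^ 2 ≤ (n : ℝ) ^ (9 / 10 : ℝ) := by
  have hc := tendsto_natCast_atTop_atTop (R := ℝ)
  refine (eventually_ge_atTop 3).and ((?_ : ∀ᶠ n : ℕ in atTop, _).and
    ((?_ : ∀ᶠ n : ℕ in atTop, _).and ((?_ : ∀ᶠ n : ℕ in atTop, _).and
      (?_ : ∀ᶠ n : ℕ in atTop, _))))
  · have h1 : Tendsto (fun x : ℝ => Real.log x / x ^ (1 / 10 : ℝ)) atTop (nhds 0) :=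
      (isLittleO_log_rpow_atTop (by norm_num : (0 : ℝ) < 1 / 10)).tendsto_div_nhds_zero
    have h2 : ∀ᶠ x : ℝ in atTop, Real.log x / x ^ (1 / 10 : ℝ) < 1 / (1202 * (c1 / 400) * 2) :=
      h1.eventually_lt_const (by positivity)
    have h3 : Tendsto (fun x : ℝ => x ^ (3 / 10 : ℝ)) atTop atTop := tendsto_rpow_atTop (by norm_num)
    have h4 : Tendsto (fun x : ℝ => x ^ (1 / 10 : ℝ)) atTop atTop := tendsto_rpow_atTop (by norm_num)
    filter_upwards [hc.eventually h2, hc.eventually (h3.eventually_ge_atTop 4),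
      hc.eventually (h4.eventually_ge_atTop 1), eventually_ge_atTop 3] with n a1 a2 a3 a4
    have hn : (0 : ℝ) < n := by
      have : 0 < n := by omega
      exact_mod_cast this
    have hp : 0 < (n : ℝ) ^ (1 / 10 : ℝ) := by positivity
    rw [div_lt_iff₀ hp] at a1
    have e1 : (n : ℝ) ^ (3 / 10 : ℝ) =
        (n : ℝ) ^ (1 / 10 : ℝ) * (n : ℝ) ^ (1 / 10 : ℝ) * (n : ℝ) ^ (1 / 10 : ℝ) := by
      rw [← Real.rpow_add hn, ← Real.rpow_add hn]; norm_num
    have e2 : 1202 * (c1 / 400) * ((n : ℝ) ^ (1 / 10 : ℝ) * Real.log n) ≤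
        1 / 2 * ((n : ℝ) ^ (1 / 10 : ℝ) * (n : ℝ) ^ (1 / 10 : ℝ)) := by
      have hcc : 0 < 1202 * (c1 / 400) := by positivity
      have : 1202 * (c1 / 400) * Real.log n ≤ 1 / 2 * (n : ℝ) ^ (1 / 10 : ℝ) := by
        have h5 := mul_le_mul_of_nonneg_left a1.le hcc.le
        have h6 : 1202 * (c1 / 400) * (1 / (1202 * (c1 / 400) * 2) * (n : ℝ) ^ (1 / 10 : ℝ)) =
            1 / 2 * (n : ℝ) ^ (1 / 10 : ℝ) := by
          field_simp
        linarith
      nlinarith
    have e3 : (n : ℝ) ^ (1 / 10 : ℝ) * (n : ℝ) ^ (1 / 10 : ℝ) ≤ (n : ℝ) ^ (3 / 10 : ℝ) := by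
      rw [e1]
      have : 0 < (n : ℝ) ^ (1 / 10 : ℝ) * (n : ℝ) ^ (1 / 10 : ℝ) := by positivity
      nlinarith
    linarith
  · have h4 : Tendsto (fun x : ℝ => x ^ (8 / 100 : ℝ)) atTop atTop :=
      tendsto_rpow_atTop (by norm_num)
    filter_upwards [hc.eventually (h4.eventually_ge_atTop (64 / (18 * (c1 / 400)))),
      eventually_ge_atTop 3] with n a1 a4
    have hn : (0 : ℝ) < n := by
      have : 0 < n := by omega
      exact_mod_cast this
    have hn1 : (1 : ℝ) ≤ n := by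
      have : 1 ≤ n := by omega
      exact_mod_cast this
    have e1 : (n : ℝ) ^ (1 / 10 : ℝ) = (n : ℝ) ^ (2 / 100 : ℝ) * (n : ℝ) ^ (8 / 100 : ℝ) := by
      rw [← Real.rpow_add hn]; norm_num
    have e2 : 1 ≤ (n : ℝ) ^ (2 / 100 : ℝ) := Real.one_le_rpow hn1 (by norm_num)
    rw [div_le_iff₀ (by positivity)] at a1
    rw [e1]
    nlinarith
  · have h1 : Tendsto (fun x : ℝ => Real.exp x / x ^ 5) atTop atTop :=
      Real.tendsto_exp_div_pow_atTop 5
    have h4 : Tendsto (fun x : ℝ => x ^ (45 / 100 : ℝ)) atTop atTop :=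
      tendsto_rpow_atTop (by norm_num)
    filter_upwards [hc.eventually (h4.eventually (h1.eventually_ge_atTop (2 * |Crat|))),
      eventually_ge_atTop 3] with n a1 a4
    have hn : (0 : ℝ) < n := by
      have : 0 < n := by omega
      exact_mod_cast this
    have hn1 : (1 : ℝ) ≤ n := by
      have : 1 ≤ n := by omega
      exact_mod_cast this
    have hp : 0 < (n : ℝ) ^ (45 / 100 : ℝ) := by positivity
    rw [le_div_iff₀ (by positivity)] at a1
    refine le_trans ?_ a1
    have e1 : ((n : ℝ) ^ (45 / 100 : ℝ)) ^ 5 = (n : ℝ) ^ (225 / 100 : ℝ) := by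
      rw [← Real.rpow_natCast, ← Real.rpow_mul hn.le]; norm_num
    have e2 : (n : ℝ) ^ 2 ≤ (n : ℝ) ^ (225 / 100 : ℝ) := by
      rw [← Real.rpow_natCast]
      exact Real.rpow_le_rpow_of_exponent_le hn1 (by norm_num)
    rw [e1]
    have e3 : Crat ≤ |Crat| := le_abs_self _
    have e4 : 0 ≤ |Crat| := abs_nonneg _
    calc 2 * Crat * (n : ℝ) ^ 2 ≤ 2 * |Crat| * (n : ℝ) ^ 2 := by gcongr
      _ ≤ 2 * |Crat| * (n : ℝ) ^ (225 / 100 : ℝ) := by gcongr
  · have h4 : Tendsto (fun x : ℝ => x ^ (9 / 10 : ℝ)) atTop atTop :=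
      tendsto_rpow_atTop (by norm_num)
    exact hc.eventually (h4.eventually_ge_atTop _)

set_option maxHeartbeats 2000000 in
theorem num5 (c1 Crat X : ℝ) (hc1 : 0 < c1) (hc1' : c1 ≤ 1) (hCrat : 1 ≤ Crat) (hX : 1 ≤ X) :
    Num5 c1 Crat X := by
  obtain ⟨n1, hn1⟩ := eventually_atTop.mp (ev_num c1 Crat hc1)
  obtain ⟨n2, hn2⟩ := B5E.level_facts X (20 / c1) hX
  refine ⟨max n1 n2, fun n hn I h1 h2 => ?_⟩
  obtain ⟨b1, b2, b3, b4, b5⟩ := hn1 n ((le_max_left _ _).trans hn)
  obtain ⟨hRI, h600, h601, hK⟩ := hn2 n ((le_max_right _ _).trans hn) I h1 h2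
  set c0 : ℝ := c1 / 400 with hc0
  have hc0p : 0 < c0 := by positivity
  set x := xl X I with hx
  set x' := xl X (I - Rst) with hx'
  have hx1 : 1 ≤ x := BaseN.one_le_xl hX I
  have hx1' : 1 ≤ x' := BaseN.one_le_xl hX _
  have hn3 : (3 : ℝ) ≤ n := by exact_mod_cast b1
  have hn0 : (0 : ℝ) < n := by linarith
  have hlog1 : 1 ≤ Real.log n := by
    rw [Real.le_log_iff_exp_le (by linarith)]
    exact (Real.exp_one_lt_d9.le.trans (by norm_num)).trans hn3
  have hNN : NN n = n * Real.log n := rfl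
  have hNNn : (n : ℝ) ≤ NN n := by rw [hNN]; nlinarith
  have hp9 : 0 < (n : ℝ) ^ (9 / 10 : ℝ) := by positivity
  have en : (n : ℝ) = (n : ℝ) ^ (9 / 10 : ℝ) * (n : ℝ) ^ (1 / 10 : ℝ) := by
    rw [← Real.rpow_add hn0]; norm_num
  set K : ℕ := 2 * kk X c0 n (I - Rst) with hKdef
  -- upper bound for `K`
  have hkk : (kk X c0 n (I - Rst) : ℝ) ≤ c0 * NN n / x' + 1 := by
    unfold kk
    rw [← hx']
    exact (Nat.ceil_lt_add_one (by have : 0 < NN n := by linarith
                                   positivity)).le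
  have hK1 : (K : ℝ) ≤ 1202 * c0 * NN n / x + 2 := by
    have e1 : c0 * NN n / x' ≤ 601 * c0 * NN n / x := by
      rw [div_le_div_iff₀ (by linarith) (by linarith)]
      have : 0 ≤ c0 * NN n := by have : 0 < NN n := by linarith
                                 positivity
      nlinarith
    have e2 : (K : ℝ) = 2 * (kk X c0 n (I - Rst) : ℝ) := by rw [hKdef]; push_cast; ring
    rw [e2]
    have e3 : 1202 * c0 * NN n / x = 2 * (601 * c0 * NN n / x) := by ring
    linarith
  have hKx : (K : ℝ) * x ≤ 311 / 100 * c1 * NN n := by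
    have e1 : (K : ℝ) * x ≤ (1202 * c0 * NN n / x + 2) * x := by
      apply mul_le_mul_of_nonneg_right hK1 (by linarith)
    have e2 : (1202 * c0 * NN n / x + 2) * x = 1202 * c0 * NN n + 2 * x := by
      field_simp
    have e3 : 2 * x ≤ c1 / 10 * NN n := by
      have := mul_le_mul_of_nonneg_left hK (by positivity : (0:ℝ) ≤ c1 / 10)
      have e4 : c1 / 10 * (20 / c1 * x) = 2 * x := by field_simp; ring
      linarith
    have e5 : 1202 * c0 * NN n = 1202 / 400 * c1 * NN n := by rw [hc0]; ring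
    have e6 : 0 ≤ c1 * NN n := by have : 0 < NN n := by linarith
                                  positivity
    nlinarith
  -- the quantity `R`
  have hτ := BaseN.tau_pos X I
  have hτ' := BaseN.tau_pos X (I + 1)
  have hτ1 := B5E.tau_le_one X I
  have hτ1' := B5E.tau_le_one X (I + 1)
  set R : ℝ := Mb X Crat n I / tau X (I + 1) with hR
  have hRe : R = 2 * Crat * NN n * Real.exp x * (1 / tau X I) * (1 / tau X (I + 1)) := by
    rw [hR]; unfold Mb; rw [← hx]; field_simp
  have hNNp : 0 < NN n := by linarith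
  have hR1 : 1 ≤ R := by
    have a1 : 1 ≤ 1 / tau X I := by rw [le_div_iff₀ hτ]; linarith
    have a2 : 1 ≤ 1 / tau X (I + 1) := by rw [le_div_iff₀ hτ']; linarith
    have a3 : 1 ≤ Real.exp x := Real.one_le_exp (by linarith)
    have a4 : 1 ≤ 2 * Crat * NN n := by nlinarith
    rw [hRe]
    have a5 := one_le_mul_of_one_le_of_one_le a4 a3
    have a6 := one_le_mul_of_one_le_of_one_le a5 a1
    exact one_le_mul_of_one_le_of_one_le a6 a2
  have hRx : R ≤ Real.exp (101 / 100 * x) := by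
    set A : ℝ := 9 / theta with hA
    have hA0 : 0 < A := by rw [hA]; have := BaseN.theta_pos; positivity
    have i1 : 1 / tau X I ≤ Real.exp (A * Real.sqrt x) := BaseN.inv_tau_le hX I
    have i2 : 1 / tau X (I + 1) ≤ Real.exp (2 * A * Real.sqrt x) := by
      refine (BaseN.inv_tau_le hX (I + 1)).trans (Real.exp_le_exp.2 ?_)
      have e1 : Real.sqrt (xl X (I + 1)) ≤ 2 * Real.sqrt x := by
        rw [BaseN.xl_succ, ← hx]
        rw [show (2 : ℝ) * Real.sqrt x = Real.sqrt (4 * x) by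
          rw [Real.sqrt_mul (by norm_num)]
          congr 1
          rw [show (4 : ℝ) = 2 ^ 2 by norm_num, Real.sqrt_sq (by norm_num)]]
        apply Real.sqrt_le_sqrt
        have := BaseN.theta_le
        nlinarith
      calc 9 / theta * Real.sqrt (xl X (I + 1)) ≤ 9 / theta * (2 * Real.sqrt x) := by
            apply mul_le_mul_of_nonneg_left e1
            rw [← hA]; exact hA0.le
        _ = 2 * A * Real.sqrt x := by rw [← hA]; ring
    have hs0 : 0 ≤ Real.sqrt x := Real.sqrt_nonneg x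
    have i3 : 2 * Crat * NN n ≤ Real.exp (Real.sqrt x) := by
      have e1 : NN n ≤ (n : ℝ) ^ 2 := by
        rw [hNN, sq]
        apply mul_le_mul_of_nonneg_left _ hn0.le
        exact (Real.log_le_sub_one_of_pos hn0).trans (by linarith)
      have e2 : (n : ℝ) ^ (45 / 100 : ℝ) ≤ Real.sqrt x := by
        apply Real.le_sqrt_of_sq_le
        refine le_trans (le_of_eq ?_) h1
        rw [← Real.rpow_natCast, ← Real.rpow_mul hn0.le]; norm_num
      calc 2 * Crat * NN n ≤ 2 * Crat * (n : ℝ) ^ 2 := by gcongr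
        _ ≤ _ := b4
        _ ≤ _ := Real.exp_le_exp.2 e2
    have i4 : (3 * A + 1) * Real.sqrt x ≤ 1 / 100 * x := by
      have e1 : 100 * (3 * A + 1) ≤ Real.sqrt x := by
        apply Real.le_sqrt_of_sq_le
        exact b5.trans h1
      have e2 : Real.sqrt x * Real.sqrt x = x := Real.mul_self_sqrt (by linarith)
      nlinarith
    calc R = 2 * Crat * NN n * Real.exp x * (1 / tau X I) * (1 / tau X (I + 1)) := hRe
      _ ≤ Real.exp (Real.sqrt x) * Real.exp x * Real.exp (A * Real.sqrt x) *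
          Real.exp (2 * A * Real.sqrt x) := by
          gcongr
      _ = Real.exp (x + (3 * A + 1) * Real.sqrt x) := by
          rw [← Real.exp_add, ← Real.exp_add, ← Real.exp_add]; ring_nf
      _ ≤ _ := Real.exp_le_exp.2 (by linarith)
  refine ⟨⌈(n : ℝ) ^ (2 / 100 : ℝ)⌉₊, ?_, ?_, ?_, ?_, hR1, ?_⟩
  · exact Nat.one_le_iff_ne_zero.2 (Nat.ceil_pos.2 (by positivity)).ne'
  · push_cast
    have := Nat.le_ceil ((n : ℝ) ^ (2 / 100 : ℝ))
    linarith [(Nat.cast_nonneg _ : (0:ℝ) ≤ (⌈(n : ℝ) ^ (2 / 100 : ℝ)⌉₊ : ℝ))]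
  · refine le_trans hK1 (le_trans ?_ b2)
    have e1 : 1202 * c0 * NN n / x ≤ 1202 * c0 * NN n / (n : ℝ) ^ (9 / 10 : ℝ) := by
      apply div_le_div_of_nonneg_left (by positivity) hp9 h1
    have e2 : 1202 * c0 * NN n / (n : ℝ) ^ (9 / 10 : ℝ) =
        1202 * c0 * ((n : ℝ) ^ (1 / 10 : ℝ) * Real.log n) := by
      rw [div_eq_iff hp9.ne', hNN]
      calc 1202 * c0 * ((n : ℝ) * Real.log n)
          = 1202 * c0 * (((n : ℝ) ^ (9 / 10 : ℝ) * (n : ℝ) ^ (1 / 10 : ℝ)) * Real.log n) := by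
            rw [← en]
        _ = _ := by ring
    linarith
  · have e0 : (⌈(n : ℝ) ^ (2 / 100 : ℝ)⌉₊ : ℝ) ≤ (n : ℝ) ^ (2 / 100 : ℝ) + 1 :=
      (Nat.ceil_lt_add_one (by positivity)).le
    have e1 : ((2 * ⌈(n : ℝ) ^ (2 / 100 : ℝ)⌉₊ * 16 : ℕ) : ℝ) ≤
        32 * ((n : ℝ) ^ (2 / 100 : ℝ) + 1) := by push_cast; linarith
    refine e1.trans (b3.trans ?_)
    unfold sp
    rw [← hx', le_div_iff₀ (by linarith)]
    have e2 : x' ≤ (n : ℝ) ^ (9 / 10 : ℝ) / 300 := by linarith
    calc 18 * c0 * (n : ℝ) ^ (1 / 10 : ℝ) * x'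
        ≤ 18 * c0 * (n : ℝ) ^ (1 / 10 : ℝ) * ((n : ℝ) ^ (9 / 10 : ℝ) / 300) := by gcongr
      _ = 18 / 300 * c0 * ((n : ℝ) ^ (9 / 10 : ℝ) * (n : ℝ) ^ (1 / 10 : ℝ)) := by ring
      _ = 18 / 300 * c0 * n := by rw [← en]
      _ ≤ c0 / 16 * NN n := by nlinarith
  · have hx0 : 0 ≤ x := by linarith
    have hKn : 0 ≤ (K : ℝ) := Nat.cast_nonneg _
    have k1 : (K : ℝ) + 1 ≤ Real.exp (311 / 100 * c1 * NN n) := by
      have e1 : (K : ℝ) ≤ 311 / 100 * c1 * NN n := by nlinarith
      exact (Real.add_one_le_exp _).trans (Real.exp_le_exp.2 e1)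
    have k2 : R ^ K ≤ Real.exp (101 / 100 * (311 / 100 * c1 * NN n)) := by
      calc R ^ K ≤ (Real.exp (101 / 100 * x)) ^ K := pow_le_pow_left₀ (by linarith) hRx K
        _ = Real.exp (101 / 100 * (K * x)) := by rw [← Real.exp_nat_mul]; ring_nf
        _ ≤ _ := Real.exp_le_exp.2 (by linarith)
    have hR0 : 0 ≤ R ^ K := by positivity
    calc ((K : ℝ) + 1) * (Real.exp (c1 / 100 * n) ^ 16 * (R ^ K * Real.exp (-(c1 * NN n)) ^ 16))
        ≤ Real.exp (311 / 100 * c1 * NN n) * (Real.exp (c1 / 100 * n) ^ 16 *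
          (Real.exp (101 / 100 * (311 / 100 * c1 * NN n)) * Real.exp (-(c1 * NN n)) ^ 16)) := by
          gcongr
      _ = Real.exp (311 / 100 * c1 * NN n + (16 * (c1 / 100 * n) +
          (101 / 100 * (311 / 100 * c1 * NN n) + 16 * (-(c1 * NN n))))) := by
          rw [Real.exp_add, Real.exp_add, Real.exp_add, ← Real.exp_nat_mul, ← Real.exp_nat_mul]
          push_cast
          rfl
      _ ≤ Real.exp (-(c1 / 3 * NN n)) := by
          apply Real.exp_le_exp.2
          have e1 : c1 * n ≤ c1 * NN n := mul_le_mul_of_nonneg_left hNNn hc1.le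
          have e2 : 0 < c1 * NN n := by positivity
          nlinarith

end B5C

theorem prf_B5 (hB0 : S_B0) (hB2 : S_B2) (hE3 : S_E3) (hG3 : S_G3) : S_B5 :=
  B5C.prf_B5_of hB0 hB2 hE3 hG3 fun c1 Crat hc1 hc1' hCrat =>
    ⟨1, fun X hX => B5C.num5 c1 Crat X hc1 hc1' hCrat hX⟩

end Crest.Agent.R225
end

-- ▼ part R225/HRC
section

/-!
# Row 225: node HRC (rank control at level `i` from level `i + Rst`)
-/

set_option autoImplicit false

open Finset
open scoped BigOperators

namespace Crest.Agent.R225.HRC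

open Crest.Agent.R225

/-! ## Expectations over further rows -/

lemma Ex_mono {P m : ℕ} [NeZero P] (F F' : List (Row P m) → ℝ) : ∀ (k : ℕ) (rows : List (Row P m)),
    (∀ l : List (Row P m), l.length = k → F (l ++ rows) ≤ F' (l ++ rows)) →
    Ex k F rows ≤ Ex k F' rows
  | 0, rows, h => by simpa [Ex] using h [] rfl
  | k + 1, rows, h => by
      simp only [Ex]
      refine Finset.expect_le_expect fun r _ => Ex_mono F F' k (r :: rows) fun l hl => ?_
      have := h (l ++ [r]) (by simp [hl])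
      simpa using this

lemma Ex_sum {P m : ℕ} [NeZero P] {ι : Type*} (s : Finset ι) (F : ι → List (Row P m) → ℝ) :
    ∀ (k : ℕ) (rows : List (Row P m)),
    Ex k (fun r => ∑ i ∈ s, F i r) rows = ∑ i ∈ s, Ex k (F i) rows
  | 0, rows => by simp [Ex]
  | k + 1, rows => by
      simp only [Ex]
      rw [← Finset.expect_sum_comm]
      exact Finset.expect_congr rfl fun r _ => Ex_sum s F k (r :: rows)

lemma al_pos (X : ℝ) (i : ℕ) : 0 < al X i := Real.exp_pos _

lemma lam_pos (X : ℝ) (i : ℕ) : 0 < lam X i := Real.exp_pos _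

lemma tau_pos (X : ℝ) (i : ℕ) : 0 < tau X i :=
  Finset.prod_pos fun j _ => by have := lam_pos X j; positivity

lemma tau_le_one (X : ℝ) (i : ℕ) : tau X i ≤ 1 := by
  refine Finset.prod_le_one (fun j _ => by have := lam_pos X j; positivity) fun j _ => ?_
  have h1 : 1 ≤ lam X j := Real.one_le_exp (Real.sqrt_nonneg _)
  rw [div_le_one (by positivity)]
  nlinarith

/-- a dead atom stays dead -/
lemma alive_sub {P m I rX : ℕ} [NeZero P] {X : ℝ} {w : Pt m → List (ZMod P) → ℝ}
    {G : Finset (Pt m)} (hC : Ctx P m I rX X w G) (rows : List (Row P m)) :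
    ∀ l : List (Row P m), (l ++ rows).length ≤ I → alive w G (l ++ rows) ⊆ alive w G rows
  | [], _ => by simp
  | r :: l, h => by
      have h' : (l ++ rows).length ≤ I := by
        simp only [List.cons_append, List.length_cons] at h; omega
      refine Finset.Subset.trans ?_ (alive_sub hC rows l h')
      intro g hg
      simp only [alive, Finset.mem_filter] at hg ⊢
      refine ⟨hg.1, ?_⟩
      have h2 := hg.2
      simp only [wt, hist, List.cons_append, List.map_cons] at h2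
      have hne : w g (hist (l ++ rows) g) ≠ 0 := by
        intro h0
        have := hC.hw.dead g _ (res r g) h0
        simp only [hist] at this
        rw [this] at h2
        exact lt_irrefl _ h2
      have hlen : (hist (l ++ rows) g).length ≤ I := by simpa [hist] using h'
      rcases hC.hw.rng g _ hlen with h0 | h1
      · exact absurd h0 hne
      · exact lt_of_lt_of_le (mul_pos (tau_pos _ _) (al_pos _ _)) h1.1

/-! ## The structure of a minimal bad set -/

/-- what is used of a minimal bad set -/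
def Str {m : ℕ} (b q Hn : ℕ) (Z : Finset (Pt m)) : Prop :=
  (∃ Z0 ⊆ Z, Z.card ≤ Z0.card + 16 ∧ ∀ h, BRel Z0 (Hn : ℝ) h → h = 0) ∧
  ∃ v : Fin 16 → Pt m → ℤ, (∀ l, BRel Z (b : ℝ) (v l)) ∧
    ∃ e : Fin (2 * q) × Fin 16 → Pt m, Function.Injective e ∧ (∀ p, e p ∈ Z) ∧
      ∀ t, (Matrix.of fun l j : Fin 16 => v l (e (t, j))).det ≠ 0

lemma ARel.filter_ne {m : ℕ} {Z : Finset (Pt m)} {h : Pt m → ℤ} (H : ARel Z h)
    [DecidablePred fun g => h g ≠ 0] : ARel (Z.filter fun g => h g ≠ 0) h := by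
  obtain ⟨h1, h2, h3⟩ := H
  refine ⟨fun g hg => ?_, ?_, ?_⟩
  · by_contra h0
    exact hg (Finset.mem_filter.2 ⟨by by_contra hgZ; exact h0 (h1 g hgZ), h0⟩)
  · refine (Finset.sum_subset (Finset.filter_subset _ _) fun g hg hg' => ?_).trans h2
    by_contra h0
    exact hg' (Finset.mem_filter.2 ⟨hg, h0⟩)
  · refine (Finset.sum_subset (Finset.filter_subset _ _) fun g hg hg' => ?_).trans h3
    have : h g = 0 := by
      by_contra h0
      exact hg' (Finset.mem_filter.2 ⟨hg, h0⟩)
    rw [this, zero_smul]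

lemma select (G1 : S_G1) (G2 : S_G2) (G3 : S_G3) {m q Hn K : ℕ} {Bi si : ℝ}
    (W' Z : Finset (Pt m)) (hH : 1 ≤ Hn) (hsi : (2 * q * 16 : ℝ) ≤ si)
    (hBi : ((16 : ℝ) * (2 * (Hn : ℝ) ^ 2)) ^ 16 ≤ Bi) (hN : NoRel W' Bi si)
    (hZ : Z ⊆ W') (hK : Z.card ≤ K) (hR : RkGe Z (2 * (Hn : ℝ) ^ 2) 16) :
    ∃ Z1 ⊆ W', Z1.card ≤ K ∧ Str (2 * Hn ^ 2) q Hn Z1 := by
  classical
  have hH' : (1 : ℝ) ≤ Hn := by exact_mod_cast hH
  obtain ⟨Z1, hZ1, hmin⟩ := Finset.exists_min_image
    (Z.powerset.filter fun Y => RkGe Y (2 * (Hn : ℝ) ^ 2) 16) Finset.card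
    ⟨Z, Finset.mem_filter.2 ⟨Finset.mem_powerset.2 (Finset.Subset.refl _), hR⟩⟩
  rw [Finset.mem_filter, Finset.mem_powerset] at hZ1
  obtain ⟨hZ1Z, hR1⟩ := hZ1
  refine ⟨Z1, hZ1Z.trans hZ, (Finset.card_le_card hZ1Z).trans hK, ?_, ?_⟩
  · apply G2 m 16 Z1 (Hn : ℝ)
    intro h17
    by_cases hne : Z1.Nonempty
    · obtain ⟨z, hz⟩ := hne
      have h16 := G1 m 16 Z1 (Hn : ℝ) z hH' hz h17
      have hle := hmin (Z1.erase z) (Finset.mem_filter.2
        ⟨Finset.mem_powerset.2 ((Finset.erase_subset _ _).trans hZ1Z), h16⟩)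
      have := Finset.card_erase_lt_of_mem hz
      omega
    · rw [Finset.not_nonempty_iff_eq_empty] at hne
      obtain ⟨v, hv, hli⟩ := h17
      refine hli.ne_zero 0 ?_
      funext g
      have := (hv 0).1.1 g (by simp [hne])
      simp [this]
  · obtain ⟨v, hv, hli⟩ := hR1
    have hB1 : (1 : ℝ) ≤ 2 * (Hn : ℝ) ^ 2 := by nlinarith
    refine ⟨v, by simpa using hv, ?_⟩
    rcases G3 m 16 (2 * q) Z1 (2 * (Hn : ℝ) ^ 2) v (by norm_num) hB1 hv hli with h | h
    · exact h
    · exfalso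
      obtain ⟨h, h0, hB, hc⟩ := h
      refine h0 (hN (Z1.filter fun g => h g ≠ 0)
        ((Finset.filter_subset _ _).trans (hZ1Z.trans hZ)) ?_ h ⟨ARel.filter_ne hB.1, fun g => ?_⟩)
      · refine le_trans ?_ hsi
        have : ((Z1.filter fun g => h g ≠ 0).card : ℝ) ≤ ((2 * q * 16 : ℕ) : ℝ) := by
          refine Nat.cast_le.2 (le_of_lt ?_)
          convert hc
        refine this.trans (le_of_eq (by push_cast; ring))
      · refine (hB.2 g).trans (le_trans (le_of_eq ?_) hBi)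
        norm_num

/-! ## Counting -/

open scoped Classical in
lemma count (E3 : S_E3) {m : ℕ} (b q Hn s : ℕ) (W : Finset (Pt m)) :
    (W.powerset.filter fun Z => Z.card = s ∧ Str b q Hn Z).card * s.factorial ≤
      ((2 * b + 1) ^ s) ^ 16 * (W.card ^ (s - 2 * q * 16) * En q W ^ 16) := by
  set ZZ : Finset (Finset (Pt m)) := W.powerset.filter fun Z => Z.card = s ∧ Str b q Hn Z with hZZ
  set HH : Finset (Fin 16 → Fin s → ℤ) :=
    Fintype.piFinset fun _ => Fintype.piFinset fun _ => Finset.Icc (-(b : ℤ)) b with hHH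
  set HG : Finset (Fin 16 → Fin s → ℤ) := HH.filter fun H =>
    ∃ e : Fin (2 * q) × Fin 16 → Fin s, Function.Injective e ∧
      ∀ t, (Matrix.of fun l j : Fin 16 => H l (e (t, j))).det ≠ 0 with hHG
  set T : Finset (Fin s → Pt m) := HG.biUnion fun H =>
    (Fintype.piFinset fun _ : Fin s => W).filter fun z => ∀ l, ∑ i, H l i • z i = 0 with hT
  have hHHc : HH.card = ((2 * b + 1) ^ s) ^ 16 := by
    rw [hHH, Fintype.card_piFinset_const, Fintype.card_piFinset_const, Int.card_Icc]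
    congr 2
    omega
  have hTc : T.card ≤ ((2 * b + 1) ^ s) ^ 16 * (W.card ^ (s - 2 * q * 16) * En q W ^ 16) := by
    refine Finset.card_biUnion_le.trans ?_
    have h1 : ∀ H ∈ HG, ((Fintype.piFinset fun _ : Fin s => W).filter
        fun z => ∀ l, ∑ i, H l i • z i = 0).card ≤ W.card ^ (s - 2 * q * 16) * En q W ^ 16 := by
      intro H hH
      obtain ⟨-, e, he, hdet⟩ := Finset.mem_filter.1 hH
      have := E3 m s q 16 W H e he hdet
      convert this
    refine (Finset.sum_le_card_nsmul _ _ _ h1).trans ?_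
    rw [smul_eq_mul]
    exact Nat.mul_le_mul_right _ ((Finset.card_filter_le _ _).trans hHHc.le)
  refine le_trans ?_ hTc
  have hfib : T.card ≥ (T.filter fun z => Finset.univ.image z ∈ ZZ).card :=
    Finset.card_filter_le _ _
  refine le_trans ?_ hfib
  have hfs := Finset.card_eq_sum_card_fiberwise
    (f := fun z : Fin s → Pt m => Finset.univ.image z) (s := T.filter fun z => Finset.univ.image z ∈ ZZ)
    (t := ZZ) (fun z hz => (Finset.mem_filter.1 hz).2)
  rw [hfs]
  refine (Finset.card_nsmul_le_sum ZZ _ s.factorial fun Z hZ => ?_)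
  obtain ⟨hZW, hZs, -, v, hv, e, he, heZ, hdet⟩ := Finset.mem_filter.1 hZ
  rw [Finset.mem_powerset] at hZW
  have hcard : Fintype.card (Fin s) = Fintype.card Z := by simp [hZs]
  obtain ⟨e0⟩ : Nonempty (Fin s ≃ Z) := ⟨Fintype.equivOfCardEq hcard⟩
  have hfac : s.factorial = (Finset.univ : Finset (Fin s ≃ Z)).card := by
    rw [Finset.card_univ, Fintype.card_equiv e0, Fintype.card_fin]
  rw [hfac]
  refine Finset.card_le_card_of_injOn (fun σ : Fin s ≃ Z => fun i => (σ i : Pt m)) ?_ ?_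
  · intro σ _
    have himg : (Finset.univ.image fun i => (σ i : Pt m)) = Z := by
      ext g
      simp only [Finset.mem_image, Finset.mem_univ, true_and]
      constructor
      · rintro ⟨i, rfl⟩
        exact (σ i).2
      · intro hg
        exact ⟨σ.symm ⟨g, hg⟩, by simp⟩
    simp only [Finset.coe_filter, Set.mem_ofPred_eq, Finset.mem_filter]
    refine ⟨⟨?_, by rw [himg]; exact hZ⟩, himg⟩
    rw [hT, Finset.mem_biUnion]
    refine ⟨fun l i => v l (σ i), ?_, ?_⟩
    · rw [hHG, Finset.mem_filter]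
      refine ⟨?_, fun p => σ.symm ⟨e p, heZ p⟩, ?_, ?_⟩
      · rw [hHH, Fintype.mem_piFinset]
        intro l
        rw [Fintype.mem_piFinset]
        intro i
        have := (hv l).2 (σ i)
        rw [Finset.mem_Icc]
        have h2 : |v l (σ i)| ≤ (b : ℤ) := by exact_mod_cast this
        exact abs_le.1 h2
      · intro p p' hpp
        have h2 := σ.symm.injective hpp
        exact he (by simpa using h2)
      · intro t
        simpa using hdet t
    · rw [Finset.mem_filter]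
      refine ⟨Fintype.mem_piFinset.2 fun i => hZW (σ i).2, fun l => ?_⟩
      have h3 := (hv l).1.2.2
      rw [← h3, ← Finset.sum_coe_sort Z (fun g => v l g • g)]
      exact Equiv.sum_comp σ (fun g : Z => v l (g : Pt m) • (g : Pt m))
  · intro σ _ σ' _ h
    ext1 i
    exact Subtype.ext (congrFun h i)

/-! ## Numerics -/


/-- numerical facts at one level -/
structure NF (c0 Crat X xi xA tA ti : ℝ) (Hn : ℕ) : Prop where
  c0p : 0 < c0
  c0l : c0 ≤ 1 / 100
  Crp : 1 ≤ Crat
  xi1 : 1000 + 100 * (8 * Crat / c0) ≤ xi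
  Xx : 0 ≤ X
  h5 : 600 * xi ≤ xA
  h6 : xA ≤ 601 * xi
  tAp : 0 < tA
  tip : 0 < ti
  tA1 : tA ≤ 1
  ti1 : ti ≤ 1
  tAl : 1 / tA ≤ Real.exp (1 / 1000 * xi)
  til : 1 / ti ≤ Real.exp (1 / 1000 * xi)
  H1 : 1 ≤ Hn
  H2 : (Hn : ℝ) ≤ Real.exp (22 / 10 * theta * xA)

lemma NF.big {c0 Crat X xi xA tA ti : ℝ} {Hn : ℕ} (h : NF c0 Crat X xi xA tA ti Hn) :
    1000 ≤ xi := by
  have := h.xi1
  have h2 : 0 ≤ 100 * (8 * Crat / c0) := by
    have := h.c0p; have := h.Crp; positivity
  linarith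

lemma NF.H3 {c0 Crat X xi xA tA ti : ℝ} {Hn : ℕ} (h : NF c0 Crat X xi xA tA ti Hn) :
    (Hn : ℝ) ≤ Real.exp (662 / 100000 * xi) := by
  refine h.H2.trans (Real.exp_le_exp.2 ?_)
  have h6 := h.h6
  have hb := h.big
  unfold theta
  nlinarith

/-- the height bound -/
lemma NF.height {c0 Crat X xi xA tA ti : ℝ} {Hn : ℕ} (h : NF c0 Crat X xi xA tA ti Hn) :
    ((16 : ℝ) * (2 * (Hn : ℝ) ^ 2)) ^ 16 ≤ Real.exp (3 / 10 * xi) := by
  have hb := h.big
  have h3 := h.H3
  have h0 : (0 : ℝ) ≤ Hn := Nat.cast_nonneg _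
  have h32 : (32 : ℝ) ≤ Real.exp 4 := by
    have h1 : (2.7 : ℝ) < Real.exp 1 := by have := Real.exp_one_gt_d9; linarith
    have h2 : Real.exp 4 = Real.exp 1 ^ 4 := by rw [← Real.exp_nat_mul]; norm_num
    rw [h2]
    have : (2.7 : ℝ) ^ 4 ≤ Real.exp 1 ^ 4 := by gcongr
    norm_num at this ⊢
    linarith
  have h1 : (16 : ℝ) * (2 * (Hn : ℝ) ^ 2) ≤ Real.exp (4 + 2 * (662 / 100000 * xi)) := by
    rw [Real.exp_add, two_mul (662 / 100000 * xi), Real.exp_add]
    calc (16 : ℝ) * (2 * (Hn : ℝ) ^ 2) = 32 * (Hn * Hn) := by ring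
      _ ≤ _ := by gcongr
  calc ((16 : ℝ) * (2 * (Hn : ℝ) ^ 2)) ^ 16 ≤ Real.exp (4 + 2 * (662 / 100000 * xi)) ^ 16 := by
        gcongr
    _ = Real.exp (16 * (4 + 2 * (662 / 100000 * xi))) := by
        rw [← Real.exp_nat_mul]; norm_num
    _ ≤ _ := Real.exp_le_exp.2 (by linarith)

/-- survival probability per atom -/
noncomputable def phh (X xi xA ti : ℝ) : ℝ :=
  2 * Real.exp (-(xA - X)) / (ti * Real.exp (-(xi - X)))

lemma phh_eq {X xi xA ti : ℝ} (hti : 0 < ti) :
    phh X xi xA ti = 2 / ti * Real.exp (-(xA - xi)) := by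
  unfold phh
  have h1 : Real.exp (-(xA - X)) = Real.exp (-(xA - xi)) * Real.exp (-(xi - X)) := by
    rw [← Real.exp_add]; ring_nf
  rw [h1]
  have h2 := Real.exp_pos (-(xi - X))
  field_simp

lemma phh_pos {X xi xA ti : ℝ} (hti : 0 < ti) : 0 < phh X xi xA ti := by
  unfold phh; positivity

lemma NF.ph_le {c0 Crat X xi xA tA ti : ℝ} {Hn : ℕ} (h : NF c0 Crat X xi xA tA ti Hn) :
    phh X xi xA ti ≤ 1 := by
  rw [phh_eq h.tip]
  have hb := h.big
  have h5 := h.h5
  have h1 := h.til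
  have h2 : (2 : ℝ) ≤ Real.exp 1 := by have := Real.exp_one_gt_d9; linarith
  calc 2 / ti * Real.exp (-(xA - xi)) = 2 * (1 / ti) * Real.exp (-(xA - xi)) := by ring
    _ ≤ Real.exp 1 * Real.exp (1 / 1000 * xi) * Real.exp (-(xA - xi)) := by
        have := h.tip
        gcongr
    _ = Real.exp (1 + 1 / 1000 * xi + -(xA - xi)) := by rw [← Real.exp_add, ← Real.exp_add]
    _ ≤ 1 := Real.exp_le_one_iff.2 (by linarith)

lemma NF.le_ph {c0 Crat X xi xA tA ti : ℝ} {Hn : ℕ} (h : NF c0 Crat X xi xA tA ti Hn) :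
    Real.exp (-xA) ≤ phh X xi xA ti := by
  rw [phh_eq h.tip]
  have hb := h.big
  have h1 : (1 : ℝ) ≤ 2 / ti := by
    rw [le_div_iff₀ h.tip]; have := h.ti1; linarith
  calc Real.exp (-xA) = 1 * Real.exp (-xA) := by ring
    _ ≤ 2 / ti * Real.exp (-(xA - xi)) := by
        gcongr
        linarith

/-- one term of the union bound -/
lemma NF.term {c0 Crat X xi xA tA ti : ℝ} {Hn : ℕ} (h : NF c0 Crat X xi xA tA ti Hn)
    {L : ℝ} (hL : 0 ≤ L) (s : ℕ) (hs : 16 ≤ s) :
    (((2 * ((2 * Hn ^ 2 : ℕ) : ℝ) + 1) ^ s) ^ 16 *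
      ((2 * Crat * L * Real.exp xA / tA) ^ s * Real.exp (-(4 * c0 * L)))) / (s.factorial : ℝ) *
      phh X xi xA ti ^ (s - 16)
    ≤ Real.exp (5 / 4 * xi * s + c0 / 2 * L + 16 * xA - 4 * c0 * L) := by
  have hb := h.big
  have h0 : (1 : ℝ) ≤ Hn := by exact_mod_cast h.H1
  have hc0 := h.c0p
  have hCr := h.Crp
  have htA := h.tAp
  have hti := h.tip
  have hph := phh_pos (X := X) (xi := xi) (xA := xA) h.tip
  set ph := phh X xi xA ti with hphd
  set D : ℝ := (2 * ((2 * Hn ^ 2 : ℕ) : ℝ) + 1) ^ 16 with hD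
  set E : ℝ := D * (8 * Crat / c0) * Real.exp xi * (1 / tA) * (1 / ti) with hE
  have hDb : D ≤ Real.exp (26 + 212 / 1000 * xi) := by
    have h5 : (5 : ℝ) ≤ Real.exp (13 / 8) := by
      have h1 : (2.718 : ℝ) < Real.exp 1 := by have := Real.exp_one_gt_d9; linarith
      have h2 : Real.exp (13 / 8) ^ 8 = Real.exp 1 ^ 13 := by
        rw [← Real.exp_nat_mul, ← Real.exp_nat_mul]; norm_num
      have h3 : (5 : ℝ) ^ 8 ≤ Real.exp (13 / 8) ^ 8 := by
        rw [h2]
        have : (2.718 : ℝ) ^ 13 ≤ Real.exp 1 ^ 13 := by gcongr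
        norm_num at this ⊢
        linarith
      exact le_of_pow_le_pow_left₀ (by norm_num) (Real.exp_pos _).le h3
    have h1 : (2 * ((2 * Hn ^ 2 : ℕ) : ℝ) + 1) ≤ Real.exp (13 / 8 + 2 * (662 / 100000 * xi)) := by
      rw [Real.exp_add, two_mul (662 / 100000 * xi), Real.exp_add]
      have h3 := h.H3
      calc (2 * ((2 * Hn ^ 2 : ℕ) : ℝ) + 1) ≤ 5 * (Hn * Hn) := by push_cast; nlinarith
        _ ≤ _ := by gcongr
    calc D ≤ Real.exp (13 / 8 + 2 * (662 / 100000 * xi)) ^ 16 := by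
          rw [hD]; gcongr
      _ = Real.exp (16 * (13 / 8 + 2 * (662 / 100000 * xi))) := by
          rw [← Real.exp_nat_mul]; norm_num
      _ ≤ _ := Real.exp_le_exp.2 (by linarith)
  have hEb : E ≤ Real.exp (5 / 4 * xi) := by
    have h1 : 8 * Crat / c0 ≤ Real.exp (8 * Crat / c0) := by
      have := Real.add_one_le_exp (8 * Crat / c0); linarith
    calc E ≤ Real.exp (26 + 212 / 1000 * xi) * Real.exp (8 * Crat / c0) * Real.exp xi *
          Real.exp (1 / 1000 * xi) * Real.exp (1 / 1000 * xi) := by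
          rw [hE]
          have := h.tAl
          have := h.til
          gcongr
      _ = Real.exp (26 + 212 / 1000 * xi + 8 * Crat / c0 + xi + 1 / 1000 * xi +
          1 / 1000 * xi) := by
          simp only [Real.exp_add]
      _ ≤ _ := Real.exp_le_exp.2 (by
          have := h.xi1
          have h2 : 0 ≤ 8 * Crat / c0 := by positivity
          linarith)
  have hE0 : 0 ≤ E := by positivity
  have hprod : D * (2 * Crat * L * Real.exp xA / tA) * ph = E * (c0 / 2 * L) := by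
    rw [hphd, phh_eq h.tip, hE]
    have h1 : Real.exp xA = Real.exp (xA - xi) * Real.exp xi := by
      rw [← Real.exp_add]; ring_nf
    have h2 : Real.exp (-(xA - xi)) = (Real.exp (xA - xi))⁻¹ := Real.exp_neg _
    rw [h1, h2]
    have h3 := Real.exp_pos (xA - xi)
    field_simp
    ring
  have hfac : (0 : ℝ) < s.factorial := by exact_mod_cast s.factorial_pos
  have hpow : (c0 / 2 * L) ^ s / (s.factorial : ℝ) ≤ Real.exp (c0 / 2 * L) :=
    Real.pow_div_factorial_le_exp _ (by positivity) s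
  have hph16 : (ph ^ 16)⁻¹ ≤ Real.exp (16 * xA) := by
    have h1 := h.le_ph
    have h2 : Real.exp (-xA) ^ 16 ≤ ph ^ 16 := by gcongr
    have h3 : Real.exp (16 * xA) = (Real.exp (-xA) ^ 16)⁻¹ := by
      rw [← Real.exp_nat_mul, ← Real.exp_neg]; norm_num
    rw [h3]
    exact inv_anti₀ (by positivity) h2
  have hsub : ph ^ (s - 16) = ph ^ s * (ph ^ 16)⁻¹ := by
    rw [pow_sub₀ _ hph.ne' hs]
  have hreorder : (((2 * ((2 * Hn ^ 2 : ℕ) : ℝ) + 1) ^ s) ^ 16 *
      ((2 * Crat * L * Real.exp xA / tA) ^ s * Real.exp (-(4 * c0 * L)))) / (s.factorial : ℝ) *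
      ph ^ (s - 16) = E ^ s * ((c0 / 2 * L) ^ s / (s.factorial : ℝ)) * (ph ^ 16)⁻¹ *
        Real.exp (-(4 * c0 * L)) := by
    have h1 : ((2 * ((2 * Hn ^ 2 : ℕ) : ℝ) + 1) ^ s) ^ 16 = D ^ s := by
      rw [hD, ← pow_mul, ← pow_mul, mul_comm s 16]
    rw [hsub, h1]
    calc D ^ s * ((2 * Crat * L * Real.exp xA / tA) ^ s * Real.exp (-(4 * c0 * L))) /
          (s.factorial : ℝ) * (ph ^ s * (ph ^ 16)⁻¹)
        = (D * (2 * Crat * L * Real.exp xA / tA) * ph) ^ s / (s.factorial : ℝ) * (ph ^ 16)⁻¹ *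
          Real.exp (-(4 * c0 * L)) := by rw [mul_pow, mul_pow]; ring
      _ = _ := by rw [hprod, mul_pow]; ring
  rw [hreorder]
  calc E ^ s * ((c0 / 2 * L) ^ s / (s.factorial : ℝ)) * (ph ^ 16)⁻¹ * Real.exp (-(4 * c0 * L))
      ≤ Real.exp (5 / 4 * xi) ^ s * Real.exp (c0 / 2 * L) * Real.exp (16 * xA) *
        Real.exp (-(4 * c0 * L)) := by gcongr
    _ = _ := by
      rw [← Real.exp_nat_mul, ← Real.exp_add, ← Real.exp_add, ← Real.exp_add]
      congr 1
      ring


lemma dl_pos (X : ℝ) (i : ℕ) : 0 < dl X i := by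
  unfold dl
  have := tau_pos X (i + 1)
  have := lam_pos X i
  positivity

lemma Hd_pos (X : ℝ) (i : ℕ) : 1 ≤ Hd X i := by
  unfold Hd
  have := dl_pos X i
  exact Nat.one_le_ceil_iff.2 (by positivity)

lemma NF_exists (Num : S_Num) {c0 Crat : ℝ} (hc0 : 0 < c0) (hc1 : c0 ≤ 1 / 100) (hCr : 1 ≤ Crat) :
    ∃ X0 : ℝ, ∀ X ≥ X0, ∀ i : ℕ, NF c0 Crat X (xl X i) (xl X (i + Rst)) (tau X (i + Rst))
      (tau X i) (Hd X (i + Rst)) := by
  obtain ⟨X0, hX0, h⟩ := Num (1000 + 100 * (8 * Crat / c0))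
  refine ⟨X0, fun X hX i => ?_⟩
  obtain ⟨h1, h2, h3, h4, h5, h6, -, -⟩ := h X hX i
  obtain ⟨-, h2A, -, -, -, -, h7A, -⟩ := h X hX (i + Rst)
  have hr : 0 ≤ 8 * Crat / c0 := by positivity
  set K := 1000 + 100 * (8 * Crat / c0) with hK
  set xi := xl X i with hxi
  set xA := xl X (i + Rst) with hxA
  have hK1 : 1000 ≤ K := by rw [hK]; linarith
  have hxi1 : 1000 ≤ xi := hK1.trans h1
  have hlog : 0 ≤ Real.log xi := Real.log_nonneg (by linarith)
  have hsq0 : 0 ≤ Real.sqrt xi := Real.sqrt_nonneg _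
  have hsqs : 1000000 * Real.sqrt xi ≤ 1 / 200000 * xi := by
    have e1 : K * Real.sqrt xi ≤ xi ^ (3 / 4 : ℝ) := by
      refine le_trans ?_ h3
      have : 0 ≤ K * Real.sqrt xi := by positivity
      nlinarith
    have e2 : K * (K * Real.sqrt xi) ≤ theta * xi := by
      refine le_trans ?_ h4
      exact mul_le_mul_of_nonneg_left e1 (by linarith)
    have e3 : 1000 * (1000 * Real.sqrt xi) ≤ K * (K * Real.sqrt xi) := by gcongr
    unfold theta at e2
    linarith
  have hsqA : Real.sqrt xA ≤ 25 * Real.sqrt xi := by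
    have e1 : Real.sqrt xA ≤ Real.sqrt (25 ^ 2 * xi) := Real.sqrt_le_sqrt (by linarith)
    rwa [Real.sqrt_mul (by norm_num), Real.sqrt_sq (by norm_num)] at e1
  have htA := tau_pos X (i + Rst)
  have hti := tau_pos X i
  refine ⟨hc0, hc1, hCr, h1, by linarith, h5, h6, htA, hti, tau_le_one _ _, tau_le_one _ _,
    ?_, ?_, Hd_pos _ _, ?_⟩
  · rw [← Real.log_le_iff_le_exp (by positivity)]
    linarith
  · rw [← Real.log_le_iff_le_exp (by positivity)]
    linarith
  · rw [← Real.log_le_iff_le_exp (by exact_mod_cast Hd_pos X (i + Rst))]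
    exact h7A

lemma asym {c0 : ℝ} (hc0 : 0 < c0) (hc1 : c0 ≤ 1 / 100) :
    ∃ n0 : ℕ, ∀ n ≥ n0, ∀ xA : ℝ, xA ≤ 2 * (n : ℝ) ^ (9 / 10 : ℝ) → 1000 * xA + 1000 ≤ c0 * NN n := by
  refine ⟨⌈(4000 / c0) ^ 10⌉₊, fun n hn xA hx => ?_⟩
  have h4 : 4000 / c0 ≤ (4000 / c0) ^ 10 := by
    refine le_self_pow₀ ?_ (by norm_num)
    rw [le_div_iff₀ hc0]; linarith
  have hn1 : (4000 / c0) ^ 10 ≤ n := (Nat.le_ceil _).trans (by exact_mod_cast hn)
  have hn2 : 4000 ≤ c0 * n := by
    have := h4.trans hn1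
    rw [div_le_iff₀ hc0] at this
    linarith
  have hn3 : (400000 : ℝ) ≤ n := by nlinarith
  have hn0 : (0 : ℝ) < n := by linarith
  have hlog : 1 ≤ Real.log n := by
    rw [Real.le_log_iff_exp_le hn0]
    have := Real.exp_one_lt_d9
    linarith
  have hpow : 4000 / c0 ≤ (n : ℝ) ^ (1 / 10 : ℝ) := by
    have h5 : (4000 / c0) = ((4000 / c0) ^ 10) ^ (1 / 10 : ℝ) := by
      rw [← Real.rpow_natCast, ← Real.rpow_mul (by positivity)]
      norm_num
    rw [h5]
    exact Real.rpow_le_rpow (by positivity) hn1 (by norm_num)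
  have hsplit : (n : ℝ) = (n : ℝ) ^ (1 / 10 : ℝ) * (n : ℝ) ^ (9 / 10 : ℝ) := by
    rw [← Real.rpow_add hn0]; norm_num
  have h9 : 0 ≤ (n : ℝ) ^ (9 / 10 : ℝ) := by positivity
  have h10 : 4000 * (n : ℝ) ^ (9 / 10 : ℝ) ≤ c0 * n := by
    have h11 : 4000 ≤ c0 * (n : ℝ) ^ (1 / 10 : ℝ) := by
      rw [div_le_iff₀ hc0] at hpow
      linarith
    calc 4000 * (n : ℝ) ^ (9 / 10 : ℝ) ≤ (c0 * (n : ℝ) ^ (1 / 10 : ℝ)) * (n : ℝ) ^ (9 / 10 : ℝ) := by
          gcongr
      _ = c0 * n := by rw [mul_assoc, ← hsplit]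
  have h12 : c0 * n ≤ c0 * NN n := by
    unfold NN
    have : 0 ≤ c0 * n := by positivity
    nlinarith
  linarith

/-! ## Assembly -/

open scoped Classical in
/-- the union bound over the minimal bad sets -/
lemma union_bound {P m : ℕ} [NeZero P] (I : ℕ) {rX : ℕ} {X : ℝ} {w : Pt m → List (ZMod P) → ℝ}
    {G : Finset (Pt m)} (hC : Ctx P m I rX X w G) (rows : List (Row P m)) (t : ℕ)
    (hI : rows.length + t ≤ I) (Ev : List (Row P m) → Prop) [DecidablePred Ev]
    (Z : Finset (Finset (Pt m)))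
    (hsel : ∀ rows' : List (Row P m), alive w G rows' ⊆ alive w G rows → Ev rows' →
      ∃ Y ∈ Z, Y ⊆ alive w G rows') :
    Ex t (fun rows' => if Ev rows' then (1 : ℝ) else 0) rows ≤
      ∑ Y ∈ Z, Ex t (fun rows' => if Y ⊆ alive w G rows' then (1 : ℝ) else 0) rows := by
  rw [← Ex_sum]
  refine Ex_mono _ _ t rows fun l hl => ?_
  have hsub := alive_sub hC rows l (by rw [List.length_append]; omega)
  by_cases hE : Ev (l ++ rows)
  · rw [if_pos hE]
    obtain ⟨Y, hY, hYa⟩ := hsel _ hsub hE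
    have h1 : (1 : ℝ) = if Y ⊆ alive w G (l ++ rows) then (1 : ℝ) else 0 := by rw [if_pos hYa]
    refine (le_of_eq h1).trans ?_
    exact Finset.single_le_sum (f := fun Y => if Y ⊆ alive w G (l ++ rows) then (1 : ℝ) else 0)
      (fun Y _ => by split_ifs <;> norm_num) hY
  · rw [if_neg hE]
    exact Finset.sum_nonneg fun Y _ => by split_ifs <;> norm_num

open scoped Classical in
/-- the sum over the bad sets -/
lemma sum_bound (E3 : S_E3) {m : ℕ} {c0 Crat X xi xA tA ti : ℝ} {Hn : ℕ}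
    (h : NF c0 Crat X xi xA tA ti Hn) {L : ℝ} (hL : 0 ≤ L) (q K : ℕ) (hq : 1 ≤ q)
    (W : Finset (Pt m))
    (hW : (W.card : ℝ) ≤ 2 * Crat * L * Real.exp xA / tA)
    (hE : (En q W : ℝ) ≤ (2 * Crat * L * Real.exp xA / tA) ^ (2 * q) * Real.exp (-(c0 / 4 * L))) :
    ∑ Z ∈ W.powerset.filter (fun Z => Z.card ≤ K ∧ Str (2 * Hn ^ 2) q Hn Z),
      phh X xi xA ti ^ (Z.card - 16) ≤
    (K + 1) * Real.exp (5 / 4 * xi * K + c0 / 2 * L + 16 * xA - 4 * c0 * L) := by
  set ph := phh X xi xA ti with hph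
  have hphp : 0 < ph := phh_pos h.tip
  have hb := h.big
  set M := 2 * Crat * L * Real.exp xA / tA with hM
  have hM0 : 0 ≤ M := by
    have := h.Crp; have := h.tAp; positivity
  have hmaps : ∀ Z ∈ W.powerset.filter (fun Z => Z.card ≤ K ∧ Str (2 * Hn ^ 2) q Hn Z),
      Z.card ∈ Finset.range (K + 1) := fun Z hZ => by
    rw [Finset.mem_range]; have := (Finset.mem_filter.1 hZ).2.1; omega
  rw [← Finset.sum_fiberwise_of_maps_to hmaps]
  have hterm : ∀ s ∈ Finset.range (K + 1),
      ∑ Z ∈ (W.powerset.filter (fun Z => Z.card ≤ K ∧ Str (2 * Hn ^ 2) q Hn Z)).filter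
        (fun Z => Z.card = s), ph ^ (Z.card - 16) ≤
      Real.exp (5 / 4 * xi * K + c0 / 2 * L + 16 * xA - 4 * c0 * L) := by
    intro s hs
    rw [Finset.mem_range] at hs
    set ZZ := W.powerset.filter fun Z => Z.card = s ∧ Str (2 * Hn ^ 2) q Hn Z with hZZ
    have hle : ∑ Z ∈ (W.powerset.filter (fun Z => Z.card ≤ K ∧ Str (2 * Hn ^ 2) q Hn Z)).filter
        (fun Z => Z.card = s), ph ^ (Z.card - 16) ≤ ∑ Z ∈ ZZ, ph ^ (s - 16) := by
      refine (Finset.sum_le_sum (g := fun _ => ph ^ (s - 16)) fun Z hZ => ?_).trans ?_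
      · rw [(Finset.mem_filter.1 hZ).2]
      · refine Finset.sum_le_sum_of_subset_of_nonneg ?_ fun _ _ _ => by positivity
        intro Z hZ
        obtain ⟨hZ1, hZ2⟩ := Finset.mem_filter.1 hZ
        obtain ⟨hZ3, hZ4⟩ := Finset.mem_filter.1 hZ1
        exact Finset.mem_filter.2 ⟨hZ3, hZ2, hZ4.2⟩
    refine hle.trans ?_
    rw [Finset.sum_const, nsmul_eq_mul]
    by_cases hem : ZZ = ∅
    · rw [hem]
      simp only [Finset.card_empty, Nat.cast_zero, zero_mul]
      positivity
    · obtain ⟨Z0, hZ0⟩ := Finset.nonempty_iff_ne_empty.2 hem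
      obtain ⟨-, hZs, -, v, hv, e, he, heZ, -⟩ := Finset.mem_filter.1 hZ0
      have hs32 : 2 * q * 16 ≤ s := by
        have h1 : (Finset.univ.image e).card = 2 * q * 16 := by
          rw [Finset.card_image_of_injective _ he]
          simp
        rw [← h1, ← hZs]
        refine Finset.card_le_card fun g hg => ?_
        obtain ⟨p, -, rfl⟩ := Finset.mem_image.1 hg
        exact heZ p
      have hs16 : 16 ≤ s := by omega
      have hcount := count E3 (2 * Hn ^ 2) q Hn s W
      have hfac : (0 : ℝ) < s.factorial := by exact_mod_cast s.factorial_pos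
      have hcount' : (ZZ.card : ℝ) * s.factorial ≤
          ((2 * ((2 * Hn ^ 2 : ℕ) : ℝ) + 1) ^ s) ^ 16 *
            (M ^ s * Real.exp (-(4 * c0 * L))) := by
        have h1 : (ZZ.card : ℝ) * s.factorial ≤ (((2 * (2 * Hn ^ 2) + 1) ^ s) ^ 16 *
            (W.card ^ (s - 2 * q * 16) * En q W ^ 16) : ℕ) := by
          exact_mod_cast hcount
        refine h1.trans ?_
        push_cast
        have h2 : (W.card : ℝ) ^ (s - 2 * q * 16) * (En q W : ℝ) ^ 16 ≤
            M ^ s * Real.exp (-(4 * c0 * L)) := by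
          calc (W.card : ℝ) ^ (s - 2 * q * 16) * (En q W : ℝ) ^ 16
              ≤ M ^ (s - 2 * q * 16) * (M ^ (2 * q) * Real.exp (-(c0 / 4 * L))) ^ 16 := by gcongr
            _ = M ^ (s - 2 * q * 16) * M ^ (2 * q * 16) * Real.exp (-(c0 / 4 * L)) ^ 16 := by
                rw [mul_pow, ← pow_mul]; ring
            _ = M ^ s * Real.exp (-(4 * c0 * L)) := by
                rw [← pow_add, Nat.sub_add_cancel hs32, ← Real.exp_nat_mul]
                congr 2
                push_cast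
                ring
        gcongr
      calc (ZZ.card : ℝ) * ph ^ (s - 16)
          = ((ZZ.card : ℝ) * s.factorial) / s.factorial * ph ^ (s - 16) := by
            field_simp
        _ ≤ (((2 * ((2 * Hn ^ 2 : ℕ) : ℝ) + 1) ^ s) ^ 16 *
            (M ^ s * Real.exp (-(4 * c0 * L)))) / (s.factorial : ℝ) * ph ^ (s - 16) := by
            gcongr
        _ ≤ Real.exp (5 / 4 * xi * s + c0 / 2 * L + 16 * xA - 4 * c0 * L) :=
            h.term hL s hs16
        _ ≤ _ := by
            refine Real.exp_le_exp.2 ?_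
            have : (s : ℝ) ≤ K := by exact_mod_cast (by omega : s ≤ K)
            nlinarith
  refine (Finset.sum_le_sum hterm).trans ?_
  rw [Finset.sum_const, Finset.card_range, nsmul_eq_mul]
  push_cast
  exact le_rfl

end Crest.Agent.R225.HRC

namespace Crest.Agent.R225

theorem prf_HRC (E3 : S_E3) (G1 : S_G1) (G2 : S_G2) (G3 : S_G3) (Num : S_Num) (Surv : S_Surv) :
    S_HRC := by
  classical
  intro c0 Crat hc0 hc1 hCr
  obtain ⟨X1, hX1⟩ := HRC.NF_exists Num hc0 hc1 hCr
  obtain ⟨X2, hX2⟩ := Surv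
  refine ⟨max X1 X2, fun X hX => ?_⟩
  have hXX1 : X ≥ X1 := le_trans (le_max_left _ _) hX
  have hXX2 : X ≥ X2 := le_trans (le_max_right _ _) hX
  obtain ⟨n0, hn0⟩ := HRC.asym hc0 hc1
  refine ⟨n0, fun n hn m i rX hx => ?_⟩
  obtain ⟨P0, hP0⟩ := hX2 X hXX2 m i Rst rX (2 * kk X c0 n i) le_rfl
  refine ⟨P0, fun P hP hPp I w G rows hC hI hcard hEn => ?_⟩
  have nf := hX1 X hXX1 i
  have hb := nf.big
  have hasy := hn0 n hn _ hx
  have h5 := nf.h5
  set xi := xl X i with hxi
  set xA := xl X (i + Rst) with hxA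
  set L := NN n with hLd
  set q := kk X c0 n (i + Rst) with hq
  set K := 2 * kk X c0 n i with hK
  have hL : 0 ≤ L := by nlinarith
  have hxi0 : 0 < xi := by linarith
  have hxA0 : 0 < xA := by linarith
  have hq1 : 1 ≤ q := by
    rw [hq]; unfold kk
    refine Nat.one_le_ceil_iff.2 ?_
    have : 0 < c0 * NN n := by rw [← hLd]; nlinarith
    positivity
  have hqle : (q : ℝ) ≤ c0 * L / xA + 1 := by
    rw [hq]; unfold kk
    exact (Nat.ceil_lt_add_one (by positivity)).le
  have hKle : (K : ℝ) ≤ 2 * (c0 * L / xi + 1) := by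
    rw [hK]; push_cast
    unfold kk
    have := (Nat.ceil_lt_add_one (a := c0 * NN n / xl X i) (by positivity)).le
    linarith
  -- the selection
  have hcA : c0 * L / xA ≤ c0 * L / (600 * xi) := by gcongr
  have hsp : (2 * q * 16 : ℝ) ≤ sp X c0 n i := by
    unfold sp
    rw [← hLd, ← hxi]
    have e1 : c0 / 16 * L / xi = 1 / 16 * (c0 * L / xi) := by ring
    have e2 : c0 * L / (600 * xi) = 1 / 600 * (c0 * L / xi) := by
      field_simp
    have e3 : 10000 ≤ c0 * L / xi := by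
      rw [le_div_iff₀ hxi0]; nlinarith
    rw [e1]
    rw [e2] at hcA
    linarith
  have hsel : ∀ rows' : List (Row P m), alive w G rows' ⊆ alive w G rows →
      (NoRel (alive w G rows') (Bh X i) (sp X c0 n i) ∧
        ∃ Z ⊆ alive w G rows', Z.card ≤ 2 * kk X c0 n i ∧
          RkGe Z (2 * (Hd X (i + Rst) : ℝ) ^ 2) 16) →
      ∃ Y ∈ (alive w G rows).powerset.filter
        (fun Z => Z.card ≤ K ∧ HRC.Str (2 * Hd X (i + Rst) ^ 2) q (Hd X (i + Rst)) Z),
        Y ⊆ alive w G rows' := by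
    rintro rows' hsub ⟨hNo, Z, hZ, hZK, hR⟩
    obtain ⟨Y, hY, hYK, hStr⟩ := HRC.select G1 G2 G3 (alive w G rows') Z nf.H1 hsp nf.height hNo
      hZ hZK hR
    exact ⟨Y, Finset.mem_filter.2 ⟨Finset.mem_powerset.2 (hY.trans hsub), hYK, hStr⟩, hY⟩
  refine (HRC.union_bound I hC rows Rst (by omega) _ _ hsel).trans ?_
  have hsurv : ∀ Y ∈ (alive w G rows).powerset.filter
        (fun Z => Z.card ≤ K ∧ HRC.Str (2 * Hd X (i + Rst) ^ 2) q (Hd X (i + Rst)) Z),
      Ex Rst (fun rows' => if Y ⊆ alive w G rows' then (1 : ℝ) else 0) rows ≤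
        HRC.phh X xi xA (tau X i) ^ (Y.card - 16) := by
    intro Y hY
    obtain ⟨hYW, hYK, ⟨Z0, hZ0Y, hZ0c, hZ0⟩, -⟩ := Finset.mem_filter.1 hY
    rw [Finset.mem_powerset] at hYW
    have h1 : Ex Rst (fun rows' => if Y ⊆ alive w G rows' then (1 : ℝ) else 0) rows ≤
        Ex Rst (fun rows' => if Z0 ⊆ alive w G rows' then (1 : ℝ) else 0) rows := by
      refine HRC.Ex_mono _ _ Rst rows fun l _ => ?_
      by_cases hYa : Y ⊆ alive w G (l ++ rows)
      · rw [if_pos hYa, if_pos (hZ0Y.trans hYa)]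
      · rw [if_neg hYa]
        split_ifs <;> norm_num
    refine h1.trans ?_
    have h2 := hP0 P hP I w G Z0 rows hC hI ((Finset.card_le_card hZ0Y).trans hYK)
      (hZ0Y.trans hYW) hZ0
    refine h2.trans ?_
    have h3 : 2 * al X (i + Rst) / (tau X i * al X i) = HRC.phh X xi xA (tau X i) := rfl
    rw [h3]
    exact pow_le_pow_of_le_one (HRC.phh_pos nf.tip).le nf.ph_le (by omega)
  refine (Finset.sum_le_sum hsurv).trans ?_
  refine (HRC.sum_bound E3 nf hL q K hq1 (alive w G rows) hcard hEn).trans ?_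
  have hK1 : (K : ℝ) + 1 ≤ Real.exp K := by
    have := Real.add_one_le_exp (K : ℝ); linarith
  have hKx : xi * K ≤ 2 * c0 * L + 2 * xi := by
    have : xi * K ≤ xi * (2 * (c0 * L / xi + 1)) := by gcongr
    refine this.trans (le_of_eq ?_)
    field_simp
  have hKs : (K : ℝ) ≤ 1 / 100 * (c0 * L) + 2 := by
    have : c0 * L / xi ≤ c0 * L / 1000 := by gcongr
    linarith
  calc ((K : ℝ) + 1) * Real.exp (5 / 4 * xi * K + c0 / 2 * L + 16 * xA - 4 * c0 * L)
      ≤ Real.exp K * Real.exp (5 / 4 * xi * K + c0 / 2 * L + 16 * xA - 4 * c0 * L) := by gcongr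
    _ = Real.exp (K + (5 / 4 * xi * K + c0 / 2 * L + 16 * xA - 4 * c0 * L)) := by
        rw [← Real.exp_add]
    _ ≤ _ := Real.exp_le_exp.2 (by nlinarith)

end Crest.Agent.R225
end

-- ▼ part R225/Four
section

/-!
# Finite Fourier analysis for one random row `(c, ψ) ∈ ZMod P × (ZMod P)^m` (helper413)

`Row P m = ZMod P × (Fin m → ZMod P)`; `pair w b` is the standard bilinear form, `hom g = (1, g mod P)`,
`lin g = (0, g mod P)`, `res w g = w.1 + ∑ ψ i * g i = pair w (hom g)`.

* `sum_char_pair`  : orthogonality;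
* `expand`         : expectation of a product of trigonometric polynomials = sum over relations;
* `moment_eq`, `moment_mono`, `moment_count` : even moments and relation counts, monotonicity;
* `sum_smul`       : invariance under multiplication of the row by a unit;
* `count_rel_le`   : Hölder bound for the number of solutions of one relation;
* `relation_int_iff` : relations mod `P` are integer relations if `P` is large.
-/

set_option autoImplicit false

namespace Crest.Agent.R225.Four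

open Finset ZMod

/-- the standard bilinear form -/
def pair {P m : ℕ} (w b : Row P m) : ZMod P := w.1 * b.1 + ∑ i, w.2 i * b.2 i


/-- reduction mod `P` (no constant coordinate) -/
def lin (P : ℕ) {m : ℕ} (g : Pt m) : Row P m := (0, fun i => (g i : ZMod P))

section basic

variable {P m : ℕ}


lemma pair_add_right (w b b' : Row P m) : pair w (b + b') = pair w b + pair w b' := by
  simp only [pair, Prod.fst_add, Prod.snd_add, Pi.add_apply, mul_add, sum_add_distrib]; ring

lemma pair_add_left (w w' b : Row P m) : pair (w + w') b = pair w b + pair w' b := by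
  simp only [pair, Prod.fst_add, Prod.snd_add, Pi.add_apply, add_mul, sum_add_distrib]; ring

lemma pair_comm (w b : Row P m) : pair w b = pair b w := by
  simp only [pair, mul_comm]

@[simp] lemma pair_zero_right (w : Row P m) : pair w 0 = 0 := by simp [pair]

@[simp] lemma pair_zero_left (w : Row P m) : pair 0 w = 0 := by simp [pair]

lemma pair_smul_right (k : ZMod P) (w b : Row P m) : pair w (k • b) = k * pair w b := by
  simp only [pair, Prod.smul_fst, Prod.smul_snd, Pi.smul_apply, smul_eq_mul, mul_add, mul_sum]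
  congr 1
  · ring
  · exact sum_congr rfl fun i _ => by ring

lemma pair_smul_left (k : ZMod P) (w b : Row P m) : pair (k • w) b = k * pair w b := by
  rw [pair_comm, pair_smul_right, pair_comm]

lemma pair_neg_right (w b : Row P m) : pair w (-b) = -pair w b := by
  have := pair_add_right w b (-b)
  rw [add_neg_cancel, pair_zero_right] at this
  exact eq_neg_of_add_eq_zero_right this.symm

lemma pair_sub_right (w b b' : Row P m) : pair w (b - b') = pair w b - pair w b' := by
  rw [sub_eq_add_neg, pair_add_right, pair_neg_right, sub_eq_add_neg]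

lemma pair_sum_right {ι : Type*} (s : Finset ι) (w : Row P m) (b : ι → Row P m) :
    pair w (∑ a ∈ s, b a) = ∑ a ∈ s, pair w (b a) := by
  classical
  induction s using Finset.induction_on with
  | empty => simp
  | insert a s ha ih => rw [sum_insert ha, sum_insert ha, pair_add_right, ih]

lemma pair_eq_zero_iff (b : Row P m) : (∀ w : Row P m, pair w b = 0) ↔ b = 0 := by
  constructor
  · intro h
    have h1 := h (1, 0)
    simp [pair] at h1
    refine Prod.ext h1 (funext fun j => ?_)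
    have h2 := h (0, Pi.single j 1)
    simp only [pair, zero_mul, zero_add] at h2
    rw [sum_eq_single j] at h2
    · simpa using h2
    · intro i _ hij; simp [Pi.single_eq_of_ne hij]
    · intro hj; exact absurd (mem_univ j) hj
  · rintro rfl w; simp

end basic

variable {P : ℕ} [NeZero P] {m : ℕ}

/-- `e(x)` -/
noncomputable abbrev ee (x : ZMod P) : ℂ := (stdAddChar x : ℂ)

lemma ee_add (x y : ZMod P) : ee (x + y) = ee x * ee y := AddChar.map_add_eq_mul _ _ _

lemma ee_zero : ee (0 : ZMod P) = 1 := AddChar.map_zero_eq_one _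

lemma norm_ee (x : ZMod P) : ‖ee x‖ = 1 := by
  unfold ee; rw [stdAddChar_apply]; exact Circle.norm_coe _

lemma conj_ee (x : ZMod P) : (starRingEnd ℂ) (ee x) = ee (-x) := by
  unfold ee
  rw [stdAddChar_apply, stdAddChar_apply, ← Circle.coe_inv_eq_conj, AddChar.map_neg_eq_inv]

lemma ee_sum {ι : Type*} (s : Finset ι) (f : ι → ZMod P) : ee (∑ a ∈ s, f a) = ∏ a ∈ s, ee (f a) := by
  classical
  induction s using Finset.induction_on with
  | empty => simp [ee_zero]
  | insert a s ha ih => rw [sum_insert ha, prod_insert ha, ee_add, ih]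

/-- The additive character of the space of rows attached to `b`. -/
noncomputable def rowChar (b : Row P m) : AddChar (Row P m) ℂ where
  toFun w := ee (pair w b)
  map_zero_eq_one' := by simp [ee_zero]
  map_add_eq_mul' w w' := by rw [pair_add_left, ee_add]

lemma rowChar_apply (b w : Row P m) : rowChar b w = ee (pair w b) := rfl

lemma rowChar_eq_zero_iff (b : Row P m) : rowChar b = 0 ↔ b = 0 := by
  rw [← pair_eq_zero_iff, DFunLike.ext_iff]
  refine forall_congr' fun w => ?_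
  rw [rowChar_apply, AddChar.zero_apply]
  constructor
  · intro h
    have : (stdAddChar (pair w b) : ℂ) = stdAddChar (0 : ZMod P) := by
      have h' : (stdAddChar (pair w b) : ℂ) = 1 := h
      rw [h', AddChar.map_zero_eq_one]
    exact injective_stdAddChar this
  · intro h; rw [h, ee_zero]

lemma card_row : Fintype.card (Row P m) = P ^ (m + 1) := by
  rw [Fintype.card_prod, ZMod.card, Fintype.card_fun, ZMod.card, Fintype.card_fin, pow_succ']

/-- Orthogonality. -/
theorem sum_char_pair (b : Row P m) :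
    ∑ w : Row P m, ee (pair w b) = if b = 0 then (P : ℂ) ^ (m + 1) else 0 := by
  classical
  have h := AddChar.sum_eq_ite (rowChar b)
  simp only [rowChar_apply] at h
  rw [h]
  by_cases hb : b = 0
  · rw [if_pos hb, if_pos ((rowChar_eq_zero_iff b).2 hb), card_row]; push_cast; rfl
  · rw [if_neg hb, if_neg (fun h => hb ((rowChar_eq_zero_iff b).1 h))]


/-- Invariance under multiplication of the row by a unit. -/
theorem sum_smul {M : Type*} [AddCommMonoid M] (k : (ZMod P)ˣ) (f : Row P m → M) :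
    ∑ w : Row P m, f ((k : ZMod P) • w) = ∑ w, f w :=
  Fintype.sum_equiv (MulAction.toPerm k) _ _ fun w => rfl

section moments

variable {α : Type*}

/-- Exponential sum over `W` with weights `u`. -/
noncomputable def S (W : Finset α) (b : α → Row P m) (u : α → ℂ) (w : Row P m) : ℂ :=
  ∑ g ∈ W, u g * ee (pair w (b g))

lemma S_pow (W : Finset α) (b : α → Row P m) (u : α → ℂ) (w : Row P m) (s : ℕ) :
    S W b u w ^ s = ∑ x ∈ Fintype.piFinset (fun _ : Fin s => W),
      (∏ i, u (x i)) * ee (pair w (∑ i, b (x i))) := by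
  classical
  unfold S
  rw [← Fin.prod_const, prod_univ_sum]
  refine sum_congr rfl fun x _ => ?_
  rw [prod_mul_distrib, pair_sum_right, ee_sum]

lemma conj_S_pow (W : Finset α) (b : α → Row P m) (u : α → ℂ) (w : Row P m) (s : ℕ) :
    (starRingEnd ℂ) (S W b u w ^ s) = ∑ x ∈ Fintype.piFinset (fun _ : Fin s => W),
      (∏ i, (starRingEnd ℂ) (u (x i))) * ee (-pair w (∑ i, b (x i))) := by
  rw [S_pow, map_sum]
  refine sum_congr rfl fun x _ => ?_
  rw [map_mul, map_prod, conj_ee]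

/-- Even moments. -/
theorem moment_eq [DecidableEq α] (W : Finset α) (b : α → Row P m) (u : α → ℂ) (s : ℕ) :
    ((∑ w : Row P m, ‖S W b u w‖ ^ (2 * s) : ℝ) : ℂ) = (P : ℂ) ^ (m + 1) *
      ∑ p ∈ (Fintype.piFinset (fun _ : Fin s => W)) ×ˢ (Fintype.piFinset (fun _ : Fin s => W))
        with (∑ i, b (p.1 i) = ∑ i, b (p.2 i)),
        (∏ i, u (p.1 i)) * ∏ i, (starRingEnd ℂ) (u (p.2 i)) := by
  have h1 : ∀ w : Row P m, ((‖S W b u w‖ ^ (2 * s) : ℝ) : ℂ) =
      ∑ p ∈ (Fintype.piFinset (fun _ : Fin s => W)) ×ˢ (Fintype.piFinset (fun _ : Fin s => W)),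
        ((∏ i, u (p.1 i)) * ∏ i, (starRingEnd ℂ) (u (p.2 i))) *
          ee (pair w (∑ i, b (p.1 i) - ∑ i, b (p.2 i))) := by
    intro w
    have h2 : ((‖S W b u w‖ ^ (2 * s) : ℝ) : ℂ) = S W b u w ^ s * (starRingEnd ℂ) (S W b u w ^ s) := by
      rw [Complex.mul_conj, Complex.normSq_eq_norm_sq, norm_pow]
      push_cast
      rw [← pow_mul, mul_comm s 2]
    rw [h2, conj_S_pow, S_pow, sum_mul_sum, sum_product]
    refine sum_congr rfl fun x _ => sum_congr rfl fun y _ => ?_
    rw [pair_sub_right, sub_eq_add_neg, ee_add]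
    ring
  push_cast at h1 ⊢
  rw [sum_congr rfl fun w _ => h1 w, sum_comm, mul_sum, sum_filter]
  refine sum_congr rfl fun p _ => ?_
  rw [← mul_sum, sum_char_pair]
  simp only [sub_eq_zero]
  split_ifs with h
  · ring
  · ring

/-- Even moments with real weights. -/
theorem moment_real [DecidableEq α] (W : Finset α) (b : α → Row P m) (v : α → ℝ) (s : ℕ) :
    (∑ w : Row P m, ‖S W b (fun g => (v g : ℂ)) w‖ ^ (2 * s)) = (P : ℝ) ^ (m + 1) *
      ∑ p ∈ (Fintype.piFinset (fun _ : Fin s => W)) ×ˢ (Fintype.piFinset (fun _ : Fin s => W))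
        with (∑ i, b (p.1 i) = ∑ i, b (p.2 i)), (∏ i, v (p.1 i)) * ∏ i, v (p.2 i) := by
  have h := moment_eq W b (fun g => (v g : ℂ)) s
  simp only [Complex.conj_ofReal] at h
  exact_mod_cast h


/-- unweighted moments are relation counts -/
theorem moment_count [DecidableEq α] (W : Finset α) (b : α → Row P m) (s : ℕ) :
    (∑ w : Row P m, ‖S W b (fun _ => 1) w‖ ^ (2 * s)) = (P : ℝ) ^ (m + 1) *
      #{p ∈ (Fintype.piFinset (fun _ : Fin s => W)) ×ˢ (Fintype.piFinset (fun _ : Fin s => W)) |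
        ∑ i, b (p.1 i) = ∑ i, b (p.2 i)} := by
  have h := moment_real W b (fun _ => (1 : ℝ)) s
  simpa using h

lemma norm_S_le (W : Finset α) (b : α → Row P m) (u : α → ℂ) (w : Row P m) :
    ‖S W b u w‖ ≤ ∑ g ∈ W, ‖u g‖ := by
  unfold S
  refine (norm_sum_le _ _).trans (sum_le_sum fun g _ => ?_)
  rw [norm_mul, norm_ee, mul_one]

lemma norm_S_one_le (W : Finset α) (b : α → Row P m) (w : Row P m) :
    ‖S W b (fun _ => 1) w‖ ≤ #W := by
  refine (norm_S_le W b _ w).trans ?_
  simp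

/-- frequency `k` -/
lemma S_smul (W : Finset α) (b : α → Row P m) (u : α → ℂ) (k : ZMod P) (w : Row P m) :
    S W b u (k • w) = ∑ g ∈ W, u g * ee (k * pair w (b g)) := by
  unfold S
  refine sum_congr rfl fun g _ => ?_
  rw [pair_smul_left]

/-- AM-GM in power form. -/
lemma prod_le_sum_pow {ι : Type*} [Fintype ι] [Nonempty ι] (x : ι → ℝ) (hx : ∀ a, 0 ≤ x a) :
    ∏ a, x a ≤ (∑ a, x a ^ (Fintype.card ι)) / Fintype.card ι := by
  have hcard : (0 : ℝ) < Fintype.card ι := by exact_mod_cast Fintype.card_pos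
  have h := Real.geom_mean_le_arith_mean_weighted (univ : Finset ι)
      (fun _ => (1 : ℝ) / Fintype.card ι) (fun a => x a ^ (Fintype.card ι))
      (fun _ _ => by positivity)
      (by rw [sum_const, card_univ, nsmul_eq_mul]; field_simp)
      (fun a _ => pow_nonneg (hx a) _)
  rw [sum_div]
  refine le_trans (le_of_eq ?_) (h.trans (le_of_eq ?_))
  · refine prod_congr rfl fun a _ => ?_
    rw [← Real.rpow_natCast, ← Real.rpow_mul (hx a), mul_one_div_cancel hcard.ne', Real.rpow_one]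
  · refine sum_congr rfl fun a _ => ?_
    ring

/-- Fourier formula for the weighted number of solutions of one relation. -/
theorem rel_eq {ι : Type*} [Fintype ι] [DecidableEq ι] (W : ι → Finset α)
    (b : ι → α → Row P m) (u : ι → α → ℂ) (k : ι → ZMod P) (z : Row P m) :
    (P : ℂ) ^ (m + 1) * ∑ x ∈ Fintype.piFinset W with (∑ a, k a • b a (x a) = z),
        ∏ a, u a (x a) =
      ∑ w : Row P m, (∏ a, S (W a) (b a) (u a) (k a • w)) * ee (pair w (-z)) := by
  have h2 : ∀ w : Row P m, (∏ a, S (W a) (b a) (u a) (k a • w)) * ee (pair w (-z)) =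
      ∑ x ∈ Fintype.piFinset W, (∏ a, u a (x a)) * ee (pair w (∑ a, k a • b a (x a) - z)) := by
    intro w
    simp only [S_smul]
    rw [prod_univ_sum, sum_mul]
    refine sum_congr rfl fun x _ => ?_
    rw [prod_mul_distrib, sub_eq_add_neg, pair_add_right, ee_add, pair_sum_right, ee_sum, mul_assoc]
    congr 2
    refine prod_congr rfl fun a _ => ?_
    rw [pair_smul_right]
  rw [sum_congr rfl fun w _ => h2 w, sum_comm, mul_sum, sum_filter]
  refine sum_congr rfl fun x _ => ?_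
  rw [← mul_sum, sum_char_pair]
  simp only [sub_eq_zero]
  split_ifs with h
  · ring
  · ring

/-- The number of solutions of one relation with unit coefficients. -/
theorem rel_count_le {ι : Type*} [Fintype ι] [DecidableEq ι] [Nonempty ι] (W : Finset α)
    (b : α → Row P m) (k : ι → (ZMod P)ˣ) (z : Row P m) :
    (P : ℝ) ^ (m + 1) *
      #{x ∈ Fintype.piFinset (fun _ : ι => W) | ∑ a, (k a : ZMod P) • b (x a) = z} ≤
      ∑ w : Row P m, ‖S W b (fun _ => 1) w‖ ^ (Fintype.card ι) := by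
  have hcard : (0 : ℝ) < Fintype.card ι := by exact_mod_cast Fintype.card_pos
  have h1 := rel_eq (fun _ : ι => W) (fun _ => b) (fun _ _ => (1 : ℂ)) (fun a => (k a : ZMod P)) z
  simp only [prod_const_one, sum_const, nsmul_eq_mul, mul_one] at h1
  have h3 : (P : ℝ) ^ (m + 1) *
      #{x ∈ Fintype.piFinset (fun _ : ι => W) | ∑ a, (k a : ZMod P) • b (x a) = z} =
      ‖∑ w : Row P m, (∏ a, S W b (fun _ => 1) ((k a : ZMod P) • w)) * ee (pair w (-z))‖ := by
    rw [← h1, norm_mul, norm_pow, Complex.norm_natCast, Complex.norm_natCast]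
  rw [h3]
  refine (norm_sum_le _ _).trans ?_
  have h4 : ∀ w : Row P m,
      ‖(∏ a, S W b (fun _ => 1) ((k a : ZMod P) • w)) * ee (pair w (-z))‖ ≤
      (∑ a, ‖S W b (fun _ => 1) ((k a : ZMod P) • w)‖ ^ (Fintype.card ι)) / Fintype.card ι := by
    intro w
    rw [norm_mul, norm_ee, mul_one, norm_prod]
    exact prod_le_sum_pow _ fun _ => norm_nonneg _
  refine (sum_le_sum fun w _ => h4 w).trans (le_of_eq ?_)
  rw [← sum_div, sum_comm]
  have h5 : ∀ a : ι, ∑ w : Row P m, ‖S W b (fun _ => 1) ((k a : ZMod P) • w)‖ ^ (Fintype.card ι) =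
      ∑ w : Row P m, ‖S W b (fun _ => 1) w‖ ^ (Fintype.card ι) := fun a =>
    sum_smul (k a) (fun w => ‖S W b (fun _ => 1) w‖ ^ (Fintype.card ι))
  rw [sum_congr rfl fun a _ => h5 a, sum_const, card_univ, nsmul_eq_mul]
  field_simp

end moments

end Crest.Agent.R225.Four
end

-- ▼ part R225/E12
section

/-!
# Nodes E1 and E2 (helper413)
-/

set_option autoImplicit false

namespace Crest.Agent.R225

open Finset

namespace E12

open Four

variable {P : ℕ} {m : ℕ}

lemma lin_add (g g' : Pt m) : lin P (g + g') = lin P g + lin P g' := by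
  refine Prod.ext (by simp [lin]) (funext fun i => by simp [lin])

lemma lin_zero : lin P (0 : Pt m) = 0 := by
  refine Prod.ext (by simp [lin]) (funext fun i => by simp [lin])

lemma lin_zsmul (h : ℤ) (g : Pt m) : lin P (h • g) = (h : ZMod P) • lin P g := by
  refine Prod.ext (by simp [lin]) (funext fun i => by simp [lin])

lemma lin_sum {ι : Type*} (s : Finset ι) (f : ι → Pt m) :
    lin P (∑ i ∈ s, f i) = ∑ i ∈ s, lin P (f i) := by
  classical
  induction s using Finset.induction_on with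
  | empty => simp [lin_zero]
  | insert a s ha ih => rw [sum_insert ha, sum_insert ha, lin_add, ih]

lemma lin_inj {g g' : Pt m} (hb : ∀ j, |g j - g' j| < P) (h : lin P g = lin P g') : g = g' := by
  funext j
  have h1 : ((g j : ℤ) : ZMod P) = (g' j : ZMod P) := by
    have := congrArg (fun r : Row P m => r.2 j) h
    simpa [lin] using this
  have h2 : (P : ℤ) ∣ g' j - g j := (ZMod.intCast_eq_intCast_iff_dvd_sub _ _ _).1 h1
  have h3 : g' j - g j = 0 := Int.eq_zero_of_abs_lt_dvd h2 (by rw [abs_sub_comm]; exact hb j)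
  omega

lemma exists_bound (W : Finset (Pt m)) : ∃ R : ℕ, ∀ g ∈ W, ∀ j, |g j| ≤ R := by
  refine ⟨∑ g ∈ W, ∑ j, (g j).natAbs, fun g hg j => ?_⟩
  have h1 : (g j).natAbs ≤ ∑ j, (g j).natAbs :=
    single_le_sum (f := fun j => (g j).natAbs) (fun _ _ => Nat.zero_le _) (mem_univ j)
  have h2 : ∑ j, (g j).natAbs ≤ ∑ g ∈ W, ∑ j, (g j).natAbs :=
    single_le_sum (f := fun g : Pt m => ∑ j, (g j).natAbs) (fun _ _ => Nat.zero_le _) hg
  rw [Int.abs_eq_natAbs]
  exact_mod_cast h1.trans h2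

open scoped Classical in
lemma En_mod [NeZero P] (W : Finset (Pt m)) (q R : ℕ) (hR : ∀ g ∈ W, ∀ j, |g j| ≤ R)
    (hP : 2 * q * R < P) :
    (∑ w : Row P m, ‖S W (lin P) (fun _ => 1) w‖ ^ (2 * q)) = (P : ℝ) ^ (m + 1) * En q W := by
  rw [moment_count]
  congr 2
  unfold En
  congr 1
  refine filter_congr fun p hp => ?_
  rw [mem_product, Fintype.mem_piFinset, Fintype.mem_piFinset] at hp
  rw [← lin_sum, ← lin_sum]
  constructor
  · intro h
    refine lin_inj (fun j => ?_) h
    have h1 : ∀ x : Fin q → Pt m, (∀ i, x i ∈ W) → |(∑ i, x i) j| ≤ q * R := by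
      intro x hx
      rw [Finset.sum_apply]
      refine (abs_sum_le_sum_abs _ _).trans ?_
      refine (sum_le_sum fun i _ => hR _ (hx i) j).trans ?_
      simp
    have h2 := h1 _ hp.1
    have h3 := h1 _ hp.2
    have h4 : ((2 * q * R : ℕ) : ℤ) < P := by exact_mod_cast hP
    push_cast at h4
    rw [abs_lt]
    rw [abs_le] at h2 h3
    constructor <;> linarith
  · intro h; rw [h]

open scoped Classical in
lemma relCount_le_moment [Fact P.Prime] {k : ℕ} (hk : 0 < k) (W : Finset (Pt m)) (h : Fin k → ℤ)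
    (y : Pt m) (h0 : ∀ i, h i ≠ 0) (hP : ∀ i, |h i| < P) :
    (P : ℝ) ^ (m + 1) * relCount W h y ≤
      ∑ w : Row P m, ‖S W (lin P) (fun _ => 1) w‖ ^ k := by
  haveI : Nonempty (Fin k) := ⟨⟨0, hk⟩⟩
  have hu : ∀ i, IsUnit ((h i : ℤ) : ZMod P) := by
    intro i
    rw [isUnit_iff_ne_zero]
    intro hz
    rw [ZMod.intCast_zmod_eq_zero_iff_dvd] at hz
    exact h0 i (Int.eq_zero_of_abs_lt_dvd hz (hP i))
  have h1 := rel_count_le (ι := Fin k) W (lin P) (fun i => (hu i).unit) (lin P y)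
  rw [Fintype.card_fin] at h1
  refine le_trans (mul_le_mul_of_nonneg_left ?_ (by positivity)) h1
  unfold relCount
  refine Nat.cast_le.2 (card_le_card fun z hz => ?_)
  rw [mem_filter] at hz ⊢
  refine ⟨hz.1, ?_⟩
  rw [← hz.2, lin_sum]
  refine sum_congr rfl fun i _ => ?_
  rw [lin_zsmul, IsUnit.unit_spec]

lemma En_zero (W : Finset (Pt m)) : En 0 W = 1 := by
  classical
  unfold En
  rw [filter_true_of_mem]
  · simp
  · intro p _; simp

lemma relCount_le_card {k : ℕ} (W : Finset (Pt m)) (h : Fin k → ℤ) (y : Pt m) :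
    relCount W h y ≤ W.card ^ k := by
  classical
  unfold relCount
  refine (card_filter_le _ _).trans ?_
  rw [Fintype.card_piFinset]
  simp

lemma exists_prime (N : ℕ) : ∃ P : ℕ, N < P ∧ P.Prime := by
  obtain ⟨P, h1, h2⟩ := Nat.exists_infinite_primes (N + 1)
  exact ⟨P, h1, h2⟩

lemma En_one (W : Finset (Pt m)) : En 1 W = W.card := by
  classical
  unfold En
  refine card_bij (fun p _ => p.1 0) ?_ ?_ ?_
  · intro p hp
    rw [mem_filter, mem_product, Fintype.mem_piFinset] at hp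
    exact hp.1.1 0
  · intro p hp p' hp' h
    rw [mem_filter] at hp hp'
    have h1 := hp.2
    have h2 := hp'.2
    simp only [univ_unique, Fin.default_eq_zero, Fin.isValue, sum_singleton] at h1 h2
    refine Prod.ext (funext fun i => ?_) (funext fun i => ?_)
    · rw [Subsingleton.elim i 0]; exact h
    · rw [Subsingleton.elim i 0, ← h1, ← h2]; exact h
  · intro g hg
    refine ⟨(fun _ => g, fun _ => g), ?_, rfl⟩
    rw [mem_filter, mem_product]
    exact ⟨⟨Fintype.mem_piFinset.2 fun _ => hg, Fintype.mem_piFinset.2 fun _ => hg⟩, rfl⟩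

/-- log-convexity of power sums -/
lemma sum_pow_le {ι : Type*} (s : Finset ι) (x : ι → ℝ) (hx : ∀ i ∈ s, 0 ≤ x i) (k q : ℕ)
    (hk : 2 ≤ k) (hkq : k ≤ 2 * q) (hq : 2 ≤ q) :
    ∑ i ∈ s, x i ^ k ≤ (∑ i ∈ s, x i ^ 2) ^ (((2 * q - k : ℕ) : ℝ) / (2 * q - 2 : ℕ)) *
      (∑ i ∈ s, x i ^ (2 * q)) ^ (((k - 2 : ℕ) : ℝ) / (2 * q - 2 : ℕ)) := by
  set A := ∑ i ∈ s, x i ^ 2
  set B := ∑ i ∈ s, x i ^ (2 * q)
  set t1 : ℝ := ((2 * q - k : ℕ) : ℝ) / (2 * q - 2 : ℕ)
  set t2 : ℝ := ((k - 2 : ℕ) : ℝ) / (2 * q - 2 : ℕ)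
  have hden : (0 : ℝ) < ((2 * q - 2 : ℕ) : ℝ) := by
    have : 0 < 2 * q - 2 := by omega
    exact_mod_cast this
  have ht1 : 0 ≤ t1 := by positivity
  have ht2 : 0 ≤ t2 := by positivity
  have ht : t1 + t2 = 1 := by
    rw [← add_div, div_eq_one_iff_eq hden.ne']
    have : 2 * q - k + (k - 2) = 2 * q - 2 := by omega
    exact_mod_cast this
  have hk' : 2 * t1 + (2 * q : ℕ) * t2 = k := by
    have h1 : ((2 * q - k : ℕ) : ℝ) = 2 * q - k := by push_cast [Nat.cast_sub hkq]; ring
    have h2 : ((k - 2 : ℕ) : ℝ) = k - 2 := by push_cast [Nat.cast_sub hk]; ring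
    have h3 : ((2 * q - 2 : ℕ) : ℝ) = 2 * q - 2 := by
      push_cast [Nat.cast_sub (show 2 ≤ 2 * q by omega)]; ring
    have hd : (2 * (q : ℝ) - 2) ≠ 0 := by rw [← h3]; exact hden.ne'
    simp only [t1, t2, h1, h2, h3]
    push_cast
    rw [mul_div_assoc', mul_div_assoc', ← add_div, div_eq_iff hd]
    ring
  have hA0 : 0 ≤ A := sum_nonneg fun i hi => pow_nonneg (hx i hi) _
  have hB0 : 0 ≤ B := sum_nonneg fun i hi => pow_nonneg (hx i hi) _
  rcases hA0.eq_or_lt with hA | hA
  · -- all zero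
    have hz : ∀ i ∈ s, x i = 0 := by
      intro i hi
      have := (sum_eq_zero_iff_of_nonneg fun i hi => pow_nonneg (hx i hi) _).1 hA.symm i hi
      exact pow_eq_zero_iff (two_ne_zero) |>.1 this
    have : ∑ i ∈ s, x i ^ k = 0 := sum_eq_zero fun i hi => by
      rw [hz i hi, zero_pow (by omega)]
    rw [this]
    positivity
  · have hB : 0 < B := by
      rcases hB0.eq_or_lt with hB | hB
      · exfalso
        have hz : ∀ i ∈ s, x i = 0 := by
          intro i hi
          have := (sum_eq_zero_iff_of_nonneg fun i hi => pow_nonneg (hx i hi) _).1 hB.symm i hi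
          exact pow_eq_zero_iff (by omega) |>.1 this
        have : A = 0 := sum_eq_zero fun i hi => by rw [hz i hi]; norm_num
        exact hA.ne' this
      · exact hB
    have hAB : 0 < A ^ t1 * B ^ t2 := mul_pos (Real.rpow_pos_of_pos hA _) (Real.rpow_pos_of_pos hB _)
    have key : ∀ i ∈ s, x i ^ k ≤ (t1 * (x i ^ 2 / A) + t2 * (x i ^ (2 * q) / B)) *
        (A ^ t1 * B ^ t2) := by
      intro i hi
      have h1 := Real.geom_mean_le_arith_mean2_weighted ht1 ht2
        (div_nonneg (pow_nonneg (hx i hi) 2) hA.le) (div_nonneg (pow_nonneg (hx i hi) (2 * q)) hB.le) ht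
      have h2 : (x i ^ 2 / A) ^ t1 * (x i ^ (2 * q) / B) ^ t2 * (A ^ t1 * B ^ t2) = x i ^ k := by
        rw [Real.div_rpow (pow_nonneg (hx i hi) 2) hA.le,
          Real.div_rpow (pow_nonneg (hx i hi) (2 * q)) hB.le]
        have hA' : A ^ t1 ≠ 0 := (Real.rpow_pos_of_pos hA _).ne'
        have hB' : B ^ t2 ≠ 0 := (Real.rpow_pos_of_pos hB _).ne'
        have h3 : (x i ^ 2) ^ t1 * (x i ^ (2 * q)) ^ t2 = x i ^ k := by
          rw [← Real.rpow_natCast (x i) 2, ← Real.rpow_natCast (x i) (2 * q),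
            ← Real.rpow_mul (hx i hi), ← Real.rpow_mul (hx i hi)]
          rcases (hx i hi).eq_or_lt with h0 | h0
          · -- x i = 0
            rw [← h0]
            have hk0 : k ≠ 0 := by omega
            rw [zero_pow hk0]
            by_cases ht1' : t1 = 0
            · have ht2' : t2 ≠ 0 := by intro h; rw [ht1', h] at ht; norm_num at ht
              rw [Real.zero_rpow (x := ((2 * q : ℕ) : ℝ) * t2), mul_zero]
              refine mul_ne_zero ?_ ht2'
              have : 2 * q ≠ 0 := by omega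
              exact_mod_cast this
            · rw [Real.zero_rpow (x := ((2 : ℕ) : ℝ) * t1), zero_mul]
              exact mul_ne_zero (by norm_num) ht1'
          · rw [← Real.rpow_add h0]
            push_cast at hk' ⊢
            rw [hk', Real.rpow_natCast]
        field_simp
        exact h3
      rw [← h2]
      exact mul_le_mul_of_nonneg_right h1 hAB.le
    refine (sum_le_sum key).trans (le_of_eq ?_)
    rw [← sum_mul, sum_add_distrib, ← mul_sum, ← mul_sum, ← sum_div, ← sum_div]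
    change (t1 * (A / A) + t2 * (B / B)) * _ = _
    rw [div_self hA.ne', div_self hB.ne', mul_one, mul_one, ht, one_mul]

end E12

open E12 Four in
theorem prf_E1 : S_E1 := by
  classical
  intro m k q W h y h0 hk
  rcases Nat.eq_zero_or_pos q with hq | hq
  · subst hq
    rw [En_zero, mul_one, mul_zero, Nat.sub_zero]
    exact relCount_le_card W h y
  have hk0 : 0 < k := by omega
  obtain ⟨R, hR⟩ := exists_bound W
  obtain ⟨P, hPN, hPp⟩ := exists_prime (2 * q * R + ∑ i, (h i).natAbs)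
  haveI : Fact P.Prime := ⟨hPp⟩
  have hP1 : 2 * q * R < P := by omega
  have hP2 : ∀ i, |h i| < P := by
    intro i
    have h1 : (h i).natAbs ≤ ∑ i, (h i).natAbs :=
      single_le_sum (f := fun i => (h i).natAbs) (fun _ _ => Nat.zero_le _) (mem_univ i)
    rw [Int.abs_eq_natAbs]
    have : (h i).natAbs < P := by omega
    exact_mod_cast this
  have h1 := relCount_le_moment hk0 W h y h0 hP2
  have h2 := En_mod W q R hR hP1
  have h3 : ∑ w : Row P m, ‖S W (lin P) (fun _ => 1) w‖ ^ k ≤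
      (W.card : ℝ) ^ (k - 2 * q) * ∑ w : Row P m, ‖S W (lin P) (fun _ => 1) w‖ ^ (2 * q) := by
    rw [mul_sum]
    refine sum_le_sum fun w _ => ?_
    have : k = (k - 2 * q) + 2 * q := by omega
    conv_lhs => rw [this, pow_add]
    refine mul_le_mul_of_nonneg_right ?_ (by positivity)
    exact pow_le_pow_left₀ (norm_nonneg _) (norm_S_one_le _ _ _) _
  rw [h2] at h3
  have hPpos : (0 : ℝ) < (P : ℝ) ^ (m + 1) := by
    have : (0 : ℝ) < P := by exact_mod_cast hPp.pos
    positivity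
  have h4 : (P : ℝ) ^ (m + 1) * relCount W h y ≤
      (P : ℝ) ^ (m + 1) * ((W.card : ℝ) ^ (k - 2 * q) * En q W) := by
    calc _ ≤ _ := h1
      _ ≤ _ := h3
      _ = _ := by ring
  have h5 := le_of_mul_le_mul_left h4 hPpos
  exact_mod_cast h5

open E12 Four in
theorem prf_E2 : S_E2 := by
  classical
  intro m k q W h y h0 hk hkq hq
  have hk0 : 0 < k := by omega
  obtain ⟨R, hR⟩ := exists_bound W
  obtain ⟨P, hPN, hPp⟩ := exists_prime (2 * q * R + 2 * 1 * R + ∑ i, (h i).natAbs)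
  haveI : Fact P.Prime := ⟨hPp⟩
  have hP1 : 2 * q * R < P := by omega
  have hP1' : 2 * 1 * R < P := by omega
  have hP2 : ∀ i, |h i| < P := by
    intro i
    have h1 : (h i).natAbs ≤ ∑ i, (h i).natAbs :=
      single_le_sum (f := fun i => (h i).natAbs) (fun _ _ => Nat.zero_le _) (mem_univ i)
    rw [Int.abs_eq_natAbs]
    have : (h i).natAbs < P := by omega
    exact_mod_cast this
  have h1 := relCount_le_moment hk0 W h y h0 hP2
  have h2 := En_mod W q R hR hP1
  have h2' := En_mod W 1 R hR hP1'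
  rw [En_one, mul_one] at h2'
  have h3 := sum_pow_le (univ : Finset (Row P m)) (fun w => ‖S W (lin P) (fun _ => 1) w‖)
    (fun _ _ => norm_nonneg _) k q hk hkq hq
  rw [h2, h2'] at h3
  have hPpos : (0 : ℝ) < (P : ℝ) ^ (m + 1) := by
    have : (0 : ℝ) < P := by exact_mod_cast hPp.pos
    positivity
  have ht : ((2 * q - k : ℕ) : ℝ) / (2 * q - 2 : ℕ) + ((k - 2 : ℕ) : ℝ) / (2 * q - 2 : ℕ) = 1 := by
    have hden : (0 : ℝ) < ((2 * q - 2 : ℕ) : ℝ) := by
      have : 0 < 2 * q - 2 := by omega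
      exact_mod_cast this
    rw [← add_div, div_eq_one_iff_eq hden.ne']
    have : 2 * q - k + (k - 2) = 2 * q - 2 := by omega
    exact_mod_cast this
  rw [Real.mul_rpow hPpos.le (Nat.cast_nonneg _), Real.mul_rpow hPpos.le (Nat.cast_nonneg _)] at h3
  have h4 : (P : ℝ) ^ (m + 1) * relCount W h y ≤ (P : ℝ) ^ (m + 1) *
      ((W.card : ℝ) ^ (((2 * q - k : ℕ) : ℝ) / (2 * q - 2 : ℕ)) *
        (En q W : ℝ) ^ (((k - 2 : ℕ) : ℝ) / (2 * q - 2 : ℕ))) := by
    refine (h1.trans h3).trans (le_of_eq ?_)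
    set a := (P : ℝ) ^ (m + 1)
    have h6 : a ^ (((2 * q - k : ℕ) : ℝ) / (2 * q - 2 : ℕ)) *
        a ^ (((k - 2 : ℕ) : ℝ) / (2 * q - 2 : ℕ)) = a := by
      rw [← Real.rpow_add hPpos, ht, Real.rpow_one]
    calc _ = (a ^ (((2 * q - k : ℕ) : ℝ) / (2 * q - 2 : ℕ)) *
        a ^ (((k - 2 : ℕ) : ℝ) / (2 * q - 2 : ℕ))) *
        ((W.card : ℝ) ^ (((2 * q - k : ℕ) : ℝ) / (2 * q - 2 : ℕ)) *
        (En q W : ℝ) ^ (((k - 2 : ℕ) : ℝ) / (2 * q - 2 : ℕ))) := by ring
      _ = _ := by rw [h6]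
  exact le_of_mul_le_mul_left h4 hPpos

end Crest.Agent.R225
end

-- ▼ part R225/Thin
section

/-!
# Row 225 (S0347): node Thin (helper863)

Energy of an independent `p`-thinning: `prf_Thin : S_Thin`.
`E[En q A] = avg_θ E|∑_{g∈A} e(θ g)|^{2q}`, split `1_A = p + (1_A - p)` and bound the even moments of
the centred sum by its exponential moments.
-/

set_option autoImplicit false

open Finset
open scoped BigOperators

namespace Crest.Agent.R225

namespace Thin

section prob

variable {α : Type*} [DecidableEq α]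

/-- probability of the subset `A` of `W` under independent `p`-thinning -/
noncomputable def mu (W : Finset α) (p : ℝ) (A : Finset α) : ℝ :=
  p ^ A.card * (1 - p) ^ (W \ A).card

lemma mu_nonneg (W : Finset α) {p : ℝ} (h0 : 0 ≤ p) (h1 : p ≤ 1) (A : Finset α) :
    0 ≤ mu W p A := by
  unfold mu
  have : 0 ≤ 1 - p := by linarith
  positivity

/-- `P(S ⊆ A) = p^|S|` -/
lemma sum_mu_supset (W : Finset α) (p : ℝ) (S : Finset α) (hS : S ⊆ W) :
    ∑ A ∈ W.powerset, (if S ⊆ A then mu W p A else 0) = p ^ S.card := by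
  have h := Finset.prod_add (fun _ : α => p) (fun g => if g ∈ S then (0 : ℝ) else 1 - p) W
  have h1 : ∏ g ∈ W, (p + if g ∈ S then (0 : ℝ) else 1 - p) = p ^ S.card := by
    have : ∀ g ∈ W, (p + if g ∈ S then (0 : ℝ) else 1 - p) = if g ∈ S then p else 1 := by
      intro g _
      split_ifs <;> ring
    rw [prod_congr rfl this, prod_ite, prod_const_one, mul_one, prod_const]
    congr 2
    ext g
    simp only [mem_filter]
    exact ⟨fun h => h.2, fun h => ⟨hS h, h⟩⟩
  rw [h1] at h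
  rw [h]
  refine sum_congr rfl fun A hA => ?_
  rw [mem_powerset] at hA
  rw [prod_const]
  by_cases hSA : S ⊆ A
  · rw [if_pos hSA]
    have : ∀ g ∈ W \ A, (if g ∈ S then (0 : ℝ) else 1 - p) = 1 - p := by
      intro g hg
      rw [mem_sdiff] at hg
      rw [if_neg (fun h => hg.2 (hSA h))]
    rw [prod_congr rfl this, prod_const]
    rfl
  · rw [if_neg hSA]
    obtain ⟨g, hgS, hgA⟩ := not_subset.1 hSA
    rw [prod_eq_zero (i := g) (mem_sdiff.2 ⟨hS hgS, hgA⟩), mul_zero]
    rw [if_pos hgS]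

lemma sum_mu (W : Finset α) (p : ℝ) : ∑ A ∈ W.powerset, mu W p A = 1 := by
  have := sum_mu_supset W p ∅ (empty_subset _)
  simpa using this

/-- centred linear form -/
noncomputable def Y (W : Finset α) (p : ℝ) (a : α → ℝ) (A : Finset α) : ℝ :=
  ∑ g ∈ W, ((if g ∈ A then (1 : ℝ) else 0) - p) * a g

lemma exp_quad {x : ℝ} (h : |x| ≤ 1) : Real.exp x ≤ 1 + x + x ^ 2 := by
  have := Real.abs_exp_sub_one_sub_id_le h
  have := (abs_le.1 this).2
  linarith

/-- one factor -/
lemma factor_le {p s a : ℝ} (h0 : 0 ≤ p) (h1 : p ≤ 1) (hs : |s| ≤ 1) (ha : |a| ≤ 1) :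
    p * Real.exp (s * ((1 - p) * a)) + (1 - p) * Real.exp (s * ((0 - p) * a)) ≤
      Real.exp (s ^ 2 * p) := by
  have hsa : |s * a| ≤ 1 := by
    rw [abs_mul]
    exact mul_le_one₀ hs (abs_nonneg _) ha
  have e1 : |s * ((1 - p) * a)| ≤ 1 := by
    have : s * ((1 - p) * a) = (1 - p) * (s * a) := by ring
    rw [this, abs_mul, abs_of_nonneg (by linarith : 0 ≤ 1 - p)]
    exact mul_le_one₀ (by linarith) (abs_nonneg _) hsa
  have e2 : |s * ((0 - p) * a)| ≤ 1 := by
    have : s * ((0 - p) * a) = -(p * (s * a)) := by ring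
    rw [this, abs_neg, abs_mul, abs_of_nonneg h0]
    exact mul_le_one₀ h1 (abs_nonneg _) hsa
  have f1 := exp_quad e1
  have f2 := exp_quad e2
  have hq : s ^ 2 * a ^ 2 ≤ s ^ 2 := by
    have ha2 : a ^ 2 ≤ 1 := by
      rw [← sq_abs]
      exact pow_le_one₀ (abs_nonneg _) ha
    nlinarith [sq_nonneg s]
  have g1 : p * Real.exp (s * ((1 - p) * a)) ≤
      p * (1 + s * ((1 - p) * a) + (s * ((1 - p) * a)) ^ 2) :=
    mul_le_mul_of_nonneg_left f1 h0
  have g2 : (1 - p) * Real.exp (s * ((0 - p) * a)) ≤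
      (1 - p) * (1 + s * ((0 - p) * a) + (s * ((0 - p) * a)) ^ 2) :=
    mul_le_mul_of_nonneg_left f2 (by linarith)
  have g3 : p * (1 + s * ((1 - p) * a) + (s * ((1 - p) * a)) ^ 2) +
      (1 - p) * (1 + s * ((0 - p) * a) + (s * ((0 - p) * a)) ^ 2) =
      1 + (p * (1 - p)) * (s ^ 2 * a ^ 2) := by ring
  have g4 : (p * (1 - p)) * (s ^ 2 * a ^ 2) ≤ s ^ 2 * p := by
    have h3 : 0 ≤ p * (1 - p) := mul_nonneg h0 (by linarith)
    have h4 : (p * (1 - p)) * (s ^ 2 * a ^ 2) ≤ (p * (1 - p)) * s ^ 2 :=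
      mul_le_mul_of_nonneg_left hq h3
    have h5 : (p * (1 - p)) * s ^ 2 ≤ s ^ 2 * p := by
      have : 0 ≤ s ^ 2 * (p * p) := by positivity
      nlinarith
    linarith
  have g5 := Real.add_one_le_exp (s ^ 2 * p)
  linarith

/-- exponential moments -/
lemma mgf_le (W : Finset α) {p s : ℝ} (a : α → ℝ) (h0 : 0 ≤ p) (h1 : p ≤ 1) (hs : |s| ≤ 1)
    (ha : ∀ g ∈ W, |a g| ≤ 1) :
    ∑ A ∈ W.powerset, mu W p A * Real.exp (s * Y W p a A) ≤ Real.exp (s ^ 2 * (W.card * p)) := by
  have h := Finset.prod_add (fun g => p * Real.exp (s * ((1 - p) * a g)))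
    (fun g => (1 - p) * Real.exp (s * ((0 - p) * a g))) W
  have h2 : ∑ A ∈ W.powerset, mu W p A * Real.exp (s * Y W p a A) =
      ∏ g ∈ W, (p * Real.exp (s * ((1 - p) * a g)) + (1 - p) * Real.exp (s * ((0 - p) * a g))) := by
    rw [h]
    refine sum_congr rfl fun A hA => ?_
    rw [mem_powerset] at hA
    rw [prod_mul_distrib, prod_mul_distrib, prod_const, prod_const, ← Real.exp_sum, ← Real.exp_sum]
    have h3 : s * Y W p a A =
        ∑ g ∈ A, s * ((1 - p) * a g) + ∑ g ∈ W \ A, s * ((0 - p) * a g) := by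
      unfold Y
      rw [← sum_sdiff hA, mul_add, mul_sum, mul_sum, add_comm]
      congr 1
      · refine sum_congr rfl fun g hg => ?_
        rw [if_pos hg]
      · refine sum_congr rfl fun g hg => ?_
        rw [if_neg (mem_sdiff.1 hg).2]
    rw [h3, Real.exp_add]
    unfold mu
    ring
  rw [h2]
  have h4 : ∀ g ∈ W, (p * Real.exp (s * ((1 - p) * a g)) +
      (1 - p) * Real.exp (s * ((0 - p) * a g))) ≤ Real.exp (s ^ 2 * p) :=
    fun g hg => factor_le h0 h1 hs (ha g hg)
  refine (prod_le_prod (fun g _ => ?_) h4).trans (le_of_eq ?_)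
  · have : 0 ≤ 1 - p := by linarith
    positivity
  · rw [prod_const, ← Real.exp_nat_mul]
    congr 1
    ring

/-- `y^(2q) ≤ (2q)!/s^(2q) (e^{sy} + e^{-sy})` -/
lemma pow_le_exp {s y : ℝ} (hs : 0 < s) (q : ℕ) :
    y ^ (2 * q) ≤ (2 * q : ℕ).factorial / s ^ (2 * q) * (Real.exp (s * y) + Real.exp (-s * y)) := by
  have h1 : |s * y| ^ (2 * q) / (2 * q : ℕ).factorial ≤ Real.exp |s * y| :=
    Real.pow_div_factorial_le_exp _ (abs_nonneg _) _
  have h2 : Real.exp |s * y| ≤ Real.exp (s * y) + Real.exp (-s * y) := by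
    rcases abs_cases (s * y) with ⟨h, _⟩ | ⟨h, _⟩
    · rw [h]
      linarith [Real.exp_pos (-s * y)]
    · rw [h, ← neg_mul]
      linarith [Real.exp_pos (s * y)]
  have h3 : |s * y| ^ (2 * q) = s ^ (2 * q) * y ^ (2 * q) := by
    rw [Even.pow_abs ⟨q, by ring⟩, mul_pow]
  rw [h3] at h1
  have hs' : 0 < s ^ (2 * q) := by positivity
  have hf : (0 : ℝ) < (2 * q : ℕ).factorial := by exact_mod_cast Nat.factorial_pos _
  have h4 := h1.trans h2
  rw [div_le_iff₀ hf] at h4
  rw [div_mul_eq_mul_div, le_div_iff₀ hs']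
  linarith

/-- even moments of a real centred linear form -/
lemma moment_real_le (W : Finset α) {p M : ℝ} (a : α → ℝ) (h0 : 0 ≤ p) (h1 : p ≤ 1)
    (ha : ∀ g ∈ W, |a g| ≤ 1) {q : ℕ} (hq : 1 ≤ q) (hM : (W.card : ℝ) * p ≤ M)
    (hqM : 2 * (q : ℝ) ≤ M) :
    ∑ A ∈ W.powerset, mu W p A * Y W p a A ^ (2 * q) ≤ 2 * (4 * Real.exp 1 * (q * M)) ^ q := by
  have hq0 : (0 : ℝ) < q := by exact_mod_cast hq
  have hM0 : 0 < M := by linarith
  set s : ℝ := Real.sqrt (q / M) with hs
  have hs2 : s ^ 2 = q / M := Real.sq_sqrt (by positivity)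
  have hs0 : 0 < s := Real.sqrt_pos.2 (by positivity)
  have hs1 : |s| ≤ 1 := by
    rw [abs_of_pos hs0]
    rw [hs, Real.sqrt_le_iff]
    refine ⟨zero_le_one, ?_⟩
    rw [one_pow, div_le_one hM0]
    linarith
  have hs1' : |-s| ≤ 1 := by rw [abs_neg]; exact hs1
  have m1 := mgf_le W a h0 h1 hs1 ha
  have m2 := mgf_le W a h0 h1 hs1' ha
  have e1 : s ^ 2 * (W.card * p) ≤ q := by
    rw [hs2, div_mul_eq_mul_div, div_le_iff₀ hM0]
    exact mul_le_mul_of_nonneg_left hM hq0.le
  have e2 : (-s) ^ 2 * (W.card * p) ≤ q := by rw [neg_sq]; exact e1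
  have m1' := m1.trans (Real.exp_le_exp.2 e1)
  have m2' := m2.trans (Real.exp_le_exp.2 e2)
  set F : ℝ := (2 * q : ℕ).factorial / s ^ (2 * q) with hF
  have hF0 : 0 ≤ F := by positivity
  have k1 : ∑ A ∈ W.powerset, mu W p A * Y W p a A ^ (2 * q) ≤
      ∑ A ∈ W.powerset, mu W p A * (F * (Real.exp (s * Y W p a A) + Real.exp (-s * Y W p a A))) :=
    sum_le_sum fun A _ => mul_le_mul_of_nonneg_left (pow_le_exp hs0 q) (mu_nonneg W h0 h1 A)
  have k2 : ∑ A ∈ W.powerset, mu W p A * (F * (Real.exp (s * Y W p a A) + Real.exp (-s * Y W p a A)))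
      = F * (∑ A ∈ W.powerset, mu W p A * Real.exp (s * Y W p a A) +
        ∑ A ∈ W.powerset, mu W p A * Real.exp (-s * Y W p a A)) := by
    rw [← sum_add_distrib, mul_sum]
    refine sum_congr rfl fun A _ => ?_
    ring
  have k3 : F ≤ (4 * (q * M)) ^ q := by
    have f1 : ((2 * q : ℕ).factorial : ℝ) ≤ (2 * q : ℝ) ^ (2 * q) := by
      have := Nat.factorial_le_pow (2 * q)
      exact_mod_cast this
    have f2 : s ^ (2 * q) = (q / M) ^ q := by rw [pow_mul, hs2]
    rw [hF, f2, div_le_iff₀ (by positivity), ← mul_pow]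
    have f3 : 4 * (q * M) * (q / M) = (2 * q : ℝ) ^ 2 := by field_simp; ring
    rw [f3, ← pow_mul]
    exact f1
  calc _ ≤ _ := k1
    _ = _ := k2
    _ ≤ (4 * (q * M)) ^ q * (Real.exp q + Real.exp q) := by
        refine mul_le_mul k3 (add_le_add m1' m2') ?_ (by positivity)
        refine add_nonneg (sum_nonneg fun A _ => ?_) (sum_nonneg fun A _ => ?_)
        · exact mul_nonneg (mu_nonneg W h0 h1 A) (Real.exp_pos _).le
        · exact mul_nonneg (mu_nonneg W h0 h1 A) (Real.exp_pos _).le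
    _ = 2 * (4 * Real.exp 1 * (q * M)) ^ q := by
        have : Real.exp q = Real.exp 1 ^ q := by rw [← Real.exp_nat_mul, mul_one]
        rw [this]
        have h5 : 4 * Real.exp 1 * (q * M) = (4 * (q * M)) * Real.exp 1 := by ring
        rw [h5, mul_pow (4 * (q * M))]
        ring

/-- even moments of a complex centred linear form -/
lemma moment_complex_le (W : Finset α) {p M : ℝ} (c : α → ℂ) (h0 : 0 ≤ p) (h1 : p ≤ 1)
    (hc : ∀ g ∈ W, ‖c g‖ ≤ 1) {q : ℕ} (hq : 1 ≤ q) (hM : (W.card : ℝ) * p ≤ M)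
    (hqM : 2 * (q : ℝ) ≤ M) :
    ∑ A ∈ W.powerset, mu W p A *
      ‖∑ g ∈ W, (((if g ∈ A then (1 : ℝ) else 0) - p : ℝ) : ℂ) * c g‖ ^ (2 * q) ≤
      2 * (8 * Real.exp 1 * (q * M)) ^ q := by
  have hre : ∀ g ∈ W, |(c g).re| ≤ 1 := fun g hg => (Complex.abs_re_le_norm _).trans (hc g hg)
  have him : ∀ g ∈ W, |(c g).im| ≤ 1 := fun g hg => (Complex.abs_im_le_norm _).trans (hc g hg)
  have r1 := moment_real_le W (fun g => (c g).re) h0 h1 hre hq hM hqM
  have r2 := moment_real_le W (fun g => (c g).im) h0 h1 him hq hM hqM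
  have key : ∀ A ∈ W.powerset, mu W p A *
      ‖∑ g ∈ W, (((if g ∈ A then (1 : ℝ) else 0) - p : ℝ) : ℂ) * c g‖ ^ (2 * q) ≤
      2 ^ (q - 1) * (mu W p A * Y W p (fun g => (c g).re) A ^ (2 * q)) +
      2 ^ (q - 1) * (mu W p A * Y W p (fun g => (c g).im) A ^ (2 * q)) := by
    intro A _
    set z : ℂ := ∑ g ∈ W, (((if g ∈ A then (1 : ℝ) else 0) - p : ℝ) : ℂ) * c g with hz
    have z1 : z.re = Y W p (fun g => (c g).re) A := by
      rw [hz, Complex.re_sum]
      unfold Y
      refine sum_congr rfl fun g _ => ?_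
      rw [Complex.re_ofReal_mul]
    have z2 : z.im = Y W p (fun g => (c g).im) A := by
      rw [hz, Complex.im_sum]
      unfold Y
      refine sum_congr rfl fun g _ => ?_
      rw [Complex.im_ofReal_mul]
    have z3 : ‖z‖ ^ (2 * q) = (z.re ^ 2 + z.im ^ 2) ^ q := by
      rw [pow_mul, ← Complex.normSq_eq_norm_sq, Complex.normSq_apply]
      congr 1
      ring
    have z4 : (z.re ^ 2 + z.im ^ 2) ^ q ≤ 2 ^ (q - 1) * ((z.re ^ 2) ^ q + (z.im ^ 2) ^ q) :=
      add_pow_le (sq_nonneg _) (sq_nonneg _) q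
    rw [← pow_mul, ← pow_mul] at z4
    rw [← z1, ← z2, z3]
    have := mul_le_mul_of_nonneg_left z4 (mu_nonneg W h0 h1 A)
    refine this.trans (le_of_eq ?_)
    ring
  refine (sum_le_sum key).trans ?_
  rw [sum_add_distrib, ← mul_sum, ← mul_sum]
  have hpow : (0 : ℝ) ≤ 2 ^ (q - 1) := by positivity
  have s1 := mul_le_mul_of_nonneg_left r1 hpow
  have s2 := mul_le_mul_of_nonneg_left r2 hpow
  refine (add_le_add s1 s2).trans (le_of_eq ?_)
  have h8 : 8 * Real.exp 1 * (q * M) = 2 * (4 * Real.exp 1 * (q * M)) := by ring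
  rw [h8, mul_pow 2]
  have h2 : (2 : ℝ) ^ q = 2 * 2 ^ (q - 1) := by
    rw [← pow_succ']
    congr 1
    omega
  rw [h2]
  ring

end prob

open scoped Classical in
/-- the thinned count is the expected energy -/
lemma sum_pow_eq {m : ℕ} (q : ℕ) (W : Finset (Pt m)) (p : ℝ) :
    ∑ T ∈ ((Fintype.piFinset fun _ : Fin q => W) ×ˢ (Fintype.piFinset fun _ : Fin q => W)).filter
      (fun T => ∑ i, T.1 i = ∑ i, T.2 i), p ^ (univ.image T.1 ∪ univ.image T.2).card =
    ∑ A ∈ W.powerset, mu W p A * En q A := by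
  have h1 : ∀ T ∈ ((Fintype.piFinset fun _ : Fin q => W) ×ˢ
      (Fintype.piFinset fun _ : Fin q => W)).filter (fun T => ∑ i, T.1 i = ∑ i, T.2 i),
      p ^ (univ.image T.1 ∪ univ.image T.2).card =
      ∑ A ∈ W.powerset, (if (univ.image T.1 ∪ univ.image T.2) ⊆ A then mu W p A else 0) := by
    intro T hT
    rw [mem_filter, mem_product, Fintype.mem_piFinset, Fintype.mem_piFinset] at hT
    rw [sum_mu_supset]
    rw [union_subset_iff, image_subset_iff, image_subset_iff]
    exact ⟨fun i _ => hT.1.1 i, fun i _ => hT.1.2 i⟩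
  rw [sum_congr rfl h1, sum_comm]
  refine sum_congr rfl fun A hA => ?_
  rw [mem_powerset] at hA
  rw [← sum_filter, sum_const, nsmul_eq_mul, mul_comm]
  congr 2
  unfold En
  congr 1
  ext T
  simp only [mem_filter, mem_product, Fintype.mem_piFinset, union_subset_iff, image_subset_iff,
    mem_univ, true_imp_iff]
  constructor
  · rintro ⟨⟨_, h2⟩, h3⟩
    exact ⟨h3, h2⟩
  · rintro ⟨h3, h2⟩
    exact ⟨⟨⟨fun i => hA (h3.1 i), fun i => hA (h3.2 i)⟩, h2⟩, h3⟩

end Thin

open Thin E12 Four in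
theorem prf_Thin : S_Thin := by
  classical
  refine ⟨100, by norm_num, ?_⟩
  intro m q W p M h0 h1 hq hM hqM
  obtain ⟨R, hR⟩ := exists_bound W
  set P : ℕ := 2 * q * R + 1 with hPdef
  haveI : NeZero P := ⟨by omega⟩
  have hP : 2 * q * R < P := by omega
  have hPpos : (0 : ℝ) < (P : ℝ) ^ (m + 1) := by
    have : (0 : ℝ) < P := by exact_mod_cast (by omega : 0 < P)
    positivity
  have hsum := sum_pow_eq q W p
  have hE : ∀ A ∈ W.powerset, (P : ℝ) ^ (m + 1) * En q A =
      ∑ w : Row P m, ‖S A (lin P) (fun _ => 1) w‖ ^ (2 * q) := by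
    intro A hA
    rw [mem_powerset] at hA
    exact (En_mod A q R (fun g hg => hR g (hA hg)) hP).symm
  have hEW := hE W (mem_powerset_self W)
  -- pointwise splitting
  set D : Finset (Pt m) → Row P m → ℂ := fun A w =>
    ∑ g ∈ W, (((if g ∈ A then (1 : ℝ) else 0) - p : ℝ) : ℂ) * ee (pair w (lin P g)) with hD
  have hsplit : ∀ A ∈ W.powerset, ∀ w : Row P m, ‖S A (lin P) (fun _ => 1) w‖ ^ (2 * q) ≤
      2 ^ (2 * q - 1) * (p ^ (2 * q) * ‖S W (lin P) (fun _ => 1) w‖ ^ (2 * q) +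
        ‖D A w‖ ^ (2 * q)) := by
    intro A hA w
    rw [mem_powerset] at hA
    have e1 : S A (lin P) (fun _ => 1) w = (p : ℂ) * S W (lin P) (fun _ => 1) w + D A w := by
      simp only [hD, S, one_mul]
      rw [mul_sum, ← sum_add_distrib, ← sum_sdiff hA]
      have e2 : ∑ g ∈ W \ A, ((p : ℂ) * ee (pair w (lin P g)) +
          (((if g ∈ A then (1 : ℝ) else 0) - p : ℝ) : ℂ) * ee (pair w (lin P g))) = 0 := by
        refine sum_eq_zero fun g hg => ?_
        rw [if_neg (mem_sdiff.1 hg).2]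
        push_cast
        ring
      rw [e2, zero_add]
      refine sum_congr rfl fun g hg => ?_
      rw [if_pos hg]
      push_cast
      ring
    have e3 : ‖S A (lin P) (fun _ => 1) w‖ ≤ p * ‖S W (lin P) (fun _ => 1) w‖ + ‖D A w‖ := by
      rw [e1]
      refine (norm_add_le _ _).trans (le_of_eq ?_)
      rw [norm_mul, Complex.norm_real, Real.norm_of_nonneg h0]
    refine (pow_le_pow_left₀ (norm_nonneg _) e3 _).trans ?_
    refine (add_pow_le (by positivity) (norm_nonneg _) _).trans (le_of_eq ?_)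
    rw [mul_pow]
  have hDle : ∀ w : Row P m, ∑ A ∈ W.powerset, mu W p A * ‖D A w‖ ^ (2 * q) ≤
      2 * (8 * Real.exp 1 * (q * M)) ^ q := fun w =>
    moment_complex_le W (fun g => ee (pair w (lin P g))) h0 h1
      (fun g _ => (norm_ee _).le) hq hM hqM
  have hmain : (P : ℝ) ^ (m + 1) * ∑ A ∈ W.powerset, mu W p A * En q A ≤
      (P : ℝ) ^ (m + 1) * (2 ^ (2 * q - 1) * (p ^ (2 * q) * En q W +
        2 * (8 * Real.exp 1 * (q * M)) ^ q)) := by
    have c1 : (P : ℝ) ^ (m + 1) * ∑ A ∈ W.powerset, mu W p A * En q A =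
        ∑ A ∈ W.powerset, mu W p A * ∑ w : Row P m, ‖S A (lin P) (fun _ => 1) w‖ ^ (2 * q) := by
      rw [mul_sum]
      refine sum_congr rfl fun A hA => ?_
      rw [← hE A hA]
      ring
    have c2 : ∑ A ∈ W.powerset, mu W p A * ∑ w : Row P m, ‖S A (lin P) (fun _ => 1) w‖ ^ (2 * q) ≤
        ∑ A ∈ W.powerset, mu W p A * ∑ w : Row P m, 2 ^ (2 * q - 1) *
          (p ^ (2 * q) * ‖S W (lin P) (fun _ => 1) w‖ ^ (2 * q) + ‖D A w‖ ^ (2 * q)) :=
      sum_le_sum fun A hA => mul_le_mul_of_nonneg_left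
        (sum_le_sum fun w _ => hsplit A hA w) (mu_nonneg W h0 h1 A)
    have c3 : ∑ A ∈ W.powerset, mu W p A * ∑ w : Row P m, 2 ^ (2 * q - 1) *
          (p ^ (2 * q) * ‖S W (lin P) (fun _ => 1) w‖ ^ (2 * q) + ‖D A w‖ ^ (2 * q)) =
        2 ^ (2 * q - 1) * (p ^ (2 * q) * ((P : ℝ) ^ (m + 1) * En q W) +
          ∑ w : Row P m, ∑ A ∈ W.powerset, mu W p A * ‖D A w‖ ^ (2 * q)) := by
      have d1 : ∀ A ∈ W.powerset, mu W p A * ∑ w : Row P m, 2 ^ (2 * q - 1) *
          (p ^ (2 * q) * ‖S W (lin P) (fun _ => 1) w‖ ^ (2 * q) + ‖D A w‖ ^ (2 * q)) =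
          mu W p A * (2 ^ (2 * q - 1) * (p ^ (2 * q) * ((P : ℝ) ^ (m + 1) * En q W))) +
          2 ^ (2 * q - 1) * ∑ w : Row P m, mu W p A * ‖D A w‖ ^ (2 * q) := by
        intro A _
        rw [← mul_sum, sum_add_distrib, ← mul_sum, ← hEW, ← mul_sum]
        ring
      rw [sum_congr rfl d1, sum_add_distrib, ← sum_mul, sum_mu, one_mul, ← mul_sum, sum_comm]
      ring
    rw [c1]
    refine c2.trans ?_
    rw [c3]
    have c4 : ∑ w : Row P m, ∑ A ∈ W.powerset, mu W p A * ‖D A w‖ ^ (2 * q) ≤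
        (P : ℝ) ^ (m + 1) * (2 * (8 * Real.exp 1 * (q * M)) ^ q) := by
      refine (sum_le_sum fun w _ => hDle w).trans (le_of_eq ?_)
      rw [sum_const, card_univ, card_row, nsmul_eq_mul]
      push_cast
      ring
    have c5 : (0 : ℝ) ≤ 2 ^ (2 * q - 1) := by positivity
    calc _ ≤ 2 ^ (2 * q - 1) * (p ^ (2 * q) * ((P : ℝ) ^ (m + 1) * En q W) +
          (P : ℝ) ^ (m + 1) * (2 * (8 * Real.exp 1 * (q * M)) ^ q)) :=
          mul_le_mul_of_nonneg_left (by linarith) c5
      _ = _ := by ring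
  have hmain' := le_of_mul_le_mul_left hmain hPpos
  rw [hsum]
  refine hmain'.trans ?_
  have hq0 : (0 : ℝ) < q := by exact_mod_cast hq
  have hM0 : 0 < M := by linarith
  have t1 : (2 : ℝ) ^ (2 * q - 1) ≤ 100 ^ q := by
    have : (2 : ℝ) ^ (2 * q - 1) ≤ 2 ^ (2 * q) :=
      pow_le_pow_right₀ (by norm_num) (by omega)
    refine this.trans ?_
    rw [pow_mul]
    exact pow_le_pow_left₀ (by norm_num) (by norm_num) _
  have t2 : (2 : ℝ) ^ (2 * q - 1) * (2 * (8 * Real.exp 1 * (q * M)) ^ q) ≤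
      100 ^ q * (q * M) ^ q := by
    have t3 : (2 : ℝ) ^ (2 * q - 1) * (2 * (8 * Real.exp 1 * (q * M)) ^ q) =
        (32 * Real.exp 1 * (q * M)) ^ q := by
      have t4 : (2 : ℝ) ^ (2 * q - 1) * 2 = 4 ^ q := by
        rw [← pow_succ, show 2 * q - 1 + 1 = 2 * q by omega, pow_mul]
        norm_num
      rw [← mul_assoc, t4, ← mul_pow]
      congr 1
      ring
    rw [t3, ← mul_pow]
    refine pow_le_pow_left₀ (by positivity) ?_ _
    refine mul_le_mul_of_nonneg_right ?_ (by positivity)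
    have := Real.exp_one_lt_d9
    linarith
  have t5 : (0 : ℝ) ≤ p ^ (2 * q) * En q W := by positivity
  calc (2 : ℝ) ^ (2 * q - 1) * (p ^ (2 * q) * En q W + 2 * (8 * Real.exp 1 * (q * M)) ^ q)
      = 2 ^ (2 * q - 1) * (p ^ (2 * q) * En q W) +
        2 ^ (2 * q - 1) * (2 * (8 * Real.exp 1 * (q * M)) ^ q) := by ring
    _ ≤ 100 ^ q * (p ^ (2 * q) * En q W) + 100 ^ q * (q * M) ^ q :=
        add_le_add (mul_le_mul_of_nonneg_right t1 t5) t2
    _ = _ := by ring

end Crest.Agent.R225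
end

-- ▼ part R225/E3
section

/-!
# Row 225 (S0347): node E3 (helper863)

Several relations with `2q` disjoint bases of columns: `prf_E3 : S_E3`.
`count ≤ avg_θ ∏_i |S(∑_l H_{l i} θ_l)|`, AM-GM over the `2q` bases, and for each basis the map
`θ ↦ (∑_l H_{l, e(t,j)} θ_l)_j` is a bijection modulo a large prime.
-/

set_option autoImplicit false

open Finset
open scoped BigOperators

namespace Crest.Agent.R225

namespace E3

open Four E12

variable {P m d : ℕ}

/-- action of a matrix on tuples of rows -/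
def act (B : Matrix (Fin d) (Fin d) (ZMod P)) (θ : Fin d → Row P m) : Fin d → Row P m :=
  fun j => ∑ l, B j l • θ l

lemma act_mul (B C : Matrix (Fin d) (Fin d) (ZMod P)) (θ : Fin d → Row P m) :
    act B (act C θ) = act (B * C) θ := by
  funext j
  simp only [act, Matrix.mul_apply, smul_sum, Finset.sum_smul, smul_smul]
  rw [sum_comm]

lemma act_one (θ : Fin d → Row P m) : act (1 : Matrix (Fin d) (Fin d) (ZMod P)) θ = θ := by
  funext j
  simp only [act, Matrix.one_apply, ite_smul, one_smul, zero_smul]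
  simp

lemma act_bijective (B : Matrix (Fin d) (Fin d) (ZMod P)) (hB : IsUnit B.det) :
    Function.Bijective (act (m := m) B) := by
  refine Function.bijective_iff_has_inverse.2 ⟨act B⁻¹, fun θ => ?_, fun θ => ?_⟩
  · rw [act_mul, Matrix.nonsing_inv_mul _ hB, act_one]
  · rw [act_mul, Matrix.mul_nonsing_inv _ hB, act_one]

lemma pair_sum_left {ι : Type*} (s : Finset ι) (b : Row P m) (w : ι → Row P m) :
    pair (∑ a ∈ s, w a) b = ∑ a ∈ s, pair (w a) b := by
  rw [pair_comm, pair_sum_right]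
  exact sum_congr rfl fun a _ => pair_comm _ _

variable [NeZero P]

/-- orthogonality for tuples of rows -/
lemma sum_prod_ee (b : Fin d → Row P m) :
    ∑ θ : Fin d → Row P m, ∏ l, ee (pair (θ l) (b l)) =
      if ∀ l, b l = 0 then ((P : ℂ) ^ (m + 1)) ^ d else 0 := by
  classical
  have h1 : ∑ θ : Fin d → Row P m, ∏ l, ee (pair (θ l) (b l)) =
      ∏ l : Fin d, ∑ w : Row P m, ee (pair w (b l)) := by
    rw [prod_univ_sum, Fintype.piFinset_univ]
  rw [h1]
  by_cases h : ∀ l, b l = 0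
  · rw [if_pos h]
    have : ∀ l ∈ (univ : Finset (Fin d)), ∑ w : Row P m, ee (pair w (b l)) =
        (P : ℂ) ^ (m + 1) := by
      intro l _
      rw [sum_char_pair, if_pos (h l)]
    rw [prod_congr rfl this, prod_const, card_univ, Fintype.card_fin]
  · rw [if_neg h]
    push Not at h
    obtain ⟨l, hl⟩ := h
    refine prod_eq_zero (mem_univ l) ?_
    rw [sum_char_pair, if_neg hl]

open scoped Classical in
/-- Fourier bound for the number of solutions of several relations -/
lemma count_le {k : ℕ} (W : Finset (Pt m)) (H : Fin d → Fin k → ℤ) :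
    ((P : ℝ) ^ (m + 1)) ^ d *
      ((Fintype.piFinset fun _ : Fin k => W).filter fun z => ∀ l, ∑ i, H l i • z i = 0).card ≤
    ∑ θ : Fin d → Row P m, ∏ i : Fin k,
      ‖S W (lin P) (fun _ => 1) (∑ l, ((H l i : ℤ) : ZMod P) • θ l)‖ := by
  set b : (Fin k → Pt m) → Fin d → Row P m := fun z l =>
    ∑ i, ((H l i : ℤ) : ZMod P) • lin P (z i) with hb
  have hlin : ∀ z : Fin k → Pt m, ∀ l, b z l = lin P (∑ i, H l i • z i) := by
    intro z l
    rw [lin_sum]
    refine sum_congr rfl fun i _ => ?_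
    rw [lin_zsmul]
  -- the Fourier identity
  have key : ∑ θ : Fin d → Row P m, ∏ i : Fin k,
      S W (lin P) (fun _ => 1) (∑ l, ((H l i : ℤ) : ZMod P) • θ l) =
      ((P : ℂ) ^ (m + 1)) ^ d *
        ((Fintype.piFinset fun _ : Fin k => W).filter fun z => ∀ l, b z l = 0).card := by
    have h1 : ∀ θ : Fin d → Row P m, ∏ i : Fin k,
        S W (lin P) (fun _ => 1) (∑ l, ((H l i : ℤ) : ZMod P) • θ l) =
        ∑ z ∈ Fintype.piFinset (fun _ : Fin k => W), ∏ l, ee (pair (θ l) (b z l)) := by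
      intro θ
      unfold S
      rw [prod_univ_sum]
      refine sum_congr rfl fun z _ => ?_
      simp only [one_mul]
      rw [← ee_sum, ← ee_sum]
      congr 1
      simp only [hb, pair_sum_right, pair_sum_left, pair_smul_right, pair_smul_left]
      rw [sum_comm]
    rw [sum_congr rfl fun θ _ => h1 θ, sum_comm]
    rw [sum_congr rfl fun z _ => sum_prod_ee (b z)]
    rw [← sum_filter, sum_const, nsmul_eq_mul, mul_comm]
  have h2 : ((P : ℝ) ^ (m + 1)) ^ d *
      ((Fintype.piFinset fun _ : Fin k => W).filter fun z => ∀ l, b z l = 0).card =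
      ‖∑ θ : Fin d → Row P m, ∏ i : Fin k,
        S W (lin P) (fun _ => 1) (∑ l, ((H l i : ℤ) : ZMod P) • θ l)‖ := by
    rw [key, norm_mul, norm_pow, norm_pow, Complex.norm_natCast, Complex.norm_natCast]
  have h3 : ((P : ℝ) ^ (m + 1)) ^ d *
      ((Fintype.piFinset fun _ : Fin k => W).filter fun z => ∀ l, ∑ i, H l i • z i = 0).card ≤
      ((P : ℝ) ^ (m + 1)) ^ d *
      ((Fintype.piFinset fun _ : Fin k => W).filter fun z => ∀ l, b z l = 0).card := by
    refine mul_le_mul_of_nonneg_left (Nat.cast_le.2 (card_le_card fun z hz => ?_)) (by positivity)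
    rw [mem_filter] at hz ⊢
    refine ⟨hz.1, fun l => ?_⟩
    rw [hlin, hz.2 l, lin_zero]
  refine h3.trans ?_
  rw [h2]
  refine (norm_sum_le _ _).trans (le_of_eq (sum_congr rfl fun θ _ => ?_))
  rw [norm_prod]

/-- the average over one basis -/
lemma sum_basis (W : Finset (Pt m)) (B : Matrix (Fin d) (Fin d) (ZMod P)) (hB : IsUnit B.det)
    (q : ℕ) :
    ∑ θ : Fin d → Row P m, (∏ j, ‖S W (lin P) (fun _ => 1) (act B θ j)‖) ^ (2 * q) =
      (∑ w : Row P m, ‖S W (lin P) (fun _ => 1) w‖ ^ (2 * q)) ^ d := by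
  classical
  have h1 : ∑ θ : Fin d → Row P m, (∏ j, ‖S W (lin P) (fun _ => 1) (act B θ j)‖) ^ (2 * q) =
      ∑ θ : Fin d → Row P m, (∏ j, ‖S W (lin P) (fun _ => 1) (θ j)‖) ^ (2 * q) :=
    Function.Bijective.sum_comp (act_bijective B hB)
      (fun θ : Fin d → Row P m => (∏ j, ‖S W (lin P) (fun _ => 1) (θ j)‖) ^ (2 * q))
  rw [h1]
  have h2 : ∀ θ : Fin d → Row P m, (∏ j, ‖S W (lin P) (fun _ => 1) (θ j)‖) ^ (2 * q) =
      ∏ j, ‖S W (lin P) (fun _ => 1) (θ j)‖ ^ (2 * q) := fun θ => (prod_pow _ _ _).symm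
  rw [sum_congr rfl fun θ _ => h2 θ]
  have h3 : ∏ _j : Fin d, ∑ w : Row P m, ‖S W (lin P) (fun _ => 1) w‖ ^ (2 * q) =
      ∑ θ : Fin d → Row P m, ∏ j, ‖S W (lin P) (fun _ => 1) (θ j)‖ ^ (2 * q) := by
    rw [prod_univ_sum, Fintype.piFinset_univ]
  rw [← h3, prod_const, card_univ, Fintype.card_fin]

end E3

open E3 Four E12 in
theorem prf_E3 : S_E3 := by
  classical
  intro m k q d W H e he hdet
  rcases Nat.eq_zero_or_pos q with hq | hq
  · subst hq
    rw [En_zero, one_pow, mul_one, mul_zero, zero_mul, Nat.sub_zero]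
    refine (card_filter_le _ _).trans ?_
    rw [Fintype.card_piFinset]
    simp
  obtain ⟨R, hR⟩ := exists_bound W
  set D : Fin (2 * q) → ℤ := fun t => (Matrix.of fun l j : Fin d => H l (e (t, j))).det with hD
  obtain ⟨P, hPN, hPp⟩ := exists_prime (2 * q * R + ∑ t, (D t).natAbs)
  haveI : Fact P.Prime := ⟨hPp⟩
  have hP1 : 2 * q * R < P := by omega
  have hPpos : (0 : ℝ) < (P : ℝ) ^ (m + 1) := by
    have : (0 : ℝ) < P := by exact_mod_cast hPp.pos
    positivity
  -- the matrices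
  set B : Fin (2 * q) → Matrix (Fin d) (Fin d) (ZMod P) := fun t =>
    Matrix.of fun j l : Fin d => ((H l (e (t, j)) : ℤ) : ZMod P) with hBdef
  have hB : ∀ t, IsUnit (B t).det := by
    intro t
    have h1 : B t = ((Matrix.of fun l j : Fin d => H l (e (t, j))).map
        (Int.castRingHom (ZMod P))).transpose := by
      ext j l
      simp [hBdef, Matrix.transpose_apply, Matrix.map_apply]
    have h2 : (B t).det = ((D t : ℤ) : ZMod P) := by
      rw [h1, Matrix.det_transpose, ← RingHom.mapMatrix_apply, ← RingHom.map_det]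
      rfl
    rw [h2, isUnit_iff_ne_zero]
    intro hz
    rw [ZMod.intCast_zmod_eq_zero_iff_dvd] at hz
    refine hdet t (Int.eq_zero_of_abs_lt_dvd hz ?_)
    have h3 : (D t).natAbs ≤ ∑ t, (D t).natAbs :=
      single_le_sum (f := fun t => (D t).natAbs) (fun _ _ => Nat.zero_le _) (mem_univ t)
    change |D t| < _
    rw [Int.abs_eq_natAbs]
    have : (D t).natAbs < P := by omega
    exact_mod_cast this
  have hcount := count_le (P := P) W H
  -- splitting off the columns outside the bases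
  have hsplit : ∀ θ : Fin d → Row P m, ∏ i : Fin k,
      ‖S W (lin P) (fun _ => 1) (∑ l, ((H l i : ℤ) : ZMod P) • θ l)‖ ≤
      (W.card : ℝ) ^ (k - 2 * q * d) *
        ∏ t : Fin (2 * q), ∏ j, ‖S W (lin P) (fun _ => 1) (act (B t) θ j)‖ := by
    intro θ
    set f : Fin k → ℝ := fun i =>
      ‖S W (lin P) (fun _ => 1) (∑ l, ((H l i : ℤ) : ZMod P) • θ l)‖ with hf
    have h1 : ∏ i, f i = (∏ i ∈ univ \ univ.image e, f i) * ∏ i ∈ univ.image e, f i :=
      (prod_sdiff (subset_univ _)).symm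
    have h2 : ∏ i ∈ univ.image e, f i = ∏ t : Fin (2 * q), ∏ j, f (e (t, j)) := by
      rw [prod_image fun x _ y _ h => he h, ← univ_product_univ, prod_product]
    have h3 : ∏ i ∈ univ \ univ.image e, f i ≤ (W.card : ℝ) ^ (k - 2 * q * d) := by
      have h4 : (univ \ univ.image e).card = k - 2 * q * d := by
        rw [card_sdiff_of_subset (subset_univ _), card_image_of_injective _ he, card_univ,
          card_univ, Fintype.card_prod, Fintype.card_fin, Fintype.card_fin, Fintype.card_fin]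
      refine (prod_le_prod (fun i _ => norm_nonneg _) fun i _ => norm_S_one_le W (lin P) _).trans ?_
      rw [prod_const, h4]
    rw [h1, h2]
    have h5 : ∀ t j, f (e (t, j)) = ‖S W (lin P) (fun _ => 1) (act (B t) θ j)‖ := by
      intro t j
      simp only [hf, act, hBdef, Matrix.of_apply]
    simp only [h5]
    refine mul_le_mul_of_nonneg_right h3 (prod_nonneg fun t _ => prod_nonneg fun j _ =>
      norm_nonneg _)
  haveI : Nonempty (Fin (2 * q)) := ⟨⟨0, by omega⟩⟩
  have hq0 : (0 : ℝ) < ((2 * q : ℕ) : ℝ) := by exact_mod_cast (by omega : 0 < 2 * q)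
  have hsum : ∑ θ : Fin d → Row P m, ∏ t : Fin (2 * q), ∏ j,
      ‖S W (lin P) (fun _ => 1) (act (B t) θ j)‖ ≤ ((P : ℝ) ^ (m + 1) * En q W) ^ d := by
    have h1 : ∀ θ : Fin d → Row P m, ∏ t : Fin (2 * q), ∏ j,
        ‖S W (lin P) (fun _ => 1) (act (B t) θ j)‖ ≤
        (∑ t : Fin (2 * q), (∏ j, ‖S W (lin P) (fun _ => 1) (act (B t) θ j)‖) ^ (2 * q)) /
          ((2 * q : ℕ) : ℝ) := by
      intro θ
      have := prod_le_sum_pow (ι := Fin (2 * q))
        (fun t => ∏ j, ‖S W (lin P) (fun _ => 1) (act (B t) θ j)‖)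
        (fun t => prod_nonneg fun j _ => norm_nonneg _)
      rw [Fintype.card_fin] at this
      exact this
    refine (sum_le_sum fun θ _ => h1 θ).trans (le_of_eq ?_)
    rw [← sum_div, sum_comm]
    rw [sum_congr rfl fun t _ => sum_basis W (B t) (hB t) q]
    rw [sum_const, card_univ, Fintype.card_fin, nsmul_eq_mul, En_mod W q R hR hP1]
    field_simp
  have hfin : ((P : ℝ) ^ (m + 1)) ^ d *
      ((Fintype.piFinset fun _ : Fin k => W).filter fun z => ∀ l, ∑ i, H l i • z i = 0).card ≤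
      ((P : ℝ) ^ (m + 1)) ^ d * ((W.card : ℝ) ^ (k - 2 * q * d) * (En q W : ℝ) ^ d) := by
    refine hcount.trans ((sum_le_sum fun θ _ => hsplit θ).trans ?_)
    rw [← mul_sum]
    refine (mul_le_mul_of_nonneg_left hsum (by positivity)).trans (le_of_eq ?_)
    rw [mul_pow]
    ring
  have hfin' := le_of_mul_le_mul_left hfin (by positivity)
  exact_mod_cast hfin'

end Crest.Agent.R225
end

-- ▼ part R225/G3

/-!
# Row 225 (S0347): node G3 (helper16)

Greedy disjoint column bases, or a nonzero relation of small support (Cramer's rule).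
-/

set_option autoImplicit false

open Finset
open scoped BigOperators

namespace Crest.Agent.R225
namespace G3n

variable {m d : ℕ}

/-- column of the relation matrix at the point `g` -/
def col (v : Fin d → Pt m → ℤ) (g : Pt m) : Fin d → ℚ := fun l => (v l g : ℚ)

/-- the columns on `Z` span the whole space -/
theorem span_col (Z : Finset (Pt m)) (v : Fin d → Pt m → ℤ)
    (hZ : ∀ l g, g ∉ Z → v l g = 0)
    (hv : LinearIndependent ℚ (fun l : Fin d => fun g : Pt m => ((v l g : ℤ) : ℚ))) :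
    Submodule.span ℚ (col v '' (Z : Set (Pt m))) = ⊤ := by
  by_contra hne
  obtain ⟨f, hf0, hf⟩ := Submodule.exists_le_ker_of_lt_top _ (lt_top_iff_ne_top.2 hne)
  have hrel : ∑ l, (f (fun j => if l = j then 1 else 0)) • (fun g : Pt m => (v l g : ℚ)) = 0 := by
    funext g
    simp only [Finset.sum_apply, Pi.smul_apply, Pi.zero_apply, smul_eq_mul]
    by_cases hg : g ∈ Z
    · have h1 : f (col v g) = 0 := hf (Submodule.subset_span ⟨g, hg, rfl⟩)
      rw [LinearMap.pi_apply_eq_sum_univ f (col v g)] at h1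
      refine Eq.trans ?_ h1
      refine Finset.sum_congr rfl fun l _ => ?_
      simp only [col, smul_eq_mul]; ring
    · refine Finset.sum_eq_zero fun l _ => ?_
      simp [hZ l g hg]
  have h0 := Fintype.linearIndependent_iff.1 hv _ hrel
  apply hf0
  refine LinearMap.ext fun x => ?_
  rw [LinearMap.pi_apply_eq_sum_univ f x]
  simp [h0]

/-- a set of points whose columns form a basis can be enumerated by `Fin d` -/
theorem exists_enum (v : Fin d → Pt m → ℤ) (s : Set (Pt m)) (hs : LinearIndepOn ℚ (col v) s)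
    (hsp : Submodule.span ℚ (col v '' s) = ⊤) :
    ∃ g : Fin d → Pt m, Function.Injective g ∧ Set.range g = s ∧
      (Matrix.of fun l j : Fin d => v l (g j)).det ≠ 0 := by
  have hs' : LinearIndependent ℚ (fun x : s => col v x) := hs
  have hsp' : ⊤ ≤ Submodule.span ℚ (Set.range fun x : s => col v x) := by
    rw [← hsp]
    apply Submodule.span_mono
    rintro _ ⟨x, hx, rfl⟩
    exact ⟨⟨x, hx⟩, rfl⟩
  let b := Module.Basis.mk hs' hsp'
  let e : s ≃ Fin d := b.indexEquiv (Pi.basisFun ℚ (Fin d))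
  refine ⟨fun j => (e.symm j : Pt m), fun i j h => e.symm.injective (Subtype.ext h), ?_, ?_⟩
  · ext x
    constructor
    · rintro ⟨j, rfl⟩
      exact (e.symm j).2
    · intro hx
      exact ⟨e ⟨x, hx⟩, by simp⟩
  · have hli : LinearIndependent ℚ (fun j : Fin d => col v (e.symm j : Pt m)) :=
      hs'.comp e.symm e.symm.injective
    set A : Matrix (Fin d) (Fin d) ℚ := Matrix.of fun l j => ((v l (e.symm j : Pt m) : ℤ) : ℚ) with hA
    have hcol : LinearIndependent ℚ A.col := hli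
    have hu := Matrix.linearIndependent_cols_iff_isUnit.1 hcol
    have hd : A.det ≠ 0 := ((Matrix.isUnit_iff_isUnit_det A).1 hu).ne_zero
    intro h0
    apply hd
    have h1 := RingHom.map_det (Int.castRingHom ℚ) (Matrix.of fun l j : Fin d => v l (e.symm j : Pt m))
    rw [h0, map_zero] at h1
    rw [hA]
    exact h1.symm

/-- the Cramer relation -/
theorem exists_cramer (Z U : Finset (Pt m)) (B : ℝ) (v : Fin d → Pt m → ℤ)
    (hB : ∀ l, BRel Z B (v l)) (g : Fin d → Pt m) (hg : ∀ j, g j ∈ Z) (j0 : Fin d)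
    (hdet : (Matrix.of fun l j : Fin d => v l (g j)).det ≠ 0)
    (hU : ∀ x ∈ Z, x ∉ U → col v x ∈ Submodule.span ℚ ((fun j => col v (g j)) '' {j | j ≠ j0})) :
    ∃ h, h ≠ 0 ∧ BRel Z ((d * B) ^ d) h ∧ ∀ x, h x ≠ 0 → x ∈ U := by
  classical
  set M : Matrix (Fin d) (Fin d) ℤ := Matrix.of fun l j : Fin d => v l (g j) with hM
  set c : Fin d → ℤ := fun l => M.cramer (Pi.single l 1) j0 with hc
  have key : ∀ x, ∑ l, c l * v l x = (M.updateCol j0 (fun l => v l x)).det := by
    intro x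
    rw [← Matrix.cramer_apply]
    have h1 : (fun l => v l x) = ∑ l, v l x • (Pi.single l (1 : ℤ) : Fin d → ℤ) := by
      funext k
      simp [Finset.sum_apply, Pi.single_apply]
    rw [h1, map_sum, Finset.sum_apply]
    refine Finset.sum_congr rfl fun l _ => ?_
    rw [map_smul, Pi.smul_apply, smul_eq_mul]
    ring
  refine ⟨fun x => ∑ l, c l * v l x, ?_, ⟨⟨?_, ?_, ?_⟩, ?_⟩, ?_⟩
  · intro h0
    have h1 := congrFun h0 (g j0)
    simp only [Pi.zero_apply] at h1
    rw [key] at h1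
    apply hdet
    rw [← h1]
    congr 1
    ext l j
    by_cases hj : j = j0
    · subst hj; simp [hM]
    · simp [Matrix.updateCol_ne hj]
  · intro x hx
    refine Finset.sum_eq_zero fun l _ => ?_
    rw [(hB l).1.1 x hx, mul_zero]
  · rw [Finset.sum_comm]
    refine Finset.sum_eq_zero fun l _ => ?_
    rw [← Finset.mul_sum, (hB l).1.2.1, mul_zero]
  · have : ∀ x ∈ Z, (∑ l, c l * v l x) • x = ∑ l, c l • (v l x • x) := by
      intro x _
      rw [Finset.sum_smul]
      refine Finset.sum_congr rfl fun l _ => ?_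
      rw [mul_smul]
    rw [Finset.sum_congr rfl this, Finset.sum_comm]
    refine Finset.sum_eq_zero fun l _ => ?_
    rw [← Finset.smul_sum, (hB l).1.2.2, smul_zero]
  · intro x
    show |((∑ l, c l * v l x : ℤ) : ℝ)| ≤ _
    rw [key]
    set N : Matrix (Fin d) (Fin d) ℝ := (M.updateCol j0 (fun l => v l x)).map (Int.cast : ℤ → ℝ) with hN
    have h1 : (((M.updateCol j0 (fun l => v l x)).det : ℤ) : ℝ) = N.det := by
      rw [hN]
      exact RingHom.map_det (Int.castRingHom ℝ) _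
    rw [h1]
    have h2 : ∀ i j, AbsoluteValue.abs (N i j) ≤ B := by
      intro i j
      show |N i j| ≤ B
      rw [hN, Matrix.map_apply]
      by_cases hj : j = j0
      · subst hj; rw [Matrix.updateCol_self]; exact (hB i).2 x
      · rw [Matrix.updateCol_ne hj]; exact (hB i).2 (g j)
    have h3 := Matrix.det_le (A := N) (abv := AbsoluteValue.abs) (x := B) h2
    have h4 : |N.det| ≤ (Nat.factorial d : ℝ) * B ^ d := by
      simpa [nsmul_eq_mul] using h3
    have hB0 : 0 ≤ B := (abs_nonneg _).trans ((hB j0).2 x)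
    calc |N.det| ≤ (Nat.factorial d : ℝ) * B ^ d := h4
      _ ≤ (d : ℝ) ^ d * B ^ d := by
        have : (Nat.factorial d : ℝ) ≤ (d : ℝ) ^ d := by exact_mod_cast Nat.factorial_le_pow d
        gcongr
      _ = (d * B) ^ d := (mul_pow _ _ _).symm
  · intro x hx
    by_contra hxU
    apply hx
    by_cases hxZ : x ∈ Z
    · show ∑ l, c l * v l x = 0
      rw [key]
      set Mq : Matrix (Fin d) (Fin d) ℚ := M.map (Int.cast : ℤ → ℚ) with hMq
      have h1 : (((M.updateCol j0 (fun l => v l x)).det : ℤ) : ℚ) = (Mq.updateCol j0 (col v x)).det := by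
        rw [show (((M.updateCol j0 (fun l => v l x)).det : ℤ) : ℚ)
          = ((M.updateCol j0 (fun l => v l x)).map (Int.cast : ℤ → ℚ)).det from
            RingHom.map_det (Int.castRingHom ℚ) _]
        congr 1
        ext l j
        by_cases hj : j = j0
        · subst hj; simp [col]
        · simp [Matrix.updateCol_ne hj, hMq]
      let φ : (Fin d → ℚ) →ₗ[ℚ] ℚ := (LinearMap.proj j0).comp (Matrix.cramer Mq)
      have hφ : ∀ y, φ y = (Mq.updateCol j0 y).det := by
        intro y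
        simp only [φ, LinearMap.comp_apply, LinearMap.proj_apply, Matrix.cramer_apply]
      have h2 : Submodule.span ℚ ((fun j => col v (g j)) '' {j | j ≠ j0}) ≤ LinearMap.ker φ := by
        rw [Submodule.span_le]
        rintro _ ⟨j, hj, rfl⟩
        show φ (col v (g j)) = 0
        rw [hφ]
        apply Matrix.det_zero_of_column_eq (i := j0) (j := j) (Ne.symm hj)
        intro l
        rw [Matrix.updateCol_self, Matrix.updateCol_ne hj]
        simp [col, hMq, hM]
      have h3 : φ (col v x) = 0 := h2 (hU x hxZ hxU)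
      rw [hφ, ← h1] at h3
      exact_mod_cast h3
    · refine Finset.sum_eq_zero fun l _ => ?_
      rw [(hB l).1.1 x hxZ, mul_zero]

end G3n

open G3n in
/-- node G3 -/
theorem prf_G3 : S_G3 := by
  classical
  intro m d N Z B v hd hB1 hB hv
  have hZ : ∀ l g, g ∉ Z → v l g = 0 := fun l g hg => (hB l).1.1 g hg
  induction N with
  | zero =>
    left
    refine ⟨fun p => p.1.elim0, fun p => p.1.elim0, fun p => p.1.elim0, fun t => t.elim0⟩
  | succ N ih =>
    rcases ih with ⟨e, he, heZ, hedet⟩ | ⟨h, h0, hBh, hcard⟩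
    swap
    · right
      refine ⟨h, h0, hBh, lt_of_lt_of_le hcard (Nat.mul_le_mul_right d (Nat.le_succ N))⟩
    set U : Finset (Pt m) := univ.image e with hUdef
    have hUcard : U.card ≤ N * d := by
      calc U.card ≤ (univ : Finset (Fin N × Fin d)).card := card_image_le
        _ = N * d := by simp
    -- maximal independent sets of columns
    obtain ⟨s, hsub, -, hsp, hsl⟩ := exists_linearIndepOn_extension
      (K := ℚ) (v := col v) (s := ∅) (t := {x | x ∈ Z ∧ x ∉ U}) (linearIndepOn_empty ℚ _) (Set.empty_subset _)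
    by_cases htop : Submodule.span ℚ (col v '' s) = ⊤
    · left
      obtain ⟨gn, gninj, gnrange, gndet⟩ := exists_enum v s hsl htop
      have hgn : ∀ j, gn j ∈ Z ∧ gn j ∉ U := by
        intro j
        have : gn j ∈ s := by rw [← gnrange]; exact ⟨j, rfl⟩
        exact hsub this
      refine ⟨fun p => if h : p.1.val < N then e (⟨p.1.val, h⟩, p.2) else gn p.2, ?_, ?_, ?_⟩
      · intro p q hpq
        simp only at hpq
        by_cases hp : p.1.val < N <;> by_cases hq : q.1.val < N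
        · rw [dif_pos hp, dif_pos hq] at hpq
          have h1 := he hpq
          have h2 : p.1.val = q.1.val := by
            have := congrArg (fun z => z.1.val) h1
            simpa using this
          have h3 : p.2 = q.2 := by
            have := congrArg (fun z => z.2) h1
            simpa using this
          exact Prod.ext (Fin.ext h2) h3
        · rw [dif_pos hp, dif_neg hq] at hpq
          exact absurd (mem_image_of_mem e (mem_univ _)) (by rw [hpq]; exact (hgn q.2).2)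
        · rw [dif_neg hp, dif_pos hq] at hpq
          exact absurd (mem_image_of_mem e (mem_univ _)) (by rw [← hpq]; exact (hgn p.2).2)
        · rw [dif_neg hp, dif_neg hq] at hpq
          have h2 : p.1.val = q.1.val := by
            have := p.1.isLt; have := q.1.isLt; omega
          exact Prod.ext (Fin.ext h2) (gninj hpq)
      · intro p
        by_cases hp : p.1.val < N
        · simp only [dif_pos hp]; exact heZ _
        · simp only [dif_neg hp]; exact (hgn p.2).1
      · intro t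
        by_cases ht : t.val < N
        · simp only [dif_pos ht]; exact hedet ⟨t.val, ht⟩
        · simp only [dif_neg ht]; exact gndet
    · right
      obtain ⟨b, hbZ, hsb, hbsp, hbl⟩ := exists_linearIndepOn_extension
        (K := ℚ) (v := col v) (s := s) (t := (Z : Set (Pt m))) hsl (fun x hx => (hsub hx).1)
      have hbtop : Submodule.span ℚ (col v '' b) = ⊤ := by
        rw [eq_top_iff, ← span_col Z v hZ hv]
        exact Submodule.span_le.2 hbsp
      obtain ⟨g, ginj, grange, gdet⟩ := exists_enum v b hbl hbtop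
      have hne : ∃ x ∈ b, x ∉ s := by
        by_contra hcon
        push Not at hcon
        have : b = s := Set.Subset.antisymm hcon hsb
        rw [this] at hbtop
        exact htop hbtop
      obtain ⟨x0, hx0b, hx0s⟩ := hne
      obtain ⟨j0, hj0⟩ : ∃ j0, g j0 = x0 := by
        have : x0 ∈ Set.range g := by rw [grange]; exact hx0b
        exact this
      have hgZ : ∀ j, g j ∈ Z := by
        intro j
        have : g j ∈ b := by rw [← grange]; exact ⟨j, rfl⟩
        exact hbZ this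
      have hspan : ∀ x ∈ Z, x ∉ U →
          col v x ∈ Submodule.span ℚ ((fun j => col v (g j)) '' {j | j ≠ j0}) := by
        intro x hx hxU
        have h1 : col v x ∈ Submodule.span ℚ (col v '' s) := hsp ⟨x, ⟨hx, hxU⟩, rfl⟩
        refine Submodule.span_mono ?_ h1
        rintro _ ⟨y, hy, rfl⟩
        have hyb : y ∈ Set.range g := by rw [grange]; exact hsb hy
        obtain ⟨j, hj⟩ := hyb
        refine ⟨j, ?_, by simp only; rw [hj]⟩
        rintro rfl
        apply hx0s
        rw [← hj0, hj]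
        exact hy
      obtain ⟨h, h0, hBh, hsupp⟩ := exists_cramer Z U B v hB g hgZ j0 gdet hspan
      refine ⟨h, h0, hBh, ?_⟩
      have hsub2 : (Z.filter fun g => h g ≠ 0) ⊆ U := by
        intro x hx
        exact hsupp x (mem_filter.1 hx).2
      calc (Z.filter fun g => h g ≠ 0).card ≤ U.card := card_le_card hsub2
        _ ≤ N * d := hUcard
        _ < (N + 1) * d := by nlinarith

end Crest.Agent.R225
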