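import Crest.Agent.R225.GridConvexD
import Crest.Agent.R225.Iface
import Crest.Agent.R225.EarSurv
import Crest.Agent.R225.Num

-- ▼ part R225/GridConvex
section

/-!
# Row 225, node GridConvex: assembly
-/

set_option autoImplicit false

open Finset MeasureTheory
open scoped BigOperators ENNReal

namespace Crest.Agent.R225

namespace GridE

variable {m : ℕ}

open GridB

/-- the enlarged body -/
noncomputable def enl (S : Set (Fin m → ℝ)) (p : Fin m → ℝ) (r : ℝ) : Set (Fin m → ℝ) :=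
  closure (AffineMap.homothety p r '' S)

lemma enl_convex {S : Set (Fin m → ℝ)} (hS : Convex ℝ S) (p : Fin m → ℝ) (r : ℝ) :
    Convex ℝ (enl S p r) := (hS.affine_image _).closure

lemma enl_meas (S : Set (Fin m → ℝ)) (p : Fin m → ℝ) (r : ℝ) : MeasurableSet (enl S p r) :=
  isClosed_closure.measurableSet

lemma enl_vol {S : Set (Fin m → ℝ)} (hS : Convex ℝ S) (p : Fin m → ℝ) (r : ℝ) (hr : 0 ≤ r) :
    volume (enl S p r) ≤ ENNReal.ofReal (r ^ m) * volume S := by
  unfold enl
  rw [closure_eq_self_union_frontier]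
  refine (measure_union_le _ _).trans ?_
  rw [Convex.addHaar_frontier volume (hS.affine_image _), add_zero,
    Measure.addHaar_image_homothety]
  simp [abs_of_nonneg (pow_nonneg hr m)]

lemma mem_enl {S : Set (Fin m → ℝ)} (hS : Convex ℝ S) (p : Fin m → ℝ) (ε B : ℝ) (hε : 0 < ε)
    (hp : ∀ x : Fin m → ℝ, (∀ k, 0 ≤ x k - p k ∧ x k - p k ≤ B) → x ∈ S)
    (g w : Fin m → ℝ) (hg : g ∈ S) (hw : ∀ k, 0 ≤ w k ∧ w k ≤ ε * B) :
    g + w ∈ enl S p (1 + ε) := by
  refine subset_closure ?_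
  have hpos : 0 < 1 + ε := by linarith
  -- the point x with homothety p (1+ε) x = g + w
  have hw' : p + ε⁻¹ • w ∈ S := by
    refine hp _ fun k => ?_
    simp only [Pi.add_apply, Pi.smul_apply, smul_eq_mul, add_sub_cancel_left]
    constructor
    · exact mul_nonneg (by positivity) (hw k).1
    · rw [inv_mul_le_iff₀ hε]; exact (hw k).2
  have hx := hS hg hw' (by positivity : (0 : ℝ) ≤ 1 / (1 + ε)) (by positivity : (0 : ℝ) ≤ ε / (1 + ε))
    (by field_simp)
  refine ⟨_, hx, ?_⟩
  rw [AffineMap.homothety_apply]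
  funext k
  simp only [vsub_eq_sub, vadd_eq_add, Pi.add_apply, Pi.smul_apply, Pi.sub_apply, smul_eq_mul]
  field_simp
  ring

lemma shrink {S : Set (Fin m → ℝ)} (hS : Convex ℝ S) (p : Fin m → ℝ) (ε : ℝ) (hε : 0 < ε)
    (hε1 : ε < 1) (G : Finset (Pt m)) (hG : ∀ g, g ∈ G ↔ (fun k => (g k : ℝ)) ∈ S)
    (hp : ∀ x : Fin m → ℝ, (∀ k, 0 ≤ x k - p k ∧ x k - p k ≤ 1 / ε) → x ∈ S) :
    ENNReal.ofReal ((1 - ε) ^ m) * volume S ≤ (G.card : ℝ≥0∞) := by
  have h1 : volume (AffineMap.homothety p (1 - ε) '' S) = ENNReal.ofReal ((1 - ε) ^ m) * volume S := by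
    rw [Measure.addHaar_image_homothety]
    have : 0 ≤ (1 - ε) ^ m := by
      have : 0 < 1 - ε := by linarith
      positivity
    simp [abs_of_nonneg this]
  rw [← h1]
  have hsub : AffineMap.homothety p (1 - ε) '' S ⊆
      ⋃ z ∈ G, Set.pi Set.univ (fun k => Set.Ioc ((z k : ℝ) - 1) (z k)) := by
    rintro x ⟨s, hs, rfl⟩
    set x : Fin m → ℝ := AffineMap.homothety p (1 - ε) s with hx
    have hxk : ∀ k, x k = (1 - ε) * (s k - p k) + p k := by
      intro k
      rw [hx, AffineMap.homothety_apply]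
      simp
    simp only [Set.mem_iUnion]
    refine ⟨fun k => ⌈x k⌉, ?_, ?_⟩
    · rw [hG]
      -- z = (1-ε) s + ε (p + w/ε)
      have hw : p + ε⁻¹ • (fun k => (⌈x k⌉ : ℝ) - x k) ∈ S := by
        refine hp _ fun k => ?_
        simp only [Pi.add_apply, Pi.smul_apply, smul_eq_mul, add_sub_cancel_left]
        have h1 := Int.le_ceil (x k)
        have h2 := Int.ceil_lt_add_one (x k)
        constructor
        · exact mul_nonneg (by positivity) (by linarith)
        · rw [inv_mul_le_iff₀ hε]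
          have : ε * (1 / ε) = 1 := by field_simp
          rw [this]; linarith
      have hz := hS hs hw (by linarith : (0 : ℝ) ≤ 1 - ε) hε.le (by ring)
      convert hz using 1
      funext k
      simp only [Pi.add_apply, Pi.smul_apply, smul_eq_mul]
      rw [hxk k]
      field_simp
      ring
    · intro k _
      have h1 := Int.le_ceil (x k)
      have h2 := Int.ceil_lt_add_one (x k)
      constructor
      · show ((⌈x k⌉ : ℤ) : ℝ) - 1 < x k
        linarith
      · exact h1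
  refine (measure_mono hsub).trans ?_
  refine (measure_biUnion_finset_le _ _).trans ?_
  have : ∀ z : Pt m, volume (Set.pi Set.univ (fun k => Set.Ioc ((z k : ℝ) - 1) (z k))) = 1 := by
    intro z
    rw [Real.volume_pi_Ioc]
    simp
  simp [this]

lemma pow_cmp (m : ℕ) (ε : ℝ) (hε : 0 < ε) (h : m * ε ≤ 1 / 8) :
    (1 + 2 * ε) ^ m ≤ 2 * (1 - ε) ^ m := by
  rcases Nat.eq_zero_or_pos m with rfl | hm
  · norm_num
  have hm1 : (1 : ℝ) ≤ m := by exact_mod_cast hm
  have hε8 : ε ≤ 1 / 8 := by nlinarith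
  have h1 : 1 + (m : ℝ) * (-ε) ≤ (1 + -ε) ^ m := one_add_mul_le_pow (by linarith) m
  have h2 : 1 + (m : ℝ) * (-(2 * ε)) ≤ (1 + -(2 * ε)) ^ m := one_add_mul_le_pow (by linarith) m
  have h3 : (1 + 2 * ε) ^ m * (1 + -(2 * ε)) ^ m ≤ 1 := by
    rw [← mul_pow]
    refine pow_le_one₀ ?_ ?_
    · nlinarith
    · nlinarith
  have h4 : 7 / 8 ≤ (1 - ε) ^ m := by
    have : (1 - ε) ^ m = (1 + -ε) ^ m := by ring
    rw [this]; nlinarith
  have h5 : 3 / 4 ≤ (1 + -(2 * ε)) ^ m := by nlinarith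
  have h6 : 0 ≤ (1 + 2 * ε) ^ m := by positivity
  nlinarith

end GridE

open GridE in
theorem prf_GridConvex (hA3 : S_A3) (hA4 : S_A4) (hE1 : S_E1) (hE2 : S_E2) : S_GridConvex := by
  obtain ⟨c1, hc1, hc20, n1, h1⟩ := grid_rel hA3 hE1 hE2
  obtain ⟨n2, h2⟩ := grid_pair hA4
  refine ⟨c1, hc1, by linarith, max (max n1 n2) 2, fun n hn m hm hmn S G hS hpex hqex hG => ?_⟩
  obtain ⟨p, hp⟩ := hpex
  obtain ⟨q, hq⟩ := hqex
  have hn1 : n1 ≤ n := ((le_max_left _ _).trans (le_max_left _ _)).trans hn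
  have hn2 : n2 ≤ n := ((le_max_right _ _).trans (le_max_left _ _)).trans hn
  have hn3 : 2 ≤ n := (le_max_right _ _).trans hn
  have hn3' : (2 : ℝ) ≤ n := by exact_mod_cast hn3
  have hnpos : (0 : ℝ) < n := by linarith
  set ε : ℝ := 1 / (n : ℝ) ^ 7 with hε
  have hεpos : 0 < ε := by rw [hε]; positivity
  have hn7 : (128 : ℝ) ≤ (n : ℝ) ^ 7 := by
    calc (128 : ℝ) = 2 ^ 7 := by norm_num
      _ ≤ (n : ℝ) ^ 7 := by gcongr
  have hε1 : ε < 1 := by
    rw [hε, div_lt_one (by positivity)]; linarith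
  have hmε : (m : ℝ) * ε ≤ 1 / 8 := by
    have hmn' : (m : ℝ) ≤ n := by exact_mod_cast hmn
    rw [hε, mul_one_div, div_le_iff₀ (by positivity)]
    have : (n : ℝ) * 64 ≤ (n : ℝ) ^ 7 := by
      calc (n : ℝ) * 64 = n * 2 ^ 6 := by norm_num
        _ ≤ n * (n : ℝ) ^ 6 := by gcongr
        _ = (n : ℝ) ^ 7 := by ring
    linarith
  set Sp := enl S p (1 + 2 * ε) with hSp
  have hconv : Convex ℝ Sp := enl_convex hS _ _
  have hmeas : MeasurableSet Sp := enl_meas _ _ _
  have hcub : ∀ g ∈ G, ∀ x : Fin m → ℝ, (∀ k, (g k : ℝ) ≤ x k ∧ x k < g k + 2) → x ∈ Sp := by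
    intro g hg x hx
    have hgS := (hG g).mp hg
    have := mem_enl hS p (2 * ε) ((n : ℝ) ^ 7) (by positivity) hp (fun k => (g k : ℝ))
      (fun k => x k - g k) hgS (fun k => by
        constructor
        · linarith [(hx k).1]
        · have : 2 * ε * (n : ℝ) ^ 7 = 2 := by rw [hε]; field_simp
          rw [this]; linarith [(hx k).2])
    have e : ((fun k => (g k : ℝ)) + fun k => x k - g k) = x := by
      funext k; simp
    rwa [e] at this
  have hvol : volume Sp ≤ 2 * (G.card : ℝ≥0∞) := by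
    have a1 : volume Sp ≤ ENNReal.ofReal ((1 + 2 * ε) ^ m) * volume S :=
      enl_vol hS p _ (by positivity)
    have a2 := shrink hS p ε hεpos hε1 G hG (by
      intro x hx
      refine hp x fun k => ⟨(hx k).1, ?_⟩
      have := (hx k).2
      rw [hε] at this
      simpa using this)
    calc volume Sp ≤ ENNReal.ofReal ((1 + 2 * ε) ^ m) * volume S := a1
      _ ≤ ENNReal.ofReal (2 * (1 - ε) ^ m) * volume S := by
          gcongr
          exact pow_cmp m ε hεpos hmε
      _ = 2 * (ENNReal.ofReal ((1 - ε) ^ m) * volume S) := by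
          rw [ENNReal.ofReal_mul (by norm_num), mul_assoc]
          norm_num
      _ ≤ 2 * (G.card : ℝ≥0∞) := by gcongr
  obtain ⟨hr3, hrL⟩ := h1 n hn1 m hm hmn G Sp hconv hmeas hcub hvol
  have hpair := h2 n hn2 m hm hmn G Sp hconv hmeas hcub hvol c1 hc20
  refine ⟨?_, hr3, hrL, hpair⟩
  refine ⟨fun k => ⌊q k⌋, fun g hg k => ?_⟩
  have hgS := (hG g).mp hg
  have h3 := hq _ hgS k
  have h4 := Int.floor_le (q k)
  have h5 := Int.lt_floor_add_one (q k)
  have h6 : (n : ℝ) ^ 15 + 1 ≤ (n : ℝ) ^ 16 := by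
    have : (1 : ℝ) ≤ (n : ℝ) ^ 15 := one_le_pow₀ (by linarith)
    have e : (n : ℝ) ^ 16 = n * (n : ℝ) ^ 15 := by ring
    nlinarith
  have h7 : |((g k : ℝ)) - (⌊q k⌋ : ℝ)| ≤ (n : ℝ) ^ 16 := by
    rw [abs_le] at h3 ⊢
    constructor <;> linarith [h3.1, h3.2]
  exact_mod_cast h7

end Crest.Agent.R225
end

-- ▼ part R225/PMain
section

/-!
Row 225 (S0347), node PMain: condition on the first row, then use the multi-level theorem.
-/

set_option autoImplicit false

open Finset
open scoped BigOperators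

namespace Crest.Agent.R225

namespace PMainAux

lemma Ex_mono {P m : ℕ} [NeZero P] (k : ℕ) {F F' : List (Row P m) → ℝ}
    (h : ∀ rows, F rows ≤ F' rows) : ∀ rows, Ex k F rows ≤ Ex k F' rows := by
  induction k with
  | zero => exact h
  | succ k ih =>
    intro rows
    simp only [Ex]
    exact Finset.expect_le_expect fun r _ => ih (r :: rows)

lemma Ex_const {P m : ℕ} [NeZero P] (k : ℕ) (c : ℝ) :
    ∀ rows : List (Row P m), Ex k (fun _ => c) rows = c := by
  induction k with
  | zero => intro rows; rfl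
  | succ k ih =>
    intro rows
    simp only [Ex]
    rw [Finset.expect_congr rfl (fun r _ => ih (r :: rows))]
    exact Finset.expect_const Finset.univ_nonempty c

lemma Ex_append {P m : ℕ} [NeZero P] (k : ℕ) (F : List (Row P m) → ℝ) (s : List (Row P m)) :
    ∀ rows, Ex k F (rows ++ s) = Ex k (fun rows' => F (rows' ++ s)) rows := by
  induction k with
  | zero => intro rows; rfl
  | succ k ih =>
    intro rows
    simp only [Ex]
    refine Finset.expect_congr rfl fun r _ => ?_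
    exact ih (r :: rows)

lemma wt_append {P m : ℕ} (w : Pt m → List (ZMod P) → ℝ) (rows : List (Row P m)) (r : Row P m)
    (g : Pt m) : wt w (rows ++ [r]) g = wt (shiftw w r) rows g := by
  simp [wt, shiftw, hist]

lemma alive_append {P m : ℕ} (w : Pt m → List (ZMod P) → ℝ) (G : Finset (Pt m))
    (rows : List (Row P m)) (r : Row P m) :
    alive w G (rows ++ [r]) = alive (shiftw w r) G rows := by
  unfold alive
  congr 1
  funext g
  rw [wt_append]

lemma alive_mono {P m : ℕ} (w : Pt m → List (ZMod P) → ℝ) {G G' : Finset (Pt m)} (h : G' ⊆ G)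
    (rows : List (Row P m)) : alive w G' rows ⊆ alive w G rows := by
  unfold alive
  exact Finset.filter_subset_filter _ h

lemma ctx_shift {P m I rX : ℕ} [NeZero P] {X α0 : ℝ} {w : Pt m → List (ZMod P) → ℝ}
    (hw : WHyp w (I + 1) (alf X α0 I) (tauf X I) (4 / P)) (r : Row P m) (G : Finset (Pt m))
    (hbox : ∃ g0 : Pt m, ∀ g ∈ G, ∀ k, |g k - g0 k| ≤ rX) :
    Ctx P m I rX X (shiftw w r) G := by
  have e1 : ∀ j : ℕ, alf X α0 I (j + 1) = al X (I - j) := by
    intro j
    simp [alf]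
  have e2 : ∀ j : ℕ, tauf X I (j + 1) = tau X (I - j) := by
    intro j
    simp [tauf]
  refine ⟨⟨?_, ?_, ?_, ?_⟩, hbox⟩
  · intro g l ξ h
    exact hw.dead g (l ++ [res r g]) ξ h
  · intro g l hl
    have h := hw.rng g (l ++ [res r g]) (by simp; omega)
    rw [List.length_append, List.length_singleton, e1, e2] at h
    exact h
  · intro g l hl
    have h := hw.mart g (l ++ [res r g]) (by simp; omega)
    rw [List.length_append, List.length_singleton, e1] at h
    exact h
  · intro g l hl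
    have h := hw.tv g (l ++ [res r g]) (by simp; omega)
    rw [List.length_append, List.length_singleton, e1] at h
    exact h

end PMainAux

open PMainAux

open scoped Classical in
theorem prf_PMain (hBase : S_Base) (hMulti : S_Multi) : S_PMain := by
  intro c1 Crat hc1 hc11 hCrat
  obtain ⟨X1, hX1⟩ := hBase c1 Crat hc1 hc11 hCrat
  obtain ⟨X2, hX2⟩ := hMulti (c1 / 400) Crat (by positivity) (by linarith) hCrat
  refine ⟨max X1 X2, fun X hX => ?_⟩
  obtain ⟨n1, hn1⟩ := hX1 X ((le_max_left _ _).trans hX)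
  obtain ⟨n2, hn2⟩ := hX2 X ((le_max_right _ _).trans hX)
  refine ⟨max (max n1 n2) (max 3 ⌈800000 / c1⌉₊), fun n hn => ?_⟩
  have hna : n1 ≤ n := (le_max_left _ _).trans ((le_max_left _ _).trans hn)
  have hnb : n2 ≤ n := (le_max_right _ _).trans ((le_max_left _ _).trans hn)
  have hnc : 3 ≤ n := (le_max_left _ _).trans ((le_max_right _ _).trans hn)
  have hnd : ⌈800000 / c1⌉₊ ≤ n := (le_max_right _ _).trans ((le_max_right _ _).trans hn)
  intro m I hI1 hI2 hm1 hm2 G
  obtain ⟨P1, hP1⟩ := hn1 n hna m I hI1 hI2 hm1 hm2 G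
  obtain ⟨P2, hP2⟩ := hn2 n hnb m I (n ^ 16) hI1 hI2
  refine ⟨max P1 P2, fun P hP => ?_⟩
  intro _ α0 w hctx
  have hb := hP1 P ((le_max_left _ _).trans hP) α0 w hctx
  have hmulti := hP2 P ((le_max_right _ _).trans hP)
  set N := NN n with hN
  -- condition on the first row
  have key : ∀ r : Row P m,
      Ex I (fun rows => if alive w G rows = ∅ then (1 : ℝ) else 0) [r] ≤
        (if ∃ G' ⊆ alive w G [r],
          GoodStart n m I (n ^ 16) X (c1 / 400) Crat G' (shiftw w r) then (0 : ℝ) else 1) +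
        Real.exp (-(c1 / 400 / 400 * N)) := by
    intro r
    by_cases hg : ∃ G' ⊆ alive w G [r],
          GoodStart n m I (n ^ 16) X (c1 / 400) Crat G' (shiftw w r)
    · rw [if_pos hg, zero_add]
      obtain ⟨G', hG', hgood⟩ := hg
      have hG'G : G' ⊆ G := hG'.trans (Finset.filter_subset _ _)
      have h1 := hmulti (shiftw w r) G' (ctx_shift hctx.hw r G' hgood.box) hgood
      refine le_trans ?_ h1
      have h2 : ([r] : List (Row P m)) = [] ++ [r] := rfl
      rw [h2, Ex_append]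
      refine Ex_mono I ?_ []
      intro rows
      rw [alive_append]
      by_cases h3 : alive (shiftw w r) G rows = ∅
      · have h4 : alive (shiftw w r) G' rows = ∅ :=
          Finset.subset_empty.mp (h3 ▸ alive_mono (shiftw w r) hG'G rows)
        rw [if_pos h3, if_pos h4]
      · rw [if_neg h3]
        split_ifs <;> norm_num
    · rw [if_neg hg]
      have h1 : Ex I (fun rows => if alive w G rows = ∅ then (1 : ℝ) else 0) [r] ≤
          Ex I (fun _ => (1 : ℝ)) [r] := by
        refine Ex_mono I ?_ [r]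
        intro rows
        split_ifs <;> norm_num
      rw [Ex_const] at h1
      have := Real.exp_pos (-(c1 / 400 / 400 * N))
      linarith
  have h5 : Ex (I + 1) (fun rows => if alive w G rows = ∅ then (1 : ℝ) else 0) [] ≤
      Real.exp (-(c1 / 4 * N)) + Real.exp (-(c1 / 400 / 400 * N)) := by
    simp only [Ex]
    refine (Finset.expect_le_expect fun r _ => key r).trans ?_
    rw [Finset.expect_add_distrib, Finset.expect_const Finset.univ_nonempty]
    exact add_le_add_left hb _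
  refine h5.trans ?_
  -- numerics
  have hn3 : (3 : ℝ) ≤ n := by exact_mod_cast hnc
  have hnC : 800000 / c1 ≤ n := (Nat.le_ceil _).trans (by exact_mod_cast hnd)
  have hlog1 : 1 ≤ Real.log n := by
    rw [Real.le_log_iff_exp_le (by linarith)]
    exact (Real.exp_one_lt_d9.le.trans (by norm_num)).trans hn3
  have hNn : (n : ℝ) ≤ N := by
    rw [hN]; unfold NN; nlinarith
  have hcN : 800000 ≤ c1 * N := by
    rw [div_le_iff₀ hc1] at hnC
    nlinarith
  have e1 : Real.exp (-1) ≤ 1 / 2 := by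
    have := Real.exp_neg_one_lt_d9
    linarith
  have e2 : Real.exp (-(c1 / 4 * N)) ≤ Real.exp (-(c1 / 200000 * N)) * Real.exp (-1) := by
    rw [← Real.exp_add]
    apply Real.exp_le_exp.mpr
    nlinarith
  have e3 : Real.exp (-(c1 / 400 / 400 * N)) ≤
      Real.exp (-(c1 / 200000 * N)) * Real.exp (-1) := by
    rw [← Real.exp_add]
    apply Real.exp_le_exp.mpr
    nlinarith
  have e4 := Real.exp_pos (-(c1 / 200000 * N))
  nlinarith

end Crest.Agent.R225
end

-- ▼ part R225/B3Iface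
section

/-!
# Row 225 (S0347), node B3 (moments of the special row): split into sub-nodes

Owner helper351. FROZEN. `N = 2k` is the order of the moment, `D g x = w g [x] - 𝔼 ξ, w g [ξ]`.
`𝔼 (∑_{g∈G} D g (res r g))^N = ∑_{T : Fin N → G} 𝔼 ∏ i, D (T i) (res r (T i))`; a tuple with a
coloop contributes `0`; a tuple of rank `rk` contributes at most `A^(N-rk) a^rk`.
-/

set_option autoImplicit false

open Finset
open scoped BigOperators

namespace Crest.Agent.R225
namespace B3

/-- the vector space of the points `(g,1)` -/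
abbrev VV (m : ℕ) := (Fin m → ℚ) × ℚ

/-- span of the points `(T i, 1)` -/
def spT {m : ℕ} {ι : Type} (T : ι → Pt m) : Submodule ℚ (VV m) :=
  Submodule.span ℚ (Set.range fun i => aff (T i))

/-- rank of a tuple of points -/
noncomputable def rkT {m : ℕ} {ι : Type} (T : ι → Pt m) : ℕ := Module.finrank ℚ (spT T)

/-- the position `i` is a coloop of the tuple `T` -/
def Coloop {m : ℕ} {ι : Type} (T : ι → Pt m) (i : ι) : Prop :=
  aff (T i) ∉ Submodule.span ℚ ((fun j => aff (T j)) '' {j | j ≠ i})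

/-- P1a. One point outside the span of `Z` has a residue independent of those of `Z`.
Proof: integer vector `v = (c,ψ)` with `c + ⟨ψ,h⟩ = 0` on `Z` and `c + ⟨ψ,g⟩ ≠ 0`; translate the row
by `t • v`, `t : ZMod P`; `P0` = max over `Z ⊆ G`, `g ∈ G` of `|c + ⟨ψ,g⟩|`, plus one. -/
def S_indep : Prop := ∀ (m : ℕ) (G : Finset (Pt m)), ∃ P0 : ℕ, ∀ P ≥ P0, ∀ [Fact P.Prime],
  ∀ (Z : Finset (Pt m)) (g : Pt m) (F : Row P m → ℝ) (f : ZMod P → ℝ), Z ⊆ G → g ∈ G →
    aff g ∉ Submodule.span ℚ (aff '' (Z : Set (Pt m))) →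
    (∀ r r' : Row P m, (∀ h ∈ Z, res r h = res r' h) → F r = F r') →
    𝔼 r : Row P m, F r * f (res r g) = (𝔼 r : Row P m, F r) * 𝔼 x, f x

/-- P1b. tuples with a coloop contribute `0` -/
def S_vanish : Prop := ∀ (m : ℕ) (G : Finset (Pt m)), ∃ P0 : ℕ, ∀ P ≥ P0, ∀ [Fact P.Prime],
  ∀ (N : ℕ) (T : Fin N → Pt m) (i : Fin N) (D : Pt m → ZMod P → ℝ), (∀ j, T j ∈ G) →
    Coloop T i → (∀ g ∈ G, 𝔼 x, D g x = 0) →
    𝔼 r : Row P m, ∏ j, D (T j) (res r (T j)) = 0

/-- P1c. bound by the rank (induction on `N`: the last entry is in the span of the previous ones,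
bound it by `A`; or not, use `S_indep` for the absolute values) -/
def S_expect : Prop := ∀ (m : ℕ) (G : Finset (Pt m)), ∃ P0 : ℕ, ∀ P ≥ P0, ∀ [Fact P.Prime],
  ∀ (N : ℕ) (T : Fin N → Pt m) (D : Pt m → ZMod P → ℝ) (A a : ℝ), (∀ j, T j ∈ G) → 0 ≤ a →
    (∀ g ∈ G, ∀ x, |D g x| ≤ A) → (∀ g ∈ G, 𝔼 x, |D g x| ≤ a) →
    |𝔼 r : Row P m, ∏ j, D (T j) (res r (T j))| ≤ A ^ (N - rkT T) * a ^ rkT T




/-- height bound of the relations (`Ear.hb`) -/
def hbb (rX k : ℕ) : ℕ := (k * (rX + 1)) ^ k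



end B3
end Crest.Agent.R225
end

-- ▼ part R225/B3P5
section

/-!
# Row 225 (S0347), node B3: summation over tuples and Markov (helper351)
-/

set_option autoImplicit false

open Finset
open scoped BigOperators

namespace Crest.Agent.R225
namespace B3

open scoped Classical in
/-- summation over the tuples, sorted by a basis of positions -/
lemma moment_core (N : ℕ) {α : Type} (Ts : Finset α) (E : α → ℝ)
    (Bas : α → Finset (Fin N) → Prop) (NC : α → Prop) (A a g K Q δ : ℝ) (ν0 : ℕ)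
    (hA : 0 ≤ A) (ha : 0 ≤ a) (hg : 0 ≤ g) (hK : 0 ≤ K) (hQ : 0 ≤ Q) (hδ : 0 ≤ δ)
    (hKA : K * A ≤ 1)
    (hex : ∀ T ∈ Ts, ∃ J, Bas T J)
    (hV : ∀ T ∈ Ts, ¬ NC T → E T = 0)
    (hE : ∀ T ∈ Ts, ∀ J, Bas T J → E T ≤ A ^ (N - J.card) * a ^ J.card)
    (hlt : ∀ T ∈ Ts, ∀ J, NC T → Bas T J → J.card < N)
    (hc1 : ∀ J, ((Ts.filter fun T => Bas T J).card : ℝ) ≤ K ^ (N - J.card) * g ^ J.card)
    (hc2 : ∀ J : Finset (Fin N), J.card < N → N - J.card < ν0 →
      ((Ts.filter fun T => Bas T J ∧ NC T).card : ℝ) ≤ Q * K ^ (N - J.card) * g ^ J.card * δ) :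
    ∑ T ∈ Ts, E T ≤ 2 ^ N * ((g * a + 1) ^ N * ((K * A) ^ ν0 + Q * δ)) := by
  have hKA0 : 0 ≤ K * A := mul_nonneg hK hA
  have hga : 0 ≤ g * a := mul_nonneg hg ha
  have h1 : ∀ T ∈ Ts, E T ≤ ∑ J : Finset (Fin N),
      if Bas T J ∧ NC T then A ^ (N - J.card) * a ^ J.card else 0 := by
    intro T hT
    have hnn : ∀ J ∈ (univ : Finset (Finset (Fin N))),
        0 ≤ if Bas T J ∧ NC T then A ^ (N - J.card) * a ^ J.card else 0 := by
      intro J _
      split_ifs
      · positivity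
      · exact le_rfl
    by_cases hNC : NC T
    · obtain ⟨J, hJ⟩ := hex T hT
      refine (hE T hT J hJ).trans ?_
      have h2 := Finset.single_le_sum hnn (Finset.mem_univ J)
      simpa [hJ, hNC] using h2
    · rw [hV T hT hNC]
      exact Finset.sum_nonneg hnn
  refine (Finset.sum_le_sum h1).trans ?_
  rw [Finset.sum_comm]
  have h2 : ∀ J ∈ (univ : Finset (Finset (Fin N))),
      (∑ T ∈ Ts, if Bas T J ∧ NC T then A ^ (N - J.card) * a ^ J.card else 0) ≤
        (g * a + 1) ^ N * ((K * A) ^ ν0 + Q * δ) := by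
    intro J _
    rw [← Finset.sum_filter, Finset.sum_const, nsmul_eq_mul]
    have hJN : J.card ≤ N := by
      have := Finset.card_le_univ J
      simpa using this
    have hpow1 : (g * a) ^ J.card ≤ (g * a + 1) ^ N :=
      calc (g * a) ^ J.card ≤ (g * a + 1) ^ J.card := by gcongr; linarith
        _ ≤ (g * a + 1) ^ N := pow_le_pow_right₀ (by linarith) hJN
    rcases lt_or_ge J.card N with hJ | hJ
    · rcases lt_or_ge (N - J.card) ν0 with hν | hν
      · calc ((Ts.filter fun T => Bas T J ∧ NC T).card : ℝ) * (A ^ (N - J.card) * a ^ J.card)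
            ≤ (Q * K ^ (N - J.card) * g ^ J.card * δ) * (A ^ (N - J.card) * a ^ J.card) :=
              mul_le_mul_of_nonneg_right (hc2 J hJ hν) (by positivity)
          _ = (K * A) ^ (N - J.card) * (g * a) ^ J.card * (Q * δ) := by
              rw [mul_pow, mul_pow]; ring
          _ ≤ 1 * (g * a + 1) ^ N * (Q * δ) := by
              have h3 : (K * A) ^ (N - J.card) ≤ 1 := pow_le_one₀ hKA0 hKA
              gcongr
          _ ≤ (g * a + 1) ^ N * ((K * A) ^ ν0 + Q * δ) := by
              have h4 : 0 ≤ (g * a + 1) ^ N * (K * A) ^ ν0 := by positivity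
              linarith
      · calc ((Ts.filter fun T => Bas T J ∧ NC T).card : ℝ) * (A ^ (N - J.card) * a ^ J.card)
            ≤ ((Ts.filter fun T => Bas T J).card : ℝ) * (A ^ (N - J.card) * a ^ J.card) := by
              refine mul_le_mul_of_nonneg_right ?_ (by positivity)
              have h5 : (Ts.filter fun T => Bas T J ∧ NC T) ⊆ Ts.filter fun T => Bas T J := by
                intro T hT
                rw [Finset.mem_filter] at hT ⊢
                exact ⟨hT.1, hT.2.1⟩
              exact_mod_cast Finset.card_le_card h5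
          _ ≤ (K ^ (N - J.card) * g ^ J.card) * (A ^ (N - J.card) * a ^ J.card) :=
              mul_le_mul_of_nonneg_right (hc1 J) (by positivity)
          _ = (K * A) ^ (N - J.card) * (g * a) ^ J.card := by
              rw [mul_pow, mul_pow]; ring
          _ ≤ (K * A) ^ ν0 * (g * a + 1) ^ N := by
              have h3 : (K * A) ^ (N - J.card) ≤ (K * A) ^ ν0 :=
                pow_le_pow_of_le_one hKA0 hKA hν
              gcongr
          _ ≤ (g * a + 1) ^ N * ((K * A) ^ ν0 + Q * δ) := by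
              have h4 : 0 ≤ (g * a + 1) ^ N * (Q * δ) := by positivity
              linarith
    · have h3 : (Ts.filter fun T => Bas T J ∧ NC T) = ∅ := by
        rw [Finset.filter_eq_empty_iff]
        rintro T hT ⟨hB, hN⟩
        have := hlt T hT J hN hB
        omega
      rw [h3]
      simp only [Finset.card_empty, Nat.cast_zero, zero_mul]
      positivity
  refine (Finset.sum_le_card_nsmul _ _ _ h2).trans ?_
  rw [nsmul_eq_mul, Finset.card_univ, Fintype.card_finset, Fintype.card_fin]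
  push_cast
  exact le_rfl

/-- Markov's inequality for even moments -/
lemma markov_even {Ω : Type} [Fintype Ω] [Nonempty Ω] (Y : Ω → ℝ) (p : Ω → Prop)
    [DecidablePred p] (k : ℕ) (t M : ℝ) (ht : 0 < t) (hp : ∀ ω, ¬ p ω → t ≤ |Y ω|)
    (hM : 𝔼 ω, (Y ω) ^ (2 * k) ≤ M) :
    (𝔼 ω, if p ω then (0 : ℝ) else 1) ≤ M / t ^ (2 * k) := by
  rw [le_div_iff₀ (by positivity), Finset.expect_mul]
  refine le_trans ?_ hM
  refine Finset.expect_le_expect fun ω _ => ?_
  split_ifs with h
  · rw [zero_mul, pow_mul]; positivity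
  · rw [one_mul, pow_mul, pow_mul]
    have h1 := hp ω h
    have h2 : t ^ 2 ≤ (Y ω) ^ 2 := by
      rw [← sq_abs (Y ω)]
      gcongr
    gcongr

end B3
end Crest.Agent.R225
end

-- ▼ part R225/B3P1b
section

/-!
Row 225 (S0347), node B3, piece P1: `S_vanish` and `S_expect` from `S_indep`.
-/

set_option autoImplicit false

open Finset
open scoped BigOperators

namespace Crest.Agent.R225
namespace B3

theorem prf_vanish (hI : S_indep) : S_vanish := by
  classical
  intro m G
  obtain ⟨P0, hP0⟩ := hI m G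
  refine ⟨P0, fun P hP _ N T i D hT hcol hD => ?_⟩
  have key := hP0 P hP ((univ.erase i).image T) (T i)
    (fun r => ∏ j ∈ univ.erase i, D (T j) (res r (T j))) (D (T i))
    (by
      intro g hg
      obtain ⟨j, -, rfl⟩ := Finset.mem_image.1 hg
      exact hT j)
    (hT i)
    (by
      intro hmem
      apply hcol
      have e : (aff '' (((univ.erase i).image T : Finset (Pt m)) : Set (Pt m))) =
          ((fun j => aff (T j)) '' {j | j ≠ i}) := by
        ext x
        simp only [Finset.coe_image, Finset.coe_erase, Finset.coe_univ, Set.mem_image,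
          Set.mem_diff, Set.mem_univ, true_and, Set.mem_singleton_iff, Set.mem_setOf_eq]
        constructor
        · rintro ⟨_, ⟨j, hj, rfl⟩, rfl⟩
          exact ⟨j, hj, rfl⟩
        · rintro ⟨j, hj, rfl⟩
          exact ⟨_, ⟨j, hj, rfl⟩, rfl⟩
      rwa [e] at hmem)
    (by
      intro r r' h
      refine Finset.prod_congr rfl fun j hj => ?_
      rw [h (T j) (Finset.mem_image_of_mem T hj)])
  rw [hD (T i) (hT i), mul_zero] at key
  rw [← key]
  refine Finset.expect_congr rfl fun r _ => ?_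
  rw [mul_comm, Finset.mul_prod_erase univ (fun j => D (T j) (res r (T j))) (Finset.mem_univ i)]

theorem spT_succ {m N : ℕ} (T : Fin (N + 1) → Pt m) :
    spT T = spT (fun j : Fin N => T j.castSucc) ⊔ Submodule.span ℚ {aff (T (Fin.last N))} := by
  unfold spT
  rw [← Submodule.span_union]
  congr 1
  ext x
  simp only [Set.mem_range, Set.mem_union, Set.mem_singleton_iff]
  constructor
  · rintro ⟨j, rfl⟩
    induction j using Fin.lastCases with
    | last => exact Or.inr rfl
    | cast j => exact Or.inl ⟨j, rfl⟩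
  · rintro (⟨j, rfl⟩ | rfl)
    · exact ⟨_, rfl⟩
    · exact ⟨_, rfl⟩

theorem rkT_le {m N : ℕ} (T : Fin N → Pt m) : rkT T ≤ N := by
  unfold rkT spT
  calc Module.finrank ℚ (Submodule.span ℚ (Set.range fun i => aff (T i)))
      ≤ Fintype.card (Fin N) := finrank_range_le_card (R := ℚ) (fun i => aff (T i))
    _ = N := Fintype.card_fin N

theorem rkT_succ_mem {m N : ℕ} (T : Fin (N + 1) → Pt m)
    (h : aff (T (Fin.last N)) ∈ spT (fun j : Fin N => T j.castSucc)) :
    rkT T = rkT (fun j : Fin N => T j.castSucc) := by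
  unfold rkT
  rw [spT_succ]
  have : spT (fun j : Fin N => T j.castSucc) ⊔ Submodule.span ℚ {aff (T (Fin.last N))} =
      spT (fun j : Fin N => T j.castSucc) := by
    rw [sup_eq_left, Submodule.span_singleton_le_iff_mem]
    exact h
  rw [this]

theorem rkT_succ_notMem {m N : ℕ} (T : Fin (N + 1) → Pt m)
    (h : aff (T (Fin.last N)) ∉ spT (fun j : Fin N => T j.castSucc)) :
    rkT T = rkT (fun j : Fin N => T j.castSucc) + 1 := by
  unfold rkT
  rw [spT_succ]
  set V := spT (fun j : Fin N => T j.castSucc)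
  set x := aff (T (Fin.last N))
  have hx : x ≠ 0 := by
    intro h0
    apply h
    rw [h0]
    exact V.zero_mem
  have hdisj : Disjoint V (Submodule.span ℚ {x}) := by
    rw [Submodule.disjoint_span_singleton' hx]
    exact h
  have h1 := Submodule.finrank_sup_add_finrank_inf_eq V (Submodule.span ℚ {x})
  rw [hdisj.eq_bot, finrank_bot, add_zero, finrank_span_singleton hx] at h1
  exact h1

theorem expect_abs_le (hI : S_indep) (m : ℕ) (G : Finset (Pt m)) : ∃ P0 : ℕ, ∀ P ≥ P0,
    ∀ [Fact P.Prime], ∀ (N : ℕ) (T : Fin N → Pt m) (D : Pt m → ZMod P → ℝ) (A a : ℝ),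
    (∀ j, T j ∈ G) → 0 ≤ a →
    (∀ g ∈ G, ∀ x, |D g x| ≤ A) → (∀ g ∈ G, 𝔼 x, |D g x| ≤ a) →
    𝔼 r : Row P m, ∏ j, |D (T j) (res r (T j))| ≤ A ^ (N - rkT T) * a ^ rkT T := by
  classical
  obtain ⟨P0, hP0⟩ := hI m G
  refine ⟨P0, fun P hP _ N => ?_⟩
  induction N with
  | zero =>
    intro T D A a hT ha hA hEa
    have h0 : rkT T = 0 := Nat.le_zero.1 (rkT_le T)
    rw [h0]
    simp
  | succ N ih =>
    intro T D A a hT ha hA hEa
    set T' : Fin N → Pt m := fun j => T j.castSucc with hT'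
    set g := T (Fin.last N) with hg
    have hgG : g ∈ G := hT _
    have hA0 : 0 ≤ A := le_trans (abs_nonneg _) (hA g hgG 0)
    have ih' := ih T' D A a (fun j => hT _) ha hA hEa
    have hrk := rkT_le T'
    have hprod : ∀ r : Row P m, ∏ j, |D (T j) (res r (T j))| =
        (∏ j, |D (T' j) (res r (T' j))|) * |D g (res r g)| := by
      intro r
      rw [Fin.prod_univ_castSucc]
    simp_rw [hprod]
    by_cases hmem : aff g ∈ spT T'
    · rw [rkT_succ_mem T hmem]
      calc 𝔼 r : Row P m, (∏ j, |D (T' j) (res r (T' j))|) * |D g (res r g)|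
          ≤ 𝔼 r : Row P m, (∏ j, |D (T' j) (res r (T' j))|) * A := by
            refine Finset.expect_le_expect fun r _ => ?_
            exact mul_le_mul_of_nonneg_left (hA g hgG _)
              (Finset.prod_nonneg fun _ _ => abs_nonneg _)
        _ = (𝔼 r : Row P m, ∏ j, |D (T' j) (res r (T' j))|) * A := by
            rw [Finset.expect_mul]
        _ ≤ (A ^ (N - rkT T') * a ^ rkT T') * A := mul_le_mul_of_nonneg_right ih' hA0
        _ = A ^ (N + 1 - rkT T') * a ^ rkT T' := by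
            rw [Nat.sub_add_comm hrk, pow_succ]; ring
    · rw [rkT_succ_notMem T hmem]
      have key := hP0 P hP (univ.image T') g
        (fun r => ∏ j, |D (T' j) (res r (T' j))|) (fun x => |D g x|)
        (by
          intro h hh
          obtain ⟨j, -, rfl⟩ := Finset.mem_image.1 hh
          exact hT _)
        hgG
        (by
          intro h
          apply hmem
          have e : (aff '' ((univ.image T' : Finset (Pt m)) : Set (Pt m))) =
              Set.range fun i => aff (T' i) := by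
            ext x
            simp
          rwa [e] at h)
        (by
          intro r r' h
          refine Finset.prod_congr rfl fun j _ => ?_
          rw [h (T' j) (Finset.mem_image_of_mem T' (Finset.mem_univ j))])
      rw [key]
      have hE0 : 0 ≤ 𝔼 x, |D g x| := Finset.expect_nonneg fun _ _ => abs_nonneg _
      calc (𝔼 r : Row P m, ∏ j, |D (T' j) (res r (T' j))|) * 𝔼 x, |D g x|
          ≤ (A ^ (N - rkT T') * a ^ rkT T') * a :=
            mul_le_mul ih' (hEa g hgG) hE0 (mul_nonneg (pow_nonneg hA0 _) (pow_nonneg ha _))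
        _ = A ^ (N + 1 - (rkT T' + 1)) * a ^ (rkT T' + 1) := by
            rw [Nat.add_sub_add_right, pow_succ]; ring

theorem prf_expect (hI : S_indep) : S_expect := by
  intro m G
  obtain ⟨P0, hP0⟩ := expect_abs_le hI m G
  refine ⟨P0, fun P hP _ N T D A a hT ha hA hEa => ?_⟩
  refine le_trans ?_ (hP0 P hP N T D A a hT ha hA hEa)
  refine le_trans (Finset.abs_expect_le _ _) ?_
  refine Finset.expect_le_expect fun r _ => ?_
  rw [Finset.abs_prod]

end B3
end Crest.Agent.R225
end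

-- ▼ part R225/B3Count
section

/-!
Row 225, S0347, node B3: counting of tuples by rank (helper48).
-/

set_option autoImplicit false

open Finset MeasureTheory
open scoped BigOperators ENNReal Classical

namespace Crest.Agent.R225
namespace B3C

variable {m s : ℕ}

/-- span of the points `T j`, `j ∈ J` -/
noncomputable def spn (T : Fin s → Pt m) (J : Finset (Fin s)) : Submodule ℚ ((Fin m → ℚ) × ℚ) :=
  Submodule.span ℚ ((fun j => aff (T j)) '' (J : Set (Fin s)))

/-- `J` is a set of positions of a basis of the tuple `T` -/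
def IsBas (T : Fin s → Pt m) (J : Finset (Fin s)) : Prop :=
  LinearIndepOn ℚ (fun j => aff (T j)) (J : Set (Fin s)) ∧ ∀ i, aff (T i) ∈ spn T J

/-- every entry is in the span of the other entries -/
def NoColoop (T : Fin s → Pt m) : Prop := ∀ i, aff (T i) ∈ spn T (univ.erase i)

theorem exists_isBas (T : Fin s → Pt m) : ∃ J, IsBas T J := by
  obtain ⟨b, -, -, h2, h3⟩ := exists_linearIndepOn_extension (K := ℚ)
    (v := fun j => aff (T j)) (s := ∅) (t := Set.univ) (by simp) (Set.subset_univ _)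
  refine ⟨b.toFinset, ?_, ?_⟩
  · simpa using h3
  · intro i
    have := h2 ⟨i, Set.mem_univ _, rfl⟩
    simpa [spn] using this

/-- few choices for an entry once the basis is known -/
theorem card_span_le (hB1 : S_B1) (G : Finset (Pt m)) (g0 : Pt m) (rX : ℕ)
    (hbox : ∀ g ∈ G, ∀ k, |g k - g0 k| ≤ rX) (T : Fin s → Pt m) (J : Finset (Fin s)) :
    (G.filter fun g => aff g ∈ spn T J).card ≤ (2 * rX + 1) ^ J.card := by
  have h := hB1 m rX G (J.image T) g0 hbox
  have e : (aff '' ((J.image T : Finset (Pt m)) : Set (Pt m))) =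
      ((fun j => aff (T j)) '' (J : Set (Fin s))) := by
    ext x
    simp
  rw [e] at h
  refine le_trans h (Nat.pow_le_pow_right (by omega) Finset.card_image_le)

/-- fibre bound: if the entries outside `A` have at most `K` values once the entries in `A` are known -/
theorem card_fibre (A : Finset (Fin s)) (S : Finset (Fin s → Pt m)) (K : ℕ)
    (B : (Fin s → Pt m) → Finset (Pt m))
    (hB : ∀ T ∈ S, ∀ i, i ∉ A → T i ∈ B (fun j => if j ∈ A then T j else 0))
    (hK : ∀ T ∈ S, (B (fun j => if j ∈ A then T j else 0)).card ≤ K) :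
    S.card ≤ K ^ (s - A.card) *
      (S.image fun T : Fin s → Pt m => fun j => if j ∈ A then T j else 0).card := by
  apply Finset.card_le_mul_card_image
  intro U hU
  obtain ⟨T0, hT0, rfl⟩ := Finset.mem_image.1 hU
  set U : Fin s → Pt m := fun j => if j ∈ A then T0 j else 0 with hUdef
  have hsub : (S.filter fun T : Fin s → Pt m => (fun j => if j ∈ A then T j else 0) = U) ⊆
      Fintype.piFinset (fun j => if j ∈ A then {U j} else B U) := by
    intro T hT
    rw [Finset.mem_filter] at hT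
    rw [Fintype.mem_piFinset]
    intro j
    by_cases hj : j ∈ A
    · have := congrFun hT.2 j
      simp only [hj, if_true] at this ⊢
      rw [Finset.mem_singleton]
      exact this
    · simp only [hj, if_false]
      have := hB T hT.1 j hj
      rwa [hT.2] at this
  refine le_trans (Finset.card_le_card hsub) ?_
  rw [Fintype.card_piFinset]
  rw [← Finset.prod_mul_prod_compl A]
  have h1 : ∏ i ∈ A, (if i ∈ A then ({U i} : Finset (Pt m)) else B U).card = 1 := by
    apply Finset.prod_eq_one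
    intro i hi
    simp [hi]
  have h2 : ∏ i ∈ Aᶜ, (if i ∈ A then ({U i} : Finset (Pt m)) else B U).card =
      (B U).card ^ (s - A.card) := by
    rw [Finset.prod_congr rfl (g := fun _ => (B U).card)]
    · rw [Finset.prod_const, Finset.card_compl, Fintype.card_fin]
    · intro i hi
      rw [Finset.mem_compl] at hi
      simp [hi]
  rw [h1, h2, one_mul]
  exact Nat.pow_le_pow_left (hK T0 hT0) _

/-- functions in `G` on `A`, zero outside -/
theorem card_pi_zero (A : Finset (Fin s)) (G : Finset (Pt m)) :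
    (Fintype.piFinset fun j : Fin s => if j ∈ A then G else ({0} : Finset (Pt m))).card =
      G.card ^ A.card := by
  rw [Fintype.card_piFinset, ← Finset.prod_mul_prod_compl A]
  have h1 : ∏ i ∈ A, (if i ∈ A then G else ({0} : Finset (Pt m))).card = G.card ^ A.card := by
    rw [Finset.prod_congr rfl (g := fun _ => G.card)]
    · rw [Finset.prod_const]
    · intro i hi
      simp [hi]
  have h2 : ∏ i ∈ Aᶜ, (if i ∈ A then G else ({0} : Finset (Pt m))).card = 1 := by
    apply Finset.prod_eq_one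
    intro i hi
    rw [Finset.mem_compl] at hi
    simp [hi]
  rw [h1, h2, mul_one]

theorem spn_restrict (T : Fin s → Pt m) (J A : Finset (Fin s)) (hJA : J ⊆ A) :
    spn (fun j => if j ∈ A then T j else 0) J = spn T J := by
  unfold spn
  congr 1
  apply Set.image_congr
  intro j hj
  simp [hJA hj]

/-- tuples with a given set of basis positions -/
theorem card_bas_le (hB1 : S_B1) (G : Finset (Pt m)) (g0 : Pt m) (rX : ℕ)
    (hbox : ∀ g ∈ G, ∀ k, |g k - g0 k| ≤ rX) (J : Finset (Fin s)) :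
    ((Fintype.piFinset fun _ : Fin s => G).filter fun T => IsBas T J).card ≤
      ((2 * rX + 1) ^ J.card) ^ (s - J.card) * G.card ^ J.card := by
  refine le_trans (card_fibre J _ ((2 * rX + 1) ^ J.card)
    (fun U => G.filter fun g => aff g ∈ spn U J) ?_ ?_) ?_
  · intro T hT i hi
    rw [Finset.mem_filter, Fintype.mem_piFinset] at hT
    rw [Finset.mem_filter, spn_restrict T J J (Finset.Subset.refl _)]
    exact ⟨hT.1 i, hT.2.2 i⟩
  · intro T hT
    exact card_span_le hB1 G g0 rX hbox _ J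
  · apply Nat.mul_le_mul_left
    rw [← card_pi_zero J G]
    apply Finset.card_le_card
    intro U hU
    obtain ⟨T, hT, rfl⟩ := Finset.mem_image.1 hU
    rw [Finset.mem_filter, Fintype.mem_piFinset] at hT
    rw [Fintype.mem_piFinset]
    intro j
    by_cases hj : j ∈ J
    · simp [hj, hT.1 j]
    · simp [hj]

/-- fibre bound with different bounds for the coordinates -/
theorem card_fibre' (A : Finset (Fin s)) (S : Finset (Fin s → Pt m)) (K : Fin s → ℕ)
    (B : Fin s → Finset (Pt m))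
    (hB : ∀ T ∈ S, ∀ i, i ∉ A → T i ∈ B i) (hK : ∀ i, i ∉ A → (B i).card ≤ K i) :
    S.card ≤ (∏ i ∈ Aᶜ, K i) *
      (S.image fun T : Fin s → Pt m => fun j => if j ∈ A then T j else 0).card := by
  apply Finset.card_le_mul_card_image
  intro U hU
  have hsub : (S.filter fun T : Fin s → Pt m => (fun j => if j ∈ A then T j else 0) = U) ⊆
      Fintype.piFinset (fun j => if j ∈ A then {U j} else B j) := by
    intro T hT
    rw [Finset.mem_filter] at hT
    rw [Fintype.mem_piFinset]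
    intro j
    by_cases hj : j ∈ A
    · have := congrFun hT.2 j
      simp only [hj, if_true] at this ⊢
      rw [Finset.mem_singleton]
      exact this
    · simp only [hj, if_false]
      exact hB T hT.1 j hj
  refine le_trans (Finset.card_le_card hsub) ?_
  rw [Fintype.card_piFinset]
  rw [← Finset.prod_mul_prod_compl A]
  have h1 : ∏ i ∈ A, (if i ∈ A then ({U i} : Finset (Pt m)) else B i).card = 1 := by
    apply Finset.prod_eq_one
    intro i hi
    simp [hi]
  rw [h1, one_mul]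
  apply Finset.prod_le_prod'
  intro i hi
  rw [Finset.mem_compl] at hi
  simp only [hi, if_false]
  exact hK i hi

/-- solutions supported on `A` -/
theorem card_sol_le (G : Finset (Pt m)) (A : Finset (Fin s)) (H : Fin s → ℤ) :
    ((Fintype.piFinset fun j : Fin s => if j ∈ A then G else ({0} : Finset (Pt m))).filter
      fun U => ∑ j ∈ A, H j • U j = 0).card ≤
      relCount G (fun i : Fin A.card => H (A.orderEmbOfFin rfl i)) 0 := by
  unfold relCount
  apply Finset.card_le_card_of_injOn (fun U i => U (A.orderEmbOfFin rfl i))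
  · intro U hU
    rw [Finset.mem_coe, Finset.mem_filter, Fintype.mem_piFinset] at hU
    rw [Finset.mem_coe, Finset.mem_filter, Fintype.mem_piFinset]
    refine ⟨fun i => ?_, ?_⟩
    · have := hU.1 (A.orderEmbOfFin rfl i)
      rwa [if_pos (Finset.orderEmbOfFin_mem A rfl i)] at this
    · rw [← hU.2]
      have h : ∑ j ∈ A, H j • U j =
          ∑ j ∈ Finset.map (A.orderEmbOfFin rfl).toEmbedding univ, H j • U j := by
        rw [Finset.map_orderEmbOfFin_univ]
      rw [h, Finset.sum_map]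
      rfl
  · intro U hU V hV hUV
    rw [Finset.mem_coe, Finset.mem_filter, Fintype.mem_piFinset] at hU hV
    funext j
    by_cases hj : j ∈ A
    · have hr : j ∈ Set.range (A.orderEmbOfFin rfl) := by
        rw [Finset.range_orderEmbOfFin]
        exact hj
      obtain ⟨i, rfl⟩ := hr
      exact congrFun hUV i
    · have h1 := hU.1 j
      have h2 := hV.1 j
      rw [if_neg hj, Finset.mem_singleton] at h1 h2
      rw [h1, h2]

/-- coefficients with respect to a basis -/
theorem exists_coef (T : Fin s → Pt m) (J : Finset (Fin s)) (i : Fin s)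
    (h : aff (T i) ∈ spn T J) : ∃ c : Fin s → ℚ, ∑ j ∈ J, c j • aff (T j) = aff (T i) := by
  unfold spn at h
  exact (Submodule.mem_span_image_finset_iff_exists_fun' ℚ).1 h

/-- a basis entry occurs in the coefficients of some other entry -/
theorem cover (T : Fin s → Pt m) (J : Finset (Fin s)) (hJ : IsBas T J) (hn : NoColoop T)
    (C : Fin s → Fin s → ℚ) (hC : ∀ i, ∑ j ∈ J, C i j • aff (T j) = aff (T i)) (b : Fin s)
    (hb : b ∈ J) : ∃ i, i ∉ J ∧ C i b ≠ 0 := by
  by_contra hcon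
  push Not at hcon
  have h1 : ∀ j, j ≠ b → aff (T j) ∈ spn T (J.erase b) := by
    intro j hj
    by_cases hjJ : j ∈ J
    · exact Submodule.subset_span ⟨j, by simp [hj, hjJ], rfl⟩
    · rw [← hC j, ← Finset.sum_erase_add _ _ hb, hcon j hjJ, zero_smul, add_zero]
      refine Submodule.sum_mem _ fun l hl => Submodule.smul_mem _ _ ?_
      exact Submodule.subset_span ⟨l, by simpa [and_comm] using hl, rfl⟩
  have h2 : spn T (univ.erase b) ≤ spn T (J.erase b) := by
    rw [spn, Submodule.span_le]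
    rintro _ ⟨j, hj, rfl⟩
    exact h1 j (by simpa using hj)
  have h3 := h2 (hn b)
  have h4 := hJ.1.notMem_span (i := b) hb
  apply h4
  unfold spn at h3
  simpa using h3

/-- a large circuit through a non-basis entry -/
theorem exists_large (T : Fin s → Pt m) (J : Finset (Fin s)) (hJ : IsBas T J) (hn : NoColoop T)
    (C : Fin s → Fin s → ℚ) (hC : ∀ i, ∑ j ∈ J, C i j • aff (T j) = aff (T i))
    (hJs : J.card < s) :
    ∃ i, i ∉ J ∧ J.card ≤ (J.filter fun j => C i j ≠ 0).card * (s - J.card) := by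
  by_contra hcon
  push Not at hcon
  have hne : (Jᶜ : Finset (Fin s)).card = s - J.card := by
    rw [Finset.card_compl, Fintype.card_fin]
  have h1 : J.card ≤ ∑ i ∈ Jᶜ, (J.filter fun j => C i j ≠ 0).card := by
    refine le_trans (Finset.card_le_card ?_) Finset.card_biUnion_le
    intro b hb
    obtain ⟨i, hi, hib⟩ := cover T J hJ hn C hC b hb
    rw [Finset.mem_biUnion]
    exact ⟨i, by simpa using hi, by simp [hb, hib]⟩
  have h2 : (∑ i ∈ Jᶜ, (J.filter fun j => C i j ≠ 0).card) * (s - J.card) <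
      (s - J.card) * J.card := by
    rw [Finset.sum_mul, ← hne, ← smul_eq_mul (a := (Jᶜ : Finset (Fin s)).card), ← Finset.sum_const]
    apply Finset.sum_lt_sum_of_nonempty
    · rw [← Finset.card_pos, hne]
      omega
    · intro i hi
      rw [hne]
      exact hcon i (by simpa using hi)
  have h3 := Nat.mul_le_mul_right (s - J.card) h1
  rw [mul_comm (s - J.card)] at h2
  omega

/-- the integer relation of a circuit -/
theorem exists_rel (hB2 : S_B2) (G : Finset (Pt m)) (g0 : Pt m) (rX : ℕ)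
    (hbox : ∀ g ∈ G, ∀ k, |g k - g0 k| ≤ rX) (T : Fin s → Pt m) (hT : ∀ i, T i ∈ G)
    (J : Finset (Fin s)) (hJ : IsBas T J) (c : Fin s → ℚ) (i : Fin s) (hi : i ∉ J)
    (hc : ∑ j ∈ J, c j • aff (T j) = aff (T i)) (h2 : 2 ≤ (J.filter fun j => c j ≠ 0).card) :
    ∃ H : Fin s → ℤ, (∀ j, |H j| ≤ ((s * (rX + 1)) ^ s : ℕ)) ∧
      (∀ j, H j ≠ 0 ↔ j ∈ insert i (J.filter fun j => c j ≠ 0)) ∧
      ∑ j ∈ insert i (J.filter fun j => c j ≠ 0), H j • T j = 0 := by
  set A : Finset (Fin s) := J.filter fun j => c j ≠ 0 with hA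
  have hAJ : A ⊆ J := Finset.filter_subset _ _
  have hiA : i ∉ A := fun h => hi (hAJ h)
  have hcA : ∑ j ∈ A, c j • aff (T j) = aff (T i) := by
    rw [← hc, hA, Finset.sum_filter]
    refine Finset.sum_congr rfl fun j _ => ?_
    split_ifs with h
    · rfl
    · rw [not_not] at h
      rw [h, zero_smul]
  have hAl : LinearIndepOn ℚ (fun j => aff (T j)) (A : Set (Fin s)) :=
    hJ.1.mono (by exact_mod_cast hAJ)
  have hTA : Set.InjOn T (A : Set (Fin s)) := by
    intro a ha b hb hab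
    exact hAl.injOn ha hb (by simp only [hab])
  have hTi : ∀ j ∈ A, T j ≠ T i := by
    intro j hj hji
    have hcj : c j ≠ 0 := by
      rw [hA, Finset.mem_filter] at hj
      exact hj.2
    -- then the combination is trivial
    have h3 : ∑ l ∈ A, (c l - if l = j then 1 else 0) • aff (T l) = 0 := by
      simp only [sub_smul, Finset.sum_sub_distrib, hcA, ite_smul, one_smul, zero_smul,
        Finset.sum_ite_eq', hj, if_true, hji, sub_self]
    have h4 := (linearIndepOn_finset_iff.1 hAl) _ h3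
    obtain ⟨l, hl, hlj⟩ := Finset.exists_mem_ne (by omega : 1 < A.card) j
    have h5 := h4 l hl
    simp only [hlj, if_false, sub_zero] at h5
    rw [hA, Finset.mem_filter] at hl
    exact hl.2 h5
  have hinj : Set.InjOn T ((insert i A : Finset (Fin s)) : Set (Fin s)) := by
    intro a ha b hb hab
    rw [Finset.mem_coe, Finset.mem_insert] at ha hb
    rcases ha with rfl | ha <;> rcases hb with rfl | hb
    · rfl
    · exact absurd hab.symm (hTi b hb)
    · exact absurd hab (hTi a ha)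
    · exact hTA ha hb hab
  set Z : Finset (Pt m) := (insert i A).image T with hZ
  have hZcard : Z.card = (insert i A).card := Finset.card_image_of_injOn hinj
  have hdep : ¬ LinearIndepOn ℚ aff (Z : Set (Pt m)) := by
    intro hli
    have h6 : LinearIndepOn ℚ (fun j => aff (T j)) ((insert i A : Finset (Fin s)) : Set (Fin s)) := by
      apply LinearIndepOn.comp_of_image (v := aff) (f := T)
      · rw [hZ, Finset.coe_image] at hli
        exact hli
      · exact hinj
    have h7 := (linearIndepOn_finset_iff.1 h6) (fun j => if j = i then (-1 : ℚ) else c j) (by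
      rw [Finset.sum_insert hiA]
      simp only [if_true]
      have h8 : ∑ j ∈ A, (if j = i then (-1 : ℚ) else c j) • aff (T j) =
          ∑ j ∈ A, c j • aff (T j) := by
        refine Finset.sum_congr rfl fun j hj => ?_
        rw [if_neg (by rintro rfl; exact hiA hj)]
      rw [h8, hcA]
      simp) i (Finset.mem_insert_self _ _)
    simp at h7
  obtain ⟨h, hne, ⟨⟨hz, hs0, hs1⟩, hbd⟩⟩ := hB2 m rX Z g0 (by
    intro g hg k
    rw [hZ] at hg
    obtain ⟨j, -, rfl⟩ := Finset.mem_image.1 hg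
    exact hbox _ (hT j) k) hdep
  rw [hZ, Finset.sum_image hinj] at hs0 hs1
  have hrel : ∑ j ∈ insert i A, (h (T j) : ℚ) • aff (T j) = 0 := by
    ext k
    · have := congrFun hs1 k
      simp only [Finset.sum_apply, Pi.smul_apply, smul_eq_mul, Pi.zero_apply] at this
      simp only [aff, Prod.fst_sum, Prod.smul_fst, Finset.sum_apply, Pi.smul_apply, smul_eq_mul,
        Prod.fst_zero, Pi.zero_apply]
      exact_mod_cast this
    · simp only [aff, Prod.snd_sum, Prod.smul_snd, smul_eq_mul, mul_one, Prod.snd_zero]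
      exact_mod_cast hs0
  have hcomb : ∑ j ∈ A, ((h (T j) : ℚ) + h (T i) * c j) • aff (T j) = 0 := by
    rw [Finset.sum_insert hiA] at hrel
    simp only [add_smul, mul_smul, Finset.sum_add_distrib, ← Finset.smul_sum, hcA]
    rw [add_comm]
    exact hrel
  have hco := (linearIndepOn_finset_iff.1 hAl) _ hcomb
  have hhi : h (T i) ≠ 0 := by
    intro h0
    apply hne
    funext g
    by_cases hg : g ∈ Z
    · rw [hZ] at hg
      obtain ⟨j, hj, rfl⟩ := Finset.mem_image.1 hg
      rcases Finset.mem_insert.1 hj with rfl | hj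
      · simpa using h0
      · have := hco j hj
        simp only [h0, Int.cast_zero, zero_mul, add_zero, Int.cast_eq_zero] at this
        simpa using this
    · simpa using hz g hg
  refine ⟨fun j => if j ∈ insert i A then h (T j) else 0, ?_, ?_, ?_⟩
  · intro j
    by_cases hj : j ∈ insert i A
    · simp only [hj, if_true]
      have h9 := hbd (T j)
      have hcs : Z.card ≤ s := by
        rw [hZcard]
        exact le_trans (Finset.card_le_univ _) (by simp)
      have h10 : ((Z.card * (rX + 1) : ℝ)) ^ Z.card ≤ ((s : ℝ) * (rX + 1)) ^ s := by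
        have hs1' : (1 : ℝ) ≤ (s : ℝ) * (rX + 1) := by
          have : 1 ≤ s := le_trans (by
            rw [hZcard]
            exact Finset.card_pos.2 ⟨i, Finset.mem_insert_self _ _⟩) hcs
          have h1 : (1 : ℝ) ≤ s := by exact_mod_cast this
          nlinarith [(Nat.cast_nonneg rX : (0 : ℝ) ≤ rX)]
        calc ((Z.card * (rX + 1) : ℝ)) ^ Z.card ≤ ((s : ℝ) * (rX + 1)) ^ Z.card := by
              gcongr
          _ ≤ _ := pow_le_pow_right₀ hs1' hcs
      have h11 := le_trans h9 h10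
      exact_mod_cast h11
    · simp only [hj, if_false, abs_zero]
      positivity
  · intro j
    by_cases hj : j ∈ insert i A
    · simp only [hj, if_true, iff_true]
      rcases Finset.mem_insert.1 hj with rfl | hj'
      · exact hhi
      · intro h0
        have := hco j hj'
        rw [h0] at this
        simp only [Int.cast_zero, zero_add, mul_eq_zero, Int.cast_eq_zero] at this
        rcases this with h | h
        · exact hhi h
        · rw [hA, Finset.mem_filter] at hj'
          exact hj'.2 h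
    · simp [hj]
  · rw [← hs1]
    refine Finset.sum_congr rfl fun j hj => ?_
    simp only [hj, if_true]

/-- the tuples with a given basis and a given relation -/
theorem card_rel_le (hB1 : S_B1) (G : Finset (Pt m)) (g0 : Pt m) (rX : ℕ)
    (hbox : ∀ g ∈ G, ∀ k, |g k - g0 k| ≤ rX) (J A : Finset (Fin s)) (i : Fin s) (hi : i ∉ J)
    (hA : A ⊆ J) (H : Fin s → ℤ) :
    ((Fintype.piFinset fun _ : Fin s => G).filter fun T =>
      IsBas T J ∧ ∑ j ∈ insert i A, H j • T j = 0).card ≤
      ((2 * rX + 1) ^ J.card) ^ (s - J.card) * (G.card ^ (J.card - A.card) *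
        relCount G (fun l : Fin (insert i A).card => H ((insert i A).orderEmbOfFin rfl l)) 0) := by
  have hiA : i ∉ A := fun h => hi (hA h)
  have hsub : insert i A ⊆ insert i J := Finset.insert_subset_insert _ hA
  -- step 1: entries outside `insert i J`
  refine le_trans (card_fibre (insert i J) _ ((2 * rX + 1) ^ J.card)
    (fun U => G.filter fun g => aff g ∈ spn U J) ?_ ?_) ?_
  · intro T hT l hl
    rw [Finset.mem_filter, Fintype.mem_piFinset] at hT
    rw [Finset.mem_filter, spn_restrict T J _ (Finset.subset_insert _ _)]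
    exact ⟨hT.1 l, hT.2.1.2 l⟩
  · intro T hT
    exact card_span_le hB1 G g0 rX hbox _ J
  have hpow : ((2 * rX + 1) ^ J.card) ^ (s - (insert i J).card) ≤
      ((2 * rX + 1) ^ J.card) ^ (s - J.card) := by
    apply Nat.pow_le_pow_right (Nat.pos_of_ne_zero (by positivity))
    have : J.card ≤ (insert i J).card := Finset.card_le_card (Finset.subset_insert _ _)
    omega
  refine Nat.mul_le_mul hpow ?_
  -- step 2
  have hsub2 : (((Fintype.piFinset fun _ : Fin s => G).filter fun T =>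
      IsBas T J ∧ ∑ j ∈ insert i A, H j • T j = 0).image
        fun T : Fin s → Pt m => fun j => if j ∈ insert i J then T j else 0) ⊆
      (Fintype.piFinset fun j : Fin s =>
        if j ∈ insert i J then G else ({0} : Finset (Pt m))).filter
        fun U => ∑ j ∈ insert i A, H j • U j = 0 := by
    intro U hU
    obtain ⟨T, hT, rfl⟩ := Finset.mem_image.1 hU
    rw [Finset.mem_filter, Fintype.mem_piFinset] at hT
    rw [Finset.mem_filter, Fintype.mem_piFinset]
    refine ⟨fun j => ?_, ?_⟩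
    · by_cases hj : j ∈ insert i J
      · simp only [hj, if_true]
        exact hT.1 j
      · simp only [hj, if_false, Finset.mem_singleton]
    · refine Eq.trans (Finset.sum_congr rfl fun j hj => ?_) hT.2.2
      simp only [hsub hj, if_true]
  refine le_trans (Finset.card_le_card hsub2) ?_
  refine le_trans (card_fibre' (insert i A) _ (fun j => if j ∈ insert i J then G.card else 1)
    (fun j => if j ∈ insert i J then G else {0}) ?_ ?_) ?_
  · intro U hU j _
    rw [Finset.mem_filter, Fintype.mem_piFinset] at hU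
    exact hU.1 j
  · intro j _
    by_cases hj : j ∈ insert i J
    · simp only [hj, if_true, le_refl]
    · simp only [hj, if_false, Finset.card_singleton, le_refl]
  have hprod : ∏ j ∈ (insert i A)ᶜ, (if j ∈ insert i J then G.card else 1) =
      G.card ^ (J.card - A.card) := by
    rw [Finset.prod_ite, Finset.prod_const_one, mul_one, Finset.prod_const]
    congr 1
    have : ((insert i A)ᶜ.filter fun j => j ∈ insert i J) = J \ A := by
      ext j
      simp only [Finset.mem_filter, Finset.mem_compl, Finset.mem_insert, not_or, Finset.mem_sdiff]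
      constructor
      · rintro ⟨⟨h1, h2⟩, h3 | h3⟩
        · exact absurd h3 h1
        · exact ⟨h3, h2⟩
      · rintro ⟨h1, h2⟩
        exact ⟨⟨by rintro rfl; exact hi h1, h2⟩, Or.inr h1⟩
    rw [this, Finset.card_sdiff_of_subset hA]
  rw [hprod]
  apply Nat.mul_le_mul_left
  refine le_trans (Finset.card_le_card ?_) (card_sol_le G (insert i A) H)
  intro V hV
  obtain ⟨U, hU, rfl⟩ := Finset.mem_image.1 hV
  rw [Finset.mem_filter, Fintype.mem_piFinset] at hU
  rw [Finset.mem_filter, Fintype.mem_piFinset]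
  refine ⟨fun j => ?_, ?_⟩
  · have h1 := hU.1 j
    by_cases hj : j ∈ insert i A
    · rw [if_pos (hsub hj)] at h1
      simp only [hj, if_true]
      exact h1
    · simp only [hj, if_false, Finset.mem_singleton]
  · refine Eq.trans (Finset.sum_congr rfl fun j hj => ?_) hU.2
    simp only [hj, if_true]

/-- **few tuples without coloops**: one large circuit -/
theorem card_circ_le (hB1 : S_B1) (hB2 : S_B2) (G : Finset (Pt m)) (g0 : Pt m) (rX : ℕ)
    (hbox : ∀ g ∈ G, ∀ k, |g k - g0 k| ≤ rX) (J : Finset (Fin s)) (hJs : J.card < s) (l : ℕ)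
    (hl3 : 3 ≤ l) (hl : ∀ a, J.card ≤ a * (s - J.card) → l ≤ a + 1) (ε : ℝ) (hε : 0 ≤ ε)
    (hrel : ∀ (s' : ℕ) (h : Fin s' → ℤ), l ≤ s' → (∀ i, h i ≠ 0) →
      (relCount G h 0 : ℝ) ≤ (G.card : ℝ) ^ (s' - 1) * ε) :
    (((Fintype.piFinset fun _ : Fin s => G).filter fun T => IsBas T J ∧ NoColoop T).card : ℝ) ≤
      (2 * ((s * (rX + 1)) ^ s : ℕ) + 1) ^ s * ((2 * rX + 1) ^ J.card) ^ (s - J.card) *
        (G.card : ℝ) ^ J.card * ε := by
  set B : ℕ := (s * (rX + 1)) ^ s with hBdef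
  -- the index set of the union bound
  set Idx : Finset (Fin s × Finset (Fin s) × (Fin s → ℤ)) :=
    ((univ : Finset (Fin s)) ×ˢ ((univ : Finset (Finset (Fin s))) ×ˢ
      (Fintype.piFinset fun _ : Fin s => Finset.Icc (-(B : ℤ)) B))).filter
      (fun q => q.1 ∉ J ∧ q.2.1 ⊆ J ∧ l ≤ q.2.1.card + 1 ∧ ∀ j, q.2.2 j ≠ 0 ↔ j ∈ insert q.1 q.2.1)
    with hIdx
  have hcover : ((Fintype.piFinset fun _ : Fin s => G).filter fun T => IsBas T J ∧ NoColoop T) ⊆
      Idx.biUnion fun q => (Fintype.piFinset fun _ : Fin s => G).filter fun T =>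
        IsBas T J ∧ ∑ j ∈ insert q.1 q.2.1, q.2.2 j • T j = 0 := by
    intro T hT
    rw [Finset.mem_filter, Fintype.mem_piFinset] at hT
    obtain ⟨hTG, hJ, hn⟩ := hT
    choose C hC using fun i => exists_coef T J i (hJ.2 i)
    obtain ⟨i, hi, hlarge⟩ := exists_large T J hJ hn C hC hJs
    have hla := hl _ hlarge
    obtain ⟨H, hH1, hH2, hH3⟩ := exists_rel hB2 G g0 rX hbox T hTG J hJ (C i) i hi (hC i) (by omega)
    rw [Finset.mem_biUnion]
    refine ⟨(i, J.filter fun j => C i j ≠ 0, H), ?_, ?_⟩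
    · rw [hIdx, Finset.mem_filter, Finset.mem_product, Finset.mem_product, Fintype.mem_piFinset]
      refine ⟨⟨Finset.mem_univ _, Finset.mem_univ _, fun j => ?_⟩, hi, Finset.filter_subset _ _,
        hla, hH2⟩
      rw [Finset.mem_Icc]
      have := hH1 j
      rw [abs_le] at this
      exact this
    · rw [Finset.mem_filter, Fintype.mem_piFinset]
      exact ⟨hTG, hJ, hH3⟩
  have hIdxcard : (Idx.card : ℝ) ≤ (2 * (B : ℝ) + 1) ^ s := by
    have h1 : Idx.card ≤ (2 * B + 1) ^ s := by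
      have h2 : Idx.card ≤ (Fintype.piFinset fun _ : Fin s => Finset.Icc (-(B : ℤ)) B).card := by
        apply Finset.card_le_card_of_injOn (fun q => q.2.2)
        · intro q hq
          rw [Finset.mem_coe, hIdx, Finset.mem_filter, Finset.mem_product, Finset.mem_product] at hq
          exact hq.1.2.2
        · intro q hq q' hq' hqq
          simp only at hqq
          rw [Finset.mem_coe, hIdx, Finset.mem_filter] at hq hq'
          obtain ⟨-, hi, hA, -, hH⟩ := hq
          obtain ⟨-, hi', hA', -, hH'⟩ := hq'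
          have hins : insert q.1 q.2.1 = insert q'.1 q'.2.1 := by
            ext j
            rw [← hH, ← hH', hqq]
          have e1 : q.1 = q'.1 := by
            have : q.1 ∈ insert q'.1 q'.2.1 := by
              rw [← hins]
              exact Finset.mem_insert_self _ _
            rcases Finset.mem_insert.1 this with h | h
            · exact h
            · exact absurd (hA' h) hi
          have e2 : q.2.1 = q'.2.1 := by
            have hn1 : q.1 ∉ q.2.1 := fun h => hi (hA h)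
            have hn2 : q.1 ∉ q'.2.1 := fun h => hi (hA' h)
            rw [← e1] at hins
            rw [← Finset.erase_insert hn1, hins, Finset.erase_insert hn2]
          exact Prod.ext e1 (Prod.ext e2 hqq)
      refine le_trans h2 ?_
      rw [Fintype.card_piFinset]
      simp only [Int.card_Icc, Finset.prod_const, Finset.card_univ, Fintype.card_fin]
      apply Nat.pow_le_pow_left
      omega
    calc (Idx.card : ℝ) ≤ (((2 * B + 1) ^ s : ℕ) : ℝ) := by exact_mod_cast h1
      _ = _ := by push_cast; ring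
  have hterm : ∀ q ∈ Idx, (((Fintype.piFinset fun _ : Fin s => G).filter fun T =>
      IsBas T J ∧ ∑ j ∈ insert q.1 q.2.1, q.2.2 j • T j = 0).card : ℝ) ≤
      ((2 * rX + 1) ^ J.card) ^ (s - J.card) * (G.card : ℝ) ^ J.card * ε := by
    intro q hq
    rw [hIdx, Finset.mem_filter] at hq
    obtain ⟨-, hi, hA, hla, hH⟩ := hq
    have hiA : q.1 ∉ q.2.1 := fun h => hi (hA h)
    have h1 := card_rel_le hB1 G g0 rX hbox J q.2.1 q.1 hi hA q.2.2
    have h2 : (((Fintype.piFinset fun _ : Fin s => G).filter fun T =>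
      IsBas T J ∧ ∑ j ∈ insert q.1 q.2.1, q.2.2 j • T j = 0).card : ℝ) ≤
        ((2 * rX + 1) ^ J.card) ^ (s - J.card) * ((G.card : ℝ) ^ (J.card - q.2.1.card) *
        relCount G (fun l : Fin (insert q.1 q.2.1).card =>
          q.2.2 ((insert q.1 q.2.1).orderEmbOfFin rfl l)) 0) := by exact_mod_cast h1
    refine le_trans h2 ?_
    have hcard : (insert q.1 q.2.1).card = q.2.1.card + 1 := Finset.card_insert_of_notMem hiA
    have h3 := hrel (insert q.1 q.2.1).card (fun l : Fin (insert q.1 q.2.1).card =>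
          q.2.2 ((insert q.1 q.2.1).orderEmbOfFin rfl l)) (by omega) (fun l => by
            rw [hH]
            exact Finset.orderEmbOfFin_mem _ rfl l)
    rw [mul_assoc]
    apply mul_le_mul_of_nonneg_left _ (by positivity)
    calc (G.card : ℝ) ^ (J.card - q.2.1.card) * relCount G (fun l : Fin (insert q.1 q.2.1).card =>
          q.2.2 ((insert q.1 q.2.1).orderEmbOfFin rfl l)) 0
        ≤ (G.card : ℝ) ^ (J.card - q.2.1.card) *
          ((G.card : ℝ) ^ ((insert q.1 q.2.1).card - 1) * ε) :=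
          mul_le_mul_of_nonneg_left h3 (by positivity)
      _ = (G.card : ℝ) ^ J.card * ε := by
          rw [← mul_assoc, ← pow_add]
          congr 2
          have := Finset.card_le_card hA
          omega
  calc (((Fintype.piFinset fun _ : Fin s => G).filter fun T => IsBas T J ∧ NoColoop T).card : ℝ)
      ≤ ((Idx.biUnion fun q => (Fintype.piFinset fun _ : Fin s => G).filter fun T =>
        IsBas T J ∧ ∑ j ∈ insert q.1 q.2.1, q.2.2 j • T j = 0).card : ℝ) := by
        exact_mod_cast Finset.card_le_card hcover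
    _ ≤ ∑ q ∈ Idx, (((Fintype.piFinset fun _ : Fin s => G).filter fun T =>
        IsBas T J ∧ ∑ j ∈ insert q.1 q.2.1, q.2.2 j • T j = 0).card : ℝ) := by
        exact_mod_cast Finset.card_biUnion_le
    _ ≤ ∑ q ∈ Idx, ((2 * rX + 1) ^ J.card) ^ (s - J.card) * (G.card : ℝ) ^ J.card * ε :=
        Finset.sum_le_sum hterm
    _ = Idx.card * (((2 * rX + 1) ^ J.card) ^ (s - J.card) * (G.card : ℝ) ^ J.card * ε) := by
        rw [Finset.sum_const, nsmul_eq_mul]
    _ ≤ ((2 * (B : ℝ) + 1) ^ s) *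
        (((2 * rX + 1) ^ J.card) ^ (s - J.card) * (G.card : ℝ) ^ J.card * ε) := by
        apply mul_le_mul_of_nonneg_right hIdxcard (by positivity)
    _ = _ := by ring

end B3C
end Crest.Agent.R225
end

-- ▼ part R225/B3Asm
section

/-!
# Row 225 (S0347), node B3: assembly (helper351)
-/

set_option autoImplicit false

open Finset
open scoped BigOperators

namespace Crest.Agent.R225
namespace B3

lemma isBas_rkT {m N : ℕ} {T : Fin N → Pt m} {J : Finset (Fin N)} (h : B3C.IsBas T J) :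
    rkT T = J.card := by
  classical
  have h1 : spT T = Submodule.span ℚ (Set.range fun j : J => aff (T j)) := by
    have h2 : (Set.range fun j : J => aff (T j)) = (fun j => aff (T j)) '' (J : Set (Fin N)) := by
      ext x
      simp
    rw [h2]
    apply le_antisymm
    · unfold spT
      rw [Submodule.span_le]
      rintro _ ⟨j, rfl⟩
      exact h.2 j
    · apply Submodule.span_mono
      rintro _ ⟨j, _, rfl⟩
      exact ⟨j, rfl⟩
  unfold rkT
  rw [h1]
  have h3 : LinearIndependent ℚ (fun j : J => aff (T j)) := h.1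
  rw [finrank_span_eq_card h3]
  simp

lemma exists_coloop {m N : ℕ} {T : Fin N → Pt m} (h : ¬ B3C.NoColoop T) : ∃ i, Coloop T i := by
  unfold B3C.NoColoop at h
  push Not at h
  obtain ⟨i, hi⟩ := h
  refine ⟨i, ?_⟩
  unfold Coloop
  unfold B3C.spn at hi
  have h1 : ((univ.erase i : Finset (Fin N)) : Set (Fin N)) = {j | j ≠ i} := by
    ext j; simp
  rw [← h1]
  convert hi

lemma bas_lt {m N : ℕ} (hN : 1 ≤ N) {T : Fin N → Pt m} {J : Finset (Fin N)}
    (hn : B3C.NoColoop T) (h : B3C.IsBas T J) : J.card < N := by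
  by_contra hge
  push Not at hge
  have hJ : J = univ := by
    apply Finset.eq_univ_of_card
    have := Finset.card_le_univ J
    simp only [Fintype.card_fin] at this ⊢
    omega
  subst hJ
  have h1 := h.1
  let i : Fin N := ⟨0, hN⟩
  have h2 := h1.notMem_span (i := i) (by simp)
  apply h2
  have h3 := hn i
  unfold B3C.spn at h3
  have h4 : (((univ : Finset (Fin N)).erase i : Finset (Fin N)) : Set (Fin N)) =
      ((univ : Finset (Fin N)) : Set (Fin N)) \ {i} := by
    simp [Finset.coe_erase]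
  convert h3 using 3
  rw [← h4]

/-- the moment bound -/
theorem mom (hI : S_indep) (hB1 : S_B1) (hB2 : S_B2) (m : ℕ) (G : Finset (Pt m)) :
    ∃ P0 : ℕ, ∀ P ≥ P0, ∀ [Fact P.Prime],
    ∀ (N ν0 s0 rX : ℕ) (g0 : Pt m) (D : Pt m → ZMod P → ℝ) (A a δ : ℝ),
    (∀ g ∈ G, ∀ k, |g k - g0 k| ≤ rX) → 1 ≤ N → 3 ≤ s0 → ν0 * s0 ≤ N → 0 < A → 0 ≤ a → 0 ≤ δ →
    (2 * (rX : ℝ) + 1) ^ N * A ≤ 1 →
    (∀ g ∈ G, 𝔼 x, D g x = 0) → (∀ g ∈ G, ∀ x, |D g x| ≤ A) → (∀ g ∈ G, 𝔼 x, |D g x| ≤ a) →
    (∀ (s : ℕ) (h : Fin s → ℤ) (y : Pt m), s0 ≤ s → (∀ i, h i ≠ 0) →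
      (relCount G h y : ℝ) ≤ (G.card : ℝ) ^ (s - 1) * δ) →
    𝔼 r : Row P m, (∑ g ∈ G, D g (res r g)) ^ N ≤
      2 ^ N * ((G.card * a + 1) ^ N * (((2 * (rX : ℝ) + 1) ^ N * A) ^ ν0 +
        N * 2 ^ N * (2 * (hbb rX N : ℝ) + 1) ^ N * δ)) := by
  classical
  obtain ⟨P1, hP1⟩ := prf_vanish hI m G
  obtain ⟨P2, hP2⟩ := prf_expect hI m G
  refine ⟨max P1 P2, fun P hP => ?_⟩
  intro _ N ν0 s0 rX g0 D A a δ hbox hN hs0 hνs hA ha hδ hKA hD0 hDA hDa hrel
  have hP1' := hP1 P ((le_max_left _ _).trans hP)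
  have hP2' := hP2 P ((le_max_right _ _).trans hP)
  have hexp : 𝔼 r : Row P m, (∑ g ∈ G, D g (res r g)) ^ N =
      ∑ T ∈ Fintype.piFinset (fun _ : Fin N => G),
        𝔼 r : Row P m, ∏ j, D (T j) (res r (T j)) := by
    rw [← Finset.expect_sum_comm]
    refine Finset.expect_congr rfl fun r _ => ?_
    rw [Finset.sum_pow']
  rw [hexp]
  have hTG : ∀ T ∈ Fintype.piFinset (fun _ : Fin N => G), ∀ j, T j ∈ G := by
    intro T hT j
    exact Fintype.mem_piFinset.mp hT j
  have hcard1 : ∀ J : Finset (Fin N),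
      (((Fintype.piFinset fun _ : Fin N => G).filter fun T => B3C.IsBas T J).card : ℝ) ≤
      ((2 * (rX : ℝ) + 1) ^ N) ^ (N - J.card) * (G.card : ℝ) ^ J.card := by
    intro J
    have h1 := B3C.card_bas_le hB1 G g0 rX hbox J
    have h2 : (((Fintype.piFinset fun _ : Fin N => G).filter fun T => B3C.IsBas T J).card : ℝ) ≤
        ((2 * (rX : ℝ) + 1) ^ J.card) ^ (N - J.card) * (G.card : ℝ) ^ J.card := by
      have h3 : (((((Fintype.piFinset fun _ : Fin N => G).filter fun T => B3C.IsBas T J).card : ℕ)) : ℝ)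
          ≤ ((((2 * rX + 1) ^ J.card) ^ (N - J.card) * G.card ^ J.card : ℕ) : ℝ) := by
        exact_mod_cast (by convert h1)
      push_cast at h3
      exact h3
    refine h2.trans ?_
    have hJN : J.card ≤ N := by
      have := Finset.card_le_univ J
      simpa using this
    have h3 : (2 * (rX : ℝ) + 1) ^ J.card ≤ (2 * (rX : ℝ) + 1) ^ N :=
      pow_le_pow_right₀ (by have : (0:ℝ) ≤ rX := Nat.cast_nonneg _; linarith) hJN
    gcongr
  have hcore := moment_core N (Fintype.piFinset (fun _ : Fin N => G))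
    (fun T => 𝔼 r : Row P m, ∏ j, D (T j) (res r (T j)))
    (fun T J => B3C.IsBas T J) (fun T => B3C.NoColoop T) A a (G.card : ℝ)
    ((2 * (rX : ℝ) + 1) ^ N) (N * 2 ^ N * (2 * (hbb rX N : ℝ) + 1) ^ N) δ ν0
    hA.le ha (Nat.cast_nonneg _) (by positivity) (by positivity) hδ hKA
    (fun T _ => B3C.exists_isBas T)
    (fun T hT hn => by
      obtain ⟨i, hi⟩ := exists_coloop hn
      exact hP1' N T i D (hTG T hT) hi hD0)
    (fun T hT J hJ => by
      have h1 := hP2' N T D A a (hTG T hT) ha hDA hDa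
      rw [isBas_rkT hJ] at h1
      exact (le_abs_self _).trans h1)
    (fun T _ J hn hJ => bas_lt hN hn hJ)
    (fun J => by convert hcard1 J)
    (fun J hJ hν => by
      have hl : ∀ b, J.card ≤ b * (N - J.card) → s0 ≤ b + 1 := by
        intro b hb
        by_contra hlt
        push Not at hlt
        have h1 : N ≤ (b + 1) * (N - J.card) := by
          have : N = J.card + (N - J.card) := by omega
          nlinarith
        have h2 : (b + 1) * (N - J.card) ≤ (s0 - 1) * (ν0 - 1) :=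
          Nat.mul_le_mul (by omega) (by omega)
        have h3 : (s0 - 1) * (ν0 - 1) < ν0 * s0 := by
          have h4 : 1 ≤ ν0 := by omega
          calc (s0 - 1) * (ν0 - 1) ≤ (s0 - 1) * ν0 := Nat.mul_le_mul_left _ (by omega)
            _ < s0 * ν0 := Nat.mul_lt_mul_of_pos_right (by omega) (by omega)
            _ = ν0 * s0 := Nat.mul_comm _ _
        omega
      have h1 := B3C.card_circ_le hB1 hB2 G g0 rX hbox J hJ s0 hs0 hl δ hδ
        (fun s' h hs' hh => hrel s' h 0 hs' hh)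
      have h2 : (((Fintype.piFinset fun _ : Fin N => G).filter fun T =>
          B3C.IsBas T J ∧ B3C.NoColoop T).card : ℝ) ≤
          N * 2 ^ N * (2 * (hbb rX N : ℝ) + 1) ^ N * ((2 * (rX : ℝ) + 1) ^ N) ^ (N - J.card) *
            (G.card : ℝ) ^ J.card * δ := by
        refine (le_trans (le_of_eq (by congr!)) h1).trans ?_
        have hJN : J.card ≤ N := hJ.le
        have h3 : (2 * (rX : ℝ) + 1) ^ J.card ≤ (2 * (rX : ℝ) + 1) ^ N :=
          pow_le_pow_right₀ (by have : (0:ℝ) ≤ rX := Nat.cast_nonneg _; linarith) hJN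
        have h4 : (1 : ℝ) ≤ N * 2 ^ N := by
          have h5 : (1 : ℝ) ≤ N := by exact_mod_cast hN
          have h6 : (1 : ℝ) ≤ 2 ^ N := one_le_pow₀ (by norm_num)
          nlinarith
        have h7 : (2 * (hbb rX N : ℝ) + 1) ^ N ≤ N * 2 ^ N * (2 * (hbb rX N : ℝ) + 1) ^ N := by
          have h8 : 0 ≤ (2 * (hbb rX N : ℝ) + 1) ^ N := by positivity
          nlinarith
        have h9 : (2 * (((N * (rX + 1)) ^ N : ℕ) : ℝ) + 1) ^ N ≤
            N * 2 ^ N * (2 * (hbb rX N : ℝ) + 1) ^ N := h7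
        gcongr
      convert h2 using 2)
  exact hcore

end B3
end Crest.Agent.R225
end

-- ▼ part R225/B3Fin
section

/-!
# Row 225 (S0347), node B3: final assembly from the numerics (helper351)
-/

set_option autoImplicit false

open Finset
open scoped BigOperators

namespace Crest.Agent.R225
namespace B3

/-- numerics with a general constant `K` -/
def S_numK (K : ℝ) : Prop := ∀ c1 : ℝ, 0 < c1 → c1 ≤ 1 → ∃ X0 : ℝ, 1 ≤ X0 ∧ ∀ X ≥ X0,
  ∃ n0 : ℕ, 3 ≤ n0 ∧ ∀ n ≥ n0, ∀ I : ℕ, (n : ℝ) ^ (9 / 10 : ℝ) ≤ xl X I →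
  xl X I ≤ 2 * (n : ℝ) ^ (9 / 10 : ℝ) →
  ∀ (N ν0 s0 : ℕ), N = 2 * ⌈(n : ℝ) ^ (15 / 100 : ℝ)⌉₊ → ν0 = ⌈(n : ℝ) ^ (12 / 100 : ℝ)⌉₊ →
  s0 = ⌈(n : ℝ) ^ (2 / 100 : ℝ)⌉₊ →
  1 ≤ NN n ∧ 3 ≤ s0 ∧ ν0 * s0 ≤ N ∧ (2 * ((n ^ 16 : ℕ) : ℝ) + 1) ^ N * al X I ≤ 1 ∧
  (K / tau X (I + 1)) ^ N *
      (((2 * ((n ^ 16 : ℕ) : ℝ) + 1) ^ N * al X I) ^ ν0 +
        2 ^ N * (2 * (hbb (n ^ 16) N : ℝ) + 1) ^ N * Real.exp (-(c1 * NN n)))
    ≤ Real.exp (-(c1 / 3 * NN n))

lemma tau_le_one (X : ℝ) (i : ℕ) : tau X i ≤ 1 := by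
  unfold tau
  apply Finset.prod_le_one
  · intro j _
    positivity
  · intro j _
    rw [div_le_one (by unfold lam; positivity)]
    have h1 : 1 ≤ lam X j := by
      unfold lam
      exact Real.one_le_exp (Real.sqrt_nonneg _)
    nlinarith

lemma al_le_one (X : ℝ) (hX : 0 ≤ X) (i : ℕ) : al X i ≤ 1 := by
  unfold al
  rw [Real.exp_le_one_iff]
  unfold xl theta
  have h1 : (1 : ℝ) ≤ (1 + 1 / 200000) ^ i := one_le_pow₀ (by norm_num)
  nlinarith

lemma final_ineq (N : ℕ) (γ τ S β hh δ : ℝ) (hτ : 0 < τ) (hS : 0 < S) (hγ0 : 0 ≤ γ)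
    (hγ : γ ≤ 5 * S / τ) (hβ0 : 0 ≤ β) (hhh0 : 0 ≤ hh) (hδ0 : 0 ≤ δ) :
    2 ^ N * (γ ^ N * (β + N * 2 ^ N * hh * δ)) / (S / 20) ^ N ≤
      (1000 / τ) ^ N * (β + 2 ^ N * hh * δ) := by
  have hNpow : (N : ℝ) ≤ 2 ^ N := by
    exact_mod_cast (Nat.lt_two_pow_self).le
  rw [div_le_iff₀ (by positivity)]
  have e1 : γ ^ N ≤ (5 * S / τ) ^ N := by gcongr
  have e2 : β + N * 2 ^ N * hh * δ ≤ 2 ^ N * (β + 2 ^ N * hh * δ) := by
    have h1 : (1 : ℝ) ≤ 2 ^ N := one_le_pow₀ (by norm_num)
    have h2 : β ≤ 2 ^ N * β := by nlinarith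
    have h3 : (N : ℝ) * (2 ^ N * hh * δ) ≤ 2 ^ N * (2 ^ N * hh * δ) := by gcongr
    linarith
  have h1 : (2 : ℝ) ^ N * ((5 * S / τ) ^ N * 2 ^ N) = (400 / τ) ^ N * (S / 20) ^ N := by
    rw [← mul_pow, ← mul_pow, ← mul_pow]
    congr 1
    field_simp
    ring
  calc 2 ^ N * (γ ^ N * (β + N * 2 ^ N * hh * δ))
      ≤ 2 ^ N * ((5 * S / τ) ^ N * (2 ^ N * (β + 2 ^ N * hh * δ))) := by
        gcongr
    _ = (400 / τ) ^ N * (S / 20) ^ N * (β + 2 ^ N * hh * δ) := by
        rw [← h1]; ring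
    _ ≤ (1000 / τ) ^ N * (S / 20) ^ N * (β + 2 ^ N * hh * δ) := by
        gcongr
        norm_num
    _ = (1000 / τ) ^ N * (β + 2 ^ N * hh * δ) * (S / 20) ^ N := by ring

theorem B3_of_num (hI : S_indep) (hB1 : S_B1) (hB2 : S_B2) (hnum : S_numK 1000) : S_B3 := by
  classical
  intro c1 Crat hc1 hc1' hCrat
  obtain ⟨X0, hX0, hX⟩ := hnum c1 hc1 hc1'
  refine ⟨X0, fun X hXX => ?_⟩
  obtain ⟨n0, hn0, hn⟩ := hX X hXX
  refine ⟨n0, fun n hnn m I hx1 hx2 _ _ G => ?_⟩
  have hX1 : 1 ≤ X := hX0.trans hXX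
  obtain ⟨P1, hP1⟩ := mom hI hB1 hB2 m G
  obtain ⟨P2, hP2⟩ := Ear.base_small (m := m) n I X G (by omega)
  refine ⟨max (max P1 P2) (80 * G.card + 1), fun P hP => ?_⟩
  intro _ α0 w ctx
  obtain ⟨N, hN⟩ : ∃ N : ℕ, N = 2 * ⌈(n : ℝ) ^ (15 / 100 : ℝ)⌉₊ := ⟨_, rfl⟩
  obtain ⟨ν0, hν0⟩ : ∃ ν0 : ℕ, ν0 = ⌈(n : ℝ) ^ (12 / 100 : ℝ)⌉₊ := ⟨_, rfl⟩
  obtain ⟨s0, hs0⟩ : ∃ s0 : ℕ, s0 = ⌈(n : ℝ) ^ (2 / 100 : ℝ)⌉₊ := ⟨_, rfl⟩
  obtain ⟨hNN, hs3, hνs, hKA, hfin⟩ := hn n hnn I hx1 hx2 N ν0 s0 hN hν0 hs0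
  have hmom := hP1 P ((le_max_left _ _).trans ((le_max_left _ _).trans hP))
  have hsm := hP2 P ((le_max_right _ _).trans ((le_max_left _ _).trans hP)) c1 Crat α0 w ctx
  have hPG : 80 * G.card + 1 ≤ P := (le_max_right _ _).trans hP
  have hτ := BaseN.tau_pos X (I + 1)
  have hτ1 := tau_le_one X (I + 1)
  have hα := BaseN.al_pos X I
  have hα1 := al_le_one X (by linarith) I
  have hPr : (80 * G.card : ℝ) ≤ P := by
    have : 80 * G.card ≤ P := by omega
    exact_mod_cast this
  have hPpos : (0 : ℝ) < P := by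
    have : 0 < P := by omega
    exact_mod_cast this
  obtain ⟨g0, hg0⟩ := ctx.grid.box
  set S : ℝ := Stot w G [] with hS
  have hSdef : S = ∑ g ∈ G, w g [] := by
    rw [hS]; unfold Stot wt hist; simp
  have hS1 : 1 ≤ S := by
    have h1 := ctx.lower
    have h2 : 1 ≤ Real.exp X := Real.one_le_exp (by linarith)
    rw [hSdef]
    nlinarith
  -- the centred weights
  let D : Pt m → ZMod P → ℝ := fun g x => w g [x] - 𝔼 ξ, w g [ξ]
  have hwrange : ∀ g x, 0 ≤ w g [x] ∧ w g [x] ≤ al X I := by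
    intro g x
    refine ⟨Ear.w_one_nonneg ctx g x, ?_⟩
    rcases Ear.w_one_mem ctx g x with h1 | h1
    · rw [h1]; exact hα.le
    · exact h1.2
  have hμ : ∀ g, 0 ≤ (𝔼 ξ, w g [ξ]) ∧ (𝔼 ξ, w g [ξ]) ≤ al X I := by
    intro g
    refine ⟨Finset.expect_nonneg fun ξ _ => (hwrange g ξ).1, ?_⟩
    exact Finset.expect_le Finset.univ_nonempty (fun ξ _ => (hwrange g ξ).2)
  have hD0 : ∀ g ∈ G, 𝔼 x, D g x = 0 := by
    intro g _
    simp only [D]
    rw [Finset.expect_sub_distrib, Finset.expect_const Finset.univ_nonempty, sub_self]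
  have hDA : ∀ g ∈ G, ∀ x, |D g x| ≤ al X I := by
    intro g _ x
    simp only [D]
    rw [abs_le]
    have h1 := hwrange g x
    have h2 := hμ g
    constructor <;> linarith
  have hDa : ∀ g ∈ G, 𝔼 x, |D g x| ≤ 4 * α0 := by
    intro g hg
    have h1 : 𝔼 x, |D g x| ≤ 𝔼 x : ZMod P, (w g [x] + 𝔼 ξ, w g [ξ]) := by
      refine Finset.expect_le_expect fun x _ => ?_
      simp only [D]
      rw [abs_le]
      have h1 := hwrange g x
      have h2 := hμ g
      constructor <;> linarith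
    rw [Finset.expect_add_distrib, Finset.expect_const Finset.univ_nonempty] at h1
    have h2 := abs_le.mp (Ear.w_mart ctx g)
    have h3 := hsm g hg
    have h4 := (Ear.w_nil_mem ctx hg).2
    linarith [h2.2]
  have hrel : ∀ (s : ℕ) (h : Fin s → ℤ) (y : Pt m), s0 ≤ s → (∀ i, h i ≠ 0) →
      (relCount G h y : ℝ) ≤ (G.card : ℝ) ^ (s - 1) * Real.exp (-(c1 * NN n)) := by
    intro s h y hs hh
    refine ctx.grid.relL s h y ?_ hh
    refine (Nat.le_ceil _).trans ?_
    rw [← hs0]
    exact_mod_cast hs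
  have hN1 : 1 ≤ N := by
    rcases Nat.eq_zero_or_pos N with h | h
    · exfalso
      rw [h] at hνs
      have h1 : ν0 = 0 := by
        rcases Nat.eq_zero_or_pos ν0 with h2 | h2
        · exact h2
        · nlinarith
      rw [hν0, Nat.ceil_eq_zero] at h1
      have h2 : (0 : ℝ) < (n : ℝ) ^ (12 / 100 : ℝ) := by
        have : (0 : ℝ) < n := by
          have : 0 < n := by omega
          exact_mod_cast this
        positivity
      linarith
    · exact h
  have hM := hmom N ν0 s0 (n ^ 16) g0 D (al X I) (4 * α0) (Real.exp (-(c1 * NN n)))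
    (fun g hg k => by exact_mod_cast hg0 g hg k) hN1 hs3 hνs hα (by linarith [ctx.hα0])
    (Real.exp_pos _).le hKA hD0 hDA hDa hrel
  -- Markov
  have hY : ∀ r : Row P m, ¬ (|Stot w G [r] - S| ≤ 1 / 10 * S) →
      S / 20 ≤ |∑ g ∈ G, D g (res r g)| := by
    intro r hr
    push Not at hr
    have h1 : Stot w G [r] = ∑ g ∈ G, w g [res r g] := by
      unfold Stot wt hist; simp
    have h2 : Stot w G [r] - S = ∑ g ∈ G, D g (res r g) +
        ∑ g ∈ G, ((𝔼 ξ, w g [ξ]) - w g []) := by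
      rw [h1, hSdef, ← Finset.sum_sub_distrib, ← Finset.sum_add_distrib]
      refine Finset.sum_congr rfl fun g _ => ?_
      simp only [D]
      ring
    have h3 : |∑ g ∈ G, ((𝔼 ξ, w g [ξ]) - w g [])| ≤ 1 / 20 := by
      calc |∑ g ∈ G, ((𝔼 ξ, w g [ξ]) - w g [])| ≤ ∑ g ∈ G, |(𝔼 ξ, w g [ξ]) - w g []| :=
            Finset.abs_sum_le_sum_abs _ _
        _ ≤ ∑ _g ∈ G, (4 : ℝ) / (P : ℝ) * 1 := by
            refine Finset.sum_le_sum fun g _ => (Ear.w_mart ctx g).trans ?_
            gcongr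
        _ = (G.card : ℝ) * (4 / (P : ℝ)) := by rw [Finset.sum_const, nsmul_eq_mul, mul_one]
        _ ≤ 1 / 20 := by
            rw [mul_div_assoc', div_le_iff₀ hPpos]
            linarith
    rw [h2] at hr
    have h4 := abs_add_le (∑ g ∈ G, D g (res r g)) (∑ g ∈ G, ((𝔼 ξ, w g [ξ]) - w g []))
    linarith
  have hmk := markov_even (fun r : Row P m => ∑ g ∈ G, D g (res r g))
    (fun r => |Stot w G [r] - S| ≤ 1 / 10 * S) ⌈(n : ℝ) ^ (15 / 100 : ℝ)⌉₊ (S / 20) _
    (by linarith) hY (hN ▸ hM)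
  refine hmk.trans (le_trans ?_ hfin)
  -- final inequality
  have hγ : (G.card : ℝ) * (4 * α0) + 1 ≤ 5 * S / tau X (I + 1) := by
    rw [le_div_iff₀ hτ]
    have h1 : (G.card : ℝ) * α0 * tau X (I + 1) ≤ S := by
      calc (G.card : ℝ) * α0 * tau X (I + 1) = ∑ _g ∈ G, tau X (I + 1) * α0 := by
            rw [Finset.sum_const, nsmul_eq_mul]; ring
        _ ≤ ∑ g ∈ G, w g [] := Finset.sum_le_sum fun g hg => (Ear.w_nil_mem ctx hg).1
        _ = S := hSdef.symm
    nlinarith
  have hγ0 : 0 ≤ (G.card : ℝ) * (4 * α0) + 1 := by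
    have := ctx.hα0
    positivity
  rw [← hN]
  exact final_ineq N _ (tau X (I + 1)) S _ _ _ hτ (by linarith) hγ0 hγ
    (pow_nonneg (mul_nonneg (pow_nonneg (by positivity) _) hα.le) _)
    (pow_nonneg (by positivity) _) (Real.exp_pos _).le

end B3
end Crest.Agent.R225
end

-- ▼ part R225/B3P1c
section

/-!
Row 225 (S0347), node B3, piece P1: `S_indep`.
-/

set_option autoImplicit false

open Finset
open scoped BigOperators

namespace Crest.Agent.R225
namespace B3

theorem common_den' {ι : Type*} [Fintype ι] (q : ι → ℚ) :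
    ∃ d : ℕ, d ≠ 0 ∧ ∀ i, ∃ z : ℤ, (d : ℚ) * q i = z := by
  classical
  refine ⟨∏ i, (q i).den, Finset.prod_ne_zero_iff.2 fun i _ => (q i).den_nz, fun i => ?_⟩
  obtain ⟨e, he⟩ := Finset.dvd_prod_of_mem (fun i => (q i).den) (Finset.mem_univ i)
  refine ⟨e * (q i).num, ?_⟩
  rw [he]
  push_cast
  have := Rat.den_mul_eq_num (q i)
  calc ((q i).den : ℚ) * e * q i = e * ((q i).den * q i) := by ring
    _ = _ := by rw [this]

/-- value of an integral affine functional -/
def evi {m : ℕ} (v : ℤ × (Fin m → ℤ)) (h : Pt m) : ℤ := v.1 + ∑ k, v.2 k * h k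

theorem sep_int {m : ℕ} (Z : Finset (Pt m)) (g : Pt m)
    (hg : aff g ∉ Submodule.span ℚ (aff '' (Z : Set (Pt m)))) :
    ∃ v : ℤ × (Fin m → ℤ), (∀ h ∈ Z, evi v h = 0) ∧ evi v g ≠ 0 := by
  classical
  obtain ⟨f, hf2, hf1⟩ := Submodule.exists_le_ker_of_notMem hg
  obtain ⟨d, hd, hz⟩ := common_den' (fun o : Option (Fin m) =>
    match o with
    | none => f ((0 : Fin m → ℚ), (1 : ℚ))
    | some k => f ((Pi.single k 1 : Fin m → ℚ), (0 : ℚ)))
  choose z hz using hz
  have h3 : ∀ h : Pt m, (d : ℚ) * f (aff h) = ((evi (z none, fun k => z (some k)) h : ℤ) : ℚ) := by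
    intro h
    have h2 : aff h = ((0 : Fin m → ℚ), (1 : ℚ)) +
        ∑ k, (h k : ℚ) • ((Pi.single k 1 : Fin m → ℚ), (0 : ℚ)) := by
      refine Prod.ext ?_ ?_
      · funext j
        simp [aff, Prod.fst_sum, Finset.sum_apply, Pi.single_apply]
      · simp [aff, Prod.snd_sum]
    rw [h2, map_add, map_sum]
    simp only [map_smul, smul_eq_mul, mul_add, Finset.mul_sum, evi]
    push_cast
    rw [← hz none]
    congr 1
    refine Finset.sum_congr rfl fun k _ => ?_
    rw [← hz (some k)]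
    ring
  refine ⟨(z none, fun k => z (some k)), fun h hh => ?_, fun h0 => ?_⟩
  · have h4 : f (aff h) = 0 := by
      have : aff h ∈ LinearMap.ker f := hf1 (Submodule.subset_span ⟨h, hh, rfl⟩)
      simpa using this
    have h5 := h3 h
    rw [h4, mul_zero] at h5
    exact_mod_cast h5.symm
  · have h5 := h3 g
    rw [h0] at h5
    simp only [Int.cast_zero, mul_eq_zero, Nat.cast_eq_zero] at h5
    rcases h5 with h5 | h5
    · exact hd h5
    · exact hf2 h5

theorem prf_indep : S_indep := by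
  classical
  intro m G
  have hfam : ∀ p : Finset (Pt m) × Pt m, ∃ v : ℤ × (Fin m → ℤ),
      aff p.2 ∉ Submodule.span ℚ (aff '' (p.1 : Set (Pt m))) →
      (∀ h ∈ p.1, evi v h = 0) ∧ evi v p.2 ≠ 0 := by
    intro p
    by_cases hp : aff p.2 ∉ Submodule.span ℚ (aff '' (p.1 : Set (Pt m)))
    · obtain ⟨v, hv⟩ := sep_int p.1 p.2 hp
      exact ⟨v, fun _ => hv⟩
    · exact ⟨0, fun h => absurd h hp⟩
  choose v hv using hfam
  refine ⟨(∑ p ∈ G.powerset ×ˢ G, (evi (v p) p.2).natAbs) + 1, fun P hP hprime Z g F f hZ hg hsp hF => ?_⟩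
  obtain ⟨hv1, hv2⟩ := hv (Z, g) hsp
  set w := v (Z, g) with hw
  have hd : ((evi w g : ℤ) : ZMod P) ≠ 0 := by
    intro h0
    rw [ZMod.intCast_zmod_eq_zero_iff_dvd] at h0
    have h1 : (P : ℤ).natAbs ≤ (evi w g).natAbs :=
      Int.natAbs_le_of_dvd_ne_zero h0 hv2
    have h2 : (evi w g).natAbs ≤ ∑ p ∈ G.powerset ×ˢ G, (evi (v p) p.2).natAbs :=
      Finset.single_le_sum (f := fun p : Finset (Pt m) × Pt m => (evi (v p) p.2).natAbs)
        (fun _ _ => Nat.zero_le _)
        (Finset.mem_product.2 ⟨Finset.mem_powerset.2 hZ, hg⟩)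
    simp only [Int.natAbs_natCast] at h1
    omega
  -- translation
  set tr : ZMod P → Row P m := fun t => (t * (w.1 : ZMod P), fun k => t * (w.2 k : ZMod P)) with htr
  have hres : ∀ (r : Row P m) (t : ZMod P) (h : Pt m),
      res (r + tr t) h = res r h + t * ((evi w h : ℤ) : ZMod P) := by
    intro r t h
    simp only [res, evi, htr, Prod.fst_add, Prod.snd_add, Pi.add_apply]
    push_cast
    simp only [add_mul, Finset.sum_add_distrib, mul_add, Finset.mul_sum]
    have : ∀ k, t * (w.2 k : ZMod P) * (h k : ZMod P) = t * ((w.2 k : ZMod P) * (h k : ZMod P)) :=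
      fun k => mul_assoc _ _ _
    simp only [this]
    ring
  have key : ∀ t : ZMod P, 𝔼 r : Row P m, F r * f (res r g) =
      𝔼 r : Row P m, F r * f (res r g + t * ((evi w g : ℤ) : ZMod P)) := by
    intro t
    refine (Fintype.expect_equiv (Equiv.addRight (tr t)) _ _ fun r => ?_).symm
    simp only [Equiv.coe_addRight]
    rw [hres]
    congr 1
    apply hF
    intro h hh
    rw [hres, hv1 h hh]
    simp
  have havg : ∀ x : ZMod P, 𝔼 t : ZMod P, f (x + t * ((evi w g : ℤ) : ZMod P)) = 𝔼 x, f x := by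
    intro x
    have hbij : Function.Bijective fun t : ZMod P => x + t * ((evi w g : ℤ) : ZMod P) := by
      refine ⟨fun a b hab => ?_, fun y => ⟨(y - x) / ((evi w g : ℤ) : ZMod P), ?_⟩⟩
      · exact mul_right_cancel₀ hd (add_left_cancel hab)
      · simp only
        rw [div_mul_cancel₀ _ hd]
        ring
    exact Fintype.expect_equiv (Equiv.ofBijective _ hbij) _ _ fun t => rfl
  calc 𝔼 r : Row P m, F r * f (res r g)
      = 𝔼 t : ZMod P, 𝔼 r : Row P m, F r * f (res r g + t * ((evi w g : ℤ) : ZMod P)) := by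
        rw [← Finset.expect_congr rfl fun t _ => key t]
        rw [Finset.expect_const ⟨0, Finset.mem_univ _⟩]
    _ = 𝔼 r : Row P m, 𝔼 t : ZMod P, F r * f (res r g + t * ((evi w g : ℤ) : ZMod P)) :=
        Finset.expect_comm _ _ _
    _ = 𝔼 r : Row P m, F r * 𝔼 x, f x := by
        refine Finset.expect_congr rfl fun r _ => ?_
        rw [← Finset.mul_expect, havg]
    _ = _ := by rw [Finset.expect_mul]

end B3
end Crest.Agent.R225
end

-- ▼ part R225/B3P4
section

/-!
# Row 225 (S0347), node B3, sub-node P4: numerics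
-/

set_option autoImplicit false

open Finset Filter Asymptotics
open scoped BigOperators

namespace Crest.Agent.R225
namespace B3
open NumL

namespace P4

lemma ev1 (a b K : ℝ) (hab : a < b) : ∀ᶠ x : ℝ in atTop,
    K * x ^ a * (1 + Real.log x) ≤ x ^ b := by
  have hp : 0 < b - a := by linarith
  have h1 : (fun x : ℝ => Real.log x) =o[atTop] (fun x : ℝ => x ^ (b - a)) :=
    isLittleO_log_rpow_atTop hp
  have h2 : (fun _ : ℝ => (1 : ℝ)) =o[atTop] (fun x : ℝ => x ^ (b - a)) := by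
    refine isLittleO_const_left.mpr (Or.inr ?_)
    exact tendsto_norm_atTop_atTop.comp (tendsto_rpow_atTop hp)
  have h3 := (h2.add h1)
  have hc : (0 : ℝ) < 1 / (|K| + 1) := by positivity
  filter_upwards [h3.bound hc, eventually_ge_atTop 1] with x hx hx1
  have hx0 : 0 < x := by linarith
  have hl : 0 ≤ 1 + Real.log x := by have := Real.log_nonneg hx1; linarith
  have hp : 0 ≤ x ^ (b - a) := Real.rpow_nonneg hx0.le _
  rw [Real.norm_of_nonneg hl, Real.norm_of_nonneg hp] at hx
  have hs : x ^ b = x ^ a * x ^ (b - a) := by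
    rw [← Real.rpow_add hx0]; congr 1; ring
  have hK : |K| * (1 / (|K| + 1)) ≤ 1 := by
    rw [mul_one_div, div_le_one (by positivity)]; linarith
  have hs0 : 0 ≤ x ^ a := Real.rpow_nonneg hx0.le _
  calc K * x ^ a * (1 + Real.log x)
      ≤ |K| * x ^ a * (1 + Real.log x) := by
        gcongr; exact le_abs_self K
    _ ≤ |K| * x ^ a * (1 / (|K| + 1) * x ^ (b - a)) := by gcongr
    _ = (|K| * (1 / (|K| + 1))) * (x ^ a * x ^ (b - a)) := by ring
    _ ≤ 1 * (x ^ a * x ^ (b - a)) := by gcongr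
    _ = x ^ b := by rw [hs, one_mul]

lemma pow_eq_exp {a : ℝ} (ha : 0 < a) (N : ℕ) : a ^ N = Real.exp (N * Real.log a) := by
  rw [mul_comm, Real.exp_mul, Real.exp_log ha, Real.rpow_natCast]

lemma ceil_le {y : ℝ} (hy : 1 ≤ y) : ((⌈y⌉₊ : ℕ) : ℝ) ≤ 2 * y := by
  have := Nat.ceil_lt_add_one (by linarith : 0 ≤ y)
  linarith

lemma two_le_log {x : ℝ} (hx : 16 ≤ x) : 2 ≤ Real.log x := by
  rw [Real.le_log_iff_exp_le (by linarith)]
  have h9 := Real.exp_one_lt_d9
  have h10 : Real.exp 2 = Real.exp 1 * Real.exp 1 := by rw [← Real.exp_add]; norm_num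
  rw [h10]
  have h11 := Real.exp_pos 1
  nlinarith

lemma log3_le : Real.log 3 ≤ 2 := by
  have := Real.log_le_sub_one_of_pos (by norm_num : (0 : ℝ) < 3)
  linarith


lemma uv_le {u v : ℝ} (hu : 1 ≤ u) (hv : 1 ≤ v) : (u + 1) * (v + 1) ≤ 4 * (u * v) := by
  nlinarith

lemma aux1 {p L X : ℝ} (hp : 1 ≤ p) (hL : 0 ≤ L) (hX : 0 ≤ X) :
    (4 * p) * (2 + 16 * L) + X ≤ 2 * ((128 + X) * p * (1 + L)) := by
  have h1 : 0 ≤ p * L := by positivity
  have h2 : 0 ≤ X * (p - 1) := mul_nonneg hX (by linarith)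
  have h3 : 0 ≤ X * (p * L) := by positivity
  nlinarith

lemma fin1 {c1 n L : ℝ} (hc1 : 0 < c1) (hc1' : c1 ≤ 1) (hn : 16 ≤ n) (hL : 2 ≤ L)
    (h7 : 100 ≤ c1 * n) :
    c1 / 100 * n - 9 / 10 * (2 * (1 + L)) * n ≤ -(c1 / 3 * (n * L)) - 1 ∧
    c1 / 100 * n + c1 / 100 * (n * 3) - c1 * (n * L) ≤ -(c1 / 3 * (n * L)) - 1 := by
  have h1 : c1 * n ≤ n := by nlinarith
  have hnL : 0 ≤ n * L := by positivity
  have h2 : c1 * (n * L) ≤ n * L := by nlinarith
  have h3 : 2 * (c1 * n) ≤ c1 * (n * L) := by nlinarith [mul_pos hc1 (by linarith : 0 < n)]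
  constructor
  · have e : 9 / 10 * (2 * (1 + L)) * n = 9 / 5 * n + 9 / 5 * (n * L) := by ring
    rw [e]; linarith
  · linarith

end P4

set_option maxHeartbeats 2000000 in
open P4 in
/-- `S_num` with an arbitrary constant `K` in place of `100` -/
theorem num_gen (K : ℝ) (hK : 1 ≤ K) (c1 : ℝ) (hc1 : 0 < c1) (hc1' : c1 ≤ 1) :
    ∃ X0 : ℝ, 1 ≤ X0 ∧ ∀ X ≥ X0,
  ∃ n0 : ℕ, 3 ≤ n0 ∧ ∀ n ≥ n0, ∀ I : ℕ, (n : ℝ) ^ (9 / 10 : ℝ) ≤ xl X I →
  xl X I ≤ 2 * (n : ℝ) ^ (9 / 10 : ℝ) →
  ∀ (N ν0 s0 : ℕ), N = 2 * ⌈(n : ℝ) ^ (15 / 100 : ℝ)⌉₊ → ν0 = ⌈(n : ℝ) ^ (12 / 100 : ℝ)⌉₊ →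
  s0 = ⌈(n : ℝ) ^ (2 / 100 : ℝ)⌉₊ →
  1 ≤ NN n ∧ 3 ≤ s0 ∧ ν0 * s0 ≤ N ∧ (2 * ((n ^ 16 : ℕ) : ℝ) + 1) ^ N * al X I ≤ 1 ∧
  (K / tau X (I + 1)) ^ N *
      (((2 * ((n ^ 16 : ℕ) : ℝ) + 1) ^ N * al X I) ^ ν0 +
        2 ^ N * (2 * (hbb (n ^ 16) N : ℝ) + 1) ^ N * Real.exp (-(c1 * NN n)))
    ≤ Real.exp (-(c1 / 3 * NN n)) := by
  have hlK : 0 ≤ Real.log K := Real.log_nonneg hK
  have hKp : 0 < K := by linarith
  refine ⟨4, by norm_num, fun X hX => ?_⟩
  have hXp : 0 < X := by linarith
  have hev : ∀ᶠ n : ℕ in atTop, (3 : ℝ) ≤ (n : ℝ) ^ (2 / 100 : ℝ) ∧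
      (2 : ℝ) ≤ (n : ℝ) ^ (1 / 100 : ℝ) ∧
      (20 * (128 + X)) * (n : ℝ) ^ (15 / 100 : ℝ) * (1 + Real.log n) ≤ (n : ℝ) ^ (9 / 10 : ℝ) ∧
      (100 / c1 * (4 * (Real.log K + 3000000))) * (n : ℝ) ^ (6 / 10 : ℝ) * (1 + Real.log n) ≤ (n : ℝ) ^ (1 : ℝ) ∧
      2 * (n : ℝ) ^ (0 : ℝ) * (1 + Real.log n) ≤ (n : ℝ) ^ (2 / 100 : ℝ) ∧
      (100 / c1 * 400) * (n : ℝ) ^ (3 / 10 : ℝ) * (1 + Real.log n) ≤ (n : ℝ) ^ (1 : ℝ) ∧
      100 / c1 ≤ (n : ℝ) ∧ 16 ≤ (n : ℝ) := by
    have h := (((tendsto_rpow_atTop (by norm_num : (0 : ℝ) < 2 / 100)).eventually_ge_atTop 3).and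
      (((tendsto_rpow_atTop (by norm_num : (0 : ℝ) < 1 / 100)).eventually_ge_atTop 2).and
      ((ev1 (15 / 100) (9 / 10) (20 * (128 + X)) (by norm_num)).and
      ((ev1 (6 / 10) 1 (100 / c1 * (4 * (Real.log K + 3000000))) (by norm_num)).and
      ((ev1 0 (2 / 100) 2 (by norm_num)).and
      ((ev1 (3 / 10) 1 (100 / c1 * 400) (by norm_num)).and
      ((eventually_ge_atTop (100 / c1)).and (eventually_ge_atTop 16))))))))
    exact tendsto_natCast_atTop_atTop.eventually h
  obtain ⟨n0, hn0⟩ := eventually_atTop.1 hev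
  refine ⟨max n0 3, le_max_right _ _, fun n hn I hxl hxu N ν0 s0 hN hν hs => ?_⟩
  obtain ⟨h1, h2, h3, h4, h5, h6, h7, h8⟩ := hn0 n ((le_max_left _ _).trans hn)
  rw [Real.rpow_one] at h4 h6
  rw [Real.rpow_zero, mul_one] at h5
  have hnp : (0 : ℝ) < n := by linarith
  have hn1 : (1 : ℝ) ≤ n := by linarith
  have hL2 : 2 ≤ Real.log n := two_le_log h8
  set L := Real.log n with hL
  have hNN : NN n = n * L := rfl
  have hrp : ∀ a : ℝ, 0 ≤ a → 1 ≤ (n : ℝ) ^ a := fun a ha => Real.one_le_rpow hn1 ha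
  have p15 := hrp (15 / 100) (by norm_num)
  have p12 := hrp (12 / 100) (by norm_num)
  have p02 := hrp (2 / 100) (by norm_num)
  have hN4 : (N : ℝ) ≤ 4 * (n : ℝ) ^ (15 / 100 : ℝ) := by
    rw [hN]; push_cast
    have := ceil_le p15
    linarith
  have hNlow : 2 * (n : ℝ) ^ (15 / 100 : ℝ) ≤ N := by
    rw [hN]; push_cast
    have := Nat.le_ceil ((n : ℝ) ^ (15 / 100 : ℝ))
    linarith
  have hN0 : (0 : ℝ) ≤ N := Nat.cast_nonneg _
  have hN1 : 1 ≤ N := by
    have : (1 : ℝ) ≤ N := by linarith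
    exact_mod_cast this
  -- the four first facts
  have f1 : 1 ≤ NN n := by
    rw [hNN]
    exact one_le_mul_of_one_le_of_one_le hn1 (by linarith)
  have f2 : 3 ≤ s0 := by
    rw [hs]
    have : (3 : ℝ) ≤ (⌈(n : ℝ) ^ (2 / 100 : ℝ)⌉₊ : ℝ) := h1.trans (Nat.le_ceil _)
    exact_mod_cast this
  have f3 : ν0 * s0 ≤ N := by
    have h9 : (ν0 : ℝ) ≤ (n : ℝ) ^ (12 / 100 : ℝ) + 1 := by
      rw [hν]; exact (Nat.ceil_lt_add_one (by linarith)).le
    have h10 : (s0 : ℝ) ≤ (n : ℝ) ^ (2 / 100 : ℝ) + 1 := by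
      rw [hs]; exact (Nat.ceil_lt_add_one (by linarith)).le
    have h11 : (n : ℝ) ^ (15 / 100 : ℝ) = (n : ℝ) ^ (12 / 100 : ℝ) * (n : ℝ) ^ (2 / 100 : ℝ)
        * (n : ℝ) ^ (1 / 100 : ℝ) := by
      rw [← Real.rpow_add hnp, ← Real.rpow_add hnp]; norm_num
    have h12 : (ν0 : ℝ) * s0 ≤ N := by
      have h13 : (ν0 : ℝ) * s0 ≤ ((n : ℝ) ^ (12 / 100 : ℝ) + 1) * ((n : ℝ) ^ (2 / 100 : ℝ) + 1) :=
        mul_le_mul h9 h10 (Nat.cast_nonneg _) (by linarith)
      set u := (n : ℝ) ^ (12 / 100 : ℝ)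
      set v := (n : ℝ) ^ (2 / 100 : ℝ)
      set w := (n : ℝ) ^ (1 / 100 : ℝ)
      have h14 : (u + 1) * (v + 1) ≤ 4 * (u * v) := uv_le p12 p02
      have huv : 0 < u * v := mul_pos (by linarith) (by linarith)
      have h15 : 4 * (u * v) ≤ 2 * (u * v * w) := by
        have := mul_le_mul_of_nonneg_left h2 huv.le
        linarith
      rw [h11] at hNlow
      linarith
    exact_mod_cast h12
  -- logarithm of `2n^16+1`
  have hb0 : (0 : ℝ) < 2 * ((n ^ 16 : ℕ) : ℝ) + 1 := by positivity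
  have hn16 : (1 : ℝ) ≤ (n : ℝ) ^ 16 := one_le_pow₀ hn1
  have hlogb : Real.log (2 * ((n ^ 16 : ℕ) : ℝ) + 1) ≤ 2 + 16 * L := by
    have h9 : 2 * ((n ^ 16 : ℕ) : ℝ) + 1 ≤ 3 * (n : ℝ) ^ 16 := by push_cast; linarith
    refine (Real.log_le_log hb0 h9).trans ?_
    rw [Real.log_mul (by norm_num) (by positivity), Real.log_pow]
    have h10 : Real.log 3 ≤ 2 := log3_le
    push_cast; linarith
  have hlogb0 : 0 ≤ Real.log (2 * ((n ^ 16 : ℕ) : ℝ) + 1) := Real.log_nonneg (by
    have : (0 : ℝ) ≤ ((n ^ 16 : ℕ) : ℝ) := Nat.cast_nonneg _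
    linarith)
  set x := xl X I with hx
  have hx0 : 0 < x := xl_pos hXp I
  have hNb : N * Real.log (2 * ((n ^ 16 : ℕ) : ℝ) + 1) + X ≤ 1 / 10 * (n : ℝ) ^ (9 / 10 : ℝ) := by
    have h9 : N * Real.log (2 * ((n ^ 16 : ℕ) : ℝ) + 1) ≤
        (4 * (n : ℝ) ^ (15 / 100 : ℝ)) * (2 + 16 * L) :=
      mul_le_mul hN4 hlogb hlogb0 (by linarith)
    have h10 := aux1 p15 (by linarith : 0 ≤ L) hXp.le
    have h11 : 20 * (128 + X) * (n : ℝ) ^ (15 / 100 : ℝ) * (1 + L) =
        10 * (2 * ((128 + X) * (n : ℝ) ^ (15 / 100 : ℝ) * (1 + L))) := by ring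
    rw [h11] at h3
    linarith
  have f4' : Real.log ((2 * ((n ^ 16 : ℕ) : ℝ) + 1) ^ N * al X I) ≤
      -(9 / 10 * (n : ℝ) ^ (9 / 10 : ℝ)) := by
    have hal : al X I = Real.exp (-(x - X)) := rfl
    rw [hal, Real.log_mul (by positivity) (Real.exp_pos _).ne', Real.log_pow, Real.log_exp]
    linarith
  have hβ0 : 0 < (2 * ((n ^ 16 : ℕ) : ℝ) + 1) ^ N * al X I :=
    mul_pos (by positivity) (Real.exp_pos _)
  set β := (2 * ((n ^ 16 : ℕ) : ℝ) + 1) ^ N * al X I with hβ
  have p9 := hrp (9 / 10) (by norm_num)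
  have f4 : β ≤ 1 := by
    rw [← Real.exp_log hβ0, ← Real.exp_zero]
    apply Real.exp_le_exp.2
    linarith
  refine ⟨f1, f2, f3, f4, ?_⟩
  -- the factor `(K/τ)^N`
  have htau := tau_pos X (I + 1)
  have e1 : (K / tau X (I + 1)) ^ N ≤ Real.exp (c1 / 100 * n) := by
    rw [pow_eq_exp (by positivity)]
    apply Real.exp_le_exp.2
    have h9 : Real.log (K / tau X (I + 1)) = Real.log K + Real.log (1 / tau X (I + 1)) := by
      rw [← Real.log_mul (by positivity) (by positivity)]
      congr 1; ring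
    have h11 := log_tau_le hX (I + 1)
    have h12 : Real.sqrt (xl X (I + 1)) ≤ 2 * (n : ℝ) ^ (45 / 100 : ℝ) := by
      have h13 : xl X (I + 1) ≤ (2 * (n : ℝ) ^ (45 / 100 : ℝ)) ^ 2 := by
        have h14 : ((n : ℝ) ^ (45 / 100 : ℝ)) ^ 2 = (n : ℝ) ^ (9 / 10 : ℝ) := by
          rw [pow_two, ← Real.rpow_add hnp]; norm_num
        rw [mul_pow, h14, xl_succ, ← hx]
        unfold theta
        linarith
      refine (Real.sqrt_le_sqrt h13).trans ?_
      rw [Real.sqrt_sq (by positivity)]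
    have h13 : Real.log (K / tau X (I + 1)) ≤
        (Real.log K + 3000000) * (n : ℝ) ^ (45 / 100 : ℝ) := by
      have h16 := mul_le_mul_of_nonneg_left (hrp (45 / 100) (by norm_num)) hlK
      rw [h9, add_mul]; linarith
    have h14 : (n : ℝ) ^ (6 / 10 : ℝ) = (n : ℝ) ^ (15 / 100 : ℝ) * (n : ℝ) ^ (45 / 100 : ℝ) := by
      rw [← Real.rpow_add hnp]; norm_num
    have h15 : 0 ≤ (n : ℝ) ^ (45 / 100 : ℝ) := by positivity
    calc N * Real.log (K / tau X (I + 1)) ≤
          N * ((Real.log K + 3000000) * (n : ℝ) ^ (45 / 100 : ℝ)) :=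
          mul_le_mul_of_nonneg_left h13 hN0
      _ ≤ (4 * (n : ℝ) ^ (15 / 100 : ℝ)) * ((Real.log K + 3000000) * (n : ℝ) ^ (45 / 100 : ℝ)) :=
          mul_le_mul_of_nonneg_right hN4 (by positivity)
      _ = (4 * (Real.log K + 3000000)) * (n : ℝ) ^ (6 / 10 : ℝ) * 1 := by rw [h14]; ring
      _ ≤ (4 * (Real.log K + 3000000)) * (n : ℝ) ^ (6 / 10 : ℝ) * (1 + L) :=
          mul_le_mul_of_nonneg_left (by linarith) (by positivity)
      _ = c1 / 100 * ((100 / c1 * (4 * (Real.log K + 3000000))) * (n : ℝ) ^ (6 / 10 : ℝ)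
            * (1 + L)) := by
          field_simp
      _ ≤ c1 / 100 * n := mul_le_mul_of_nonneg_left h4 (by positivity)
  -- the first term
  have e2 : β ^ ν0 ≤ Real.exp (-(9 / 10 * (2 * (1 + L)) * n)) := by
    rw [pow_eq_exp hβ0]
    apply Real.exp_le_exp.2
    have h9 : (n : ℝ) ^ (12 / 100 : ℝ) ≤ ν0 := by rw [hν]; exact Nat.le_ceil _
    have h10 : (n : ℝ) ^ (12 / 100 : ℝ) * (n : ℝ) ^ (9 / 10 : ℝ) = (n : ℝ) ^ (2 / 100 : ℝ) * n := by
      rw [← Real.rpow_add hnp]
      nth_rw 3 [← Real.rpow_one (n : ℝ)]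
      rw [← Real.rpow_add hnp]; norm_num
    have h11 : ν0 * Real.log β ≤ ν0 * (-(9 / 10 * (n : ℝ) ^ (9 / 10 : ℝ))) :=
      mul_le_mul_of_nonneg_left f4' (Nat.cast_nonneg _)
    have h12 : (n : ℝ) ^ (2 / 100 : ℝ) * n ≤ ν0 * (n : ℝ) ^ (9 / 10 : ℝ) := by
      rw [← h10]
      exact mul_le_mul_of_nonneg_right h9 (by positivity)
    have h13 : 2 * (1 + L) * n ≤ (n : ℝ) ^ (2 / 100 : ℝ) * n :=
      mul_le_mul_of_nonneg_right h5 hnp.le
    have h14 : (ν0 : ℝ) * (-(9 / 10 * (n : ℝ) ^ (9 / 10 : ℝ))) =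
        -(9 / 10 * (ν0 * (n : ℝ) ^ (9 / 10 : ℝ))) := by ring
    rw [h14] at h11
    linarith
  -- the second term
  have hh1 : (1 : ℝ) ≤ (hbb (n ^ 16) N : ℝ) := by
    have : 1 ≤ hbb (n ^ 16) N := by
      unfold hbb
      exact Nat.one_le_pow _ _ (by positivity)
    exact_mod_cast this
  have hlh : Real.log (hbb (n ^ 16) N : ℝ) ≤ N * (34 + 17 * L) := by
    unfold hbb
    push_cast
    rw [Real.log_pow]
    refine mul_le_mul_of_nonneg_left ?_ hN0
    have hnn : (N : ℝ) ≤ 4 * n := by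
      refine hN4.trans ?_
      have : (n : ℝ) ^ (15 / 100 : ℝ) ≤ (n : ℝ) ^ (1 : ℝ) :=
        Real.rpow_le_rpow_of_exponent_le hn1 (by norm_num)
      rw [Real.rpow_one] at this
      linarith
    have h9 : (N : ℝ) * ((n : ℝ) ^ 16 + 1) ≤ 8 * (n : ℝ) ^ 17 := by
      have h10 : (n : ℝ) ^ 16 + 1 ≤ 2 * (n : ℝ) ^ 16 := by linarith
      calc (N : ℝ) * ((n : ℝ) ^ 16 + 1) ≤ (4 * n) * (2 * (n : ℝ) ^ 16) :=
            mul_le_mul hnn h10 (by positivity) (by positivity)
        _ = 8 * (n : ℝ) ^ 17 := by ring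
    have hNpos : (0 : ℝ) < N := by linarith
    refine (Real.log_le_log (by positivity) h9).trans ?_
    rw [Real.log_mul (by norm_num) (by positivity), Real.log_pow]
    have h10 : Real.log 8 ≤ 34 := by
      have := Real.log_le_sub_one_of_pos (by norm_num : (0 : ℝ) < 8)
      linarith
    push_cast; linarith
  have e3 : 2 ^ N * (2 * (hbb (n ^ 16) N : ℝ) + 1) ^ N ≤ Real.exp (c1 / 100 * (n * 3)) := by
    have h9 : (2 : ℝ) ^ N * (2 * (hbb (n ^ 16) N : ℝ) + 1) ^ N ≤
        (6 * (hbb (n ^ 16) N : ℝ)) ^ N := by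
      rw [← mul_pow]
      refine pow_le_pow_left₀ (by positivity) (by linarith) N
    refine h9.trans ?_
    rw [pow_eq_exp (by positivity)]
    apply Real.exp_le_exp.2
    rw [Real.log_mul (by norm_num) (by positivity)]
    have h10 : Real.log 6 ≤ 5 := by
      have := Real.log_le_sub_one_of_pos (by norm_num : (0 : ℝ) < 6)
      linarith
    have hNr : (1 : ℝ) ≤ N := by exact_mod_cast hN1
    have h11 : Real.log 6 + Real.log (hbb (n ^ 16) N : ℝ) ≤ N * (39 + 17 * L) := by
      have h13 : (N : ℝ) * (39 + 17 * L) = N * (34 + 17 * L) + 5 * N := by ring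
      rw [h13]; linarith
    have h12 : (n : ℝ) ^ (3 / 10 : ℝ) = (n : ℝ) ^ (15 / 100 : ℝ) * (n : ℝ) ^ (15 / 100 : ℝ) := by
      rw [← Real.rpow_add hnp]; norm_num
    calc N * (Real.log 6 + Real.log (hbb (n ^ 16) N : ℝ)) ≤ N * (N * (39 + 17 * L)) :=
          mul_le_mul_of_nonneg_left h11 hN0
      _ = (N * N) * (39 + 17 * L) := by ring
      _ ≤ ((4 * (n : ℝ) ^ (15 / 100 : ℝ)) * (4 * (n : ℝ) ^ (15 / 100 : ℝ))) * (39 + 17 * L) := by
          refine mul_le_mul_of_nonneg_right (mul_le_mul hN4 hN4 hN0 (by positivity)) (by positivity)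
      _ = 16 * (n : ℝ) ^ (3 / 10 : ℝ) * (39 + 17 * L) := by rw [h12]; ring
      _ ≤ 16 * (n : ℝ) ^ (3 / 10 : ℝ) * (75 * (1 + L)) := by
          refine mul_le_mul_of_nonneg_left (by linarith) (by positivity)
      _ = c1 / 100 * (3 * ((100 / c1 * 400) * (n : ℝ) ^ (3 / 10 : ℝ) * (1 + L))) := by
          field_simp; ring
      _ ≤ c1 / 100 * (3 * n) := by
          refine mul_le_mul_of_nonneg_left (by linarith) (by positivity)
      _ = _ := by ring
  calc (K / tau X (I + 1)) ^ N *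
      (β ^ ν0 + 2 ^ N * (2 * (hbb (n ^ 16) N : ℝ) + 1) ^ N * Real.exp (-(c1 * NN n)))
      ≤ Real.exp (c1 / 100 * n) * (Real.exp (-(9 / 10 * (2 * (1 + L)) * n)) +
          Real.exp (c1 / 100 * (n * 3)) * Real.exp (-(c1 * NN n))) := by
        gcongr
    _ = Real.exp (c1 / 100 * n - 9 / 10 * (2 * (1 + L)) * n) +
          Real.exp (c1 / 100 * n + c1 / 100 * (n * 3) - c1 * NN n) := by
        rw [mul_add, ← Real.exp_add, ← Real.exp_add, ← Real.exp_add]
        congr 2 <;> ring
    _ ≤ Real.exp (-(c1 / 3 * NN n) - 1) + Real.exp (-(c1 / 3 * NN n) - 1) := by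
        have hcn : 100 ≤ c1 * n := by
          rw [div_le_iff₀ hc1] at h7; linarith
        obtain ⟨g1, g2⟩ := fin1 hc1 hc1' h8 hL2 hcn
        exact add_le_add (Real.exp_le_exp.2 g1) (Real.exp_le_exp.2 g2)
    _ = (2 * Real.exp (-1)) * Real.exp (-(c1 / 3 * NN n)) := by
        rw [sub_eq_add_neg, Real.exp_add]; ring
    _ ≤ 1 * Real.exp (-(c1 / 3 * NN n)) := by
        refine mul_le_mul_of_nonneg_right ?_ (Real.exp_pos _).le
        rw [Real.exp_neg]
        have h9 := Real.exp_one_gt_d9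
        rw [← div_eq_mul_inv, div_le_one (by positivity)]
        linarith
    _ = _ := one_mul _


end B3
end Crest.Agent.R225
end

-- ▼ part R225/HP1

/-!
# Row 225 (S0347), node HP1
-/

set_option autoImplicit false

open Finset MeasureTheory
open scoped BigOperators ENNReal

namespace Crest.Agent.R225
namespace HP1

/-! ## `Ex` -/

theorem Ex_mono {P m : ℕ} [NeZero P] (k : ℕ) (F F' : List (Row P m) → ℝ)
    (rows : List (Row P m)) (h : ∀ l : List (Row P m), l.length = k → F (l ++ rows) ≤ F' (l ++ rows)) :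
    Ex k F rows ≤ Ex k F' rows := by
  induction k generalizing rows with
  | zero => simpa [Ex] using h [] rfl
  | succ k ih =>
    simp only [Ex]
    refine Finset.expect_le_expect fun r _ => ih (r :: rows) fun l hl => ?_
    have := h (l ++ [r]) (by simp [hl])
    simpa using this

theorem Ex_sum {P m : ℕ} [NeZero P] {ι : Type*} (k : ℕ) (s : Finset ι)
    (F : ι → List (Row P m) → ℝ) (rows : List (Row P m)) :
    Ex k (fun l => ∑ a ∈ s, F a l) rows = ∑ a ∈ s, Ex k (F a) rows := by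
  induction k generalizing rows with
  | zero => simp [Ex]
  | succ k ih =>
    simp only [Ex, ih]
    exact Finset.expect_sum_comm _ _ _


theorem tau_pos (X : ℝ) (i : ℕ) : 0 < tau X i := by
  unfold tau lam
  exact Finset.prod_pos fun j _ => by positivity

theorem al_pos (X : ℝ) (i : ℕ) : 0 < al X i := Real.exp_pos _

/-! ## monotonicity of `alive` -/

theorem alive_cons_subset {P m I rX : ℕ} [NeZero P] {X : ℝ} {w : Pt m → List (ZMod P) → ℝ}
    {G : Finset (Pt m)} (hC : Ctx P m I rX X w G) (r : Row P m) (rows : List (Row P m))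
    (hl : rows.length ≤ I) :
    alive w G (r :: rows) ⊆ alive w G rows := by
  classical
  intro g hg
  simp only [alive, Finset.mem_filter] at hg ⊢
  refine ⟨hg.1, ?_⟩
  have h1 := hg.2
  unfold wt at h1 ⊢
  rcases hC.hw.rng g (hist rows g) (by simpa [hist] using hl) with h0 | h0
  · exfalso
    have := hC.hw.dead g (hist rows g) (res r g) h0
    have h2 : hist (r :: rows) g = res r g :: hist rows g := by simp [hist]
    rw [h2, this] at h1
    exact lt_irrefl _ h1
  · exact lt_of_lt_of_le (mul_pos (tau_pos _ _) (al_pos _ _)) h0.1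

theorem alive_append_subset {P m I rX : ℕ} [NeZero P] {X : ℝ} {w : Pt m → List (ZMod P) → ℝ}
    {G : Finset (Pt m)} (hC : Ctx P m I rX X w G) (l rows : List (Row P m))
    (hl : l.length + rows.length ≤ I) :
    alive w G (l ++ rows) ⊆ alive w G rows := by
  induction l with
  | nil => simp
  | cons r l ih =>
    simp only [List.length_cons] at hl
    refine subset_trans ?_ (ih (by omega))
    exact alive_cons_subset hC r (l ++ rows) (by simp; omega)

/-! ## minimal relations -/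

/-- sets `Z` supporting a `B`-bounded relation with full support, such that deleting any point
kills all `B'`-bounded relations -/
def BadSet {m : ℕ} (B B' : ℝ) (Z : Finset (Pt m)) : Prop :=
  Z.Nonempty ∧ (∃ h, BRel Z B h ∧ ∀ g ∈ Z, h g ≠ 0) ∧
    ∀ z ∈ Z, ∀ h, BRel (Z.erase z) B' h → h = 0

theorem exists_bad {m : ℕ} {W : Finset (Pt m)} {B B' s : ℝ} (hB : B' ≤ B)
    (h : ¬ NoRel W B s) : ∃ Z ⊆ W, (Z.card : ℝ) ≤ s ∧ BadSet B B' Z := by
  classical
  have hex : ∃ k : ℕ, ∃ Z : Finset (Pt m), Z ⊆ W ∧ Z.card = k ∧ (Z.card : ℝ) ≤ s ∧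
      ∃ h, BRel Z B h ∧ h ≠ 0 := by
    unfold NoRel at h
    push Not at h
    obtain ⟨Z, hZ, hs, h', hb, hne⟩ := h
    exact ⟨Z.card, Z, hZ, rfl, hs, h', hb, hne⟩
  obtain ⟨Z, hZW, hZk, hZs, h', hb, hne⟩ := Nat.find_spec hex
  have hmin : ∀ Z' ⊆ W, Z'.card < Z.card → ∀ h, BRel Z' B h → h = 0 := by
    intro Z' hZ' hlt h hh
    by_contra hc
    refine Nat.find_min hex (m := Z'.card) (by omega) ⟨Z', hZ', rfl, ?_, h, hh, hc⟩
    exact le_trans (by exact_mod_cast hlt.le) hZs
  refine ⟨Z, hZW, hZs, ?_, ⟨h', hb, ?_⟩, ?_⟩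
  · by_contra hc
    rw [Finset.not_nonempty_iff_eq_empty] at hc
    apply hne
    funext g
    exact hb.1.1 g (by simp [hc])
  · intro g hg hg0
    apply hne
    refine hmin (Z.erase g) ((Finset.erase_subset _ _).trans hZW) (Finset.card_erase_lt_of_mem hg)
      h' ⟨⟨?_, ?_, ?_⟩, hb.2⟩
    · intro g' hg'
      by_cases h1 : g' = g
      · rw [h1, hg0]
      · exact hb.1.1 g' fun hc => hg' (Finset.mem_erase.2 ⟨h1, hc⟩)
    · have := hb.1.2.1
      rw [← Finset.add_sum_erase _ _ hg, hg0, zero_add] at this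
      exact this
    · have := hb.1.2.2
      rw [← Finset.add_sum_erase _ _ hg, hg0, zero_smul, zero_add] at this
      exact this
  · intro z hz h1 h1b
    refine hmin (Z.erase z) ((Finset.erase_subset _ _).trans hZW) (Finset.card_erase_lt_of_mem hz)
      h1 ⟨h1b.1, fun g => (h1b.2 g).trans hB⟩

/-! ## counting bad sets -/

open scoped Classical in
/-- an enumeration of a set of cardinality `s` -/
noncomputable def enum {m : ℕ} (s : ℕ) (Z : Finset (Pt m)) : Fin s → Pt m :=
  fun i => if h : Z.card = s then (Z.equivFin.symm (Fin.cast h.symm i) : Pt m) else 0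

theorem enum_inj {m s : ℕ} {Z : Finset (Pt m)} (h : Z.card = s) :
    Function.Injective (enum s Z) := by
  intro i j hij
  simp only [enum, dif_pos h] at hij
  have := Z.equivFin.symm.injective (Subtype.ext hij)
  exact Fin.cast_injective _ this

theorem enum_mem {m s : ℕ} {Z : Finset (Pt m)} (h : Z.card = s) (i : Fin s) :
    enum s Z i ∈ Z := by
  simp only [enum, dif_pos h]
  exact Subtype.property _

theorem enum_image {m s : ℕ} {Z : Finset (Pt m)} (h : Z.card = s) (σ : Equiv.Perm (Fin s)) :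
    (univ : Finset (Fin s)).image (fun i => enum s Z (σ i)) = Z := by
  classical
  apply Finset.eq_of_subset_of_card_le
  · intro g hg
    simp only [Finset.mem_image, Finset.mem_univ, true_and] at hg
    obtain ⟨i, rfl⟩ := hg
    exact enum_mem h _
  · have hinj : Function.Injective (fun i => enum s Z (σ i)) :=
      fun i j hij => σ.injective (enum_inj h hij)
    rw [Finset.card_image_of_injective _ hinj]
    simp [h]

open scoped Classical in
theorem card_bad_le {m : ℕ} (W : Finset (Pt m)) (B B' R : ℝ) (s : ℕ) (hB : 0 ≤ B)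
    (hR : ∀ h : Fin s → ℤ, (∀ i, h i ≠ 0) → (relCount W h 0 : ℝ) ≤ R) (hR0 : 0 ≤ R) :
    (((W.powersetCard s).filter fun Z => BadSet B B' Z).card : ℝ) * (s.factorial : ℝ)
      ≤ (2 * B + 1) ^ s * R := by
  set Bi : ℤ := ⌊B⌋ with hBi
  have hBi0 : 0 ≤ Bi := Int.floor_nonneg.2 hB
  set Hs : Finset (Fin s → ℤ) := Fintype.piFinset fun _ : Fin s => Finset.Icc (-Bi) Bi with hHs
  set T : Finset (Fin s → Pt m) :=
    (Fintype.piFinset fun _ : Fin s => W).filter fun z => ∃ h ∈ Hs, (∀ i, h i ≠ 0) ∧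
      ∑ i, h i • z i = 0 with hT
  have h1 : ((W.powersetCard s).filter fun Z => BadSet B B' Z).card * s.factorial ≤ T.card := by
    have : ((W.powersetCard s).filter fun Z => BadSet B B' Z).card * s.factorial =
        (((W.powersetCard s).filter fun Z => BadSet B B' Z) ×ˢ
          (univ : Finset (Equiv.Perm (Fin s)))).card := by
      rw [Finset.card_product, Finset.card_univ, Fintype.card_perm, Fintype.card_fin]
    rw [this]
    refine Finset.card_le_card_of_injOn (fun p => fun i => enum s p.1 (p.2 i)) ?_ ?_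
    · rintro ⟨Z, σ⟩ hp
      simp only [Finset.coe_product, Set.mem_prod, Finset.mem_coe, Finset.mem_filter,
        Finset.mem_powersetCard] at hp
      obtain ⟨⟨⟨hZW, hZs⟩, hne, ⟨h0, hb, hnz⟩, -⟩, -⟩ := hp
      simp only [hT, Finset.coe_filter, Set.mem_ofPred_eq, Fintype.mem_piFinset]
      refine ⟨fun i => hZW (enum_mem hZs _), fun i => h0 (enum s Z (σ i)), ?_, ?_, ?_⟩
      · simp only [hHs, Fintype.mem_piFinset, Finset.mem_Icc]
        intro i
        have := hb.2 (enum s Z (σ i))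
        rw [← Int.cast_abs] at this
        have h2 : |h0 (enum s Z (σ i))| ≤ Bi := Int.le_floor.2 this
        exact abs_le.1 h2
      · intro i
        exact hnz _ (enum_mem hZs _)
      · have := hb.1.2.2
        rw [← enum_image hZs σ, Finset.sum_image] at this
        · exact this
        · intro i _ j _ hij
          exact ((enum_inj hZs).comp σ.injective) hij
    · rintro ⟨Z, σ⟩ hp ⟨Z', σ'⟩ hp' heq
      simp only [Finset.coe_product, Set.mem_prod, Finset.mem_coe, Finset.mem_filter,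
        Finset.mem_powersetCard] at hp hp'
      have e1 := enum_image hp.1.1.2 σ
      have e2 := enum_image hp'.1.1.2 σ'
      simp only at heq
      rw [heq, e2] at e1
      subst e1
      have : σ = σ' := by
        ext i
        have h5 : enum s Z' (σ i) = enum s Z' (σ' i) := congrFun heq i
        rw [enum_inj hp.1.1.2 h5]
      rw [this]
  have h2 : (T.card : ℝ) ≤ Hs.card * R := by
    have hsub : T ⊆ (Hs.filter fun h => ∀ i, h i ≠ 0).biUnion fun h =>
        (Fintype.piFinset fun _ : Fin s => W).filter fun z => ∑ i, h i • z i = 0 := by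
      intro z hz
      simp only [hT, Finset.mem_filter] at hz
      obtain ⟨hzW, h, hh, hnz, hsum⟩ := hz
      simp only [Finset.mem_biUnion, Finset.mem_filter]
      exact ⟨h, ⟨hh, hnz⟩, hzW, hsum⟩
    calc (T.card : ℝ) ≤ (((Hs.filter fun h => ∀ i, h i ≠ 0).biUnion fun h =>
        (Fintype.piFinset fun _ : Fin s => W).filter fun z => ∑ i, h i • z i = 0).card : ℝ) := by
          exact_mod_cast Finset.card_le_card hsub
      _ ≤ ∑ h ∈ Hs.filter (fun h => ∀ i, h i ≠ 0), (relCount W h 0 : ℝ) := by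
          exact_mod_cast Finset.card_biUnion_le
      _ ≤ ∑ h ∈ Hs.filter (fun h => ∀ i, h i ≠ 0), R := by
          refine Finset.sum_le_sum fun h hh => hR h (Finset.mem_filter.1 hh).2
      _ = ((Hs.filter fun h => ∀ i, h i ≠ 0).card : ℝ) * R := by simp
      _ ≤ Hs.card * R := by
          refine mul_le_mul_of_nonneg_right ?_ hR0
          exact_mod_cast Finset.card_filter_le _ _
  have h3 : (Hs.card : ℝ) ≤ (2 * B + 1) ^ s := by
    rw [hHs, Fintype.card_piFinset]
    simp only [Int.card_Icc, Finset.prod_const, Finset.card_univ, Fintype.card_fin]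
    push_cast
    refine pow_le_pow_left₀ (by positivity) ?_ s
    have : ((Bi + 1 - -Bi).toNat : ℝ) = 2 * Bi + 1 := by
      have h4 : ((Bi + 1 - -Bi).toNat : ℤ) = 2 * Bi + 1 := by
        rw [Int.toNat_of_nonneg (by omega)]; ring
      exact_mod_cast h4
    rw [this]
    have := Int.floor_le B
    linarith
  calc (((W.powersetCard s).filter fun Z => BadSet B B' Z).card : ℝ) * (s.factorial : ℝ)
      ≤ T.card := by exact_mod_cast h1
    _ ≤ Hs.card * R := h2
    _ ≤ (2 * B + 1) ^ s * R := mul_le_mul_of_nonneg_right h3 hR0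

/-! ## bounds for `relCount` -/

theorem relCount_bound (hE1 : S_E1) (hE2 : S_E2) {m : ℕ} (W : Finset (Pt m)) (q s : ℕ) (M Γ : ℝ)
    (hq : 2 ≤ q) (hs : 2 ≤ s) (hM : 1 ≤ M) (hW : (W.card : ℝ) ≤ M)
    (hEn : (En q W : ℝ) ≤ M ^ (2 * q) * Real.exp (-Γ)) (h : Fin s → ℤ) (hh : ∀ i, h i ≠ 0) :
    (relCount W h 0 : ℝ) ≤ M ^ s * Real.exp (-(min Γ (Γ * ((s - 2 : ℕ) / (2 * q - 2 : ℕ))))) := by
  have hM0 : 0 < M := by linarith
  by_cases hsq : 2 * q ≤ s
  · have h1 := hE1 m s q W h 0 hh hsq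
    have h2 : (relCount W h 0 : ℝ) ≤ (W.card : ℝ) ^ (s - 2 * q) * (En q W : ℝ) := by
      exact_mod_cast h1
    calc (relCount W h 0 : ℝ) ≤ (W.card : ℝ) ^ (s - 2 * q) * (En q W : ℝ) := h2
      _ ≤ M ^ (s - 2 * q) * (M ^ (2 * q) * Real.exp (-Γ)) := by
          gcongr
      _ = M ^ s * Real.exp (-Γ) := by
          rw [← mul_assoc, ← pow_add]; congr 2; omega
      _ ≤ M ^ s * Real.exp (-(min Γ (Γ * ((s - 2 : ℕ) / (2 * q - 2 : ℕ))))) := by
          gcongr
          exact min_le_left _ _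
  · push Not at hsq
    have h1 := hE2 m s q W h 0 hh hs hsq.le hq
    have hd : (0 : ℝ) < ((2 * q - 2 : ℕ) : ℝ) := by
      have : 0 < 2 * q - 2 := by omega
      exact_mod_cast this
    set a : ℝ := ((2 * q - s : ℕ) : ℝ) / (2 * q - 2 : ℕ) with ha
    set b : ℝ := ((s - 2 : ℕ) : ℝ) / (2 * q - 2 : ℕ) with hb
    have ha0 : 0 ≤ a := by positivity
    have hb0 : 0 ≤ b := by positivity
    calc (relCount W h 0 : ℝ) ≤ (W.card : ℝ) ^ a * (En q W : ℝ) ^ b := h1
      _ ≤ M ^ a * (M ^ (2 * q) * Real.exp (-Γ)) ^ b := by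
          refine mul_le_mul ?_ ?_ (by positivity) (by positivity)
          · exact Real.rpow_le_rpow (by positivity) hW ha0
          · exact Real.rpow_le_rpow (by positivity) hEn hb0
      _ = M ^ (a + 2 * q * b) * Real.exp (-(Γ * b)) := by
          rw [Real.mul_rpow (by positivity) (by positivity), ← Real.exp_mul,
            ← Real.rpow_natCast M (2 * q), ← Real.rpow_mul hM0.le, ← mul_assoc,
            ← Real.rpow_add hM0]
          push_cast
          congr 2
          ring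
      _ ≤ M ^ (s : ℝ) * Real.exp (-(Γ * b)) := by
          refine mul_le_mul_of_nonneg_right ?_ (Real.exp_pos _).le
          refine Real.rpow_le_rpow_of_exponent_le hM ?_
          rw [ha, hb, mul_div_assoc', ← add_div, div_le_iff₀ hd]
          have e1 : ((2 * q - s : ℕ) : ℝ) = 2 * q - s := by
            rw [Nat.cast_sub hsq.le]; push_cast; ring
          have e2 : ((s - 2 : ℕ) : ℝ) = s - 2 := by
            rw [Nat.cast_sub hs]; push_cast; ring
          have e3 : ((2 * q - 2 : ℕ) : ℝ) = 2 * q - 2 := by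
            rw [Nat.cast_sub (by omega)]; push_cast; ring
          rw [e1, e2, e3]
          have : (s : ℝ) ≤ 2 * q := by exact_mod_cast hsq.le
          nlinarith
      _ ≤ M ^ s * Real.exp (-(min Γ (Γ * ((s - 2 : ℕ) / (2 * q - 2 : ℕ))))) := by
          rw [Real.rpow_natCast]
          gcongr
          exact min_le_right _ _

/-! ## numerics -/

theorem term_bound (c0 N x y B p M Nz : ℝ) (q s : ℕ) (hc : 0 < c0) (hN : 1 ≤ N) (hy : 1 ≤ y)
    (hxy : 600 * y ≤ x) (hq2 : 2 ≤ q) (hq : q = ⌈c0 * N / x⌉₊) (hs : 2 ≤ s)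
    (hs1 : c0 / 16 * N / x < s) (hs2 : (s : ℝ) ≤ c0 / 16 * N / y) (hp : 0 < p) (hM : 0 < M)
    (hB : 0 ≤ B) (hpx : 1 / p ≤ Real.exp x)
    (hmain : Real.exp 1 * (2 * B + 1) * (M * p) * (16 * x / (c0 * N)) ≤ Real.exp (14 / 10 * y))
    (hNz : Nz * (s.factorial : ℝ) ≤ (2 * B + 1) ^ s * (M ^ s *
      Real.exp (-(min (c0 / 4 * N) (c0 / 4 * N * ((s - 2 : ℕ) / (2 * q - 2 : ℕ))))))) :
    Nz * p ^ (s - 1) ≤ Real.exp (-(c0 * N / 131) + 5 / 4 * x) := by
  have hx : 0 < x := by linarith
  have hs0 : (0 : ℝ) < s := by exact_mod_cast (by omega : 0 < s)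
  have hcN : 0 < c0 * N := by positivity
  set g : ℝ := Real.exp (-(min (c0 / 4 * N) (c0 / 4 * N * ((s - 2 : ℕ) / (2 * q - 2 : ℕ)))))
    with hg
  have hf : (0 : ℝ) < (s.factorial : ℝ) := by exact_mod_cast Nat.factorial_pos s
  have h1 : (s : ℝ) ^ s / (s.factorial : ℝ) ≤ Real.exp s := Real.pow_div_factorial_le_exp s hs0.le s
  have h2 : 1 / (s.factorial : ℝ) ≤ (Real.exp 1 * (16 * x / (c0 * N))) ^ s := by
    have h3 : (1 : ℝ) / s ≤ 16 * x / (c0 * N) := by
      rw [div_le_div_iff₀ hs0 hcN]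
      have : c0 / 16 * N / x * x < s * x := by gcongr
      rw [div_mul_cancel₀ _ hx.ne'] at this
      nlinarith
    have h4 : 1 / (s.factorial : ℝ) ≤ Real.exp s * (1 / s) ^ s := by
      rw [one_div_pow, mul_one_div, div_le_div_iff₀ hf (by positivity)]
      rw [div_le_iff₀ hf] at h1
      linarith
    calc 1 / (s.factorial : ℝ) ≤ Real.exp s * (1 / s) ^ s := h4
      _ = (Real.exp 1) ^ s * (1 / s) ^ s := by rw [← Real.exp_nat_mul, mul_one]
      _ ≤ (Real.exp 1) ^ s * (16 * x / (c0 * N)) ^ s := by gcongr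
      _ = (Real.exp 1 * (16 * x / (c0 * N))) ^ s := by rw [mul_pow]
  have hpow : p ^ (s - 1) ≤ p ^ s * Real.exp x := by
    have : p ^ s = p ^ (s - 1) * p := by
      rw [← pow_succ]; congr 1; omega
    rw [this, mul_assoc]
    have h5 : 1 ≤ p * Real.exp x := by
      rw [div_le_iff₀ hp] at hpx; linarith
    nlinarith [pow_pos hp (s - 1)]
  have hgpos : 0 < g := Real.exp_pos _
  have h6 : Nz ≤ (2 * B + 1) ^ s * (M ^ s * g) * (1 / (s.factorial : ℝ)) := by
    rw [mul_one_div, le_div_iff₀ hf]; exact hNz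
  have h7 : Nz * p ^ (s - 1) ≤ Real.exp (14 / 10 * y * s) * g * Real.exp x := by
    calc Nz * p ^ (s - 1) ≤ ((2 * B + 1) ^ s * (M ^ s * g) * (1 / (s.factorial : ℝ)))
          * p ^ (s - 1) := by gcongr
      _ ≤ ((2 * B + 1) ^ s * (M ^ s * g) * (Real.exp 1 * (16 * x / (c0 * N))) ^ s)
          * (p ^ s * Real.exp x) := by
          gcongr
      _ = (Real.exp 1 * (2 * B + 1) * (M * p) * (16 * x / (c0 * N))) ^ s * g * Real.exp x := by
          rw [mul_pow, mul_pow, mul_pow, mul_pow, mul_pow]; ring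
      _ ≤ (Real.exp (14 / 10 * y)) ^ s * g * Real.exp x := by
          gcongr
      _ = Real.exp (14 / 10 * y * s) * g * Real.exp x := by
          rw [← Real.exp_nat_mul]; ring_nf
  refine h7.trans ?_
  rw [hg, ← Real.exp_add, ← Real.exp_add, Real.exp_le_exp]
  have hys : y * s ≤ c0 * N / 16 := by
    rw [le_div_iff₀ (by linarith)] at hs2
    linarith
  have hxs : c0 * N / 16 ≤ x * s := by
    have : c0 / 16 * N / x * x < s * x := by gcongr
    rw [div_mul_cancel₀ _ hx.ne'] at this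
    linarith
  rcases min_choice (c0 / 4 * N) (c0 / 4 * N * ((s - 2 : ℕ) / (2 * q - 2 : ℕ))) with h8 | h8
  · rw [h8]
    have h12 : 14 / 10 * y * (s : ℝ) = 14 / 10 * (y * s) := by ring
    rw [h12]
    linarith
  · rw [h8]
    have hd : (0 : ℝ) < ((2 * q - 2 : ℕ) : ℝ) := by
      have : 0 < 2 * q - 2 := by omega
      exact_mod_cast this
    have e3 : ((2 * q - 2 : ℕ) : ℝ) = 2 * q - 2 := by
      rw [Nat.cast_sub (by omega)]; push_cast; ring
    have e2 : ((s - 2 : ℕ) : ℝ) = s - 2 := by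
      rw [Nat.cast_sub hs]; push_cast; ring
    have hqlt : (q : ℝ) < c0 * N / x + 1 := by
      rw [hq]; exact Nat.ceil_lt_add_one (by positivity)
    have hq' : ((2 * q - 2 : ℕ) : ℝ) * x ≤ 2 * (c0 * N) := by
      rw [e3]
      have : (q : ℝ) * x < (c0 * N / x + 1) * x := by gcongr
      rw [add_mul, div_mul_cancel₀ _ hx.ne'] at this
      linarith
    have h9 : ((s : ℝ) - 2) * x / 8 ≤ c0 / 4 * N * ((s - 2 : ℕ) / (2 * q - 2 : ℕ)) := by
      rw [e2, mul_div_assoc', le_div_iff₀ hd]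
      have hs2' : (0 : ℝ) ≤ s - 2 := by
        have : (2 : ℝ) ≤ s := by exact_mod_cast hs
        linarith
      have h13 := mul_le_mul_of_nonneg_left hq' hs2'
      calc ((s : ℝ) - 2) * x / 8 * ((2 * q - 2 : ℕ) : ℝ)
          = ((s : ℝ) - 2) * (((2 * q - 2 : ℕ) : ℝ) * x) / 8 := by ring
        _ ≤ ((s : ℝ) - 2) * (2 * (c0 * N)) / 8 := by gcongr
        _ = c0 / 4 * N * ((s : ℝ) - 2) := by ring
    have h10 : y * s ≤ x * s / 600 := by
      have := mul_le_mul_of_nonneg_right hxy hs0.le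
      linarith
    have h11 : ((s : ℝ) - 2) * x / 8 = x * s / 8 - x / 4 := by ring
    rw [h11] at h9
    have h12 : 14 / 10 * y * (s : ℝ) = 14 / 10 * (y * s) := by ring
    rw [h12]
    linarith

theorem tau_le_one (X : ℝ) (i : ℕ) : tau X i ≤ 1 := by
  unfold tau lam
  refine Finset.prod_le_one (fun j _ => by positivity) fun j _ => ?_
  rw [div_le_one (by positivity)]
  have : 1 ≤ Real.exp (Real.sqrt (xl X j)) := Real.one_le_exp (Real.sqrt_nonneg _)
  nlinarith

theorem xl_mono {X : ℝ} (hX : 0 ≤ X) {i j : ℕ} (hij : i ≤ j) : xl X i ≤ xl X j := by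
  unfold xl
  refine mul_le_mul_of_nonneg_left ?_ hX
  exact pow_le_pow_right₀ (by unfold theta; norm_num) hij

theorem num_facts (hNum : S_Num) (c0 Crat : ℝ) (hc : 0 < c0) (hCr : 1 ≤ Crat) :
    ∃ X1 : ℝ, 1 ≤ X1 ∧ ∀ X ≥ X1, ∀ i : ℕ, 1 ≤ xl X i ∧ 600 * xl X i ≤ xl X (i + Rst) ∧
      (Hd X (i + Rst) : ℝ) ≤ Bh X i ∧
      Real.exp 1 * (2 * Bh X i + 1) *
        (4 * Crat * Real.exp (xl X i) / (tau X i * tau X (i + Rst))) *
        (16 * xl X (i + Rst) / c0) ≤ Real.exp (14 / 10 * xl X i) := by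
  set C2 : ℝ := Real.exp 1 * 3 * 4 * Crat * 16 / c0 with hC2
  have hC2pos : 0 < C2 := by positivity
  obtain ⟨X0, hX01, hX0⟩ := hNum (|Real.log C2| + 3000001)
  refine ⟨X0, hX01, fun X hX i => ?_⟩
  obtain ⟨a1, a2, -, -, a5, a6, -, -⟩ := hX0 X hX i
  obtain ⟨-, b2, b3, b4, -, -, b7, -⟩ := hX0 X hX (i + Rst)
  set x := xl X (i + Rst) with hx
  set y := xl X i with hy
  set K : ℝ := |Real.log C2| + 3000001 with hK
  have hK1 : 3000001 ≤ K := by have := abs_nonneg (Real.log C2); linarith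
  have hy1 : 1 ≤ y := by linarith
  have hx1 : 1 ≤ x := by linarith
  have hx0 : 0 < x := by linarith
  have hsq : 1 ≤ Real.sqrt x := Real.one_le_sqrt.2 hx1
  have hlog : 0 ≤ Real.log x := Real.log_nonneg hx1
  have hKθ : K * Real.sqrt x * (1 + Real.log x) ≤ theta * x := by
    have h34 : 0 ≤ x ^ (3 / 4 : ℝ) := by positivity
    nlinarith
  have hθ : theta * x ≤ 1 / 10 * y := by unfold theta; linarith
  refine ⟨hy1, a5, ?_, ?_⟩
  · have h1 : Real.log (Hd X (i + Rst)) ≤ 3 / 10 * y := by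
      refine b7.trans ?_
      have : 22 / 10 * theta * x ≤ 22 / 10 * (1 / 10 * y) := by nlinarith
      linarith
    rcases Nat.eq_zero_or_pos (Hd X (i + Rst)) with h0 | h0
    · rw [h0]; simp only [Nat.cast_zero]; exact (Real.exp_pos _).le
    · have h0' : (0 : ℝ) < (Hd X (i + Rst) : ℝ) := by exact_mod_cast h0
      rw [← Real.exp_log h0']
      exact Real.exp_le_exp.2 h1
  · have hB1 : 1 ≤ Bh X i := by
      unfold Bh; exact Real.one_le_exp (by rw [← hy]; positivity)
    have t1 := tau_pos X i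
    have t2 := tau_pos X (i + Rst)
    have e1 : 1 / tau X i = Real.exp (Real.log (1 / tau X i)) :=
      (Real.exp_log (by positivity)).symm
    have e2 : 1 / tau X (i + Rst) = Real.exp (Real.log (1 / tau X (i + Rst))) :=
      (Real.exp_log (by positivity)).symm
    have hBh : Bh X i = Real.exp (3 / 10 * y) := rfl
    calc Real.exp 1 * (2 * Bh X i + 1) *
        (4 * Crat * Real.exp y / (tau X i * tau X (i + Rst))) * (16 * x / c0)
        ≤ Real.exp 1 * (3 * Bh X i) *
        (4 * Crat * Real.exp y / (tau X i * tau X (i + Rst))) * (16 * x / c0) := by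
          gcongr
          linarith
      _ = C2 * Real.exp (3 / 10 * y) * Real.exp y * (1 / tau X i) * (1 / tau X (i + Rst)) * x := by
          rw [hC2, hBh]; field_simp
      _ = Real.exp (Real.log C2) * Real.exp (3 / 10 * y) * Real.exp y *
          Real.exp (Real.log (1 / tau X i)) * Real.exp (Real.log (1 / tau X (i + Rst))) *
          Real.exp (Real.log x) := by
          rw [← e1, ← e2, Real.exp_log hC2pos, Real.exp_log hx0]
      _ = Real.exp (Real.log C2 + 3 / 10 * y + y + Real.log (1 / tau X i) +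
          Real.log (1 / tau X (i + Rst)) + Real.log x) := by
          rw [Real.exp_add, Real.exp_add, Real.exp_add, Real.exp_add, Real.exp_add]
      _ ≤ Real.exp (14 / 10 * y) := by
          rw [Real.exp_le_exp]
          have hsy : Real.sqrt y ≤ Real.sqrt x := Real.sqrt_le_sqrt (by linarith)
          have h1 : Real.log C2 + Real.log (1 / tau X i) + Real.log (1 / tau X (i + Rst)) +
              Real.log x ≤ K * Real.sqrt x * (1 + Real.log x) := by
            have h2 : Real.log C2 ≤ |Real.log C2| * (Real.sqrt x * (1 + Real.log x)) := by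
              have h3 : 1 ≤ Real.sqrt x * (1 + Real.log x) := by nlinarith
              have := le_abs_self (Real.log C2)
              have h4 := abs_nonneg (Real.log C2)
              nlinarith
            have h5 : Real.log (1 / tau X i) + Real.log (1 / tau X (i + Rst)) ≤
                3000000 * (Real.sqrt x * (1 + Real.log x)) := by
              have : 0 ≤ Real.sqrt x * Real.log x := by positivity
              nlinarith
            have h6 : Real.log x ≤ Real.sqrt x * (1 + Real.log x) := by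
              nlinarith
            calc _ ≤ |Real.log C2| * (Real.sqrt x * (1 + Real.log x)) +
                3000000 * (Real.sqrt x * (1 + Real.log x)) +
                Real.sqrt x * (1 + Real.log x) := by linarith
              _ = K * Real.sqrt x * (1 + Real.log x) := by rw [hK]; ring
          linarith

theorem asym (A : ℝ) : ∃ n0 : ℕ, ∀ n ≥ n0, A * (n : ℝ) ^ (9 / 10 : ℝ) ≤ NN n ∧
    Real.log (NN n) ≤ (n : ℝ) ^ (9 / 10 : ℝ) ∧ 1 ≤ NN n := by
  have h1 : ∀ᶠ x : ℝ in Filter.atTop, A ≤ x ^ (1 / 10 : ℝ) :=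
    (tendsto_rpow_atTop (by norm_num : (0 : ℝ) < 1 / 10)).eventually_ge_atTop A
  have h2 : ∀ᶠ x : ℝ in Filter.atTop, Real.log x ≤ 1 / 2 * x ^ (9 / 10 : ℝ) := by
    have := (isLittleO_log_rpow_atTop (by norm_num : (0 : ℝ) < 9 / 10)).bound
      (by norm_num : (0 : ℝ) < 1 / 2)
    filter_upwards [this, Filter.eventually_ge_atTop 1] with x hx hx1
    rw [Real.norm_of_nonneg (Real.log_nonneg hx1), Real.norm_of_nonneg (by positivity)] at hx
    exact hx
  have h3 : ∀ᶠ x : ℝ in Filter.atTop, Real.exp 1 ≤ x := Filter.eventually_ge_atTop _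
  obtain ⟨n0, hn0⟩ := Filter.eventually_atTop.1
    (tendsto_natCast_atTop_atTop.eventually ((h1.and h2).and h3))
  refine ⟨n0, fun n hn => ?_⟩
  obtain ⟨⟨g1, g2⟩, g3⟩ := hn0 n hn
  have hn0' : (0 : ℝ) < n := lt_of_lt_of_le (Real.exp_pos 1) g3
  have hn1 : (1 : ℝ) ≤ n := le_trans (Real.one_le_exp zero_le_one) g3
  have hlog : 1 ≤ Real.log n := by
    rw [← Real.log_exp 1]; exact Real.log_le_log (Real.exp_pos 1) g3
  have hN : (n : ℝ) ≤ NN n := by unfold NN; nlinarith
  refine ⟨?_, ?_, by linarith⟩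
  · have : (n : ℝ) = (n : ℝ) ^ (1 / 10 : ℝ) * (n : ℝ) ^ (9 / 10 : ℝ) := by
      rw [← Real.rpow_add hn0']; norm_num
    have h9 : (0 : ℝ) ≤ (n : ℝ) ^ (9 / 10 : ℝ) := by positivity
    calc A * (n : ℝ) ^ (9 / 10 : ℝ) ≤ (n : ℝ) ^ (1 / 10 : ℝ) * (n : ℝ) ^ (9 / 10 : ℝ) := by
          gcongr
      _ = n := this.symm
      _ ≤ NN n := hN
  · unfold NN
    rw [Real.log_mul hn0'.ne' (by linarith)]
    have : Real.log (Real.log n) ≤ Real.log n := by
      exact Real.log_le_log (by linarith) (Real.log_le_self hn0'.le)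
    linarith

/-- a point of a nonempty set -/
noncomputable def pick {m : ℕ} (Z : Finset (Pt m)) : Pt m :=
  open scoped Classical in if h : Z.Nonempty then h.choose else 0

theorem pick_mem {m : ℕ} {Z : Finset (Pt m)} (h : Z.Nonempty) : pick Z ∈ Z := by
  unfold pick; rw [dif_pos h]; exact h.choose_spec

end HP1

open HP1 in
theorem prf_HP1 : S_Surv → S_E1 → S_E2 → S_Num → S_HP1 := by
  classical
  intro hSurv hE1 hE2 hNum c0 Crat hc0 hc1 hCr
  obtain ⟨X1, hX11, hX1⟩ := num_facts hNum c0 Crat hc0 hCr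
  obtain ⟨X2, hX2⟩ := hSurv
  refine ⟨max X1 X2, fun X hX => ?_⟩
  obtain ⟨n0, hn0⟩ := asym (2000 / c0)
  refine ⟨n0, fun n hn m i rX hxn => ?_⟩
  obtain ⟨P0, hP0⟩ := hX2 X (le_trans (le_max_right _ _) hX) m i Rst rX ⌊sp X c0 n i⌋₊ le_rfl
  refine ⟨P0, fun P hP _ I w G rows hC hlen hcard hNR hEn => ?_⟩
  obtain ⟨hy1, hxy, hHd, hmain⟩ := hX1 X (le_trans (le_max_left _ _) hX) i
  obtain ⟨hA, hlogN, hN1⟩ := hn0 n hn
  have hXpos : 0 < X := by have := le_max_left X1 X2; linarith
  set x := xl X (i + Rst) with hx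
  set y := xl X i with hy
  set W := alive w G rows with hW
  set N := NN n with hN
  set M := Mb X Crat n (i + Rst) with hM
  set q := kk X c0 n (i + Rst) with hq
  set p : ℝ := 2 * al X (i + Rst) / (tau X i * al X i) with hp
  have hx0 : 0 < x := by linarith
  have h9 : (0 : ℝ) ≤ (n : ℝ) ^ (9 / 10 : ℝ) := by positivity
  have hcN : 2000 * (n : ℝ) ^ (9 / 10 : ℝ) ≤ c0 * N := by
    have := mul_le_mul_of_nonneg_left hA hc0.le
    calc 2000 * (n : ℝ) ^ (9 / 10 : ℝ) = c0 * (2000 / c0 * (n : ℝ) ^ (9 / 10 : ℝ)) := by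
          field_simp
      _ ≤ c0 * N := this
  have hcNx : 1000 * x ≤ c0 * N := by linarith
  have hτi := tau_pos X i
  have hτj := tau_pos X (i + Rst)
  have hali := al_pos X i
  have halj := al_pos X (i + Rst)
  have hp0 : 0 < p := by positivity
  have hM0 : 0 < M := by rw [hM]; unfold Mb; positivity
  have hM1 : 1 ≤ M := by
    rw [hM]; unfold Mb
    rw [le_div_iff₀ hτj]
    have h1 : 1 ≤ Real.exp (xl X (i + Rst)) := Real.one_le_exp (by rw [← hx]; exact hx0.le)
    have h2 := tau_le_one X (i + Rst)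
    have h3 : 1 ≤ Crat * NN n * Real.exp (xl X (i + Rst)) := by
      have : 1 ≤ Crat * NN n := one_le_mul_of_one_le_of_one_le hCr hN1
      exact one_le_mul_of_one_le_of_one_le this h1
    nlinarith
  have hq2 : 2 ≤ q := by
    rw [hq]; unfold kk
    have : 1 < c0 * NN n / xl X (i + Rst) := by
      rw [← hx, lt_div_iff₀ hx0]; linarith
    have h2 : 1 < ⌈c0 * NN n / xl X (i + Rst)⌉₊ := Nat.lt_ceil.2 (by simpa using this)
    omega
  have hratio : al X (i + Rst) / al X i = Real.exp (y - x) := by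
    unfold al; rw [← Real.exp_sub]; congr 1; rw [hx, hy]; ring
  have hpeq : p = 2 * Real.exp (y - x) / tau X i := by
    rw [hp, ← hratio]; field_simp
  have hMp : M * p = 4 * Crat * Real.exp y / (tau X i * tau X (i + Rst)) * N := by
    rw [hpeq, hM]; unfold Mb
    rw [← hx, ← hN, Real.exp_sub]
    field_simp
    ring
  have hpx : 1 / p ≤ Real.exp x := by
    rw [hpeq, one_div_div, div_le_iff₀ (by positivity), Real.exp_sub]
    have h2 := tau_le_one X i
    have h3 : 1 ≤ Real.exp y := Real.one_le_exp (by linarith)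
    have h4 : Real.exp x * (2 * (Real.exp y / Real.exp x)) = 2 * Real.exp y := by
      field_simp
    rw [h4]; linarith
  have hB0 : 0 ≤ Bh X i := by unfold Bh; positivity
  have hmain' : Real.exp 1 * (2 * Bh X i + 1) * (M * p) * (16 * x / (c0 * N)) ≤
      Real.exp (14 / 10 * y) := by
    refine le_trans (le_of_eq ?_) hmain
    rw [hMp]; field_simp
  -- the family of bad sets
  set 𝒵 : ℕ → Finset (Finset (Pt m)) := fun s => (W.powersetCard s).filter fun Z =>
    BadSet (Bh X i) (Hd X (i + Rst)) Z with h𝒵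
  set 𝒮 : Finset ℕ := (Finset.Icc 1 ⌊sp X c0 n i⌋₊).filter fun s =>
    sp X c0 n (i + Rst) < (s : ℝ) with h𝒮
  have hBB : Bh X i ≤ Bh X (i + Rst) := by
    unfold Bh
    rw [Real.exp_le_exp]
    have := xl_mono hXpos.le (Nat.le_add_right i Rst)
    linarith
  have hpt : ∀ l : List (Row P m), l.length = Rst →
      (if NoRel (alive w G (l ++ rows)) (Bh X i) (sp X c0 n i) then (0 : ℝ) else 1) ≤
        ∑ s ∈ 𝒮, ∑ Z ∈ 𝒵 s, (if Z.erase (pick Z) ⊆ alive w G (l ++ rows) then (1 : ℝ) else 0) := by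
    intro l hl
    split_ifs with hnr
    · exact Finset.sum_nonneg fun s _ => Finset.sum_nonneg fun Z _ => by split_ifs <;> norm_num
    · obtain ⟨Z, hZW', hZs, hbad⟩ := exists_bad hHd hnr
      have hZW : Z ⊆ W := hZW'.trans (alive_append_subset hC l rows (by omega))
      have hZ𝒵 : Z ∈ 𝒵 Z.card := by
        simp only [h𝒵, Finset.mem_filter, Finset.mem_powersetCard]
        exact ⟨⟨hZW, trivial⟩, hbad⟩
      have hZ𝒮 : Z.card ∈ 𝒮 := by
        simp only [h𝒮, Finset.mem_filter, Finset.mem_Icc]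
        refine ⟨⟨hbad.1.card_pos, Nat.le_floor hZs⟩, ?_⟩
        by_contra hcon
        push Not at hcon
        obtain ⟨hne, ⟨h0, hb, hnz⟩, -⟩ := hbad
        have := hNR Z hZW hcon h0 ⟨hb.1, fun g => (hb.2 g).trans hBB⟩
        obtain ⟨g, hg⟩ := hne
        exact hnz g hg (by rw [this]; rfl)
      calc (1 : ℝ) = (if Z.erase (pick Z) ⊆ alive w G (l ++ rows) then (1 : ℝ) else 0) := by
            rw [if_pos ((Finset.erase_subset _ _).trans hZW')]
        _ ≤ ∑ Z ∈ 𝒵 Z.card, (if Z.erase (pick Z) ⊆ alive w G (l ++ rows) then (1 : ℝ) else 0) :=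
            Finset.single_le_sum (f := fun Z => if Z.erase (pick Z) ⊆ alive w G (l ++ rows)
              then (1 : ℝ) else 0) (fun Z _ => by positivity) hZ𝒵
        _ ≤ _ := Finset.single_le_sum (f := fun s => ∑ Z ∈ 𝒵 s,
              (if Z.erase (pick Z) ⊆ alive w G (l ++ rows) then (1 : ℝ) else 0))
              (fun s _ => Finset.sum_nonneg fun Z _ => by positivity) hZ𝒮
  have hterm : ∀ s ∈ 𝒮, ((𝒵 s).card : ℝ) * p ^ (s - 1) ≤
      Real.exp (-(c0 * N / 131) + 5 / 4 * x) := by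
    intro s hs
    simp only [h𝒮, Finset.mem_filter, Finset.mem_Icc] at hs
    obtain ⟨⟨hs1, hs2⟩, hs3⟩ := hs
    have hs2' : (s : ℝ) ≤ c0 / 16 * N / y := by
      have := (Nat.le_floor_iff' (by omega)).1 hs2
      unfold sp at this
      exact this
    have hs3' : c0 / 16 * N / x < s := by
      unfold sp at hs3
      exact hs3
    have hs4 : 2 ≤ s := by
      have h1 : (62 : ℝ) < s := by
        refine lt_of_le_of_lt ?_ hs3'
        rw [le_div_iff₀ hx0]; linarith
      have : 62 < s := by exact_mod_cast h1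
      omega
    refine term_bound c0 N x y (Bh X i) p M ((𝒵 s).card : ℝ) q s hc0 hN1 hy1 hxy hq2 rfl hs4
      hs3' hs2' hp0 hM0 hB0 hpx hmain' ?_
    refine card_bad_le W (Bh X i) (Hd X (i + Rst)) _ s hB0 ?_ (by positivity)
    intro h hh
    refine relCount_bound hE1 hE2 W q s M (c0 / 4 * N) hq2 hs4 hM1 hcard ?_ h hh
    exact hEn
  calc (Ex Rst (fun rows' => if NoRel (alive w G rows') (Bh X i) (sp X c0 n i) then (0 : ℝ) else 1)
      rows) ≤ (Ex Rst (fun rows' => (∑ s ∈ 𝒮, ∑ Z ∈ 𝒵 s,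
        (if Z.erase (pick Z) ⊆ alive w G rows' then (1 : ℝ) else 0))) rows) :=
        Ex_mono _ _ _ _ hpt
    _ = ∑ s ∈ 𝒮, ∑ Z ∈ 𝒵 s, (Ex Rst (fun rows' =>
        (if Z.erase (pick Z) ⊆ alive w G rows' then (1 : ℝ) else 0)) rows) := by
        rw [Ex_sum]
        exact Finset.sum_congr rfl fun s _ => Ex_sum _ _ _ _
    _ ≤ ∑ s ∈ 𝒮, ∑ Z ∈ 𝒵 s, p ^ (s - 1) := by
        refine Finset.sum_le_sum fun s hs => Finset.sum_le_sum fun Z hZ => ?_
        simp only [h𝒵, Finset.mem_filter, Finset.mem_powersetCard] at hZ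
        simp only [h𝒮, Finset.mem_filter, Finset.mem_Icc] at hs
        obtain ⟨⟨hZW, hZc⟩, hne, -, hkill⟩ := hZ
        have hcard' : (Z.erase (pick Z)).card = s - 1 := by
          rw [Finset.card_erase_of_mem (pick_mem hne), hZc]
        rw [← hcard']
        refine hP0 P hP I w G _ rows hC hlen ?_ ((Finset.erase_subset _ _).trans hZW) ?_
        · rw [hcard']; omega
        · exact hkill _ (pick_mem hne)
    _ = ∑ s ∈ 𝒮, ((𝒵 s).card : ℝ) * p ^ (s - 1) := by simp
    _ ≤ ∑ s ∈ 𝒮, Real.exp (-(c0 * N / 131) + 5 / 4 * x) := Finset.sum_le_sum hterm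
    _ = (𝒮.card : ℝ) * Real.exp (-(c0 * N / 131) + 5 / 4 * x) := by simp
    _ ≤ N * Real.exp (-(c0 * N / 131) + 5 / 4 * x) := by
        gcongr
        have h1 : 𝒮.card ≤ ⌊sp X c0 n i⌋₊ := by
          refine (Finset.card_filter_le _ _).trans ?_
          simp
        have h2 : ((⌊sp X c0 n i⌋₊ : ℕ) : ℝ) ≤ sp X c0 n i := by
          refine Nat.floor_le ?_
          unfold sp; rw [← hy]; positivity
        have h3 : sp X c0 n i ≤ N := by
          unfold sp
          rw [← hy, ← hN, div_le_iff₀ (by linarith)]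
          have : c0 / 16 ≤ 1 := by linarith
          nlinarith
        have h4 : (𝒮.card : ℝ) ≤ (⌊sp X c0 n i⌋₊ : ℕ) := by exact_mod_cast h1
        linarith
    _ = Real.exp (Real.log N + (-(c0 * N / 131) + 5 / 4 * x)) := by
        rw [Real.exp_add (Real.log N), Real.exp_log (by linarith)]
    _ ≤ Real.exp (-(c0 / 200 * N)) := by
        rw [Real.exp_le_exp]
        linarith

end Crest.Agent.R225
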