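import Crest.Agent.Lib.PrekopaLeindler

-- ▼ part R225/Geo1
section

/-!
Row 225 (S0347), geometry 1: reverse Hölder inequality for functions whose tails are log-concave.
-/

set_option autoImplicit false

namespace Crest.Agent.R225.GS

open MeasureTheory Set Filter
open scoped ENNReal

/-- product form of log-concavity -/
theorem logconc_four {T : ℝ → ℝ≥0∞}
    (hT : ∀ t : ℝ, 0 < t → t < 1 → ∀ r s : ℝ, 0 < r → 0 < s →
      T r ^ (1 - t) * T s ^ t ≤ T ((1 - t) * r + t * s))
    (ε r s : ℝ) (hε : 0 < ε) (hr : 0 < r) (hs : 0 < s) :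
    T ε * T (ε + r + s) ≤ T (ε + r) * T (ε + s) := by
  have hrs : 0 < r + s := by linarith
  have hne : r + s ≠ 0 := hrs.ne'
  set a := r / (r + s) with ha
  have ha0 : 0 < a := div_pos hr hrs
  have ha1 : a < 1 := (div_lt_one hrs).2 (by linarith)
  have e1 : (1 - a) * ε + a * (ε + r + s) = ε + r := by
    rw [ha]; field_simp; ring
  have e2 : (1 - (1 - a)) * ε + (1 - a) * (ε + r + s) = ε + s := by
    rw [ha]; field_simp; ring
  have h1 := hT a ha0 ha1 ε (ε + r + s) hε (by linarith)
  have h2 := hT (1 - a) (by linarith) (by linarith) ε (ε + r + s) hε (by linarith)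
  rw [e1] at h1
  rw [e2] at h2
  have h3 := mul_le_mul' h1 h2
  have key : ∀ x : ℝ≥0∞, x ^ (1 - a) * x ^ a = x := by
    intro x
    rw [← ENNReal.rpow_add_of_nonneg _ _ (by linarith) ha0.le]
    simp
  have e3 : 1 - (1 - a) = a := by ring
  rw [e3] at h3
  calc T ε * T (ε + r + s) = (T ε ^ (1 - a) * T ε ^ a) * (T (ε + r + s) ^ (1 - a) *
        T (ε + r + s) ^ a) := by rw [key, key]
    _ = (T ε ^ (1 - a) * T (ε + r + s) ^ a) * (T ε ^ a * T (ε + r + s) ^ (1 - a)) := by ring
    _ ≤ _ := h3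

/-- double integral of a function of `r + s` -/
theorem lintegral_add_eq {F : ℝ → ℝ≥0∞} (hF : Measurable F) :
    ∫⁻ r in Ioi (0 : ℝ), ∫⁻ s in Ioi (0 : ℝ), F (r + s) =
      ∫⁻ ρ in Ioi (0 : ℝ), F ρ * ENNReal.ofReal ρ := by
  have h1 : ∀ r : ℝ, ∫⁻ s in Ioi (0 : ℝ), F (r + s) = ∫⁻ ρ in Ioi r, F ρ := by
    intro r
    have h := (measurePreserving_add_left (volume : Measure ℝ) r).setLIntegral_comp_preimage
      (s := Ioi r) measurableSet_Ioi hF
    rw [← h]
    congr 2
    ext x
    simp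
  simp_rw [h1]
  have h2 : ∀ r : ℝ, ∫⁻ ρ in Ioi r, F ρ = ∫⁻ ρ, (Ioi r).indicator F ρ := fun r =>
    (lintegral_indicator measurableSet_Ioi _).symm
  simp_rw [h2]
  rw [lintegral_lintegral_swap]
  · rw [← lintegral_indicator measurableSet_Ioi]
    apply lintegral_congr
    intro ρ
    by_cases hρ : 0 < ρ
    · rw [indicator_of_mem (show ρ ∈ Ioi (0 : ℝ) from hρ)]
      have : ∀ r : ℝ, (Ioi r).indicator F ρ = (Iio ρ).indicator (fun _ => F ρ) r := by
        intro r
        by_cases h : r < ρ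
        · rw [indicator_of_mem (show ρ ∈ Ioi r from h), indicator_of_mem (show r ∈ Iio ρ from h)]
        · rw [indicator_of_notMem (show ρ ∉ Ioi r from h), indicator_of_notMem (show r ∉ Iio ρ from h)]
      simp_rw [this]
      rw [lintegral_indicator measurableSet_Iio, lintegral_const, Measure.restrict_restrict
        measurableSet_Iio, Measure.restrict_apply MeasurableSet.univ, univ_inter]
      congr 1
      have : Iio ρ ∩ Ioi 0 = Ioo 0 ρ := by ext x; simp [and_comm]
      rw [this, Real.volume_Ioo, sub_zero]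
    · rw [indicator_of_notMem (show ρ ∉ Ioi (0 : ℝ) from hρ)]
      rw [setLIntegral_congr_fun (g := fun _ => 0) measurableSet_Ioi]
      · simp
      · intro r hr
        exact indicator_of_notMem (fun h => hρ (lt_trans (mem_Ioi.1 hr) (mem_Ioi.1 h))) _
  · apply Measurable.aemeasurable
    have hs : MeasurableSet {p : ℝ × ℝ | p.1 < p.2} := measurableSet_lt measurable_fst measurable_snd
    have : (Function.uncurry fun r ρ : ℝ => (Ioi r).indicator F ρ) =
        {p : ℝ × ℝ | p.1 < p.2}.indicator (fun p => F p.2) := by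
      funext p
      simp only [Function.uncurry, indicator, mem_Ioi, mem_ofPred_eq]
    rw [this]
    exact (hF.comp measurable_snd).indicator hs

/-- reverse Hölder for antitone `T`, log-concave on `(0, ∞)` -/
theorem tail_rev_holder {T : ℝ → ℝ≥0∞} (hanti : Antitone T)
    (hT : ∀ t : ℝ, 0 < t → t < 1 → ∀ r s : ℝ, 0 < r → 0 < s →
      T r ^ (1 - t) * T s ^ t ≤ T ((1 - t) * r + t * s)) :
    (⨆ n : ℕ, T (1 / ((n : ℝ) + 1))) * ∫⁻ ρ in Ioi (0 : ℝ), T ρ * ENNReal.ofReal ρ ≤
      (∫⁻ r in Ioi (0 : ℝ), T r) ^ 2 := by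
  have hTm : Measurable T := hanti.measurable
  -- fixed ε
  have key : ∀ ε : ℝ, 0 < ε →
      T ε * ∫⁻ ρ in Ioi (0 : ℝ), T (ε + ρ) * ENNReal.ofReal ρ ≤ (∫⁻ r in Ioi (0 : ℝ), T r) ^ 2 := by
    intro ε hε
    have hm1 : Measurable fun ρ => T (ε + ρ) := hTm.comp (measurable_const_add ε)
    rw [← lintegral_add_eq (F := fun ρ => T (ε + ρ)) hm1]
    have hin : ∀ r : ℝ, Measurable fun s : ℝ => T (ε + (r + s)) := fun r =>
      hm1.comp (measurable_const_add r)
    have hmm : Measurable fun r : ℝ => ∫⁻ s in Ioi (0 : ℝ), T (ε + (r + s)) := by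
      apply Measurable.lintegral_prod_right'
        (f := fun p : ℝ × ℝ => T (ε + (p.1 + p.2)))
      exact hm1.comp (measurable_fst.add measurable_snd)
    rw [← lintegral_const_mul _ hmm]
    calc ∫⁻ r in Ioi (0 : ℝ), T ε * ∫⁻ s in Ioi (0 : ℝ), T (ε + (r + s))
        ≤ ∫⁻ r in Ioi (0 : ℝ), T r * ∫⁻ s in Ioi (0 : ℝ), T s := by
          refine setLIntegral_mono' measurableSet_Ioi fun r hr => ?_
          rw [← lintegral_const_mul _ (hin r), ← lintegral_const_mul _ hTm]
          refine setLIntegral_mono' measurableSet_Ioi fun s hs => ?_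
          have h := logconc_four hT ε r s hε hr hs
          rw [← add_assoc]
          refine h.trans ?_
          exact mul_le_mul' (hanti (by linarith)) (hanti (by linarith))
      _ = (∫⁻ r in Ioi (0 : ℝ), T r) ^ 2 := by
          rw [lintegral_mul_const _ hTm, sq]
  -- limit
  have hε : ∀ n : ℕ, 0 < 1 / ((n : ℝ) + 1) := fun n => by positivity
  have hmono : ∀ {m n : ℕ}, m ≤ n → 1 / ((n : ℝ) + 1) ≤ 1 / ((m : ℝ) + 1) := by
    intro m n h
    apply one_div_le_one_div_of_le (by positivity)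
    have : (m : ℝ) ≤ n := by exact_mod_cast h
    linarith
  -- the shifted integrals
  have hshift : ∀ ε : ℝ, 0 < ε → ∫⁻ ρ in Ioi (0 : ℝ), T (ε + ρ) * ENNReal.ofReal ρ =
      ∫⁻ ρ in Ioi (0 : ℝ), T ρ * ENNReal.ofReal (ρ - ε) := by
    intro ε hε
    have h := (measurePreserving_add_left (volume : Measure ℝ) ε).setLIntegral_comp_preimage
      (s := Ioi ε) (f := fun ρ => T ρ * ENNReal.ofReal (ρ - ε)) measurableSet_Ioi
      (hTm.mul (ENNReal.measurable_ofReal.comp (measurable_id.sub_const ε)))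
    have e1 : (fun x => ε + x) ⁻¹' Ioi ε = Ioi 0 := by ext x; simp
    rw [e1] at h
    have e2 : ∫⁻ ρ in Ioi (0 : ℝ), T ρ * ENNReal.ofReal (ρ - ε) =
        ∫⁻ ρ in Ioi ε, T ρ * ENNReal.ofReal (ρ - ε) := by
      have hU : Ioi (0 : ℝ) = Ioc 0 ε ∪ Ioi ε := (Ioc_union_Ioi_eq_Ioi hε.le).symm
      have hd : Disjoint (Ioc (0 : ℝ) ε) (Ioi ε) := by
        rw [Set.disjoint_left]
        intro x hx hx'
        exact absurd hx.2 (not_le.2 hx')
      rw [hU, lintegral_union measurableSet_Ioi hd]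
      rw [setLIntegral_congr_fun (g := fun _ => 0) measurableSet_Ioc]
      · simp
      · intro x hx
        have : ENNReal.ofReal (x - ε) = 0 := ENNReal.ofReal_of_nonpos (by linarith [hx.2])
        simp [this]
    rw [e2, ← h]
    refine setLIntegral_congr_fun measurableSet_Ioi fun ρ _ => ?_
    simp only [add_sub_cancel_left]
  have hsup : ∫⁻ ρ in Ioi (0 : ℝ), T ρ * ENNReal.ofReal ρ =
      ⨆ n : ℕ, ∫⁻ ρ in Ioi (0 : ℝ), T ρ * ENNReal.ofReal (ρ - 1 / ((n : ℝ) + 1)) := by
    rw [← lintegral_iSup]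
    · refine lintegral_congr fun ρ => ?_
      rw [← ENNReal.mul_iSup]
      congr 1
      apply le_antisymm
      · have h1 : Tendsto (fun n : ℕ => ENNReal.ofReal (ρ - 1 / ((n : ℝ) + 1))) atTop
            (nhds (ENNReal.ofReal ρ)) := by
          have : Tendsto (fun n : ℕ => ρ - 1 / ((n : ℝ) + 1)) atTop (nhds (ρ - 0)) :=
            tendsto_const_nhds.sub tendsto_one_div_add_atTop_nhds_zero_nat
          rw [sub_zero] at this
          exact (ENNReal.continuous_ofReal.tendsto ρ).comp this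
        exact le_of_tendsto' h1 fun n => le_iSup
          (fun n : ℕ => ENNReal.ofReal (ρ - 1 / ((n : ℝ) + 1))) n
      · exact iSup_le fun n => ENNReal.ofReal_le_ofReal (by linarith [hε n])
    · intro n
      exact hTm.mul (ENNReal.measurable_ofReal.comp (measurable_id.sub_const _))
    · intro m n hmn ρ
      refine mul_le_mul' le_rfl (ENNReal.ofReal_le_ofReal ?_)
      linarith [hmono hmn]
  rw [hsup, ENNReal.iSup_mul]
  refine iSup_le fun i => ?_
  rw [ENNReal.mul_iSup]
  refine iSup_le fun j => ?_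
  have hk := key _ (hε (max i j))
  rw [hshift _ (hε (max i j))] at hk
  refine le_trans (mul_le_mul' (hanti (hmono (le_max_left i j))) ?_) hk
  refine lintegral_mono fun ρ => mul_le_mul' le_rfl (ENNReal.ofReal_le_ofReal ?_)
  linarith [hmono (le_max_right i j)]

/-- reverse Hölder: a nonnegative function `W` whose tail `r ↦ ν {r ≤ W}` is log-concave on
`(0, ∞)` satisfies `ν {0 < W} ∫ W² ≤ 2 (∫ W)²`. -/
theorem rev_holder {Ω : Type*} [MeasurableSpace Ω] (ν : Measure Ω) {W : Ω → ℝ}
    (hW : Measurable W) (hW0 : ∀ x, 0 ≤ W x)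
    (hT : ∀ t : ℝ, 0 < t → t < 1 → ∀ r s : ℝ, 0 < r → 0 < s →
      ν {x | r ≤ W x} ^ (1 - t) * ν {x | s ≤ W x} ^ t ≤ ν {x | (1 - t) * r + t * s ≤ W x}) :
    ν {x | 0 < W x} * ∫⁻ x, ENNReal.ofReal (W x ^ 2) ∂ν ≤
      2 * (∫⁻ x, ENNReal.ofReal (W x) ∂ν) ^ 2 := by
  set T : ℝ → ℝ≥0∞ := fun r => ν {x | r ≤ W x} with hTdef
  have hanti : Antitone T := fun r s h => measure_mono fun x hx => le_trans h hx
  have h1 := tail_rev_holder hanti hT
  have e1 : ∫⁻ x, ENNReal.ofReal (W x) ∂ν = ∫⁻ r in Ioi (0 : ℝ), T r :=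
    lintegral_eq_lintegral_meas_le ν (Eventually.of_forall hW0) hW.aemeasurable
  have e2 : ∫⁻ x, ENNReal.ofReal (W x ^ 2) ∂ν = 2 * ∫⁻ ρ in Ioi (0 : ℝ), T ρ * ENNReal.ofReal ρ := by
    have h := lintegral_rpow_eq_lintegral_meas_le_mul ν (Eventually.of_forall hW0) hW.aemeasurable
      (p := 2) (by norm_num)
    have e3 : (ENNReal.ofReal 2) = 2 := by simp
    rw [e3] at h
    norm_num at h
    exact h
  have e3 : ν {x | 0 < W x} = ⨆ n : ℕ, T (1 / ((n : ℝ) + 1)) := by
    have : {x | 0 < W x} = ⋃ n : ℕ, {x | 1 / ((n : ℝ) + 1) ≤ W x} := by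
      ext x
      simp only [mem_ofPred_eq, mem_iUnion]
      constructor
      · intro h
        obtain ⟨n, hn⟩ := exists_nat_one_div_lt h
        exact ⟨n, hn.le⟩
      · rintro ⟨n, hn⟩
        exact lt_of_lt_of_le (by positivity) hn
    rw [this, Monotone.measure_iUnion]
    intro m n hmn x hx
    have hx' : 1 / ((m : ℝ) + 1) ≤ W x := hx
    show 1 / ((n : ℝ) + 1) ≤ W x
    refine le_trans ?_ hx'
    apply one_div_le_one_div_of_le (by positivity)
    have : (m : ℝ) ≤ n := by exact_mod_cast hmn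
    linarith
  rw [e1, e2, e3]
  calc _ = 2 * ((⨆ n : ℕ, T (1 / ((n : ℝ) + 1))) * ∫⁻ ρ in Ioi (0 : ℝ), T ρ * ENNReal.ofReal ρ) := by
        ring
    _ ≤ _ := by gcongr

end Crest.Agent.R225.GS
end

-- ▼ part R225/Geo2
section

/-!
Row 225 (S0347), geometry 2: level sets of a log-concave function on `E × ℝ`.
-/

set_option autoImplicit false
set_option linter.unusedSectionVars false

namespace Crest.Agent.R225.GS

open MeasureTheory Set Filter Crest.Agent.Lib.PrekopaLeindler
open scoped ENNReal Pointwise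

/-- log-concave functions with values in `{0} ∪ [lo, hi]`, bounded support in the last variable -/
structure Adm {E : Type*} [AddCommGroup E] [Module ℝ E] [MeasurableSpace E] (u : E × ℝ → ℝ)
    (lo hi : ℝ) : Prop where
  meas : Measurable u
  nonneg : ∀ x, 0 ≤ u x
  le : ∀ x, u x ≤ hi
  ge : ∀ x, 0 < u x → lo ≤ u x
  lc : ∀ t : ℝ, 0 < t → t < 1 → ∀ x y, 0 < u x → 0 < u y →
    u x ^ (1 - t) * u y ^ t ≤ u ((1 - t) • x + t • y)
  bdd : ∃ R : ℝ, ∀ x, 0 < u x → |x.2| ≤ R

/-- layer cake with the levels `exp (-t)` -/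
theorem layer_exp {Ω : Type*} [MeasurableSpace Ω] (κ : Measure Ω) {v : Ω → ℝ} (hv : Measurable v)
    (h0 : ∀ ω, 0 ≤ v ω) :
    ∫⁻ ω, ENNReal.ofReal (v ω) ∂κ =
      ∫⁻ t : ℝ, ENNReal.ofReal (Real.exp (-t)) * κ {ω | Real.exp (-t) ≤ v ω} := by
  rw [lintegral_eq_lintegral_meas_le κ (Eventually.of_forall h0) hv.aemeasurable]
  have himg : (fun t : ℝ => Real.exp (-t)) '' univ = Ioi 0 := by
    ext z
    simp only [image_univ, mem_range, mem_Ioi]
    constructor
    · rintro ⟨t, rfl⟩; exact Real.exp_pos _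
    · intro hz
      exact ⟨-Real.log z, by rw [neg_neg, Real.exp_log hz]⟩
  rw [← himg]
  rw [lintegral_image_eq_lintegral_abs_deriv_mul (f' := fun t => -Real.exp (-t)) MeasurableSet.univ]
  · rw [Measure.restrict_univ]
    refine lintegral_congr fun t => ?_
    rw [abs_neg, abs_of_pos (Real.exp_pos _)]
  · intro t _
    have h1 : HasDerivAt (fun t : ℝ => Real.exp (-t)) (-Real.exp (-t)) t := by
      simpa using (hasDerivAt_neg t).exp
    exact h1.hasDerivWithinAt
  · intro a _ b _ h
    have : -a = -b := Real.exp_injective h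
    linarith

variable {E : Type*} [AddCommGroup E] [Module ℝ E] [MeasurableSpace E]

/-- level set -/
def lev (u : E × ℝ → ℝ) (p : E × ℝ) : Set ℝ := {s | Real.exp (-p.2) ≤ u (p.1, s)}

/-- length of the level set -/
noncomputable def wid (u : E × ℝ → ℝ) (p : E × ℝ) : ℝ := (volume (lev u p)).toReal

/-- the measure `e^{-t} dμ dt` -/
noncomputable def nuE (μ : Measure E) : Measure (E × ℝ) :=
  (μ.prod (volume : Measure ℝ)).withDensity fun p => ENNReal.ofReal (Real.exp (-p.2))

section

variable {u : E × ℝ → ℝ} {lo hi : ℝ}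

theorem lev_meas (h : Adm u lo hi) (p : E × ℝ) : MeasurableSet (lev u p) :=
  measurableSet_le measurable_const (h.meas.comp measurable_prodMk_left)

theorem lev_vol_ne_top (h : Adm u lo hi) (p : E × ℝ) : volume (lev u p) ≠ ∞ := by
  obtain ⟨R, hR⟩ := h.bdd
  have hsub : lev u p ⊆ Icc (-R) R := fun s hs => by
    have := hR (p.1, s) ((Real.exp_pos _).trans_le hs)
    exact abs_le.1 this
  exact ((measure_mono hsub).trans_lt (by rw [Real.volume_Icc]; exact ENNReal.ofReal_lt_top)).ne

theorem ofReal_wid (h : Adm u lo hi) (p : E × ℝ) : ENNReal.ofReal (wid u p) = volume (lev u p) :=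
  ENNReal.ofReal_toReal (lev_vol_ne_top h p)

theorem wid_nonneg (p : E × ℝ) : 0 ≤ wid u p := ENNReal.toReal_nonneg

theorem wid_measurable (h : Adm u lo hi) : Measurable (wid u) := by
  apply Measurable.ennreal_toReal
  have hs : MeasurableSet {q : (E × ℝ) × ℝ | Real.exp (-q.1.2) ≤ u (q.1.1, q.2)} := by
    apply measurableSet_le
    · exact (Real.measurable_exp.comp (measurable_snd.comp measurable_fst).neg)
    · exact h.meas.comp ((measurable_fst.comp measurable_fst).prodMk measurable_snd)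
  exact measurable_measure_prodMk_left hs

/-- the level sets combine -/
theorem wid_concave (h : Adm u lo hi) {θ : ℝ} (hθ0 : 0 < θ) (hθ1 : θ < 1) {p q : E × ℝ}
    (hp : 0 < wid u p) (hq : 0 < wid u q) :
    (1 - θ) * wid u p + θ * wid u q ≤ wid u ((1 - θ) • p + θ • q) := by
  have hθ1' : 0 < 1 - θ := by linarith
  have hpn : (lev u p).Nonempty := by
    by_contra hne
    rw [not_nonempty_iff_eq_empty] at hne
    rw [wid, hne] at hp
    simp at hp
  have hqn : (lev u q).Nonempty := by
    by_contra hne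
    rw [not_nonempty_iff_eq_empty] at hne
    rw [wid, hne] at hq
    simp at hq
  have hsub : (1 - θ) • lev u p + θ • lev u q ⊆ lev u ((1 - θ) • p + θ • q) := by
    rintro _ ⟨_, ⟨s, hs, rfl⟩, _, ⟨r, hr, rfl⟩, rfl⟩
    have hs' : Real.exp (-p.2) ≤ u (p.1, s) := hs
    have hr' : Real.exp (-q.2) ≤ u (q.1, r) := hr
    have h1 := h.lc θ hθ0 hθ1 (p.1, s) (q.1, r) ((Real.exp_pos _).trans_le hs')
      ((Real.exp_pos _).trans_le hr')
    show Real.exp (-((1 - θ) • p + θ • q).2) ≤
      u (((1 - θ) • p + θ • q).1, (1 - θ) • s + θ • r)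
    have e1 : (1 - θ) • (p.1, s) + θ • (q.1, r) =
        (((1 - θ) • p + θ • q).1, (1 - θ) • s + θ • r) := by
      ext1 <;> simp
    rw [← e1]
    refine le_trans ?_ h1
    have e2 : Real.exp (-((1 - θ) • p + θ • q).2) =
        Real.exp (-p.2) ^ (1 - θ) * Real.exp (-q.2) ^ θ := by
      rw [← Real.exp_mul, ← Real.exp_mul, ← Real.exp_add]
      congr 1
      simp
      ring
    rw [e2]
    exact mul_le_mul (Real.rpow_le_rpow (Real.exp_pos _).le hs' hθ1'.le)
      (Real.rpow_le_rpow (Real.exp_pos _).le hr' hθ0.le) (by positivity) (by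
        exact Real.rpow_nonneg (h.nonneg _) _)
  have hBM := volume_add_le ((lev_meas h p).const_smul₀ (1 - θ))
    ((lev_meas h q).const_smul₀ θ) (hpn.smul_set) (hqn.smul_set)
  have h2 := hBM.trans (measure_mono hsub)
  rw [Measure.addHaar_smul, Measure.addHaar_smul] at h2
  simp only [Module.finrank_self, pow_one, abs_of_pos hθ1', abs_of_pos hθ0] at h2
  rw [← ofReal_wid h, ← ofReal_wid h, ← ofReal_wid h, ← ENNReal.ofReal_mul hθ1'.le,
    ← ENNReal.ofReal_mul hθ0.le, ← ENNReal.ofReal_add (by positivity) (by positivity)] at h2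
  exact (ENNReal.ofReal_le_ofReal_iff (wid_nonneg _)).1 h2

variable {μ : Measure E} [SFinite μ]

theorem nuE_apply {A : Set (E × ℝ)} (hA : MeasurableSet A) :
    nuE μ A = ∫⁻ p, A.indicator (fun p => ENNReal.ofReal (Real.exp (-p.2))) p ∂(μ.prod volume) := by
  rw [nuE, withDensity_apply _ hA, lintegral_indicator hA]

/-- the tails of the length are log-concave -/
theorem tail_logconc (hE : PL E μ) (h : Adm u lo hi) (θ : ℝ) (hθ0 : 0 < θ) (hθ1 : θ < 1)
    (r s : ℝ) (hr : 0 < r) (hs : 0 < s) :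
    nuE μ {p | r ≤ wid u p} ^ (1 - θ) * nuE μ {p | s ≤ wid u p} ^ θ ≤
      nuE μ {p | (1 - θ) * r + θ * s ≤ wid u p} := by
  have hθ1' : 0 < 1 - θ := by linarith
  have hm : ∀ c : ℝ, MeasurableSet {p : E × ℝ | c ≤ wid u p} := fun c =>
    measurableSet_le measurable_const (wid_measurable h)
  have hmE : Measurable fun p : E × ℝ => ENNReal.ofReal (Real.exp (-p.2)) :=
    ENNReal.measurable_ofReal.comp (Real.measurable_exp.comp measurable_snd.neg)
  rw [nuE_apply (hm _), nuE_apply (hm _), nuE_apply (hm _)]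
  refine (hE.prod PL_real) θ hθ0 hθ1 _ _ _ (hmE.indicator (hm _)) (hmE.indicator (hm _))
    (hmE.indicator (hm _)) ?_
  intro p q
  by_cases hp : r ≤ wid u p
  · by_cases hq : s ≤ wid u q
    · rw [indicator_of_mem (show p ∈ {p | r ≤ wid u p} from hp),
        indicator_of_mem (show q ∈ {p | s ≤ wid u p} from hq), indicator_of_mem]
      · rw [ENNReal.ofReal_rpow_of_pos (Real.exp_pos _), ENNReal.ofReal_rpow_of_pos (Real.exp_pos _),
          ← ENNReal.ofReal_mul (by positivity)]
        apply ENNReal.ofReal_le_ofReal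
        rw [← Real.exp_mul, ← Real.exp_mul, ← Real.exp_add]
        apply le_of_eq
        congr 1
        simp
        ring
      · show (1 - θ) * r + θ * s ≤ wid u ((1 - θ) • p + θ • q)
        refine le_trans ?_ (wid_concave h hθ0 hθ1 (hr.trans_le hp) (hs.trans_le hq))
        gcongr
    · rw [indicator_of_notMem (show q ∉ {p | s ≤ wid u p} from hq), ENNReal.zero_rpow_of_pos hθ0,
        mul_zero]
      exact bot_le
  · rw [indicator_of_notMem (show p ∉ {p | r ≤ wid u p} from hp), ENNReal.zero_rpow_of_pos hθ1',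
      zero_mul]
    exact bot_le

/-- **chord lemma** -/
theorem chord (hE : PL E μ) (h : Adm u lo hi) :
    nuE μ {p | 0 < wid u p} * ∫⁻ p, ENNReal.ofReal (wid u p ^ 2) ∂(nuE μ) ≤
      2 * (∫⁻ p, ENNReal.ofReal (wid u p) ∂(nuE μ)) ^ 2 :=
  rev_holder (nuE μ) (wid_measurable h) wid_nonneg
    (fun t h0 h1 r s hr hs => tail_logconc hE h t h0 h1 r s hr hs)

theorem lintegral_nuE {F : E × ℝ → ℝ≥0∞} (hF : Measurable F) :
    ∫⁻ p, F p ∂(nuE μ) = ∫⁻ x, (∫⁻ t : ℝ, ENNReal.ofReal (Real.exp (-t)) * F (x, t)) ∂μ := by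
  have hmE : Measurable fun p : E × ℝ => ENNReal.ofReal (Real.exp (-p.2)) :=
    ENNReal.measurable_ofReal.comp (Real.measurable_exp.comp measurable_snd.neg)
  rw [nuE, lintegral_withDensity_eq_lintegral_mul _ hmE hF, lintegral_prod _ (hmE.mul hF).aemeasurable]
  rfl

end

end Crest.Agent.R225.GS
end

-- ▼ part R225/Geo3

/-!
Row 225 (S0347), geometry 3: windows, caps, floors (pointwise in `x`).
-/

set_option autoImplicit false
set_option linter.unusedSectionVars false

namespace Crest.Agent.R225.GS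

open MeasureTheory Set Filter Crest.Agent.Lib.PrekopaLeindler
open scoped ENNReal Pointwise Topology

variable {E : Type*} [AddCommGroup E] [Module ℝ E] [MeasurableSpace E] {u : E × ℝ → ℝ} {lo hi : ℝ}

/-- `∫ u(x, s) ds` -/
noncomputable def gg (u : E × ℝ → ℝ) (x : E) : ℝ≥0∞ := ∫⁻ s, ENNReal.ofReal (u (x, s))

/-- `∫ W(x, t)^2 e^{-t} dt` -/
noncomputable def ww (u : E × ℝ → ℝ) (x : E) : ℝ≥0∞ :=
  ∫⁻ t : ℝ, ENNReal.ofReal (Real.exp (-t)) * ENNReal.ofReal (wid u (x, t) ^ 2)

/-- integral over a window of length `a` -/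
noncomputable def win (u : E × ℝ → ℝ) (a : ℝ) (x : E) (c : ℝ) : ℝ≥0∞ :=
  ∫⁻ s in Ico c (c + a), ENNReal.ofReal (u (x, s))

/-- largest window integral -/
noncomputable def SS (u : E × ℝ → ℝ) (a : ℝ) (x : E) : ℝ≥0∞ := ⨆ c : ℝ, win u a x c

theorem meas_sec (h : Adm u lo hi) (x : E) : Measurable fun s => u (x, s) :=
  h.meas.comp measurable_prodMk_left

theorem gg_eq (h : Adm u lo hi) (x : E) :
    gg u x = ∫⁻ t : ℝ, ENNReal.ofReal (Real.exp (-t)) * ENNReal.ofReal (wid u (x, t)) := by
  unfold gg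
  rw [layer_exp volume (meas_sec h x) (fun s => h.nonneg _)]
  refine lintegral_congr fun t => ?_
  rw [ofReal_wid h]
  rfl

theorem setint_eq (h : Adm u lo hi) (x : E) (A : Set ℝ) (_hA : MeasurableSet A) :
    ∫⁻ s in A, ENNReal.ofReal (u (x, s)) =
      ∫⁻ t : ℝ, ENNReal.ofReal (Real.exp (-t)) * volume (lev u (x, t) ∩ A) := by
  rw [layer_exp (volume.restrict A) (meas_sec h x) (fun s => h.nonneg _)]
  refine lintegral_congr fun t => ?_
  congr 1
  exact Measure.restrict_apply (lev_meas h (x, t))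

theorem exp_le_int (c : ℝ) (hc : 0 ≤ c) :
    ∫⁻ t : ℝ, ENNReal.ofReal (Real.exp (-t)) * (if Real.exp (-t) ≤ c then 1 else 0) =
      ENNReal.ofReal c := by
  have h := layer_exp (Measure.dirac ()) (v := fun _ => c) measurable_const (fun _ => hc)
  rw [lintegral_dirac] at h
  rw [h]
  refine lintegral_congr fun t => ?_
  congr 1
  by_cases ht : Real.exp (-t) ≤ c
  · simp [ht]
  · simp [ht]

theorem lev_convex (h : Adm u lo hi) (p : E × ℝ) : (lev u p).OrdConnected := by
  rw [ordConnected_iff]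
  intro s hs r hr hsr q hq
  have hs' : Real.exp (-p.2) ≤ u (p.1, s) := hs
  have hr' : Real.exp (-p.2) ≤ u (p.1, r) := hr
  rcases eq_or_lt_of_le hq.1 with h1 | h1
  · rw [← h1]; exact hs
  rcases eq_or_lt_of_le hq.2 with h2 | h2
  · rw [h2]; exact hr
  have hsr' : 0 < r - s := by linarith
  set θ := (q - s) / (r - s) with hθ
  have hθ0 : 0 < θ := div_pos (by linarith) hsr'
  have hθ1 : θ < 1 := (div_lt_one hsr').2 (by linarith)
  have h3 := h.lc θ hθ0 hθ1 (p.1, s) (p.1, r) ((Real.exp_pos _).trans_le hs')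
    ((Real.exp_pos _).trans_le hr')
  have e1 : (1 - θ) • (p.1, s) + θ • (p.1, r) = (p.1, q) := by
    ext1
    · simp only [Prod.fst_add, Prod.smul_fst]
      rw [← add_smul]; simp
    · simp only [Prod.snd_add, Prod.smul_snd, smul_eq_mul]
      rw [hθ]; field_simp; ring
  rw [e1] at h3
  show Real.exp (-p.2) ≤ u (p.1, q)
  refine le_trans ?_ h3
  have e2 : Real.exp (-p.2) = Real.exp (-p.2) ^ (1 - θ) * Real.exp (-p.2) ^ θ := by
    rw [← Real.rpow_add (Real.exp_pos _)]; simp
  rw [e2]
  exact mul_le_mul (Real.rpow_le_rpow (Real.exp_pos _).le hs' (by linarith))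
    (Real.rpow_le_rpow (Real.exp_pos _).le hr' hθ0.le) (by positivity)
    (Real.rpow_nonneg (h.nonneg _) _)

theorem dist_le_wid (h : Adm u lo hi) (p : E × ℝ) {s r : ℝ} (hs : s ∈ lev u p) (hr : r ∈ lev u p) :
    r - s ≤ wid u p := by
  rcases le_or_gt r s with h1 | h1
  · linarith [wid_nonneg (u := u) p]
  · have hsub : Icc s r ⊆ lev u p := (lev_convex h p).out hs hr
    have h2 := measure_mono (μ := volume) hsub
    rw [Real.volume_Icc, ← ofReal_wid h] at h2
    exact (ENNReal.ofReal_le_ofReal_iff (wid_nonneg _)).1 h2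

theorem lev_mono {x : E} {t t' : ℝ} (htt : t ≤ t') : lev u (x, t) ⊆ lev u (x, t') := by
  intro s hs
  have hs' : Real.exp (-t) ≤ u (x, s) := hs
  show Real.exp (-t') ≤ u (x, s)
  exact le_trans (Real.exp_le_exp.2 (by linarith)) hs'

/-- a common limit point of all nonempty level sets -/
theorem exists_center (h : Adm u lo hi) (x : E) :
    ∃ s₀ : ℝ, ∀ t : ℝ, (lev u (x, t)).Nonempty → s₀ ∈ closure (lev u (x, t)) := by
  obtain ⟨R, hR⟩ := h.bdd
  by_cases hne : ∃ t : ℝ, (lev u (x, t)).Nonempty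
  · obtain ⟨t₀, ht₀⟩ := hne
    let ι := {t : ℝ // (lev u (x, t)).Nonempty}
    have : Nonempty ι := ⟨⟨t₀, ht₀⟩⟩
    have hcl : ∀ i : ι, IsClosed (closure (lev u (x, i.1))) := fun i => isClosed_closure
    have hcpt : ∀ i : ι, IsCompact (closure (lev u (x, i.1))) := by
      intro i
      apply Bornology.IsBounded.isCompact_closure
      apply (Metric.isBounded_Icc (-R) R).subset
      intro s hs
      have := hR (x, s) ((Real.exp_pos _).trans_le hs)
      exact abs_le.1 this
    have hdir : Directed (· ⊇ ·) fun i : ι => closure (lev u (x, i.1)) := by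
      intro i j
      rcases le_total i.1 j.1 with hij | hij
      · exact ⟨i, le_refl _, closure_mono (lev_mono hij)⟩
      · exact ⟨j, closure_mono (lev_mono hij), le_refl _⟩
    obtain ⟨s₀, hs₀⟩ := IsCompact.nonempty_iInter_of_directed_nonempty_isCompact_isClosed
      (fun i : ι => closure (lev u (x, i.1))) hdir (fun i => i.2.closure) hcpt hcl
    refine ⟨s₀, fun t ht => ?_⟩
    exact mem_iInter.1 hs₀ ⟨t, ht⟩
  · exact ⟨0, fun t ht => absurd ⟨t, ht⟩ hne⟩

/-- loss of the window -/
theorem window_loss (h : Adm u lo hi) (x : E) (a : ℝ) (ha : 0 < a) :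
    gg u x ≤ SS u a x + ENNReal.ofReal (2 / a) * ww u x := by
  obtain ⟨s₀, hs₀⟩ := exists_center h x
  have key : ∀ t : ℝ, ENNReal.ofReal (wid u (x, t)) ≤
      volume (lev u (x, t) ∩ Ico (s₀ - a / 2) (s₀ - a / 2 + a)) +
        ENNReal.ofReal (2 / a) * ENNReal.ofReal (wid u (x, t) ^ 2) := by
    intro t
    rcases le_or_gt (a / 2) (wid u (x, t)) with h1 | h1
    · refine le_trans ?_ le_add_self
      rw [← ENNReal.ofReal_mul (by positivity)]
      apply ENNReal.ofReal_le_ofReal
      have hw := wid_nonneg (u := u) (x, t)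
      rw [div_mul_eq_mul_div, le_div_iff₀ ha]
      nlinarith
    · refine le_trans ?_ le_self_add
      rw [ofReal_wid h]
      apply measure_mono
      intro s hs
      refine ⟨hs, ?_⟩
      have hcl : s₀ ∈ closure (lev u (x, t)) := hs₀ t ⟨s, hs⟩
      have h2 : |s - s₀| ≤ wid u (x, t) := by
        have hclosed : IsClosed {q : ℝ | |s - q| ≤ wid u (x, t)} :=
          isClosed_le (by fun_prop) continuous_const
        have hsub : lev u (x, t) ⊆ {q : ℝ | |s - q| ≤ wid u (x, t)} := by
          intro q hq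
          rw [mem_ofPred_eq, abs_le]
          constructor
          · linarith [dist_le_wid h (x, t) hs hq]
          · linarith [dist_le_wid h (x, t) hq hs]
        exact (closure_minimal hsub hclosed) hcl
      rw [abs_le] at h2
      constructor <;> linarith [h2.1, h2.2]
  have hmt : Measurable fun t : ℝ => ENNReal.ofReal (Real.exp (-t)) :=
    ENNReal.measurable_ofReal.comp (Real.measurable_exp.comp measurable_neg)
  have hmw : Measurable fun t : ℝ => ENNReal.ofReal (wid u (x, t) ^ 2) :=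
    ENNReal.measurable_ofReal.comp (((wid_measurable h).comp measurable_prodMk_left).pow_const 2)
  calc gg u x = ∫⁻ t : ℝ, ENNReal.ofReal (Real.exp (-t)) * ENNReal.ofReal (wid u (x, t)) :=
        gg_eq h x
    _ ≤ ∫⁻ t : ℝ, (ENNReal.ofReal (Real.exp (-t)) *
          volume (lev u (x, t) ∩ Ico (s₀ - a / 2) (s₀ - a / 2 + a)) +
        ENNReal.ofReal (2 / a) * (ENNReal.ofReal (Real.exp (-t)) *
          ENNReal.ofReal (wid u (x, t) ^ 2))) := by
        refine lintegral_mono fun t => ?_
        refine (mul_le_mul_right (key t) _).trans (le_of_eq ?_)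
        ring
    _ = win u a x (s₀ - a / 2) + ENNReal.ofReal (2 / a) * ww u x := by
        have hp : Measurable fun t : ℝ => ENNReal.ofReal (Real.exp (-t)) *
          ENNReal.ofReal (wid u (x, t) ^ 2) := hmt.mul hmw
        have hp2 : Measurable fun t : ℝ => ENNReal.ofReal (2 / a) * (ENNReal.ofReal (Real.exp (-t)) *
          ENNReal.ofReal (wid u (x, t) ^ 2)) := hp.const_mul _
        rw [lintegral_add_right _ hp2, lintegral_const_mul _ hp,
          win, setint_eq h x _ measurableSet_Ico]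
        rfl
    _ ≤ _ := by
        gcongr
        exact le_iSup (fun c => win u a x c) _

/-- loss of the cap -/
theorem cap_loss (h : Adm u lo hi) (x : E) (A : ℝ) (hA : 0 < A) (hhi : 0 ≤ hi) :
    gg u x ≤ ENNReal.ofReal (A * hi) + ENNReal.ofReal (1 / (4 * A)) * ww u x := by
  have key : ∀ t : ℝ, ENNReal.ofReal (wid u (x, t)) ≤
      ENNReal.ofReal A * (if Real.exp (-t) ≤ hi then 1 else 0) +
        ENNReal.ofReal (1 / (4 * A)) * ENNReal.ofReal (wid u (x, t) ^ 2) := by
    intro t
    by_cases ht : Real.exp (-t) ≤ hi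
    · rw [if_pos ht, mul_one, ← ENNReal.ofReal_mul (by positivity), ← ENNReal.ofReal_add hA.le
        (by positivity)]
      apply ENNReal.ofReal_le_ofReal
      have : 0 ≤ (wid u (x, t) - 2 * A) ^ 2 / (4 * A) := by positivity
      have e : A + 1 / (4 * A) * wid u (x, t) ^ 2 - wid u (x, t) =
          (wid u (x, t) - 2 * A) ^ 2 / (4 * A) := by
        field_simp; ring
      linarith
    · have he : lev u (x, t) = ∅ := by
        ext s
        constructor
        · intro hs
          exact absurd (le_trans hs (h.le _)) ht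
        · intro hs; exact absurd hs (notMem_empty _)
      have : wid u (x, t) = 0 := by rw [wid, he]; simp
      rw [this]; simp
  have hmt : Measurable fun t : ℝ => ENNReal.ofReal (Real.exp (-t)) :=
    ENNReal.measurable_ofReal.comp (Real.measurable_exp.comp measurable_neg)
  have hmw : Measurable fun t : ℝ => ENNReal.ofReal (wid u (x, t) ^ 2) :=
    ENNReal.measurable_ofReal.comp (((wid_measurable h).comp measurable_prodMk_left).pow_const 2)
  have hmi : Measurable fun t : ℝ => (if Real.exp (-t) ≤ hi then 1 else 0 : ℝ≥0∞) := by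
    apply Measurable.ite _ measurable_const measurable_const
    exact measurableSet_le (Real.measurable_exp.comp measurable_neg) measurable_const
  calc gg u x = ∫⁻ t : ℝ, ENNReal.ofReal (Real.exp (-t)) * ENNReal.ofReal (wid u (x, t)) :=
        gg_eq h x
    _ ≤ ∫⁻ t : ℝ, (ENNReal.ofReal A * (ENNReal.ofReal (Real.exp (-t)) *
          (if Real.exp (-t) ≤ hi then 1 else 0)) +
        ENNReal.ofReal (1 / (4 * A)) * (ENNReal.ofReal (Real.exp (-t)) *
          ENNReal.ofReal (wid u (x, t) ^ 2))) := by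
        refine lintegral_mono fun t => ?_
        refine (mul_le_mul_right (key t) _).trans (le_of_eq ?_)
        ring
    _ = _ := by
        have hp : Measurable fun t : ℝ => ENNReal.ofReal (Real.exp (-t)) *
          ENNReal.ofReal (wid u (x, t) ^ 2) := hmt.mul hmw
        have hp2 : Measurable fun t : ℝ => ENNReal.ofReal (1 / (4 * A)) *
          (ENNReal.ofReal (Real.exp (-t)) * ENNReal.ofReal (wid u (x, t) ^ 2)) := hp.const_mul _
        have hp3 : Measurable fun t : ℝ => ENNReal.ofReal (Real.exp (-t)) *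
          (if Real.exp (-t) ≤ hi then 1 else 0 : ℝ≥0∞) := hmt.mul hmi
        rw [lintegral_add_right _ hp2, lintegral_const_mul _ hp,
          lintegral_const_mul _ hp3, exp_le_int hi hhi, ENNReal.ofReal_mul hA.le]
        rfl

/-- the measure of the levels `t` with a level set of positive length -/
noncomputable def bb (u : E × ℝ → ℝ) (x : E) : ℝ≥0∞ :=
  ∫⁻ t : ℝ, ENNReal.ofReal (Real.exp (-t)) * (if 0 < wid u (x, t) then 1 else 0)

theorem lo_le_bb (h : Adm u lo hi) (hlo : 0 ≤ lo) (x : E) (hx : gg u x ≠ 0) :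
    ENNReal.ofReal lo ≤ bb u x := by
  rw [← exp_le_int lo hlo]
  refine lintegral_mono fun t => ?_
  dsimp only
  gcongr
  by_cases ht : Real.exp (-t) ≤ lo
  · rw [if_pos ht, if_pos]
    have hsub : {s | 0 < u (x, s)} ⊆ lev u (x, t) := fun s hs => by
      show Real.exp (-t) ≤ u (x, s)
      exact ht.trans (h.ge _ hs)
    have hpos : 0 < volume {s | 0 < u (x, s)} := by
      rw [pos_iff_ne_zero]
      intro h0
      apply hx
      unfold gg
      have hms : Measurable fun s => ENNReal.ofReal (u (x, s)) :=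
        ENNReal.measurable_ofReal.comp (meas_sec h x)
      rw [lintegral_eq_zero_iff hms]
      have : ∀ᵐ s : ℝ, ¬ 0 < u (x, s) := by
        rw [ae_iff]; simpa using h0
      filter_upwards [this] with s hs
      simp only [Pi.zero_apply, ENNReal.ofReal_eq_zero]
      exact not_lt.1 hs
    rw [wid, ENNReal.toReal_pos_iff]
    exact ⟨hpos.trans_le (measure_mono hsub), lt_top_iff_ne_top.2 (lev_vol_ne_top h _)⟩
  · rw [if_neg ht]; exact bot_le

end Crest.Agent.R225.GS
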