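import Crest.Agent.R225.Iface
import Mathlib
import Crest.Agent.R225.Num

-- ▼ part R225/LargeIface
section

/-!
# Row 225 (S0347): sub-nodes of `S_Large` (helper418)

Plan of `S_Large`: `c1` from Grid, `r` from L3, `Crat, Cr` from Grid, then `X`, then `n`.
`K ⊂ ℝ^{(m+r)+(I+1)}`; Geom gives the chain, Grid the slices, L7 the average bound for each slice
`y`, L2 one `ψ` good for all `y` in the net `{0,1/R,…,2}^r`, `R = 2n²`, Amp the shifts `v`,
L4 the covering by `(1+1/n)K - p`, L3 all numbers.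
Same rules as `Iface.lean`: a node owner proves `theorem prf_Lx : S_Lx`.
-/

set_option autoImplicit false

open Finset MeasureTheory
open scoped BigOperators ENNReal

namespace Crest.Agent.R225

/-- L1. the iterated expectation is the uniform average over all tuples of rows -/
def S_L1 : Prop := ∀ (P m b : ℕ) [NeZero P] (F : List (Row P m) → ℝ),
  Ex b F [] = 𝔼 ρ : Fin b → Row P m, F (List.ofFn ρ).reverse

open scoped Classical in
/-- L2. one `ψ` which is good for all slices (pigeonhole). -/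
def S_L2 : Prop := ∀ (P m b : ℕ) [NeZero P] (ι : Type) [Fintype ι] (q : ℝ)
  (Bad : ι → (Fin b → Fin m → ZMod P) → (Fin b → ZMod P) → Prop),
  (∀ y, 𝔼 ρ : Fin b → Row P m,
    (if Bad y (fun j => (ρ j).2) (fun j => (ρ j).1) then (1 : ℝ) else 0) ≤ q) →
  ∃ ψ : Fin b → Fin m → ZMod P, ∀ y,
    (((univ : Finset (Fin b → ZMod P)).filter (fun c => Bad y ψ c)).card : ℝ)
      ≤ Fintype.card ι * q * (P : ℝ) ^ b

/-- the density parameter `D = e^X N*` -/
noncomputable def Dn (X : ℝ) (n : ℕ) : ℝ := Real.exp X * NN n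

/-- `α₀ = D / n^{11m}` -/
noncomputable def a0 (X : ℝ) (n m : ℕ) : ℝ := Dn X n / (n : ℝ) ^ (11 * m)

/-- L3. numerics and choice of `r, I, m`. (`S_Num` may be used as a hypothesis.)
`(I+1) log(16 n²) + log(al_I lam_I/α₀) + ∑ (√x_i + θ x_i) ≤ 13 N*` and
`2^r (c1/200000 N* - O_r(log n)) > 14 N*` for `2^r ≥ 10^8/c1`. -/
def S_L3 : Prop := ∀ c1 : ℝ, 0 < c1 → c1 ≤ 1 → ∃ r : ℕ, ∃ X0 : ℝ, 1 ≤ X0 ∧ ∀ X ≥ X0,
  ∃ n0 : ℕ, ∀ n ≥ n0, ∃ I m : ℕ, (m + r) + (I + 1) = n ∧ n ≤ 2 * m ∧ m ≤ n ∧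
    (n : ℝ) ^ (9 / 10 : ℝ) ≤ xl X I ∧ xl X I ≤ 2 * (n : ℝ) ^ (9 / 10 : ℝ) ∧
    0 < NN n ∧ 0 < a0 X n m ∧ a0 X n m * Real.exp (theta * xl X I) ≤ al X I ∧
    0 < tau X (I + 1) ∧ tau X (I + 1) ≤ 1 ∧ Real.exp (-(m : ℝ)) ≤ tau X (I + 1) ∧
    (n : ℝ) ^ (10 * m) * a0 X n m ≤ Dn X n ∧ Dn X n ≤ (n : ℝ) ^ (12 * m) * a0 X n m ∧
    ∃ P0 : ℕ, ∀ P ≥ P0, ∃ ρ : Fin (I + 1) → ℕ, (∀ j, ρ j ≤ P) ∧
      (∀ j : Fin (I + 1), 8 * (n : ℝ) ^ 2 * Qf X (a0 X n m) I j * ρ j ≤ P) ∧
      (((2 ^ r * (2 * n ^ 2) ^ r + 1 : ℕ) : ℝ) *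
        (((4 * n ^ 2 + 1) ^ r : ℕ) * Real.exp (-(c1 / 200000 * NN n)))) ^ (2 ^ r) *
          (P : ℝ) ^ (I + 1) < ∏ j, (ρ j : ℝ)

/-- the class `c` is covered in the slice `y` -/
def HitR {m r b : ℕ} (P : ℕ) (a : ℕ → ℝ) (t : Fin (m + r) → ℝ)
    (A : Matrix (Fin (m + r)) (Fin (m + r)) ℝ) (K : Set (Fin ((m + r) + b) → ℝ)) (ψ : Fin b → Fin m → ZMod P) (y : Fin r → ℝ)
    (c : Fin b → ZMod P) : Prop :=
  ∃ (g : Pt m) (k : Fin b → ℤ),
    (∀ j, ((k j : ℤ) : ZMod P) = c j + ∑ i, ψ j i * ((g i : ℤ) : ZMod P)) ∧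
      Fin.append (bp t A g y) (fun j : Fin b => a j * k j / P) ∈ K

/-- L6. a point where `U_j ≠ 0` lifts to a point of `K` -/
def S_L6 : Prop := ∀ (X : ℝ) (d I : ℕ) (α0 : ℝ) (K : Set (Fin (d + (I + 1)) → ℝ)) (a : ℕ → ℝ)
  (U : ∀ j : ℕ, (Fin (d + j) → ℝ) → ℝ≥0∞), Chain X d I α0 K a U →
  ∀ (j : ℕ) (hj : j ≤ I + 1) (x : Fin (d + j) → ℝ), U j x ≠ 0 →
    ∃ k ∈ K, ∀ i : Fin (d + j), k (Fin.castLE (by omega) i) = x i

open scoped Classical in
/-- L7. the average bound for one slice, from Disc, PMain and L1. -/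
def S_L7 : Prop := S_Disc → S_PMain → ∀ c1 Crat : ℝ, 0 < c1 → c1 ≤ 1 → 1 ≤ Crat → ∃ X0 : ℝ,
  ∀ X ≥ X0, ∃ n0 : ℕ, ∀ n ≥ n0, ∀ m r I : ℕ, (n : ℝ) ^ (9 / 10 : ℝ) ≤ xl X I →
  xl X I ≤ 2 * (n : ℝ) ^ (9 / 10 : ℝ) → n ≤ 2 * m → m ≤ n →
  ∀ (α0 Cr : ℝ) (K : Set (Fin ((m + r) + (I + 1)) → ℝ)) (a : ℕ → ℝ)
    (U : ∀ j : ℕ, (Fin ((m + r) + j) → ℝ) → ℝ≥0∞)
    (t : Fin (m + r) → ℝ) (A : Matrix (Fin (m + r)) (Fin (m + r)) ℝ)
    (G : (Fin r → ℝ) → Finset (Pt m)), 0 < α0 → Chain X (m + r) I α0 K a U →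
    SliceData n m r c1 (Dn X n) Crat Cr (U 0) t A G →
    ∀ y : Fin r → ℝ, (∀ l, 0 ≤ y l ∧ y l ≤ 2) → ∃ P0 : ℕ, ∀ P ≥ P0, ∀ [Fact P.Prime],
      𝔼 ρ : Fin (I + 1) → Row P m,
        (if ¬ HitR P a t A K (fun j => (ρ j).2) y (fun j => (ρ j).1) then (1 : ℝ) else 0)
        ≤ Real.exp (-(c1 / 200000 * NN n))

end Crest.Agent.R225
end

-- ▼ part R225/LargeIface2
section

/-!
# Row 225 (S0347): sub-nodes L4a, L4b, L4c of `S_Large` (helper418)
-/

set_option autoImplicit false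

open Finset MeasureTheory
open scoped BigOperators ENNReal

namespace Crest.Agent.R225

/-- L4a. the lattice: block triangular matrix (base block `A`, rows `a_j·(residue)/P`). It contains
every vector `(A(g₀,w), a κ/P)` with `κ ≡ ψ(g₀) + v(w)`. -/
def S_L4a : Prop := ∀ (m r b P : ℕ) [NeZero P] (a : ℕ → ℝ)
  (A : Matrix (Fin (m + r)) (Fin (m + r)) ℝ) (ψ : Fin b → Fin m → ZMod P)
  (v : Fin r → Fin b → ZMod P),
  ∃ g : Matrix (Fin ((m + r) + b)) (Fin ((m + r) + b)) ℝ,
    g.det = A.det * ∏ j : Fin b, a j ∧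
    ∀ (g0 : Pt m) (w : Fin r → ℤ) (κ : Fin b → ℤ),
      (∀ j, ((κ j : ℤ) : ZMod P) = ∑ i, ψ j i * ((g0 i : ℤ) : ZMod P) +
        ∑ l, v l j * ((w l : ℤ) : ZMod P)) →
      ∃ z : Fin ((m + r) + b) → ℤ, g.mulVec (fun i => (z i : ℝ)) =
        Fin.append (A.mulVec (Fin.append (fun k => (g0 k : ℝ)) (fun l => (w l : ℝ))))
          (fun j : Fin b => a j * κ j / P)

/-- a system of directions `D = v - u` (differences of points of `K`), indexed by
`Fin m ⊕ Fin r ⊕ Fin b`, triangular with respect to grid / slice / fibre coordinates. -/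
structure Dirs (n m r b P : ℕ) (a : ℕ → ℝ) (A : Matrix (Fin (m + r)) (Fin (m + r)) ℝ)
    (ρ : Fin b → ℕ) (D : Fin m ⊕ Fin r ⊕ Fin b → Fin ((m + r) + b) → ℝ) : Prop where
  gx : ∀ l : Fin m, ∀ i : Fin (m + r), D (Sum.inl l) (Fin.castAdd b i) =
    A.mulVec (Fin.append (Pi.single l ((n : ℝ) ^ 4)) 0) i
  gy : ∀ l : Fin r, ∃ vv : Fin m → ℝ, ∀ i : Fin (m + r),
    D (Sum.inr (Sum.inl l)) (Fin.castAdd b i) =
      A.mulVec (Fin.append vv (Pi.single l 1)) i
  gf : ∀ j : Fin b, (∀ i : Fin (m + r), D (Sum.inr (Sum.inr j)) (Fin.castAdd b i) = 0) ∧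
    (∀ i : Fin b, i < j → D (Sum.inr (Sum.inr j)) (Fin.natAdd (m + r) i) = 0) ∧
    0 < D (Sum.inr (Sum.inr j)) (Fin.natAdd (m + r) j) ∧
    a j * ρ j ≤ P * (D (Sum.inr (Sum.inr j)) (Fin.natAdd (m + r) j) * (1 / (2 * (n : ℝ) ^ 2)))

/-- L4b. rounding: slice coordinates down to the net of mesh `1/(2n²)` (directions `gy`), grid
coordinates to integers (`gx`), then the fibres triangularly (`tri_classes` of `EndA.lean`). -/
def S_L4b : Prop := ∀ (n m r b P : ℕ) [NeZero P] (a : ℕ → ℝ) (t : Fin (m + r) → ℝ)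
  (A : Matrix (Fin (m + r)) (Fin (m + r)) ℝ) (ρ : Fin b → ℕ)
  (D : Fin m ⊕ Fin r ⊕ Fin b → Fin ((m + r) + b) → ℝ), 2 ≤ n → A.det ≠ 0 → (∀ j, 0 < a j) →
  (∀ j, ρ j ≤ P) → Dirs n m r b P a A ρ D → ∀ x : Fin ((m + r) + b) → ℝ,
  ∃ (τ : Fin r → Fin (2 * n ^ 2)) (w0 : Fin r → ℤ) (g0 : Pt m) (T : Finset (Fin b → ZMod P)),
    ∏ j, ρ j ≤ T.card ∧ ∀ c ∈ T, ∃ κ : Fin b → ℤ, (∀ j, ((κ j : ℤ) : ZMod P) = c j) ∧
      ∃ s : Fin m ⊕ Fin r ⊕ Fin b → ℝ, (∀ i, |s i| ≤ 1 / (2 * (n : ℝ) ^ 2)) ∧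
        x - ∑ i, s i • D i =
          Fin.append (bp t A g0 (fun l => (w0 l : ℝ) + ((τ l : ℕ) : ℝ) / (2 * (n : ℝ) ^ 2)))
            (fun j : Fin b => a j * κ j / P)

open scoped Classical in
/-- L4c. covering by the expanded body `K + {∑ s_i D_i}`. `N = 2n²`-net, shifts `v`. -/
def S_L4c : Prop := ∀ (n m r b P : ℕ) [NeZero P] (a : ℕ → ℝ) (t : Fin (m + r) → ℝ)
  (A : Matrix (Fin (m + r)) (Fin (m + r)) ℝ) (ρ : Fin b → ℕ)
  (D : Fin m ⊕ Fin r ⊕ Fin b → Fin ((m + r) + b) → ℝ) (K : Set (Fin ((m + r) + b) → ℝ))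
  (ψ : Fin b → Fin m → ZMod P) (v : Fin r → Fin b → ZMod P), 2 ≤ n → A.det ≠ 0 →
  (∀ j, 0 < a j) → (∀ j, ρ j ≤ P) → Dirs n m r b P a A ρ D →
  (∀ τ : Fin r → Fin (2 * n ^ 2), ((univ : Finset (Fin b → ZMod P)).filter fun c =>
    ∀ J : Finset (Fin r), ¬ HitR P a t A K ψ
      (fun l => ((τ l : ℕ) : ℝ) / (2 * (n : ℝ) ^ 2) + if l ∈ J then 1 else 0)
      (c - ∑ i ∈ J, v i)).card < ∏ j, ρ j) →
  ∃ g : Matrix (Fin ((m + r) + b)) (Fin ((m + r) + b)) ℝ, g.det = A.det * ∏ j : Fin b, a j ∧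
    ∀ x : Fin ((m + r) + b) → ℝ, ∃ z : Fin ((m + r) + b) → ℤ, ∃ k ∈ K,
      ∃ s : Fin m ⊕ Fin r ⊕ Fin b → ℝ, (∀ i, |s i| ≤ 1 / (2 * (n : ℝ) ^ 2)) ∧
        x - g.mulVec (fun i => (z i : ℝ)) = k + ∑ i, s i • D i

end Crest.Agent.R225
end

-- ▼ part R225/EndA
section

/-!
Row 225: abstract lemmas for the END of S0347 (helper418).
`expand_mem` : `K + {∑ s_i (u_i - v_i) : |s_i| ≤ 1/(2n²)} ⊆ (1+1/n) K - p/n`.
`tri_classes` : triangular system of directions reaches at least `∏ ρ_j` residue classes.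
-/

set_option autoImplicit false

open Finset
open scoped BigOperators

namespace Crest.Agent.R225

/-- the expanded body contains `K` plus small combinations of chords -/
theorem expand_mem {E : Type*} [AddCommGroup E] [Module ℝ E] {K : Set E} (hK : Convex ℝ K)
    {ι : Type*} [Fintype ι] (u v : ι → E) (hu : ∀ i, u i ∈ K) (hv : ∀ i, v i ∈ K)
    (n : ℝ) (hn : 1 ≤ n) (hcard : (Fintype.card ι : ℝ) = n) (s : ι → ℝ)
    (hs : ∀ i, |s i| ≤ 1 / (2 * n ^ 2)) (k : E) (hk : k ∈ K) :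
    ∃ k' ∈ K, k + ∑ i, s i • (u i - v i) =
      (1 + 1 / n) • k' - (1 / n) • ((1 / (2 * n)) • ∑ i, (u i + v i)) := by
  have hn0 : 0 < n := by linarith
  -- the convex combination of the `u i`, `v i`
  set w : E := ∑ i, ((1 / (2 * n)) * (1 + 2 * n ^ 2 * s i)) • u i +
    ∑ i, ((1 / (2 * n)) * (1 - 2 * n ^ 2 * s i)) • v i with hw
  have hsi : ∀ i, |2 * n ^ 2 * s i| ≤ 1 := by
    intro i
    rw [abs_mul, abs_of_pos (by positivity)]
    calc 2 * n ^ 2 * |s i| ≤ 2 * n ^ 2 * (1 / (2 * n ^ 2)) :=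
          mul_le_mul_of_nonneg_left (hs i) (by positivity)
      _ = 1 := by field_simp
  have hwK : w ∈ K := by
    have h1 : w = ∑ j : ι ⊕ ι, (Sum.elim (fun i => (1 / (2 * n)) * (1 + 2 * n ^ 2 * s i))
        (fun i => (1 / (2 * n)) * (1 - 2 * n ^ 2 * s i)) j) • (Sum.elim u v j) := by
      rw [Fintype.sum_sum_type]; simp [hw]
    rw [h1]
    refine hK.sum_mem (fun j _ => ?_) ?_ (fun j _ => ?_)
    · rcases j with i | i
      · have := (abs_le.1 (hsi i)).1
        simp only [Sum.elim_inl]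
        have h2 : 0 ≤ 1 + 2 * n ^ 2 * s i := by linarith
        positivity
      · have := (abs_le.1 (hsi i)).2
        simp only [Sum.elim_inr]
        have h2 : 0 ≤ 1 - 2 * n ^ 2 * s i := by linarith
        positivity
    · rw [Fintype.sum_sum_type]
      simp only [Sum.elim_inl, Sum.elim_inr]
      rw [← Finset.sum_add_distrib]
      have : ∀ i : ι, 1 / (2 * n) * (1 + 2 * n ^ 2 * s i) + 1 / (2 * n) * (1 - 2 * n ^ 2 * s i) = 1 / n := by
        intro i; field_simp; ring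
      simp only [this]
      rw [Finset.sum_const, Finset.card_univ, nsmul_eq_mul, hcard]
      field_simp
    · rcases j with i | i
      · exact hu i
      · exact hv i
  refine ⟨(n / (n + 1)) • k + (1 / (n + 1)) • w, ?_, ?_⟩
  · exact hK hk hwK (by positivity) (by positivity) (by field_simp)
  · have h3 : w = (1 / (2 * n)) • ∑ i, (u i + v i) + n • ∑ i, s i • (u i - v i) := by
      rw [hw, Finset.smul_sum, Finset.smul_sum, ← Finset.sum_add_distrib, ← Finset.sum_add_distrib]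
      refine Finset.sum_congr rfl fun i _ => ?_
      rw [smul_add, smul_smul, smul_sub, ]
      have e1 : 1 / (2 * n) * (1 + 2 * n ^ 2 * s i) = 1 / (2 * n) + n * s i := by field_simp
      have e2 : 1 / (2 * n) * (1 - 2 * n ^ 2 * s i) = 1 / (2 * n) - n * s i := by field_simp
      rw [e1, e2, add_smul, sub_smul]
      abel
    have e3 : (1 + 1 / n) * (n / (n + 1)) = 1 := by field_simp
    have e4 : (1 + 1 / n) * (1 / (n + 1)) = 1 / n := by field_simp
    have e6 : (1 + 1 / n) • ((n / (n + 1)) • k + (1 / (n + 1)) • w) = k + (1 / n) • w := by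
      rw [smul_add, smul_smul, smul_smul, e3, e4, one_smul]
    have e7 : 1 / n * n = 1 := by field_simp
    rw [e6, h3, smul_add (1 / n), smul_smul (1 / n) n, e7, one_smul]
    abel

/-- Triangular counting. -/
theorem tri_classes (P : ℕ) [NeZero P] (sb : ℝ) :
    ∀ (b : ℕ) (a : Fin b → ℝ) (w : Fin b → Fin b → ℝ) (ρ : Fin b → ℕ),
      (∀ j, 0 < a j) → (∀ j i, i < j → w j i = 0) → (∀ j, 0 < w j j) →
      (∀ j, ρ j ≤ P) → (∀ j, a j * ρ j ≤ P * (w j j * sb)) → ∀ x : Fin b → ℝ,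
      ∃ T : Finset (Fin b → ZMod P), ∏ j, ρ j ≤ T.card ∧ ∀ c ∈ T, ∃ κ : Fin b → ℤ,
        (∀ j, ((κ j : ℤ) : ZMod P) = c j) ∧ ∃ s : Fin b → ℝ, (∀ j, 0 ≤ s j ∧ s j ≤ sb) ∧
          ∀ i, x i - ∑ j, s j * w j i = a i * κ i / P := by
  classical
  intro b
  induction b with
  | zero =>
    intro a w ρ _ _ _ _ _ x
    refine ⟨{fun i => i.elim0}, by simp, fun c hc => ⟨fun i => i.elim0, fun j => j.elim0,
      fun i => i.elim0, fun j => j.elim0, fun j => j.elim0⟩⟩
  | succ b ih =>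
    intro a w ρ ha hw0 hw1 hρP hρ x
    have hP : (0:ℝ) < P := by exact_mod_cast Nat.pos_of_ne_zero (NeZero.ne P)
    -- the first coordinate: `κ₀ = t₀ + i`, `t₀ = ⌈P (x 0 - w₀₀ sb)/a₀⌉`
    set t0 : ℤ := ⌈P * (x 0 - w 0 0 * sb) / a 0⌉ with ht0
    have hs0 : ∀ i0 : Fin (ρ 0), ∃ s0 : ℝ, (0 ≤ s0 ∧ s0 ≤ sb) ∧
        x 0 - s0 * w 0 0 = a 0 * ((t0 + (i0 : ℕ) : ℤ) : ℝ) / P := by
      intro i0
      refine ⟨(x 0 - a 0 * ((t0 + (i0 : ℕ) : ℤ) : ℝ) / P) / w 0 0, ⟨?_, ?_⟩, ?_⟩
      · refine div_nonneg ?_ (hw1 0).le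
        rw [sub_nonneg, div_le_iff₀ hP]
        have h1 : (t0 : ℝ) < P * (x 0 - w 0 0 * sb) / a 0 + 1 := Int.ceil_lt_add_one _
        have h2 : ((i0 : ℕ) : ℝ) + 1 ≤ ρ 0 := by exact_mod_cast i0.2
        have h3 := hρ 0
        have h4 : a 0 * (P * (x 0 - w 0 0 * sb) / a 0) = P * (x 0 - w 0 0 * sb) := by
          have := (ha 0).ne'; field_simp
        push_cast
        have h5 := mul_lt_mul_of_pos_left h1 (ha 0)
        rw [mul_add, h4] at h5
        have h6 := mul_le_mul_of_nonneg_left h2 (ha 0).le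
        nlinarith
      · rw [div_le_iff₀ (hw1 0), sub_le_iff_le_add, ← sub_le_iff_le_add', le_div_iff₀ hP]
        have h1 : P * (x 0 - w 0 0 * sb) / a 0 ≤ (t0 : ℝ) := Int.le_ceil _
        have h2 : (0:ℝ) ≤ ((i0 : ℕ) : ℝ) := Nat.cast_nonneg _
        rw [div_le_iff₀ (ha 0)] at h1
        push_cast
        nlinarith [mul_nonneg (ha 0).le h2]
      · have := (hw1 0).ne'
        field_simp
        ring
    choose s0 hs0b hs0e using hs0
    have hIH : ∀ i0 : Fin (ρ 0), ∃ T : Finset (Fin b → ZMod P), ∏ j : Fin b, ρ j.succ ≤ T.card ∧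
        ∀ c ∈ T, ∃ κ : Fin b → ℤ, (∀ j, ((κ j : ℤ) : ZMod P) = c j) ∧ ∃ s : Fin b → ℝ,
          (∀ j, 0 ≤ s j ∧ s j ≤ sb) ∧
          ∀ i : Fin b, (x i.succ - s0 i0 * w 0 i.succ) - ∑ j : Fin b, s j * w j.succ i.succ =
            a i.succ * κ i / P := fun i0 =>
      ih (fun j => a j.succ) (fun j i => w j.succ i.succ) (fun j => ρ j.succ)
        (fun j => ha _) (fun j i hij => hw0 _ _ (Fin.succ_lt_succ_iff.2 hij)) (fun j => hw1 _)
        (fun j => hρP _) (fun j => hρ _) (fun i => x i.succ - s0 i0 * w 0 i.succ)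
    choose T hTc hT using hIH
    refine ⟨(univ : Finset (Fin (ρ 0))).biUnion (fun i0 => (T i0).image
      (fun c => (Fin.cons (((t0 + (i0 : ℕ) : ℤ)) : ZMod P) c : Fin (b + 1) → ZMod P))), ?_, ?_⟩
    · rw [Finset.card_biUnion]
      · have h1 : ∀ i0 ∈ (univ : Finset (Fin (ρ 0))), ∏ j : Fin b, ρ j.succ ≤
            ((T i0).image (fun c => (Fin.cons (((t0 + (i0 : ℕ) : ℤ)) : ZMod P) c :
              Fin (b + 1) → ZMod P))).card := by
          intro i0 _
          rw [Finset.card_image_of_injective _ (Fin.cons_right_injective _)]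
          exact hTc i0
        refine le_trans ?_ (Finset.sum_le_sum h1)
        rw [Finset.sum_const, Finset.card_univ, Fintype.card_fin, smul_eq_mul, Fin.prod_univ_succ]
      · intro i0 _ i1 _ hne
        rw [Function.onFun, Finset.disjoint_left]
        intro c hc hc'
        obtain ⟨c0, _, rfl⟩ := Finset.mem_image.1 hc
        obtain ⟨c1, _, h1⟩ := Finset.mem_image.1 hc'
        have h2 := congrFun h1 0
        simp only [Fin.cons_zero] at h2
        apply hne
        have h3 : (((i1 : ℕ) : ℤ) : ZMod P) = (((i0 : ℕ) : ℤ) : ZMod P) := by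
          push_cast at h2 ⊢
          exact add_left_cancel h2
        have h4 : ((i1 : ℕ) : ZMod P) = ((i0 : ℕ) : ZMod P) := by exact_mod_cast h3
        rw [ZMod.natCast_eq_natCast_iff'] at h4
        have h5 : (i1 : ℕ) < P := i1.2.trans_le (hρP 0)
        have h6 : (i0 : ℕ) < P := i0.2.trans_le (hρP 0)
        rw [Nat.mod_eq_of_lt h5, Nat.mod_eq_of_lt h6] at h4
        exact (Fin.ext h4).symm
    · intro c hc
      obtain ⟨i0, _, hc⟩ := Finset.mem_biUnion.1 hc
      obtain ⟨c', hc', rfl⟩ := Finset.mem_image.1 hc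
      obtain ⟨κ, hκ, s, hs, hx⟩ := hT i0 c' hc'
      refine ⟨Fin.cons (t0 + (i0 : ℕ) : ℤ) κ, fun j => ?_, Fin.cons (s0 i0) s, fun j => ?_,
        fun i => ?_⟩
      · refine Fin.cases ?_ (fun j => ?_) j
        · simp
        · simpa using hκ j
      · refine Fin.cases ?_ (fun j => ?_) j
        · simpa using hs0b i0
        · simpa using hs j
      · rw [Fin.sum_univ_succ]
        simp only [Fin.cons_zero, Fin.cons_succ]
        refine Fin.cases ?_ (fun i => ?_) i
        · simp only [Fin.cons_zero]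
          have h1 : ∑ j : Fin b, s j * w j.succ 0 = 0 :=
            Finset.sum_eq_zero fun j _ => by rw [hw0 _ _ (Fin.succ_pos j), mul_zero]
          rw [h1, add_zero]
          exact hs0e i0
        · simp only [Fin.cons_succ]
          rw [← hx i]; ring

end Crest.Agent.R225
end

-- ▼ part R225/LargeX
section

/-! Row 225: assembly of `S_Large` (helper418): directions, shifts, density. -/

set_option autoImplicit false

open Finset MeasureTheory
open scoped BigOperators ENNReal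

namespace Crest.Agent.R225

theorem snoc_lt {k : ℕ} (x : Fin k → ℝ) (s : ℝ) (i : Fin (k + 1)) (h : i.val < k) :
    (Fin.snoc x s : Fin (k + 1) → ℝ) i = x ⟨i.val, h⟩ := by
  have : i = Fin.castSucc ⟨i.val, h⟩ := Fin.ext rfl
  conv_lhs => rw [this]
  rw [Fin.snoc_castSucc (α := fun _ => ℝ)]

theorem snoc_eq_last {k : ℕ} (x : Fin k → ℝ) (s : ℝ) (i : Fin (k + 1)) (h : i.val = k) :
    (Fin.snoc x s : Fin (k + 1) → ℝ) i = s := by
  have : i = Fin.last k := Fin.ext h
  rw [this, Fin.snoc_last (α := fun _ => ℝ)]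

theorem Qf_pos {X α0 : ℝ} (h : 0 < α0) (I j : ℕ) : 0 < Qf X α0 I j := by
  unfold Qf al lam
  split_ifs <;> positivity

/-- the system of directions. -/
theorem dirs_of_chain (h6 : S_L6) {X : ℝ} {n m r I : ℕ} {α0 c1 D Crat Cr : ℝ}
    {K : Set (Fin ((m + r) + (I + 1)) → ℝ)} {a : ℕ → ℝ}
    {U : ∀ j : ℕ, (Fin ((m + r) + j) → ℝ) → ℝ≥0∞} {t : Fin (m + r) → ℝ}
    {A : Matrix (Fin (m + r)) (Fin (m + r)) ℝ} {G : (Fin r → ℝ) → Finset (Pt m)}
    (hα0 : 0 < α0) (hn : 0 < n) (hch : Chain X (m + r) I α0 K a U)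
    (hS : SliceData n m r c1 D Crat Cr (U 0) t A G) (P : ℕ) (ρ : Fin (I + 1) → ℕ)
    (hρ : ∀ j : Fin (I + 1), 8 * (n : ℝ) ^ 2 * Qf X α0 I j * ρ j ≤ P) :
    ∃ u v : Fin m ⊕ Fin r ⊕ Fin (I + 1) → (Fin ((m + r) + (I + 1)) → ℝ),
      (∀ i, u i ∈ K) ∧ (∀ i, v i ∈ K) ∧
        Dirs n m r (I + 1) P a A ρ (fun i => v i - u i) := by
  have hn' : (0:ℝ) < n := by exact_mod_cast hn
  -- grid directions
  have hx : ∀ l : Fin m, ∃ p ∈ K, ∃ q ∈ K, ∀ i : Fin (m + r),
      (q - p) (Fin.castAdd (I + 1) i) = A.mulVec (Fin.append (Pi.single l ((n : ℝ) ^ 4)) 0) i := by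
    intro l
    obtain ⟨p, q, hp, hq, hpq⟩ := hS.segx l
    obtain ⟨kp, hkp, hp'⟩ := h6 X (m + r) I α0 K a U hch 0 (by omega) p hp
    obtain ⟨kq, hkq, hq'⟩ := h6 X (m + r) I α0 K a U hch 0 (by omega) q hq
    refine ⟨kp, hkp, kq, hkq, fun i => ?_⟩
    have h1 := hp' i
    have h2 := hq' i
    have e : (Fin.castLE (by omega) (i : Fin ((m + r) + 0)) : Fin ((m + r) + (I + 1))) =
        Fin.castAdd (I + 1) i := Fin.ext rfl
    rw [e] at h1 h2
    rw [Pi.sub_apply, h1, h2, ← hpq, Pi.sub_apply]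
  have hy : ∀ l : Fin r, ∃ p ∈ K, ∃ q ∈ K, ∃ vv : Fin m → ℝ, ∀ i : Fin (m + r),
      (q - p) (Fin.castAdd (I + 1) i) = A.mulVec (Fin.append vv (Pi.single l 1)) i := by
    intro l
    obtain ⟨p, q, vv, hp, hq, hpq⟩ := hS.segy l
    obtain ⟨kp, hkp, hp'⟩ := h6 X (m + r) I α0 K a U hch 0 (by omega) p hp
    obtain ⟨kq, hkq, hq'⟩ := h6 X (m + r) I α0 K a U hch 0 (by omega) q hq
    refine ⟨kp, hkp, kq, hkq, vv, fun i => ?_⟩
    have h1 := hp' i
    have h2 := hq' i
    have e : (Fin.castLE (by omega) (i : Fin ((m + r) + 0)) : Fin ((m + r) + (I + 1))) =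
        Fin.castAdd (I + 1) i := Fin.ext rfl
    rw [e] at h1 h2
    rw [Pi.sub_apply, h1, h2, ← hpq, Pi.sub_apply]
  have hf : ∀ j : Fin (I + 1), ∃ p ∈ K, ∃ q ∈ K,
      (∀ i : Fin (m + r), (q - p) (Fin.castAdd (I + 1) i) = 0) ∧
      (∀ i : Fin (I + 1), i < j → (q - p) (Fin.natAdd (m + r) i) = 0) ∧
      0 < (q - p) (Fin.natAdd (m + r) j) ∧
      a j ≤ 2 * Qf X α0 I j * (q - p) (Fin.natAdd (m + r) j) := by
    intro j
    obtain ⟨x, s1, s2, hs1, hs2, hs⟩ := hch.seg j (by omega)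
    obtain ⟨kp, hkp, hp'⟩ := h6 X (m + r) I α0 K a U hch (j + 1) (by omega) _ hs1
    obtain ⟨kq, hkq, hq'⟩ := h6 X (m + r) I α0 K a U hch (j + 1) (by omega) _ hs2
    have hval : ∀ (i : Fin ((m + r) + (I + 1))) (h : i.val < (m + r) + j),
        kq i - kp i = 0 := by
      intro i h
      have h1 := hp' ⟨i.val, by omega⟩
      have h2 := hq' ⟨i.val, by omega⟩
      have e : (Fin.castLE (by omega) (⟨i.val, by omega⟩ : Fin ((m + r) + (↑j + 1))) :
          Fin ((m + r) + (I + 1))) = i := Fin.ext rfl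
      rw [e] at h1 h2
      rw [h1, h2, snoc_lt (k := m + r + j) x s1 ⟨i.val, by omega⟩ h,
        snoc_lt (k := m + r + j) x s2 ⟨i.val, by omega⟩ h, sub_self]
    have hlast : kq (Fin.natAdd (m + r) j) - kp (Fin.natAdd (m + r) j) = s2 - s1 := by
      have h1 := hp' ⟨m + r + j, by omega⟩
      have h2 := hq' ⟨m + r + j, by omega⟩
      have e : (Fin.castLE (by omega) (⟨m + r + j, by omega⟩ : Fin ((m + r) + (↑j + 1))) :
          Fin ((m + r) + (I + 1))) = Fin.natAdd (m + r) j := Fin.ext rfl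
      rw [e] at h1 h2
      rw [h1, h2, snoc_eq_last (k := m + r + j) x s1 ⟨m + r + j, by omega⟩ rfl,
        snoc_eq_last (k := m + r + j) x s2 ⟨m + r + j, by omega⟩ rfl]
    have ha := hch.pos j
    have hQ := Qf_pos (X := X) hα0 I j
    have hpos : 0 < s2 - s1 := by
      by_contra hcon
      push Not at hcon
      have : 2 * Qf X α0 I j * (s2 - s1) ≤ 0 :=
        mul_nonpos_of_nonneg_of_nonpos (by positivity) hcon
      linarith
    refine ⟨kp, hkp, kq, hkq, fun i => ?_, fun i hij => ?_, ?_, ?_⟩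
    · rw [Pi.sub_apply]
      exact hval _ (by simp; omega)
    · rw [Pi.sub_apply]
      refine hval _ ?_
      have : i.val < j.val := hij
      simp; omega
    · rw [Pi.sub_apply, hlast]; exact hpos
    · rw [Pi.sub_apply, hlast]; exact hs
  choose px hpx qx hqx hx using hx
  choose py hpy qy hqy hy using hy
  choose pf hpf qf hqf hf1 hf2 hf3 hf4 using hf
  refine ⟨Sum.elim px (Sum.elim py pf), Sum.elim qx (Sum.elim qy qf), ?_, ?_, ?_⟩
  · rintro (i | i | i)
    · exact hpx i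
    · exact hpy i
    · exact hpf i
  · rintro (i | i | i)
    · exact hqx i
    · exact hqy i
    · exact hqf i
  · refine ⟨fun l i => hx l i, fun l => hy l, fun j => ⟨hf1 j, hf2 j, hf3 j, ?_⟩⟩
    simp only [Sum.elim_inr]
    have hσ := hf3 j
    set σ := (qf j - pf j) (Fin.natAdd (m + r) j) with hσd
    have h4 := hf4 j
    have hr := hρ j
    have hQ := Qf_pos (X := X) hα0 I j
    have hρ0 : (0:ℝ) ≤ ρ j := Nat.cast_nonneg _
    calc a j * ρ j ≤ (2 * Qf X α0 I j * σ) * ρ j := mul_le_mul_of_nonneg_right h4 hρ0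
      _ = (8 * (n : ℝ) ^ 2 * Qf X α0 I j * ρ j) * (σ * (1 / (4 * (n:ℝ) ^ 2))) := by
          field_simp; ring
      _ ≤ P * (σ * (1 / (4 * (n:ℝ) ^ 2))) :=
          mul_le_mul_of_nonneg_right hr (by positivity)
      _ ≤ P * (σ * (1 / (2 * (n:ℝ) ^ 2))) := by
          refine mul_le_mul_of_nonneg_left (mul_le_mul_of_nonneg_left ?_ hσ.le)
            (Nat.cast_nonneg _)
          exact one_div_le_one_div_of_le (by positivity) (by nlinarith [sq_nonneg (n:ℝ)])

open scoped Classical in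
/-- good `ψ` and shifts. -/
theorem exists_shifts (hAmp : S_Amp) (hL2 : S_L2) {m r b n P : ℕ} [NeZero P]
    {a : ℕ → ℝ} {t : Fin (m + r) → ℝ} {A : Matrix (Fin (m + r)) (Fin (m + r)) ℝ}
    {K : Set (Fin ((m + r) + b) → ℝ)} (q : ℝ) (hq : 0 ≤ q) (hn : 0 < n)
    (havg : ∀ k : Fin r → Fin (4 * n ^ 2 + 1), 𝔼 ρ : Fin b → Row P m,
      (if ¬ HitR P a t A K (fun j => (ρ j).2) (fun l => ((k l : ℕ) : ℝ) / (2 * (n : ℝ) ^ 2))
        (fun j => (ρ j).1) then (1 : ℝ) else 0) ≤ q)
    (B : ℝ) (hB : (((2 ^ r * (2 * n ^ 2) ^ r + 1 : ℕ) : ℝ) *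
        (((4 * n ^ 2 + 1) ^ r : ℕ) * q)) ^ (2 ^ r) * (P : ℝ) ^ b < B) :
    ∃ (ψ : Fin b → Fin m → ZMod P) (v : Fin r → Fin b → ZMod P),
      ∀ τ : Fin r → Fin (2 * n ^ 2), (((univ : Finset (Fin b → ZMod P)).filter fun c =>
        ∀ J : Finset (Fin r), ¬ HitR P a t A K ψ
          (fun l => ((τ l : ℕ) : ℝ) / (2 * (n : ℝ) ^ 2) + if l ∈ J then 1 else 0)
          (c - ∑ i ∈ J, v i)).card : ℝ) < B := by
  obtain ⟨ψ, hψ⟩ := hL2 P m b (Fin r → Fin (4 * n ^ 2 + 1)) q
    (fun k ψ c => ¬ HitR P a t A K ψ (fun l => ((k l : ℕ) : ℝ) / (2 * (n : ℝ) ^ 2)) c)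
    (fun k => by convert havg k)
  have hn' : (0:ℝ) < n := by exact_mod_cast hn
  have hcardT : Fintype.card (Fin b → ZMod P) = P ^ b := by
    rw [Fintype.card_fun, ZMod.card, Fintype.card_fin]
  obtain ⟨v, hv⟩ := hAmp r (2 ^ r * (2 * n ^ 2) ^ r + 1) (Fin b → ZMod P)
    (Fin r → Fin (2 * n ^ 2))
    (fun τ J => (univ : Finset (Fin b → ZMod P)).filter fun c => ¬ HitR P a t A K ψ
          (fun l => ((τ l : ℕ) : ℝ) / (2 * (n : ℝ) ^ 2) + if l ∈ J then 1 else 0) c)
    (((4 * n ^ 2 + 1) ^ r : ℕ) * q) (by positivity)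
    (by rw [Fintype.card_fun, Fintype.card_fin, Fintype.card_fin]; omega)
    (by
      intro τ J
      have hk := hψ (fun l => ⟨(τ l : ℕ) + (if l ∈ J then 2 * n ^ 2 else 0), by
        have := (τ l).2
        split_ifs <;> omega⟩)
      have e : (fun l => ((((⟨(τ l : ℕ) + (if l ∈ J then 2 * n ^ 2 else 0), by
        have := (τ l).2
        split_ifs <;> omega⟩ : Fin (4 * n ^ 2 + 1)) : ℕ) : ℝ) / (2 * (n : ℝ) ^ 2))) =
          (fun l => ((τ l : ℕ) : ℝ) / (2 * (n : ℝ) ^ 2) + if l ∈ J then 1 else 0) := by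
        ext l
        simp only
        split_ifs with h
        · push_cast
          field_simp
        · simp
      rw [e] at hk
      rw [Fintype.card_fun, Fintype.card_fin, Fintype.card_fin] at hk
      rw [hcardT]
      push_cast at hk ⊢
      convert hk)
  refine ⟨ψ, v, fun τ => lt_of_le_of_lt ?_ hB⟩
  have h := hv τ
  rw [hcardT] at h
  push_cast at h ⊢
  refine le_trans (le_of_eq ?_) h
  congr 2
  ext c
  simp only [mem_filter, mem_univ, true_and]

end Crest.Agent.R225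
end

-- ▼ part R225/Large
section

/-! Row 225: node Large. -/

set_option autoImplicit false

open Finset MeasureTheory
open scoped BigOperators ENNReal

namespace Crest.Agent.R225

/-- from covering by `K + E` to covering by `K`. -/
theorem covers_of_expand {N n : ℕ} (hNn : N = n) (hn : 1 ≤ n) {K : Set (Fin N → ℝ)}
    (hK : Convex ℝ K)
    {ι : Type*} [Fintype ι] (u v : ι → Fin N → ℝ) (hu : ∀ i, u i ∈ K) (hv : ∀ i, v i ∈ K)
    (hcard : Fintype.card ι = n) (g : Matrix (Fin N) (Fin N) ℝ)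
    (hg : ∀ x : Fin N → ℝ, ∃ z : Fin N → ℤ, ∃ k ∈ K, ∃ s : ι → ℝ,
      (∀ i, |s i| ≤ 1 / (2 * (n : ℝ) ^ 2)) ∧
        x - g.mulVec (fun i => (z i : ℝ)) = k + ∑ i, s i • (v i - u i)) :
    ∃ g' : Matrix (Fin N) (Fin N) ℝ, g'.det = (1 + 1 / (n:ℝ))⁻¹ ^ n * g.det ∧ Covers g' K := by
  have hn' : (1:ℝ) ≤ n := by exact_mod_cast hn
  have hn0 : (0:ℝ) < n := by linarith
  have hc : (0:ℝ) < 1 + 1 / n := by positivity
  refine ⟨(1 + 1 / (n:ℝ))⁻¹ • g, by
    rw [Matrix.det_smul, Fintype.card_fin]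
    exact congrArg (fun k => (1 + 1 / (n:ℝ))⁻¹ ^ k * g.det) hNn, fun x => ?_⟩
  set p : Fin N → ℝ := (1 / (2 * (n:ℝ))) • ∑ i, (v i + u i) with hp
  obtain ⟨z, k, hk, s, hs, hx⟩ := hg ((1 + 1 / (n:ℝ)) • x - (1 / (n:ℝ)) • p)
  obtain ⟨k', hk', hkk⟩ := expand_mem hK v u hv hu (n:ℝ) hn' (by exact_mod_cast hcard) s hs k hk
  refine ⟨z, ?_⟩
  rw [hkk] at hx
  have h1 : x - ((1 + 1 / (n:ℝ))⁻¹ • g).mulVec (fun i => (z i : ℝ)) = k' := by
    have h2 : (1 + 1 / (n:ℝ)) • x - g.mulVec (fun i => (z i : ℝ)) = (1 + 1 / (n:ℝ)) • k' := by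
      have h3 : (1 + 1 / (n:ℝ)) • x - g.mulVec (fun i => (z i : ℝ)) =
          ((1 + 1 / (n:ℝ)) • x - (1 / (n:ℝ)) • p - g.mulVec (fun i => (z i : ℝ))) +
            (1 / (n:ℝ)) • p := by abel
      rw [h3, hx]; abel
    have h4 : (1 + 1 / (n:ℝ))⁻¹ • ((1 + 1 / (n:ℝ)) • x - g.mulVec (fun i => (z i : ℝ))) = k' := by
      rw [h2, smul_smul, inv_mul_cancel₀ hc.ne', one_smul]
    rw [smul_sub, smul_smul, inv_mul_cancel₀ hc.ne', one_smul] at h4
    rw [Matrix.smul_mulVec]
    exact h4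
  rw [h1]; exact hk'

open scoped Classical in
theorem large_core (hAmp : S_Amp) (hL2 : S_L2) (hL4c : S_L4c) (hL6 : S_L6)
    {c1 X Crat Cr : ℝ} (hCr : 1 ≤ Cr) {n m r I : ℕ} (hmn : (m + r) + (I + 1) = n) (hn2 : 2 ≤ n)
    (hG : ∀ (U0 : (Fin (m + r) → ℝ) → ℝ≥0∞) (τ0 α0 D : ℝ), LC U0 → Measurable U0 → BddSupp U0 →
      0 < τ0 → τ0 ≤ 1 → Real.exp (-(m : ℝ)) ≤ τ0 → 0 < α0 → Vals α0 τ0 U0 → ∫⁻ x, U0 x ≠ 0 →
      0 < D → (n : ℝ) ^ (10 * m) * α0 ≤ D → D ≤ (n : ℝ) ^ (12 * m) * α0 →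
      ∃ (t : Fin (m + r) → ℝ) (A : Matrix (Fin (m + r)) (Fin (m + r)) ℝ)
        (G : (Fin r → ℝ) → Finset (Pt m)), SliceData n m r c1 D Crat Cr U0 t A G)
    (hGeom : ∀ (d I : ℕ) (α0 : ℝ) (K : Set (Fin (d + (I + 1)) → ℝ)),
      0 < α0 → α0 * Real.exp (theta * xl X I) ≤ al X I → IsCompact K → Convex ℝ K →
      volume K ≠ 0 → ∃ a U, Chain X d I α0 K a U)
    (h7 : ∀ (α0 Cr : ℝ) (K : Set (Fin ((m + r) + (I + 1)) → ℝ)) (a : ℕ → ℝ)
      (U : ∀ j : ℕ, (Fin ((m + r) + j) → ℝ) → ℝ≥0∞)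
      (t : Fin (m + r) → ℝ) (A : Matrix (Fin (m + r)) (Fin (m + r)) ℝ)
      (G : (Fin r → ℝ) → Finset (Pt m)), 0 < α0 → Chain X (m + r) I α0 K a U →
      SliceData n m r c1 (Dn X n) Crat Cr (U 0) t A G →
      ∀ y : Fin r → ℝ, (∀ l, 0 ≤ y l ∧ y l ≤ 2) → ∃ P0 : ℕ, ∀ P ≥ P0, ∀ [Fact P.Prime],
        𝔼 ρ : Fin (I + 1) → Row P m,
          (if ¬ HitR P a t A K (fun j => (ρ j).2) y (fun j => (ρ j).1) then (1 : ℝ) else 0)
          ≤ Real.exp (-(c1 / 200000 * NN n)))
    (hNN : 0 < NN n) (ha0 : 0 < a0 X n m)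
    (ha0' : a0 X n m * Real.exp (theta * xl X I) ≤ al X I)
    (htau0 : 0 < tau X (I + 1)) (htau1 : tau X (I + 1) ≤ 1)
    (htau2 : Real.exp (-(m : ℝ)) ≤ tau X (I + 1))
    (hD1 : (n : ℝ) ^ (10 * m) * a0 X n m ≤ Dn X n) (hD2 : Dn X n ≤ (n : ℝ) ^ (12 * m) * a0 X n m)
    (P3 : ℕ) (hP3 : ∀ P ≥ P3, ∃ ρ : Fin (I + 1) → ℕ, (∀ j, ρ j ≤ P) ∧
      (∀ j : Fin (I + 1), 8 * (n : ℝ) ^ 2 * Qf X (a0 X n m) I j * ρ j ≤ P) ∧
      (((2 ^ r * (2 * n ^ 2) ^ r + 1 : ℕ) : ℝ) *
        (((4 * n ^ 2 + 1) ^ r : ℕ) * Real.exp (-(c1 / 200000 * NN n)))) ^ (2 ^ r) *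
          (P : ℝ) ^ (I + 1) < ∏ j, (ρ j : ℝ))
    (K : Set (Fin ((m + r) + (I + 1)) → ℝ)) (hK : IsCompact K) (hc : Convex ℝ K)
    (hi : (interior K).Nonempty) :
    ∃ g : Matrix (Fin ((m + r) + (I + 1))) (Fin ((m + r) + (I + 1))) ℝ, g.det ≠ 0 ∧ Covers g K ∧
      (volume K).toReal / |g.det| ≤ Real.exp 1 * (2 * (Cr * Real.exp X)) * NN n := by
  classical
  have hKvol : volume K ≠ 0 := by
    have h1 : 0 < volume (interior K) := isOpen_interior.measure_pos volume hi
    exact (h1.trans_le (measure_mono interior_subset)).ne'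
  obtain ⟨a, U, hch⟩ := hGeom (m + r) I (a0 X n m) K ha0 ha0' hK hc hKvol
  have half0 : alf X (a0 X n m) I 0 = a0 X n m := if_pos rfl
  have htauf0 : tauf X I 0 = tau X (I + 1) := by simp [tauf]
  have hU0int : ∫⁻ x, U 0 x ≠ 0 := by
    intro h0
    have := hch.mass
    rw [h0, mul_zero] at this
    exact hKvol (le_antisymm this bot_le)
  have hDpos : 0 < Dn X n := mul_pos (Real.exp_pos _) hNN
  obtain ⟨t, A, G, hS⟩ := hG (U 0) (tauf X I 0) (a0 X n m) (Dn X n)
    (hch.lc 0 (by omega)) (hch.meas 0 (by omega)) (hch.bdd 0 (by omega))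
    (by rw [htauf0]; exact htau0) (by rw [htauf0]; exact htau1) (by rw [htauf0]; exact htau2)
    ha0 (by have := hch.rng 0 (by omega); rwa [half0] at this) hU0int hDpos hD1 hD2
  -- the primes
  have hP7 : ∀ k : Fin r → Fin (4 * n ^ 2 + 1), ∃ P0 : ℕ, ∀ P ≥ P0, ∀ [Fact P.Prime],
      𝔼 ρ : Fin (I + 1) → Row P m,
        (if ¬ HitR P a t A K (fun j => (ρ j).2) (fun l => ((k l : ℕ) : ℝ) / (2 * (n : ℝ) ^ 2))
          (fun j => (ρ j).1) then (1 : ℝ) else 0)
        ≤ Real.exp (-(c1 / 200000 * NN n)) := by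
    intro k
    obtain ⟨P0, hP0⟩ := h7 (a0 X n m) Cr K a U t A G ha0 hch hS
      (fun l => ((k l : ℕ) : ℝ) / (2 * (n : ℝ) ^ 2)) (fun l => ⟨by positivity, by
        have hn0 : (0:ℝ) < n := by positivity
        rw [div_le_iff₀ (by positivity)]
        have h1 : (k l : ℕ) ≤ 4 * n ^ 2 := Nat.lt_succ_iff.1 (k l).2
        have h2 : ((k l : ℕ) : ℝ) ≤ 4 * (n:ℝ) ^ 2 := by exact_mod_cast h1
        linarith⟩)
    refine ⟨P0, fun P hP hpr => ?_⟩
    convert hP0 P hP
  choose P7 hP7 using hP7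
  obtain ⟨P, hPge, hPprime⟩ := Nat.exists_infinite_primes (max P3 (∑ k, P7 k))
  have : Fact P.Prime := ⟨hPprime⟩
  have : NeZero P := ⟨hPprime.ne_zero⟩
  obtain ⟨ρ, hρP, hρ, hlast⟩ := hP3 P ((le_max_left _ _).trans hPge)
  have hn0 : 0 < n := by omega
  obtain ⟨u, v, hu, hv, hDirs⟩ := dirs_of_chain hL6 ha0 hn0 hch hS P ρ hρ
  obtain ⟨ψ, vv, hbad⟩ := exists_shifts hAmp hL2 (a := a) (t := t) (A := A) (K := K) (b := I + 1)
    (n := n) (P := P) (m := m) (r := r)
    (Real.exp (-(c1 / 200000 * NN n))) (Real.exp_pos _).le hn0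
    (fun k => by
      have h1 : P7 k ≤ P := (Finset.single_le_sum (f := P7) (fun _ _ => Nat.zero_le _)
        (mem_univ k)).trans ((le_max_right _ _).trans hPge)
      convert hP7 k P h1) (∏ j, (ρ j : ℝ)) hlast
  obtain ⟨g, hdet, hg⟩ := hL4c n m r (I + 1) P a t A ρ (fun i => v i - u i) K ψ vv hn2 hS.det
    hch.pos hρP hDirs (fun τ => by
      have h1 := hbad τ
      rw [← Nat.cast_prod] at h1
      have h2 := Nat.cast_lt.1 h1
      convert h2)
  obtain ⟨g', hdet', hcov⟩ := covers_of_expand hmn (by omega) hc u v hu hv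
    (by simp; omega) g hg
  have hApos : 0 < |A.det| := abs_pos.2 hS.det
  have haprod : 0 < ∏ j : Fin (I + 1), a j := Finset.prod_pos fun j _ => hch.pos j
  have hnr : (0:ℝ) < n := by exact_mod_cast hn0
  have hcpos : (0:ℝ) < (1 + 1 / (n:ℝ))⁻¹ ^ n := by positivity
  have hgdet : |g'.det| = (1 + 1 / (n:ℝ))⁻¹ ^ n * (|A.det| * ∏ j : Fin (I + 1), a j) := by
    rw [hdet', hdet, abs_mul, abs_mul, abs_of_pos hcpos, abs_of_pos haprod]
  have hg'pos : 0 < |g'.det| := by rw [hgdet]; positivity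
  refine ⟨g', abs_pos.1 hg'pos, hcov, ?_⟩
  -- density
  have hvol : (volume K).toReal ≤ 2 * (∏ j : Fin (I + 1), a j) * (Cr * Dn X n * |A.det|) := by
    refine ENNReal.toReal_le_of_le_ofReal (by positivity) ?_
    have h1 : ∏ j ∈ range (I + 1), a j = ∏ j : Fin (I + 1), a j := Finset.prod_range _
    calc volume K ≤ 2 * ENNReal.ofReal (∏ j ∈ range (I + 1), a j) * ∫⁻ x, U 0 x := hch.mass
      _ ≤ 2 * ENNReal.ofReal (∏ j ∈ range (I + 1), a j) *
          ENNReal.ofReal (Cr * Dn X n * |A.det|) := by gcongr; exact hS.mass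
      _ = _ := by
          rw [h1, ENNReal.ofReal_mul (by positivity : (0:ℝ) ≤ 2 * ∏ j : Fin (I + 1), a j),
            ENNReal.ofReal_mul (by norm_num : (0:ℝ) ≤ 2)]
          congr 2
          norm_num
  have hexp : (1 + 1 / (n:ℝ)) ^ n ≤ Real.exp 1 := by
    have h1 : 1 + 1 / (n:ℝ) ≤ Real.exp (1 / n) := by
      have := Real.add_one_le_exp (1 / (n:ℝ)); linarith
    calc (1 + 1 / (n:ℝ)) ^ n ≤ Real.exp (1 / n) ^ n := pow_le_pow_left₀ (by positivity) h1 n
      _ = Real.exp 1 := by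
          rw [← Real.exp_nat_mul]; congr 1; field_simp
  rw [div_le_iff₀ hg'pos, hgdet]
  have h5 : Real.exp 1 * (2 * (Cr * Real.exp X)) * NN n *
      ((1 + 1 / (n:ℝ))⁻¹ ^ n * (|A.det| * ∏ j : Fin (I + 1), a j)) =
      (Real.exp 1 * (1 + 1 / (n:ℝ))⁻¹ ^ n) *
        (2 * (∏ j : Fin (I + 1), a j) * (Cr * Dn X n * |A.det|)) := by
    simp only [Dn]; ring
  rw [h5]
  have h6 : 1 ≤ Real.exp 1 * (1 + 1 / (n:ℝ))⁻¹ ^ n := by
    rw [inv_pow, ← div_eq_mul_inv, one_le_div (by positivity)]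
    exact hexp
  refine hvol.trans ?_
  have h7 : 0 ≤ 2 * (∏ j : Fin (I + 1), a j) * (Cr * Dn X n * |A.det|) := by positivity
  nlinarith

theorem prf_Large (hGeom : S_Geom) (hDisc : S_Disc) (hGrid : S_Grid) (hPMain : S_PMain)
    (hAmp : S_Amp) (hL2 : S_L2) (hL3 : S_L3) (hL4c : S_L4c) (hL6 : S_L6) (hL7 : S_L7) :
    S_Large := by
  obtain ⟨c1, hc1, hc1', hGr⟩ := hGrid
  obtain ⟨r, X0, hX0, hL3⟩ := hL3 c1 hc1 hc1'
  obtain ⟨Crat, Cr, hCrat, hCr, nG, hG⟩ := hGr r
  obtain ⟨XG, hGeom⟩ := hGeom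
  obtain ⟨X7, h7⟩ := hL7 hDisc hPMain c1 Crat hc1 hc1' hCrat
  obtain ⟨X, hXX0, hXXG, hXX7⟩ : ∃ X : ℝ, X0 ≤ X ∧ XG ≤ X ∧ X7 ≤ X :=
    ⟨max X0 (max XG X7), le_max_left _ _, (le_max_left _ _).trans (le_max_right _ _),
      (le_max_right _ _).trans (le_max_right _ _)⟩
  obtain ⟨n3, h3⟩ := hL3 X hXX0
  obtain ⟨n7, h7⟩ := h7 X hXX7
  refine ⟨Real.exp 1 * (2 * (Cr * Real.exp X)), max n3 (max n7 (max nG 2)),
    fun n hn K hK hc hi => ?_⟩
  have hn3 : n3 ≤ n := (le_max_left _ _).trans hn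
  have hn7 : n7 ≤ n := ((le_max_left _ _).trans (le_max_right _ _)).trans hn
  have hnG : nG ≤ n :=
    ((le_max_left _ _).trans ((le_max_right _ _).trans (le_max_right _ _))).trans hn
  have hn2 : 2 ≤ n :=
    ((le_max_right _ _).trans ((le_max_right _ _).trans (le_max_right _ _))).trans hn
  obtain ⟨I, m, hmn, hnm, hmn', hx1, hx2, hNN, ha0, ha0', htau0, htau1, htau2, hD1, hD2, P3, hP3⟩ :=
    h3 n hn3
  subst hmn
  exact large_core hAmp hL2 hL4c hL6 hCr rfl hn2 (fun U0 τ0 α0 D => hG _ hnG m hnm hmn' U0 τ0 α0 D)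
    (fun d I α0 K => hGeom X hXXG d I α0 K)
    (fun α0 Cr K a U t A G => h7 _ hn7 m r I hx1 hx2 hnm hmn' α0 Cr K a U t A G)
    hNN ha0 ha0' htau0 htau1 htau2 hD1 hD2 P3 hP3 K hK hc hi

end Crest.Agent.R225
end

-- ▼ part R225/L3
section

/-!
# Row 225 (S0347): node L3 (numerics of the final assembly)
-/

set_option autoImplicit false

open Finset MeasureTheory Filter
open scoped BigOperators ENNReal

namespace Crest.Agent.R225

open NumL

namespace L3

lemma ev_log (A B : ℝ) : ∀ᶠ x : ℝ in atTop, A + B * Real.log x ≤ x := by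
  have h1 := (Real.isLittleO_log_id_atTop.const_mul_left B).def (c := 1 / 2) (by norm_num)
  filter_upwards [h1, eventually_ge_atTop (2 * |A|), eventually_ge_atTop 0] with x hx hA h0
  simp only [id, Real.norm_eq_abs, abs_of_nonneg h0] at hx
  have := le_abs_self (B * Real.log x)
  have := le_abs_self A
  linarith

lemma ev_log2 (C : ℝ) : ∀ᶠ x : ℝ in atTop, C * Real.log x ^ 2 ≤ x := by
  have h1 := ((Real.isLittleO_pow_log_id_atTop (n := 2)).const_mul_left C).def (c := 1)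
    (by norm_num)
  filter_upwards [h1, eventually_ge_atTop 0] with x hx h0
  simp only [id, Real.norm_eq_abs, abs_of_nonneg h0] at hx
  have := le_abs_self (C * Real.log x ^ 2)
  linarith

lemma ev_rpow (C a : ℝ) (ha : a < 1) : ∀ᶠ x : ℝ in atTop, C * x ^ a ≤ x := by
  have h1 := (tendsto_rpow_atTop (y := 1 - a) (by linarith)).eventually_ge_atTop C
  filter_upwards [h1, eventually_gt_atTop 0] with x hx h0
  calc C * x ^ a ≤ x ^ (1 - a) * x ^ a :=
        mul_le_mul_of_nonneg_right hx (Real.rpow_nonneg h0.le _)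
    _ = x := by rw [← Real.rpow_add h0]; simp

lemma one_le_mul' {a b : ℝ} (ha : 1 ≤ a) (hb : 1 ≤ b) : 1 ≤ a * b := by nlinarith


/-- the geometric sum of the levels -/
lemma sum_xl (X : ℝ) (i : ℕ) : ∑ j ∈ range i, theta * xl X j = xl X i - X := by
  induction i with
  | zero => simp [xl]
  | succ i ih => rw [sum_range_succ, ih, xl_succ]; ring

/-- product of the thinning factors -/
lemma prod_Qf (X α0 : ℝ) (I : ℕ) :
    ∏ j ∈ range (I + 1), Qf X α0 I j =
      1 / α0 * Real.exp (∑ j ∈ range (I + 1), Real.sqrt (xl X j)) := by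
  have h1 : ∏ j ∈ range (I + 1), Qf X α0 I j =
      (∏ j ∈ range I, (lam X j * Real.exp (theta * xl X j))) * (al X I * lam X I / α0) := by
    rw [prod_range_succ']
    congr 1
    rw [← prod_range_reflect]
    refine prod_congr rfl fun j hj => ?_
    have hj' := mem_range.1 hj
    unfold Qf
    rw [if_neg (by omega)]
    have : I - (I - 1 - j + 1) = j := by omega
    rw [this]
  rw [h1, prod_mul_distrib, ← Real.exp_sum, sum_xl]
  unfold lam al
  rw [← Real.exp_sum, sum_range_succ, Real.exp_add]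
  have : Real.exp (xl X I - X) * Real.exp (-(xl X I - X)) = 1 := by
    rw [← Real.exp_add]; simp
  rw [show Real.exp (∑ i ∈ range I, Real.sqrt (xl X i)) * Real.exp (xl X I - X) *
      (Real.exp (-(xl X I - X)) * Real.exp (Real.sqrt (xl X I)) / α0) =
      (Real.exp (xl X I - X) * Real.exp (-(xl X I - X))) *
      (1 / α0 * (Real.exp (∑ i ∈ range I, Real.sqrt (xl X i)) * Real.exp (Real.sqrt (xl X I))))
      by ring, this, one_mul]

lemma const_bound {c1 : ℝ} (hc1 : 0 < c1) {r n : ℕ} (hr : 10 ^ 8 / c1 ≤ (2 : ℝ) ^ r)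
    (hr1 : 1 ≤ r) (hn : 8 ≤ n) (hn2 : 2400000 * (r : ℝ) ≤ c1 * n) :
    (((2 ^ r * (2 * n ^ 2) ^ r + 1 : ℕ) : ℝ) *
        (((4 * n ^ 2 + 1) ^ r : ℕ) * Real.exp (-(c1 / 200000 * NN n)))) ^ (2 ^ r)
      ≤ Real.exp (-(250 * NN n)) := by
  have hn0 : 0 < n := by omega
  have hcube : 8 * n ^ 2 ≤ n ^ 3 := by
    rw [pow_succ n 2, mul_comm]; exact Nat.mul_le_mul_left _ hn
  have h1 : 2 ^ r * (2 * n ^ 2) ^ r + 1 ≤ (n ^ 3) ^ r := by
    have e1 : 2 ^ r * (2 * n ^ 2) ^ r = (4 * n ^ 2) ^ r := by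
      rw [← mul_pow]; congr 1; ring
    have e2 : 1 ≤ (4 * n ^ 2) ^ r := Nat.one_le_pow _ _ (by positivity)
    have e3 : 2 * (4 * n ^ 2) ^ r ≤ (8 * n ^ 2) ^ r := by
      have : (8 * n ^ 2) ^ r = 2 ^ r * (4 * n ^ 2) ^ r := by
        rw [← mul_pow]; congr 1; ring
      rw [this]
      refine Nat.mul_le_mul_right _ ?_
      calc 2 = 2 ^ 1 := rfl
        _ ≤ 2 ^ r := Nat.pow_le_pow_right (by norm_num) hr1
    calc 2 ^ r * (2 * n ^ 2) ^ r + 1 ≤ 2 * (4 * n ^ 2) ^ r := by rw [e1]; omega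
      _ ≤ (8 * n ^ 2) ^ r := e3
      _ ≤ (n ^ 3) ^ r := Nat.pow_le_pow_left hcube r
  have h2 : (4 * n ^ 2 + 1) ^ r ≤ (n ^ 3) ^ r := by
    refine Nat.pow_le_pow_left (le_trans ?_ hcube) r
    have : 1 ≤ n ^ 2 := Nat.one_le_pow _ _ hn0
    omega
  have hnR : (0 : ℝ) < n := by exact_mod_cast hn0
  have hlog : 0 ≤ Real.log n := Real.log_nonneg (by exact_mod_cast (by omega : 1 ≤ n))
  have h3 : ((n : ℝ) ^ 3) ^ r = Real.exp (3 * r * Real.log n) := by
    rw [← pow_mul, ← Real.exp_log (pow_pos hnR (3 * r)), Real.log_pow]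
    push_cast; ring_nf
  have h4 : ((2 ^ r * (2 * n ^ 2) ^ r + 1 : ℕ) : ℝ) *
        (((4 * n ^ 2 + 1) ^ r : ℕ) * Real.exp (-(c1 / 200000 * NN n)))
      ≤ Real.exp (-(c1 / 400000 * NN n)) := by
    have h1' : ((2 ^ r * (2 * n ^ 2) ^ r + 1 : ℕ) : ℝ) ≤ Real.exp (3 * r * Real.log n) := by
      rw [← h3]; exact_mod_cast h1
    have h2' : (((4 * n ^ 2 + 1) ^ r : ℕ) : ℝ) ≤ Real.exp (3 * r * Real.log n) := by
      rw [← h3]; exact_mod_cast h2
    calc _ ≤ Real.exp (3 * r * Real.log n) * (Real.exp (3 * r * Real.log n) *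
          Real.exp (-(c1 / 200000 * NN n))) := by
          gcongr
      _ = Real.exp (6 * r * Real.log n - c1 / 200000 * NN n) := by
          rw [← Real.exp_add, ← Real.exp_add]; congr 1; ring
      _ ≤ Real.exp (-(c1 / 400000 * NN n)) := by
          apply Real.exp_le_exp.2
          unfold NN
          nlinarith
  calc _ ≤ (Real.exp (-(c1 / 400000 * NN n))) ^ (2 ^ r) := by
        gcongr
    _ = Real.exp (-((2 : ℝ) ^ r * (c1 / 400000) * NN n)) := by
        rw [← Real.exp_nat_mul]; push_cast; congr 1; ring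
    _ ≤ Real.exp (-(250 * NN n)) := by
        apply Real.exp_le_exp.2
        rw [neg_le_neg_iff]
        have hNN : 0 ≤ NN n := by unfold NN; positivity
        refine mul_le_mul_of_nonneg_right ?_ hNN
        rw [div_le_iff₀ hc1] at hr
        linarith

/-- choice of the residue windows -/
lemma exists_rho (I : ℕ) (c : ℕ → ℝ) (hc : ∀ j, 1 ≤ c j) :
    ∃ P0 : ℕ, 1 ≤ P0 ∧ ∀ P ≥ P0, ∃ ρ : Fin (I + 1) → ℕ, (∀ j, ρ j ≤ P) ∧
      (∀ j : Fin (I + 1), c j * ρ j ≤ P) ∧
      (P : ℝ) ^ (I + 1) ≤ (∏ j ∈ range (I + 1), (2 * c j)) * ∏ j, (ρ j : ℝ) := by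
  refine ⟨⌈∑ j ∈ range (I + 1), c j⌉₊ + 1, by omega, fun P hP => ?_⟩
  have hcP : ∀ j : Fin (I + 1), c j ≤ P := by
    intro j
    have h1 : c j ≤ ∑ j ∈ range (I + 1), c j :=
      single_le_sum (f := fun j => c j) (fun i _ => by have := hc i; linarith)
        (mem_range.2 j.2)
    have h2 := Nat.le_ceil (∑ j ∈ range (I + 1), c j)
    have h3 : ((⌈∑ j ∈ range (I + 1), c j⌉₊ + 1 : ℕ) : ℝ) ≤ P := by exact_mod_cast hP
    push_cast at h3
    linarith
  refine ⟨fun j => ⌊(P : ℝ) / c j⌋₊, fun j => ?_, fun j => ?_, ?_⟩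
  · have : (⌊(P : ℝ) / c j⌋₊ : ℝ) ≤ P := by
      refine (Nat.floor_le (by have := hc j; positivity)).trans ?_
      exact div_le_self (by positivity) (hc j)
    exact_mod_cast this
  · have h0 : 0 < c j := by have := hc j; linarith
    have := Nat.floor_le (a := (P : ℝ) / c j) (by positivity)
    calc c j * (⌊(P : ℝ) / c j⌋₊ : ℝ) ≤ c j * (P / c j) :=
          mul_le_mul_of_nonneg_left this h0.le
      _ = P := by field_simp
  · rw [prod_range (fun j => 2 * c j), ← prod_mul_distrib]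
    calc (P : ℝ) ^ (I + 1) = ∏ j : Fin (I + 1), (P : ℝ) := by simp
      _ ≤ _ := by
        refine prod_le_prod (fun _ _ => by positivity) fun j _ => ?_
        have h0 : 0 < c j := by have := hc j; linarith
        have h1 : (1 : ℝ) ≤ P / c j := by rw [le_div_iff₀ h0]; linarith [hcP j]
        have h2 := Nat.lt_floor_add_one ((P : ℝ) / c j)
        have h3 : (1 : ℝ) ≤ (⌊(P : ℝ) / c j⌋₊ : ℝ) := by
          exact_mod_cast (Nat.one_le_floor_iff _).2 h1
        have h4 : (P : ℝ) / c j ≤ 2 * (⌊(P : ℝ) / c j⌋₊ : ℝ) := by linarith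
        rw [div_le_iff₀ h0] at h4
        linarith

end L3

set_option maxHeartbeats 1600000 in
open L3 NumL in
theorem prf_L3 : S_L3 := by
  intro c1 hc1 hc1'
  obtain ⟨r, hr⟩ := pow_unbounded_of_one_lt (10 ^ 8 / c1) (by norm_num : (1 : ℝ) < 2)
  have hr1 : 1 ≤ r := by
    rcases Nat.eq_zero_or_pos r with h | h
    · subst h
      rw [pow_zero, div_lt_one hc1] at hr
      linarith
    · exact h
  refine ⟨r, 4, by norm_num, fun X hX => ?_⟩
  have hX0 : (0 : ℝ) < X := by linarith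
  set l := Real.log (1 + theta) with hl
  have hl0 : 0 < l := log_one_theta_pos
  have hth := theta_pos
  have hev : ∀ᶠ x : ℝ in atTop,
      X < x ^ (9 / 10 : ℝ) ∧ (2 * ((r : ℝ) + 3)) + (2 / l) * Real.log x ≤ x ∧
      (5 * (2 + 1 / l)) * Real.log x ^ 2 ≤ x ∧ 6000000 * x ^ (9 / 20 : ℝ) ≤ x ∧
      4 * x ^ (9 / 10 : ℝ) ≤ x ∧ 8 ≤ x ∧ 2400000 * (r : ℝ) / c1 ≤ x := by
    filter_upwards [(tendsto_rpow_atTop (y := (9 / 10 : ℝ)) (by norm_num)).eventually_gt_atTop X,
      ev_log _ _, ev_log2 _, ev_rpow 6000000 (9 / 20) (by norm_num),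
      ev_rpow 4 (9 / 10) (by norm_num),
      eventually_ge_atTop 8, eventually_ge_atTop (2400000 * (r : ℝ) / c1)] with x h1 h2 h3 h4 h5 h6 h7
    exact ⟨h1, h2, h3, h4, h5, h6, h7⟩
  obtain ⟨n0, hn0⟩ := eventually_atTop.1 (tendsto_natCast_atTop_atTop.eventually hev)
  refine ⟨n0, fun n hn => ?_⟩
  obtain ⟨H1, H2, H3, H4, H5, H6, H7⟩ := hn0 n hn
  have hn8 : 8 ≤ n := by exact_mod_cast H6
  have hnR : (0 : ℝ) < n := by linarith
  have hn1 : (1 : ℝ) ≤ n := by linarith
  have hlog1 : 1 ≤ Real.log n := by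
    rw [Real.le_log_iff_exp_le hnR]
    have := Real.exp_one_lt_d9
    linarith
  have H7' : 2400000 * (r : ℝ) ≤ c1 * n := by
    rw [div_le_iff₀ hc1] at H7; linarith
  have hNN : 1 ≤ NN n := one_le_mul' hn1 hlog1
  have hnNN : (n : ℝ) ≤ NN n := le_mul_of_one_le_right hnR.le hlog1
  have hru : 0 ≤ (n : ℝ) ^ (9 / 10 : ℝ) := by positivity
  -- choice of `I`
  have hex : ∃ I, (n : ℝ) ^ (9 / 10 : ℝ) ≤ xl X I := by
    have : Tendsto (fun I : ℕ => xl X I) atTop atTop := by
      unfold xl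
      exact (tendsto_pow_atTop_atTop_of_one_lt (by linarith)).const_mul_atTop hX0
    exact (this.eventually_ge_atTop _).exists
  classical
  obtain ⟨I, hI, hImin⟩ : ∃ I, (n : ℝ) ^ (9 / 10 : ℝ) ≤ xl X I ∧
      ∀ i < I, xl X i < (n : ℝ) ^ (9 / 10 : ℝ) :=
    ⟨Nat.find hex, Nat.find_spec hex, fun i hi => not_le.1 (Nat.find_min hex hi)⟩
  have hIpos : 0 < I := by
    rcases Nat.eq_zero_or_pos I with h | h
    · subst h; rw [xl_zero] at hI; linarith
    · exact h
  obtain ⟨I', rfl⟩ : ∃ I', I = I' + 1 := ⟨I - 1, by omega⟩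
  have hI'lt := hImin I' (by omega)
  have hthv : theta ≤ 1 := by unfold theta; norm_num
  have hI2 : xl X (I' + 1) ≤ 2 * (n : ℝ) ^ (9 / 10 : ℝ) := by
    rw [xl_succ, mul_comm (2 : ℝ)]
    exact mul_le_mul hI'lt.le (by linarith) (by linarith) hru
  have hIlog : ((I' + 1 : ℕ) : ℝ) ≤ 1 + Real.log n / l := by
    have h1 : (1 + theta) ^ I' ≤ (n : ℝ) ^ (9 / 10 : ℝ) := by
      have h2 : X * (1 + theta) ^ I' < (n : ℝ) ^ (9 / 10 : ℝ) := hI'lt
      have h3 : 0 < (1 + theta) ^ I' := by positivity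
      exact le_trans (le_mul_of_one_le_left h3.le (by linarith)) h2.le
    have h2 : (I' : ℝ) * l ≤ 9 / 10 * Real.log n := by
      have := Real.log_le_log (by positivity) h1
      rw [Real.log_pow, Real.log_rpow hnR] at this
      exact this
    have h3 : (I' : ℝ) ≤ Real.log n / l := by
      rw [le_div_iff₀ hl0]; linarith
    push_cast; linarith
  -- square roots
  have hsq : Real.sqrt (xl X (I' + 1 + 1)) ≤ 2 * (n : ℝ) ^ (9 / 20 : ℝ) := by
    apply Real.sqrt_le_iff.2 ⟨by positivity, ?_⟩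
    have h1 : (2 * (n : ℝ) ^ (9 / 20 : ℝ)) ^ 2 = 4 * (n : ℝ) ^ (9 / 10 : ℝ) := by
      rw [mul_pow, ← Real.rpow_natCast ((n : ℝ) ^ (9 / 20 : ℝ)) 2, ← Real.rpow_mul hnR.le]
      norm_num
    rw [h1, xl_succ, show 4 * (n : ℝ) ^ (9 / 10 : ℝ) = 2 * (n : ℝ) ^ (9 / 10 : ℝ) * 2 by ring]
    exact mul_le_mul hI2 (by linarith) (by linarith) (by linarith)
  have hS : ∑ j ∈ range (I' + 1 + 1), Real.sqrt (xl X j) ≤ n := by
    have := sum_sqrt (X := X) (I' + 1 + 1)
    linarith
  -- `m`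
  have hm0 : 2 * (r + (I' + 1) + 1) ≤ n := by
    have h1 : 2 * ((r : ℝ) + ((I' + 1 : ℕ) : ℝ) + 1) ≤ n := by
      have h2 : (2 / l) * Real.log n = 2 * (Real.log n / l) := by ring
      linarith
    exact_mod_cast h1
  refine ⟨I' + 1, n - (r + (I' + 1) + 1), by omega, by omega, by omega, hI, hI2, by linarith,
    ?_⟩
  set m := n - (r + (I' + 1) + 1) with hm
  have hm2 : n ≤ 2 * m := by omega
  have hm2R : (n : ℝ) ≤ 2 * m := by exact_mod_cast hm2
  have hmn : m ≤ n := by omega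
  have hmnR : (m : ℝ) ≤ n := by exact_mod_cast hmn
  have hDn : 1 ≤ Dn X n := by
    exact one_le_mul' (Real.one_le_exp hX0.le) hNN
  have hDn0 : 0 < Dn X n := by linarith
  have hpow : 0 < (n : ℝ) ^ (11 * m) := by positivity
  have ha0 : 0 < a0 X n m := by unfold a0; positivity
  have hpe : (n : ℝ) ^ (11 * m) = Real.exp (11 * m * Real.log n) := by
    rw [← Real.exp_log hpow, Real.log_pow]; push_cast; ring_nf
  have ha1 : a0 X n m * Real.exp (theta * xl X (I' + 1)) ≤ al X (I' + 1) := by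
    unfold a0 Dn al
    rw [div_mul_eq_mul_div, div_le_iff₀ hpow, hpe, ← Real.exp_add]
    have h1 : NN n ≤ Real.exp (2 * Real.log n) := by
      have : Real.exp (2 * Real.log n) = n * n := by
        rw [two_mul, Real.exp_add, Real.exp_log hnR]
      rw [this]
      unfold NN
      have := Real.log_le_self hnR.le
      exact mul_le_mul_of_nonneg_left this hnR.le
    calc Real.exp X * NN n * Real.exp (theta * xl X (I' + 1))
        ≤ Real.exp X * Real.exp (2 * Real.log n) * Real.exp (theta * xl X (I' + 1)) := by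
          gcongr
      _ = Real.exp (X + 2 * Real.log n + theta * xl X (I' + 1)) := by
          rw [← Real.exp_add, ← Real.exp_add]
      _ ≤ _ := by
          apply Real.exp_le_exp.2
          have h2 : theta * xl X (I' + 1) ≤ 1 / 2 * xl X (I' + 1) :=
            mul_le_mul_of_nonneg_right (by unfold theta; norm_num) (xl_pos hX0 _).le
          have h3 : (m : ℝ) * 1 ≤ m * Real.log n :=
            mul_le_mul_of_nonneg_left hlog1 (by positivity)
          have h4 : (4 : ℝ) * Real.log n ≤ m * Real.log n :=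
            mul_le_mul_of_nonneg_right (by linarith) (by linarith)
          linarith
  have htau0 := tau_pos X (I' + 1 + 1)
  have htl := log_tau_le hX (I' + 1 + 1)
  rw [one_div, Real.log_inv] at htl
  refine ⟨ha0, ha1, htau0, ?_, ?_, ?_, ?_, ?_⟩
  · unfold tau
    refine prod_le_one (fun j _ => by have := lam_pos X j; positivity) fun j _ => ?_
    have h1 : 1 ≤ lam X j := Real.one_le_exp (Real.sqrt_nonneg _)
    rw [div_le_one (by positivity)]
    exact one_le_mul' (by norm_num) (one_le_pow₀ h1)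
  · rw [← Real.le_log_iff_exp_le htau0]
    linarith
  · unfold a0
    rw [mul_div_assoc', div_le_iff₀ hpow, mul_comm]
    refine mul_le_mul_of_nonneg_left ?_ hDn0.le
    exact pow_le_pow_right₀ hn1 (by omega)
  · unfold a0
    rw [mul_div_assoc', le_div_iff₀ hpow, mul_comm]
    refine mul_le_mul_of_nonneg_right ?_ hDn0.le
    exact pow_le_pow_right₀ hn1 (by omega)
  · -- the windows
    have hQ1 : ∀ j, 1 ≤ Qf X (a0 X n m) (I' + 1) j := by
      intro j
      unfold Qf
      split_ifs with hj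
      · rw [le_div_iff₀ ha0, one_mul]
        have h1 : 1 ≤ lam X (I' + 1) := Real.one_le_exp (Real.sqrt_nonneg _)
        have h2 : 1 ≤ Real.exp (theta * xl X (I' + 1)) :=
          Real.one_le_exp (mul_nonneg hth.le (xl_pos hX0 _).le)
        have h3 : 0 < al X (I' + 1) := Real.exp_pos _
        have h4 : a0 X n m ≤ al X (I' + 1) :=
          le_trans (le_mul_of_one_le_right ha0.le h2) ha1
        exact le_trans h4 (le_mul_of_one_le_right h3.le h1)
      · have h1 : 1 ≤ lam X (I' + 1 - j) := Real.one_le_exp (Real.sqrt_nonneg _)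
        have h2 : 1 ≤ Real.exp (theta * xl X (I' + 1 - j)) :=
          Real.one_le_exp (mul_nonneg hth.le (xl_pos hX0 _).le)
        exact one_le_mul' h1 h2
    obtain ⟨P0, hP1, hP0⟩ := exists_rho (I' + 1)
      (fun j => 8 * (n : ℝ) ^ 2 * Qf X (a0 X n m) (I' + 1) j) (fun j =>
        one_le_mul' (one_le_mul' (by norm_num) (one_le_pow₀ hn1)) (hQ1 j))
    refine ⟨P0, fun P hP => ?_⟩
    obtain ⟨ρ, h1, h2, h3⟩ := hP0 P hP
    refine ⟨ρ, h1, h2, ?_⟩
    have hPpos : (0 : ℝ) < P := by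
      have : 0 < P := by omega
      exact_mod_cast this
    have hcb := const_bound hc1 hr.le hr1 hn8 H7'
    have hprod : ∏ j ∈ range (I' + 1 + 1), (2 * (8 * (n : ℝ) ^ 2 * Qf X (a0 X n m) (I' + 1) j))
        ≤ Real.exp (13 * NN n) := by
      have e1 : ∏ j ∈ range (I' + 1 + 1), (2 * (8 * (n : ℝ) ^ 2 * Qf X (a0 X n m) (I' + 1) j))
          = (16 * (n : ℝ) ^ 2) ^ (I' + 1 + 1) *
            (1 / a0 X n m * Real.exp (∑ j ∈ range (I' + 1 + 1), Real.sqrt (xl X j))) := by
        rw [← prod_Qf, ← card_range (I' + 1 + 1), ← prod_const, card_range, ← prod_mul_distrib]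
        exact prod_congr rfl fun j _ => by ring
      have e2 : (16 * (n : ℝ) ^ 2) ^ (I' + 1 + 1) ≤ Real.exp (NN n) := by
        rw [← Real.log_le_iff_le_exp (by positivity), Real.log_pow]
        have f1 : Real.log (16 * (n : ℝ) ^ 2) ≤ 5 * Real.log n := by
          rw [Real.log_mul (by norm_num) (by positivity), Real.log_pow]
          have : Real.log 16 ≤ 3 := by
            rw [Real.log_le_iff_le_exp (by norm_num)]
            have h := Real.exp_one_gt_d9
            have : Real.exp 3 = Real.exp 1 ^ 3 := by rw [← Real.exp_nat_mul]; norm_num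
            rw [this]
            have h9 : (2.7 : ℝ) ≤ Real.exp 1 := by linarith
            calc (16 : ℝ) ≤ 2.7 ^ 3 := by norm_num
              _ ≤ Real.exp 1 ^ 3 := by gcongr
          push_cast; linarith
        have f2 : ((I' + 1 + 1 : ℕ) : ℝ) ≤ (2 + 1 / l) * Real.log n := by
          push_cast at hIlog ⊢
          have : (2 + 1 / l) * Real.log n = 2 * Real.log n + Real.log n / l := by ring
          linarith
        calc ((I' + 1 + 1 : ℕ) : ℝ) * Real.log (16 * (n : ℝ) ^ 2)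
            ≤ ((2 + 1 / l) * Real.log n) * (5 * Real.log n) := by
              refine mul_le_mul f2 f1 (Real.log_nonneg (one_le_mul' (by norm_num) (one_le_pow₀ hn1))) ?_
              positivity
          _ = 5 * (2 + 1 / l) * Real.log n ^ 2 := by ring
          _ ≤ n := H3
          _ ≤ NN n := hnNN
      have e3 : 1 / a0 X n m ≤ Real.exp (11 * NN n) := by
        unfold a0
        rw [one_div_div, hpe]
        calc Real.exp (11 * m * Real.log n) / Dn X n ≤ Real.exp (11 * m * Real.log n) :=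
              div_le_self (Real.exp_pos _).le hDn
          _ ≤ Real.exp (11 * NN n) := by
              apply Real.exp_le_exp.2
              unfold NN
              have : (m : ℝ) * Real.log n ≤ n * Real.log n :=
                mul_le_mul_of_nonneg_right hmnR (by linarith)
              linarith
      have e4 : Real.exp (∑ j ∈ range (I' + 1 + 1), Real.sqrt (xl X j)) ≤ Real.exp (NN n) := by
        apply Real.exp_le_exp.2
        exact hS.trans hnNN
      rw [e1]
      calc _ ≤ Real.exp (NN n) * (Real.exp (11 * NN n) * Real.exp (NN n)) := by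
            gcongr
        _ = Real.exp (13 * NN n) := by
            rw [← Real.exp_add, ← Real.exp_add]; congr 1; ring
    have hρ0 : 0 ≤ ∏ j, (ρ j : ℝ) := prod_nonneg fun _ _ => by positivity
    have hρpos : 0 < ∏ j, (ρ j : ℝ) := by
      rcases hρ0.lt_or_eq with h | h
      · exact h
      · rw [← h, mul_zero] at h3
        have : 0 < (P : ℝ) ^ (I' + 1 + 1) := by positivity
        linarith
    calc _ ≤ Real.exp (-(250 * NN n)) * (P : ℝ) ^ (I' + 1 + 1) :=
          mul_le_mul_of_nonneg_right hcb (by positivity)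
      _ ≤ Real.exp (-(250 * NN n)) * (Real.exp (13 * NN n) * ∏ j, (ρ j : ℝ)) := by
          refine mul_le_mul_of_nonneg_left (h3.trans ?_) (Real.exp_pos _).le
          exact mul_le_mul_of_nonneg_right hprod hρ0
      _ = Real.exp (-(237 * NN n)) * ∏ j, (ρ j : ℝ) := by
          rw [← mul_assoc, ← Real.exp_add]; congr 2; ring
      _ < 1 * ∏ j, (ρ j : ℝ) := by
          refine mul_lt_mul_of_pos_right ?_ hρpos
          rw [Real.exp_lt_one_iff]
          linarith
      _ = _ := one_mul _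

end Crest.Agent.R225
end

-- ▼ part R225/L4a
section

/-!
# Row 225 (S0347), node L4a: the lattice matrix
-/

set_option autoImplicit false

open Finset
open scoped BigOperators

namespace Crest.Agent.R225

namespace L4a

/-- the lattice matrix: base block `A`, rows `a_j Ψ_{ji}/P`, diagonal `a_j` -/
noncomputable def latM {d k : ℕ} (A : Matrix (Fin d) (Fin d) ℝ) (a : Fin k → ℝ) (P : ℕ)
    (Ψ : Fin k → Fin d → ℤ) : Matrix (Fin (d + k)) (Fin (d + k)) ℝ :=
  Matrix.reindex finSumFinEquiv finSumFinEquiv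
    (Matrix.fromBlocks A 0 (Matrix.of fun (j : Fin k) (i : Fin d) => a j * (Ψ j i : ℝ) / (P : ℝ))
      (Matrix.diagonal a))

theorem latM_det {d k : ℕ} (A : Matrix (Fin d) (Fin d) ℝ) (a : Fin k → ℝ) (P : ℕ)
    (Ψ : Fin k → Fin d → ℤ) : (latM A a P Ψ).det = A.det * ∏ j, a j := by
  rw [latM, Matrix.det_reindex_self, Matrix.det_fromBlocks_zero₁₂, Matrix.det_diagonal]

theorem latM_mulVec {d k : ℕ} (A : Matrix (Fin d) (Fin d) ℝ) (a : Fin k → ℝ) (P : ℕ)
    (Ψ : Fin k → Fin d → ℤ) (z : Fin d → ℝ) (κ : Fin k → ℝ) :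
    (latM A a P Ψ).mulVec (Fin.append z κ) =
      Fin.append (A.mulVec z) (fun j => a j * (∑ i, (Ψ j i : ℝ) * z i) / P + a j * κ j) := by
  funext l
  refine Fin.addCases (fun i => ?_) (fun j => ?_) l
  · simp only [Matrix.mulVec, dotProduct, Fin.sum_univ_add, Fin.append_left, Fin.append_right]
    have h1 : ∀ x : Fin d, latM A a P Ψ (Fin.castAdd k i) (Fin.castAdd k x) = A i x := by
      intro x; simp [latM]
    have h2 : ∀ x : Fin k, latM A a P Ψ (Fin.castAdd k i) (Fin.natAdd d x) = 0 := by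
      intro x; simp [latM]
    simp [h1, h2]
  · simp only [Matrix.mulVec, dotProduct, Fin.sum_univ_add, Fin.append_left, Fin.append_right]
    have h1 : ∀ x : Fin d, latM A a P Ψ (Fin.natAdd d j) (Fin.castAdd k x)
        = a j * (Ψ j x : ℝ) / (P : ℝ) := by
      intro x; simp [latM]
    have h2 : ∀ x : Fin k, latM A a P Ψ (Fin.natAdd d j) (Fin.natAdd d x)
        = if j = x then a j else 0 := by
      intro x; simp [latM, Matrix.diagonal_apply]
    simp only [h1, h2]
    rw [Finset.mul_sum, Finset.sum_div]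
    simp only [ite_mul, zero_mul, Finset.sum_ite_eq, Finset.mem_univ, if_true]
    congr 1
    exact Finset.sum_congr rfl (fun x _ => by ring)

end L4a

open L4a in
theorem prf_L4a : S_L4a := by
  intro m r b P _ a A ψ v
  -- integer lifts of the residues
  let Ψ : Fin b → Fin (m + r) → ℤ := fun j =>
    Fin.append (fun i : Fin m => ((ψ j i).val : ℤ)) (fun l : Fin r => ((v l j).val : ℤ))
  refine ⟨latM A (fun j => a j) P Ψ, latM_det _ _ _ _, fun g0 w κ hκ => ?_⟩
  have hP0 : (P : ℝ) ≠ 0 := Nat.cast_ne_zero.2 (NeZero.ne P)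
  have hdvd : ∀ j, ((P : ℕ) : ℤ) ∣ κ j - (∑ i, ((ψ j i).val : ℤ) * g0 i +
      ∑ l, ((v l j).val : ℤ) * w l) := by
    intro j
    rw [← ZMod.intCast_zmod_eq_zero_iff_dvd]
    push_cast
    rw [hκ j]
    simp
  choose q hq using hdvd
  refine ⟨Fin.append (Fin.append g0 w) q, ?_⟩
  have hcast : (fun i => ((Fin.append (Fin.append g0 w) q i : ℤ) : ℝ)) =
      Fin.append (Fin.append (fun k => (g0 k : ℝ)) (fun l => (w l : ℝ)))
        (fun j => (q j : ℝ)) := by
    funext l
    refine Fin.addCases (fun i => ?_) (fun j => ?_) l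
    · refine Fin.addCases (fun i => ?_) (fun j => ?_) i <;> simp
    · simp
  rw [hcast, latM_mulVec]
  congr 1
  funext j
  have hsum : ∑ i, (Ψ j i : ℝ) * (Fin.append (fun k => (g0 k : ℝ)) (fun l => (w l : ℝ)) i : ℝ) =
      ∑ i, ((ψ j i).val : ℝ) * (g0 i : ℝ) + ∑ l, ((v l j).val : ℝ) * (w l : ℝ) := by
    rw [Fin.sum_univ_add]
    simp only [Ψ, Fin.append_left, Fin.append_right, Int.cast_natCast]
  rw [hsum]
  have h1 : ((κ j : ℤ) : ℝ) - (∑ i, ((ψ j i).val : ℝ) * (g0 i : ℝ) +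
      ∑ l, ((v l j).val : ℝ) * (w l : ℝ)) = P * q j := by
    exact_mod_cast congrArg (Int.cast : ℤ → ℝ) (hq j)
  have h2 : (κ j : ℝ) = ∑ i, ((ψ j i).val : ℝ) * (g0 i : ℝ) +
      ∑ l, ((v l j).val : ℝ) * (w l : ℝ) + P * q j := by linarith
  rw [h2]
  field_simp

end Crest.Agent.R225
end

-- ▼ part R225/L4b
section

/-!
# Row 225 (S0347): node `L4b` (rounding with a triangular direction system)
-/

set_option autoImplicit false

open Finset MeasureTheory
open scoped BigOperators ENNReal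

namespace Crest.Agent.R225

namespace L4bN


end L4bN

open L4bN in
theorem prf_L4b : S_L4b := by
  intro n m r b P _ a t A ρ D hn hA ha hρ hD x
  have hn' : (2 : ℝ) ≤ n := by exact_mod_cast hn
  have hM : (0 : ℝ) < 2 * (n : ℝ) ^ 2 := by positivity
  have hMn : 0 < 2 * n ^ 2 := by positivity
  choose vv hvv using hD.gy
  set z : Fin (m + r) → ℝ := A⁻¹.mulVec (fun i => x (Fin.castAdd b i) - t i) with hz
  have hAz : A.mulVec z = fun i => x (Fin.castAdd b i) - t i := by
    rw [hz, Matrix.mulVec_mulVec, Matrix.mul_nonsing_inv _ (Ne.isUnit hA), Matrix.one_mulVec]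
  -- slice coordinates
  set q : Fin r → ℤ := fun l => ⌊2 * (n : ℝ) ^ 2 * z (Fin.natAdd m l)⌋ with hq
  set w0 : Fin r → ℤ := fun l => q l / ((2 * n ^ 2 : ℕ) : ℤ) with hw0
  have hMz : (0 : ℤ) < ((2 * n ^ 2 : ℕ) : ℤ) := by exact_mod_cast hMn
  have hmod0 : ∀ l, 0 ≤ q l % ((2 * n ^ 2 : ℕ) : ℤ) := fun l => Int.emod_nonneg _ hMz.ne'
  have hmod1 : ∀ l, q l % ((2 * n ^ 2 : ℕ) : ℤ) < ((2 * n ^ 2 : ℕ) : ℤ) := fun l =>
    Int.emod_lt_of_pos _ hMz
  set τ : Fin r → Fin (2 * n ^ 2) := fun l => ⟨(q l % ((2 * n ^ 2 : ℕ) : ℤ)).toNat, by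
    have h0 := hmod0 l
    have h1 := hmod1 l
    omega⟩ with hτ
  have hτc : ∀ l, (((τ l : ℕ) : ℝ)) = ((q l % ((2 * n ^ 2 : ℕ) : ℤ) : ℤ) : ℝ) := by
    intro l
    have h0 := hmod0 l
    have : (((τ l : ℕ) : ℤ)) = q l % ((2 * n ^ 2 : ℕ) : ℤ) := by
      simp only [hτ]
      exact Int.toNat_of_nonneg h0
    rw [← this]
    push_cast
    rfl
  have hqe : ∀ l, (q l : ℝ) = 2 * (n : ℝ) ^ 2 * (w0 l : ℝ) + ((τ l : ℕ) : ℝ) := by
    intro l
    have h := Int.mul_ediv_add_emod (q l) ((2 * n ^ 2 : ℕ) : ℤ)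
    rw [hτc]
    have h2 : ((((2 * n ^ 2 : ℕ) : ℤ) * (q l / ((2 * n ^ 2 : ℕ) : ℤ)) +
      q l % ((2 * n ^ 2 : ℕ) : ℤ) : ℤ) : ℝ) = (q l : ℝ) := by rw [h]
    rw [← h2]
    simp only [hw0]
    push_cast
    ring
  set sy : Fin r → ℝ := fun l => z (Fin.natAdd m l) - (q l : ℝ) / (2 * (n : ℝ) ^ 2) with hsy
  have hsy0 : ∀ l, 0 ≤ sy l := by
    intro l
    simp only [hsy, sub_nonneg]
    rw [div_le_iff₀ hM]
    have := Int.floor_le (2 * (n : ℝ) ^ 2 * z (Fin.natAdd m l))
    simp only [hq]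
    linarith
  have hsy1 : ∀ l, sy l ≤ 1 / (2 * (n : ℝ) ^ 2) := by
    intro l
    simp only [hsy]
    have := Int.lt_floor_add_one (2 * (n : ℝ) ^ 2 * z (Fin.natAdd m l))
    rw [sub_le_iff_le_add, ← add_div, le_div_iff₀ hM]
    simp only [hq]
    linarith
  have hzy : ∀ l, z (Fin.natAdd m l) - sy l = (w0 l : ℝ) + ((τ l : ℕ) : ℝ) / (2 * (n : ℝ) ^ 2) := by
    intro l
    simp only [hsy]
    rw [hqe]
    field_simp
    ring
  -- grid coordinates
  set zg : Fin m → ℝ := fun k => z (Fin.castAdd r k) - ∑ l, sy l * vv l k with hzg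
  set g0 : Pt m := fun k => ⌊zg k⌋ with hg0
  set sx : Fin m → ℝ := fun k => (zg k - (g0 k : ℝ)) / (n : ℝ) ^ 4 with hsx
  have hn4 : (0 : ℝ) < (n : ℝ) ^ 4 := by positivity
  have hsx0 : ∀ k, 0 ≤ sx k := fun k => div_nonneg (by
    have := Int.floor_le (zg k); simp only [hg0]; linarith) hn4.le
  have hsx1 : ∀ k, sx k ≤ 1 / (2 * (n : ℝ) ^ 2) := by
    intro k
    simp only [hsx]
    rw [div_le_div_iff₀ hn4 hM]
    have h1 := Int.lt_floor_add_one (zg k)
    have h2 : zg k - (g0 k : ℝ) ≤ 1 := by simp only [hg0]; linarith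
    have h4 : (4 : ℝ) ≤ (n : ℝ) ^ 2 := by nlinarith
    have h3 : 2 * (n : ℝ) ^ 2 ≤ (n : ℝ) ^ 4 := by
      have : (n : ℝ) ^ 4 = (n : ℝ) ^ 2 * (n : ℝ) ^ 2 := by ring
      rw [this]
      nlinarith
    nlinarith
  -- fibres
  obtain ⟨T, hTc, hT⟩ := tri_classes P (1 / (2 * (n : ℝ) ^ 2)) b (fun j => a j)
    (fun j i => D (Sum.inr (Sum.inr j)) (Fin.natAdd (m + r) i)) ρ (fun j => ha j)
    (fun j i hij => (hD.gf j).2.1 i hij) (fun j => (hD.gf j).2.2.1) hρ
    (fun j => (hD.gf j).2.2.2)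
    (fun i => x (Fin.natAdd (m + r) i) - ∑ k, sx k * D (Sum.inl k) (Fin.natAdd (m + r) i) -
      ∑ l, sy l * D (Sum.inr (Sum.inl l)) (Fin.natAdd (m + r) i))
  refine ⟨τ, w0, g0, T, hTc, fun c hc => ?_⟩
  obtain ⟨κ, hκ, sf, hsf, he⟩ := hT c hc
  refine ⟨κ, hκ, Sum.elim sx (Sum.elim sy sf), ?_, ?_⟩
  · rintro (k | l | j)
    · simp only [Sum.elim_inl]
      rw [abs_of_nonneg (hsx0 k)]
      exact hsx1 k
    · simp only [Sum.elim_inr, Sum.elim_inl]
      rw [abs_of_nonneg (hsy0 l)]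
      exact hsy1 l
    · simp only [Sum.elim_inr]
      rw [abs_of_nonneg (hsf j).1]
      exact (hsf j).2
  · funext i
    rw [Fintype.sum_sum_type, Fintype.sum_sum_type]
    simp only [Pi.sub_apply, Pi.add_apply, Finset.sum_apply, Pi.smul_apply, smul_eq_mul,
      Sum.elim_inl, Sum.elim_inr]
    refine Fin.addCases (fun i => ?_) (fun i => ?_) i
    · rw [Fin.append_left]
      simp only [hD.gx, hvv, (hD.gf _).1, mul_zero, Finset.sum_const_zero, add_zero]
      have hbp : bp t A g0 (fun l => (w0 l : ℝ) + ((τ l : ℕ) : ℝ) / (2 * (n : ℝ) ^ 2)) i =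
          t i + A.mulVec (Fin.append (fun k => (g0 k : ℝ))
            (fun l => (w0 l : ℝ) + ((τ l : ℕ) : ℝ) / (2 * (n : ℝ) ^ 2))) i := by
        simp [bp]
      rw [hbp]
      have hdec : Fin.append (fun k => (g0 k : ℝ))
            (fun l => (w0 l : ℝ) + ((τ l : ℕ) : ℝ) / (2 * (n : ℝ) ^ 2)) =
          z - ∑ k, sx k • (Fin.append (Pi.single k ((n : ℝ) ^ 4)) 0 : Fin (m + r) → ℝ) -
            ∑ l, sy l • (Fin.append (vv l) (Pi.single l 1) : Fin (m + r) → ℝ) := by
        funext i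
        simp only [Pi.sub_apply, Finset.sum_apply, Pi.smul_apply, smul_eq_mul]
        refine Fin.addCases (fun k => ?_) (fun l => ?_) i
        · simp only [Fin.append_left]
          rw [Finset.sum_eq_single k]
          · rw [Pi.single_eq_same]
            simp only [hsx]
            rw [div_mul_cancel₀ _ hn4.ne']
            simp only [hzg]
            ring
          · intro k' _ hk'
            rw [Pi.single_eq_of_ne (Ne.symm hk')]
            simp
          · intro h; exact absurd (Finset.mem_univ _) h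
        · simp only [Fin.append_right]
          rw [← hzy]
          rw [Finset.sum_eq_zero (fun k _ => by simp)]
          rw [Finset.sum_eq_single l]
          · rw [Pi.single_eq_same]; ring
          · intro k' _ hk'
            rw [Pi.single_eq_of_ne (Ne.symm hk')]
            simp
          · intro h; exact absurd (Finset.mem_univ _) h
      rw [hdec, Matrix.mulVec_sub, Matrix.mulVec_sub, hAz, Matrix.mulVec_sum, Matrix.mulVec_sum]
      simp only [Matrix.mulVec_smul, Pi.sub_apply, Finset.sum_apply, Pi.smul_apply, smul_eq_mul]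
      ring
    · rw [Fin.append_right]
      have := he i
      rw [← this]
      ring

end Crest.Agent.R225
end

-- ▼ part R225/L4c
section

/-! Row 225: node L4c (covering step), from L4a and L4b. -/

set_option autoImplicit false

open Finset MeasureTheory
open scoped BigOperators ENNReal

namespace Crest.Agent.R225

theorem append_sub_append {p q : ℕ} (u u' : Fin p → ℝ) (v v' : Fin q → ℝ) :
    Fin.append u v - Fin.append u' v' = Fin.append (u - u') (v - v') := by
  ext i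
  refine Fin.addCases (fun i => ?_) (fun i => ?_) i <;> simp

theorem prf_L4c (h4a : S_L4a) (h4b : S_L4b) : S_L4c := by
  classical
  intro n m r b P _ a t A ρ D K ψ v hn hA ha hρ hD hbad
  obtain ⟨g, hdet, hg⟩ := h4a m r b P a A ψ (fun l j => -v l j)
  refine ⟨g, hdet, fun x => ?_⟩
  by_contra hcon
  push Not at hcon
  obtain ⟨τ, w0, g0, T, hT, hTc⟩ := h4b n m r b P a t A ρ D hn hA ha hρ hD x
  -- the translation of classes
  set φ : (Fin b → ZMod P) → (Fin b → ZMod P) := fun c j =>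
    c j - ∑ i, ψ j i * ((g0 i : ℤ) : ZMod P) + ∑ l, v l j * ((w0 l : ℤ) : ZMod P) with hφ
  have hinj : Function.Injective φ := by
    intro c c' h
    ext j
    have := congrFun h j
    simp only [hφ] at this
    linear_combination this
  have hsub : T.image φ ⊆ (univ : Finset (Fin b → ZMod P)).filter fun c =>
      ∀ J : Finset (Fin r), ¬ HitR P a t A K ψ
        (fun l => ((τ l : ℕ) : ℝ) / (2 * (n : ℝ) ^ 2) + if l ∈ J then 1 else 0)
        (c - ∑ i ∈ J, v i) := by
    intro c' hc'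
    obtain ⟨c, hc, rfl⟩ := mem_image.1 hc'
    rw [mem_filter]
    refine ⟨mem_univ _, fun J hhit => ?_⟩
    obtain ⟨κ, hκ, s, hs, hx⟩ := hTc c hc
    obtain ⟨g', k, hk, hkK⟩ := hhit
    obtain ⟨z, hz⟩ := hg (fun i => g0 i - g' i) (fun l => w0 l - if l ∈ J then 1 else 0)
      (fun j => κ j - k j) (by
        intro j
        push_cast
        rw [hκ j, hk j]
        simp only [hφ, Pi.sub_apply, Finset.sum_apply, mul_sub, Finset.sum_sub_distrib, neg_mul,
          Finset.sum_neg_distrib]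
        have h1 : ∑ l, v l j * (if l ∈ J then (1 : ZMod P) else 0) = ∑ i ∈ J, v i j := by
          simp only [mul_ite, mul_one, mul_zero]
          rw [← Finset.sum_filter]
          congr 1
          ext l; simp
        have h2 : ∀ l, (((if l ∈ J then (1:ℤ) else 0 : ℤ)) : ZMod P) =
            (if l ∈ J then (1 : ZMod P) else 0) := by
          intro l; split_ifs <;> simp
        simp only [h1]
        ring)
    refine hcon z _ hkK s hs ?_
    have h3 : x = Fin.append (bp t A g0 (fun l => (w0 l : ℝ) + ((τ l : ℕ) : ℝ) / (2 * (n : ℝ) ^ 2)))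
            (fun j : Fin b => a j * κ j / P) + ∑ i, s i • D i := by
      rw [← hx]; abel
    rw [hz, h3, add_sub_right_comm, append_sub_append]
    congr 1
    congr 1
    · simp only [bp]
      rw [add_sub_assoc, ← Matrix.mulVec_sub, append_sub_append]
      congr 3
      · ext i; simp
      · ext l
        simp only [Pi.sub_apply]
        push_cast
        ring
    · ext j
      simp only [Pi.sub_apply]
      push_cast
      ring
  have h5 := card_le_card hsub
  rw [card_image_of_injective _ hinj] at h5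
  exact absurd ((hT.trans h5).trans_lt (hbad τ)) (lt_irrefl _)

end Crest.Agent.R225
end

-- ▼ part R225/L7
section

/-!
# Row 225 (S0347): node `L7` (one slice: Disc + PMain + Chain + SliceData)
-/

set_option autoImplicit false

open Finset MeasureTheory
open scoped BigOperators ENNReal

namespace Crest.Agent.R225

open scoped Classical in
theorem prf_L7 (hL1 : S_L1) : S_L7 := by
  intro hDisc hP c1 Crat hc1 hc1' hCrat
  obtain ⟨X0, hX0⟩ := hP c1 Crat hc1 hc1' hCrat
  refine ⟨X0, fun X hX => ?_⟩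
  obtain ⟨n0, hn0⟩ := hX0 X hX
  refine ⟨n0, fun n hn m r I h1 h2 h3 h4 α0 Cr K a U t A G hα0 hch hs y hy => ?_⟩
  obtain ⟨P0, hP0⟩ := hn0 n hn m I h1 h2 h3 h4 (G y)
  refine ⟨P0, fun P hPP hPr => ?_⟩
  have hne : NeZero P := ⟨hPr.out.ne_zero⟩
  choose w hw0 hwdead hwrng hwmart hwtv hwend using
    fun g : Pt m => hDisc X (m + r) I α0 K a U hα0 hch P (bp t A g y)
  have hfin : ∀ x, U 0 x ≠ ∞ := by
    intro x
    rcases hch.rng 0 (by omega) x with h | ⟨_, h⟩
    · rw [h]; exact ENNReal.zero_ne_top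
    · exact ne_top_of_le_ne_top ENNReal.ofReal_ne_top h
  have hB : BaseCtx P n m I X c1 Crat α0 (G y) w := by
    refine ⟨hs.grid y hy, hα0, ⟨?_, ?_, ?_, ?_⟩, ?_, ?_, ?_⟩
    · intro g l ξ h
      exact hwdead g l ξ h
    · intro g l hl
      exact hwrng g l hl
    · intro g l hl
      exact hwmart g l hl
    · intro g l hl
      exact hwtv g l hl
    · intro g hg
      rw [hw0]
      exact ENNReal.toReal_pos ((hs.mem y hy g).1 hg) (hfin _)
    · have := hs.lower y hy
      simp only [hw0]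
      exact this
    · have := hs.upper y hy
      simp only [hw0]
      rw [mul_assoc]
      exact this
  have hmain := hP0 P hPP α0 w hB
  rw [hL1] at hmain
  refine le_trans ?_ hmain
  refine Finset.expect_le_expect fun ρ _ => ?_
  by_cases hemp : alive w (G y) (List.ofFn ρ).reverse = ∅
  · rw [if_pos hemp]
    split_ifs <;> norm_num
  · rw [if_neg hemp]
    obtain ⟨g, hg⟩ := Finset.nonempty_iff_ne_empty.2 hemp
    have hg' : 0 < wt w (List.ofFn ρ).reverse g := (Finset.mem_filter.1 hg).2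
    have hlen : (hist (List.ofFn ρ).reverse g).length = I + 1 := by
      simp [hist]
    obtain ⟨k, hk, hkK⟩ := hwend g (hist (List.ofFn ρ).reverse g) hlen hg'.ne'
    have hhit : HitR P a t A K (fun j => (ρ j).2) y (fun j => (ρ j).1) := by
      refine ⟨g, k, ?_, hkK⟩
      have e1 : (hist (List.ofFn ρ).reverse g).reverse = List.ofFn (fun j => res (ρ j) g) := by
        unfold hist
        rw [List.map_reverse, List.reverse_reverse, List.map_ofFn]
        rfl
      rw [e1] at hk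
      have hk' := List.ofFn_injective hk
      intro j
      have := congrFun hk' j
      simp only [res] at this
      exact this.symm
    rw [if_neg (not_not.2 hhit)]

end Crest.Agent.R225
end

-- ▼ part R225/L126
section

/-!
# Row 225 (S0347): sub-nodes L1, L2, L6 of `S_Large` (helper227)
-/

set_option autoImplicit false

open Finset MeasureTheory
open scoped BigOperators ENNReal

namespace Crest.Agent.R225

namespace L126

theorem Ex_eq_expect {P m : ℕ} [NeZero P] (b : ℕ) (F : List (Row P m) → ℝ) :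
    ∀ rows : List (Row P m),
      Ex b F rows = 𝔼 ρ : Fin b → Row P m, F ((List.ofFn ρ).reverse ++ rows) := by
  induction b with
  | zero =>
    intro rows
    show F rows = _
    rw [Fintype.expect_eq_sum_div_card]
    simp
  | succ b ih =>
    intro rows
    show (𝔼 r : Row P m, Ex b F (r :: rows)) = _
    simp_rw [ih]
    rw [← Finset.expect_product' (univ : Finset (Row P m)) (univ : Finset (Fin b → Row P m))
      (fun r ρ => F ((List.ofFn ρ).reverse ++ (r :: rows))), Finset.univ_product_univ]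
    refine Fintype.expect_equiv (Fin.consEquiv (fun _ => Row P m)) _ _ ?_
    rintro ⟨r, ρ⟩
    simp [Fin.consEquiv, List.ofFn_succ]

end L126

theorem prf_L1 : S_L1 := by
  intro P m b _ F
  rw [L126.Ex_eq_expect]
  simp

theorem prf_L2 : S_L2 := by
  classical
  intro P m b _ ι _ q Bad hB
  have h1 : ∀ y, 𝔼 ψ : Fin b → Fin m → ZMod P, 𝔼 c : Fin b → ZMod P,
      (if Bad y ψ c then (1 : ℝ) else 0) ≤ q := by
    intro y
    refine le_trans (le_of_eq ?_) (hB y)
    rw [← Finset.expect_product' (univ : Finset (Fin b → Fin m → ZMod P))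
      (univ : Finset (Fin b → ZMod P)) (fun ψ c => (if Bad y ψ c then (1 : ℝ) else 0)),
      Finset.univ_product_univ]
    refine Fintype.expect_equiv ((Equiv.prodComm _ _).trans
      (Equiv.arrowProdEquivProdArrow (Fin b) (fun _ => ZMod P)
        (fun _ => Fin m → ZMod P)).symm) _ _ ?_
    rintro ⟨ψ, c⟩
    simp only [Equiv.trans_apply, Equiv.prodComm_apply, Prod.swap_prod_mk]
    congr!
  have h2 : 𝔼 ψ : Fin b → Fin m → ZMod P, ∑ y, 𝔼 c : Fin b → ZMod P,
      (if Bad y ψ c then (1 : ℝ) else 0) ≤ Fintype.card ι * q := by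
    rw [Finset.expect_sum_comm]
    refine le_trans (Finset.sum_le_sum fun y _ => h1 y) ?_
    simp
  obtain ⟨ψ, _, hψ⟩ := Finset.exists_le_of_expect_le (s := univ) (Finset.univ_nonempty) h2
  refine ⟨ψ, fun y => ?_⟩
  have h3 : 𝔼 c : Fin b → ZMod P, (if Bad y ψ c then (1 : ℝ) else 0) ≤ Fintype.card ι * q := by
    refine le_trans ?_ hψ
    exact Finset.single_le_sum (f := fun y => 𝔼 c : Fin b → ZMod P,
      (if Bad y ψ c then (1 : ℝ) else 0))
      (fun y _ => Finset.expect_nonneg fun c _ => by split_ifs <;> norm_num) (Finset.mem_univ y)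
  rw [Fintype.expect_eq_sum_div_card] at h3
  have hP : (0 : ℝ) < P := by exact_mod_cast Nat.pos_of_ne_zero (NeZero.ne P)
  have hc : (Fintype.card (Fin b → ZMod P) : ℝ) = (P : ℝ) ^ b := by
    rw [Fintype.card_fun, ZMod.card, Fintype.card_fin]; push_cast; rfl
  rw [hc, div_le_iff₀ (by positivity)] at h3
  refine le_trans (le_of_eq ?_) h3
  rw [Finset.card_filter]
  push_cast
  rfl

theorem prf_L6 : S_L6 := by
  intro X d I α0 K a U hC
  have key : ∀ t j : ℕ, j + t = I + 1 → ∀ (hj : j ≤ I + 1) (x : Fin (d + j) → ℝ), U j x ≠ 0 →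
    ∃ k ∈ K, ∀ i : Fin (d + j), k (Fin.castLE (by omega) i) = x i := by
    intro t
    induction t with
    | zero =>
      intro j hjt hj x hx
      have hj' : j = I + 1 := by omega
      subst hj'
      rw [hC.top] at hx
      have hxK : x ∈ K := by
        by_contra hne
        exact hx (by simp [hne])
      exact ⟨x, hxK, fun i => by congr⟩
    | succ t ih =>
      intro j hjt hj x hx
      obtain ⟨c, c', _, _, hw⟩ := hC.win j (by omega) x hx
      have hint : ∫⁻ s in Set.Ico c c', U (j + 1) (Fin.snoc x s) ≠ 0 := by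
        intro h0
        apply hx
        rw [hw, h0, mul_zero]
      have hex : ∃ s, U (j + 1) (Fin.snoc x s) ≠ 0 := by
        by_contra hne
        push Not at hne
        apply hint
        simp [hne]
      obtain ⟨s, hs⟩ := hex
      obtain ⟨k, hkK, hk⟩ := ih (j + 1) (by omega) (by omega) _ hs
      refine ⟨k, hkK, fun i => ?_⟩
      have := hk (Fin.castSucc i)
      rw [Fin.snoc_castSucc (α := fun _ => ℝ)] at this
      rw [← this]
      congr 1
  intro j hj x hx
  exact key (I + 1 - j) j (by omega) hj x hx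

end Crest.Agent.R225
end

-- ▼ part R225/L/Reduce
section

/-!
Row 225, S0347: affine normalisation of a convex body (maximal simplex), the case of small
dimension, and the reduction of the theorem to normalised bodies in large dimension.
-/

set_option autoImplicit false

namespace Crest.Agent.R225.L

open MeasureTheory Matrix

/-- `K` is the translation cell of a lattice covering of density at most `D`. -/
def Cov (n : ℕ) (K : Set (Fin n → ℝ)) (D : ℝ) : Prop :=
  ∃ g : Matrix (Fin n) (Fin n) ℝ, g.det ≠ 0 ∧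
    (∀ x : Fin n → ℝ, ∃ z : Fin n → ℤ, x - g.mulVec (fun i => (z i : ℝ)) ∈ K) ∧
    (volume K).toReal / |g.det| ≤ D

theorem Cov.mono {n : ℕ} {K : Set (Fin n → ℝ)} {D D' : ℝ} (h : Cov n K D) (hD : D ≤ D') :
    Cov n K D' := by
  obtain ⟨g, h1, h2, h3⟩ := h
  exact ⟨g, h1, h2, h3.trans hD⟩

/-- the matrix of differences -/
def dmat {n : ℕ} (x : Fin (n + 1) → (Fin n → ℝ)) : Matrix (Fin n) (Fin n) ℝ :=
  Matrix.of fun i j => x j.succ i - x 0 i

theorem dmat_mulVec {n : ℕ} (x : Fin (n + 1) → (Fin n → ℝ)) (y : Fin n → ℝ) :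
    x 0 + (dmat x).mulVec y = (1 - ∑ j, y j) • x 0 + ∑ j, y j • x j.succ := by
  ext i
  simp only [Pi.add_apply, Matrix.mulVec, dotProduct, dmat, Matrix.of_apply, Pi.smul_apply,
    smul_eq_mul, Finset.sum_apply, sub_mul, Finset.sum_sub_distrib, Finset.sum_mul]
  have h1 : ∑ j, x 0 i * y j = ∑ j, y j * x 0 i := Finset.sum_congr rfl fun j _ => mul_comm _ _
  have h2 : ∑ j, x j.succ i * y j = ∑ j, y j * x j.succ i :=
    Finset.sum_congr rfl fun j _ => mul_comm _ _
  rw [h1, h2]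
  ring

theorem continuous_dmat_det {n : ℕ} : Continuous fun x : Fin (n + 1) → (Fin n → ℝ) => |(dmat x).det| := by
  refine Continuous.abs (Continuous.matrix_det ?_)
  refine continuous_matrix fun i j => ?_
  exact ((continuous_apply i).comp (continuous_apply j.succ)).sub
    ((continuous_apply i).comp (continuous_apply 0))

/-- Normal form of a convex body: in suitable affine coordinates it contains `[0,1/n]^n` and is
contained in `[-1,1]^n`. -/
theorem exists_normal {n : ℕ} (K : Set (Fin n → ℝ)) (hK : IsCompact K)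
    (hc : Convex ℝ K) (hi : (interior K).Nonempty) :
    ∃ (x0 : Fin n → ℝ) (M : Matrix (Fin n) (Fin n) ℝ), M.det ≠ 0 ∧
      (∀ y : Fin n → ℝ, (∀ i, 0 ≤ y i) → ∑ i, y i ≤ 1 → x0 + M.mulVec y ∈ K) ∧
      (∀ y : Fin n → ℝ, x0 + M.mulVec y ∈ K → ∀ i, |y i| ≤ 1) := by
  classical
  have hS : IsCompact (Set.pi Set.univ (fun _ : Fin (n + 1) => K)) :=
    isCompact_univ_pi fun _ => hK
  obtain ⟨c, hc0⟩ := hi
  have hcK : c ∈ K := interior_subset hc0
  obtain ⟨x, hx, hmax⟩ := hS.exists_isMaxOn ⟨fun _ => c, fun _ _ => hcK⟩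
    continuous_dmat_det.continuousOn
  have hxK : ∀ i, x i ∈ K := fun i => hx i (Set.mem_univ i)
  have hmax' : ∀ y : Fin (n + 1) → (Fin n → ℝ), (∀ i, y i ∈ K) → |(dmat y).det| ≤ |(dmat x).det| :=
    fun y hy => hmax (a := y) (fun i _ => hy i)
  -- positivity
  have hdet : (dmat x).det ≠ 0 := by
    rw [mem_interior_iff_mem_nhds, Metric.mem_nhds_iff] at hc0
    obtain ⟨r, hr, hball⟩ := hc0
    have h1 := hmax' (Fin.cons c (fun j => c + Pi.single j (r / 2))) (by
      intro i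
      refine Fin.cases ?_ (fun j => ?_) i
      · simpa using hcK
      · simp only [Fin.cons_succ]
        refine hball ?_
        rw [Metric.mem_ball, dist_eq_norm, add_sub_cancel_left, Pi.norm_single]
        rw [Real.norm_of_nonneg (by positivity)]
        linarith)
    have h2 : dmat (Fin.cons c (fun j => c + Pi.single j (r / 2)) : Fin (n + 1) → (Fin n → ℝ)) =
        Matrix.diagonal (fun _ => r / 2) := by
      ext i j
      simp only [dmat, Matrix.of_apply, Fin.cons_succ, Fin.cons_zero, Pi.add_apply,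
        add_sub_cancel_left, Matrix.diagonal_apply, Pi.single_apply]
    rw [h2, Matrix.det_diagonal, Finset.prod_const] at h1
    have h3 : 0 < |(r / 2) ^ (Finset.univ : Finset (Fin n)).card| := abs_pos.2 (by positivity)
    have h4 := h3.trans_le h1
    exact abs_pos.1 h4
  refine ⟨x 0, dmat x, hdet, ?_, ?_⟩
  · intro y hy hsum
    rw [dmat_mulVec]
    have h1 : (1 - ∑ j, y j) • x 0 + ∑ j, y j • x j.succ =
        ∑ i : Fin (n + 1), (Fin.cons (1 - ∑ j, y j) y : Fin (n + 1) → ℝ) i • x i := by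
      rw [Fin.sum_univ_succ]; simp
    rw [h1]
    refine hc.sum_mem (fun i _ => ?_) ?_ (fun i _ => hxK i)
    · refine Fin.cases ?_ (fun j => ?_) i
      · simp; linarith
      · simpa using hy j
    · rw [Fin.sum_univ_succ]; simp
  · intro y hy i
    set v := x 0 + (dmat x).mulVec y with hv
    have h1 := hmax' (Function.update x i.succ v) (by
      intro j
      rcases eq_or_ne j i.succ with rfl | h
      · simpa using hy
      · rw [Function.update_of_ne h]; exact hxK j)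
    have h2 : dmat (Function.update x i.succ v) =
        (dmat x).updateCol i ((dmat x).mulVec y) := by
      ext k j
      simp only [dmat, Matrix.of_apply, Matrix.updateCol_apply]
      rw [Function.update_of_ne (Fin.succ_ne_zero i).symm]
      split_ifs with h
      · subst h
        simp [hv, dmat]
      · rw [Function.update_of_ne (fun h' => h (Fin.succ_injective _ h'))]
    rw [h2] at h1
    have h3 : ((dmat x).updateCol i ((dmat x).mulVec y)).det = (dmat x).det * y i := by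
      have h4 := Matrix.cramer_apply (dmat x) ((dmat x).mulVec y) i
      rw [← h4]
      have h5 := Matrix.mulVec_cramer (dmat x) ((dmat x).mulVec y)
      have h6 : (dmat x).cramer ((dmat x).mulVec y) = (dmat x).det • y := by
        rw [Matrix.cramer_eq_adjugate_mulVec, Matrix.mulVec_mulVec, Matrix.adjugate_mul,
          Matrix.smul_mulVec, Matrix.one_mulVec]
      rw [h6]; simp
    rw [h3, abs_mul] at h1
    have h7 : 0 < |(dmat x).det| := abs_pos.2 hdet
    nlinarith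

/-- The body in the new coordinates. -/
def pull {n : ℕ} (K : Set (Fin n → ℝ)) (x0 : Fin n → ℝ) (M : Matrix (Fin n) (Fin n) ℝ) :
    Set (Fin n → ℝ) := {y | x0 + M.mulVec y ∈ K}

theorem pull_eq_preimage {n : ℕ} (K : Set (Fin n → ℝ)) (x0 : Fin n → ℝ)
    (M : Matrix (Fin n) (Fin n) ℝ) :
    pull K x0 M = (Matrix.toLin' M) ⁻¹' ((fun v => x0 + v) ⁻¹' K) := rfl

theorem volume_pull {n : ℕ} (K : Set (Fin n → ℝ)) (x0 : Fin n → ℝ)
    (M : Matrix (Fin n) (Fin n) ℝ) (hM : M.det ≠ 0) :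
    (volume (pull K x0 M)).toReal = (volume K).toReal / |M.det| := by
  rw [pull_eq_preimage, Measure.addHaar_preimage_linearMap volume (by rwa [LinearMap.det_toLin']),
    LinearMap.det_toLin', measure_preimage_add, ENNReal.toReal_mul,
    ENNReal.toReal_ofReal (abs_nonneg _), abs_inv, div_eq_inv_mul]

theorem cov_of_pull {n : ℕ} {K : Set (Fin n → ℝ)} {x0 : Fin n → ℝ}
    {M : Matrix (Fin n) (Fin n) ℝ} (hM : M.det ≠ 0) {D : ℝ} (h : Cov n (pull K x0 M) D) :
    Cov n K D := by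
  obtain ⟨g, hg, hcov, hD⟩ := h
  refine ⟨M * g, by rw [Matrix.det_mul]; exact mul_ne_zero hM hg, fun x => ?_, ?_⟩
  · obtain ⟨z, hz⟩ := hcov (M⁻¹.mulVec (x - x0))
    refine ⟨z, ?_⟩
    have h1 : x0 + M.mulVec (M⁻¹.mulVec (x - x0) - g.mulVec (fun i => (z i : ℝ))) ∈ K := hz
    have hu : IsUnit M.det := isUnit_iff_ne_zero.2 hM
    rw [Matrix.mulVec_sub, Matrix.mulVec_mulVec, Matrix.mul_nonsing_inv _ hu, Matrix.one_mulVec,
      Matrix.mulVec_mulVec] at h1
    have h2 : x0 + (x - x0 - (M * g).mulVec (fun i => (z i : ℝ))) =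
        x - (M * g).mulVec (fun i => (z i : ℝ)) := by abel
    rwa [h2] at h1
  · rw [volume_pull K x0 M hM] at hD
    rw [Matrix.det_mul, abs_mul, ← div_div]
    exact hD

/-- Cubic lattice for a normalised body. -/
theorem cov_of_normal {n : ℕ} (hn : 1 ≤ n) (K : Set (Fin n → ℝ))
    (h1 : ∀ y : Fin n → ℝ, (∀ i, 0 ≤ y i) → ∑ i, y i ≤ 1 → y ∈ K)
    (h2 : ∀ y ∈ K, ∀ i, |y i| ≤ 1) : Cov n K ((2 * n : ℝ) ^ n) := by
  have hn' : (0:ℝ) < n := by exact_mod_cast hn
  refine ⟨(1 / (n:ℝ)) • 1, ?_, fun x => ?_, ?_⟩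
  · rw [Matrix.det_smul, Matrix.det_one, mul_one]
    positivity
  · refine ⟨fun i => ⌊n * x i⌋, ?_⟩
    refine h1 _ (fun i => ?_) ?_
    · simp only [Matrix.smul_mulVec, Matrix.one_mulVec, Pi.sub_apply, Pi.smul_apply, smul_eq_mul]
      have := Int.floor_le ((n:ℝ) * x i)
      rw [one_div, sub_nonneg, inv_mul_le_iff₀ hn']
      exact this
    · calc ∑ i, (x - ((1 / (n:ℝ)) • (1 : Matrix (Fin n) (Fin n) ℝ)).mulVec
            (fun i => ((⌊(n:ℝ) * x i⌋ : ℤ) : ℝ))) i ≤ ∑ _i : Fin n, 1 / (n:ℝ) := by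
            refine Finset.sum_le_sum fun i _ => ?_
            simp only [Matrix.smul_mulVec, Matrix.one_mulVec, Pi.sub_apply, Pi.smul_apply,
              smul_eq_mul]
            have := Int.lt_floor_add_one ((n:ℝ) * x i)
            rw [sub_le_iff_le_add, ← mul_one_add, one_div, ← div_eq_inv_mul, le_div_iff₀ hn']
            linarith
        _ = 1 := by
            rw [Finset.sum_const, Finset.card_univ, Fintype.card_fin, nsmul_eq_mul]
            field_simp
        _ ≤ 1 := le_refl _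
  · have hsub : K ⊆ Set.Icc (fun _ => (-1:ℝ)) (fun _ => 1) := fun y hy =>
      ⟨fun i => (abs_le.1 (h2 y hy i)).1, fun i => (abs_le.1 (h2 y hy i)).2⟩
    have hvol : (volume K).toReal ≤ 2 ^ n := by
      have h3 : volume (Set.Icc (fun _ : Fin n => (-1:ℝ)) (fun _ => 1)) = ENNReal.ofReal (2 ^ n) := by
        rw [Real.volume_Icc_pi]
        simp only [Finset.prod_const, Finset.card_univ, Fintype.card_fin]
        rw [← ENNReal.ofReal_pow (by norm_num)]
        norm_num
      refine ENNReal.toReal_le_of_le_ofReal (by positivity) ?_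
      rw [← h3]; exact measure_mono hsub
    rw [Matrix.det_smul, Matrix.det_one, mul_one, Fintype.card_fin,
      abs_of_pos (by positivity)]
    rw [div_le_iff₀ (by positivity), ← mul_pow]
    have : 2 * (n:ℝ) * (1 / n) = 2 := by field_simp
    rw [this]; exact hvol


end Crest.Agent.R225.L
end

-- ▼ part R225/D1
section

/-! Row 225: nodes D1 and Small. -/

set_option autoImplicit false

open Finset MeasureTheory

namespace Crest.Agent.R225

open L in
theorem prf_Small : S_Small := by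
  intro n
  refine ⟨(2 * (n:ℝ)) ^ n, fun K hK hc hi => ?_⟩
  rcases Nat.eq_zero_or_pos n with rfl | hn
  · refine ⟨1, by simp, fun x => ⟨0, ?_⟩, ?_⟩
    · obtain ⟨y, hy⟩ := hi
      have : x - (1 : Matrix (Fin 0) (Fin 0) ℝ).mulVec (fun i => (((0 : Fin 0 → ℤ) i : ℤ) : ℝ)) = y :=
        Subsingleton.elim _ _
      rw [this]; exact interior_subset hy
    · simp only [Matrix.det_one, abs_one, div_one, pow_zero]
      refine ENNReal.toReal_le_of_le_ofReal zero_le_one ?_
      refine (measure_mono (Set.subset_univ K)).trans ?_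
      have : (Set.univ : Set (Fin 0 → ℝ)) = Set.Icc (fun _ => 0) (fun _ => 1) := by
        ext x; simp [Subsingleton.elim x (fun _ => 0), Subsingleton.elim (fun _ : Fin 0 => (0:ℝ)) (fun _ => 1)]
      rw [this, Real.volume_Icc_pi]
      simp
  · obtain ⟨x0, M, hM, h1, h2⟩ := exists_normal K hK hc hi
    exact cov_of_pull hM (cov_of_normal hn _ h1 h2)

open L in
theorem prf_D1 : S_D1 := by
  classical
  intro d S hc hb hi
  -- near-maximal simplex with vertices in `S`
  obtain ⟨c, hc0⟩ := hi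
  have hcS : c ∈ S := interior_subset hc0
  let V : Set ℝ := {t | ∃ x : Fin (d + 1) → (Fin d → ℝ), (∀ i, x i ∈ S) ∧ t = |(dmat x).det|}
  have hVne : V.Nonempty := ⟨_, fun _ => c, fun _ => hcS, rfl⟩
  have hVbdd : BddAbove V := by
    have hcomp : IsCompact (Set.pi Set.univ (fun _ : Fin (d + 1) => closure S)) :=
      isCompact_univ_pi fun _ => hb.isCompact_closure
    obtain ⟨B, hB⟩ := (hcomp.image (continuous_dmat_det (n := d))).bddAbove
    refine ⟨B, ?_⟩
    rintro t ⟨x, hx, rfl⟩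
    exact hB ⟨x, fun i _ => subset_closure (hx i), rfl⟩
  have hVpos : 0 < sSup V := by
    rw [mem_interior_iff_mem_nhds, Metric.mem_nhds_iff] at hc0
    obtain ⟨r, hr, hball⟩ := hc0
    have h1 : |(dmat (Fin.cons c (fun j => c + Pi.single j (r / 2)) : Fin (d + 1) → (Fin d → ℝ))).det| ∈ V := by
      refine ⟨_, fun i => ?_, rfl⟩
      refine Fin.cases ?_ (fun j => ?_) i
      · simpa using hcS
      · simp only [Fin.cons_succ]
        refine hball ?_
        rw [Metric.mem_ball, dist_eq_norm, add_sub_cancel_left, Pi.norm_single]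
        rw [Real.norm_of_nonneg (by positivity)]
        linarith
    have h2 : dmat (Fin.cons c (fun j => c + Pi.single j (r / 2)) : Fin (d + 1) → (Fin d → ℝ)) =
        Matrix.diagonal (fun _ => r / 2) := by
      ext i j
      simp only [dmat, Matrix.of_apply, Fin.cons_succ, Fin.cons_zero, Pi.add_apply,
        add_sub_cancel_left, Matrix.diagonal_apply, Pi.single_apply]
    rw [h2, Matrix.det_diagonal, Finset.prod_const] at h1
    have h3 : 0 < |(r / 2) ^ (Finset.univ : Finset (Fin d)).card| := abs_pos.2 (by positivity)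
    exact h3.trans_le (le_csSup hVbdd h1)
  obtain ⟨t, ⟨x, hx, rfl⟩, hlt⟩ := exists_lt_of_lt_csSup hVne (half_lt_self hVpos)
  have hmax : ∀ y : Fin (d + 1) → (Fin d → ℝ), (∀ i, y i ∈ S) →
      |(dmat y).det| ≤ 2 * |(dmat x).det| := by
    intro y hy
    have h1 : |(dmat y).det| ≤ sSup V := le_csSup hVbdd ⟨y, hy, rfl⟩
    linarith
  have hdet : (dmat x).det ≠ 0 := by
    have : 0 < |(dmat x).det| := (half_pos hVpos).trans hlt
    exact abs_pos.1 this
  refine ⟨dmat x, x 0, hdet, ?_, ?_⟩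
  · intro z hz
    rw [dmat_mulVec]
    have hsum : ∑ j, z j ≤ 1 := by
      calc ∑ j, z j ≤ ∑ _j : Fin d, 1 / ((d:ℝ) + 1) := Finset.sum_le_sum fun j _ => (hz j).2
        _ = d / (d + 1) := by
            rw [Finset.sum_const, Finset.card_univ, Fintype.card_fin, nsmul_eq_mul]; ring
        _ ≤ 1 := by rw [div_le_one (by positivity)]; linarith
    have h1 : (1 - ∑ j, z j) • x 0 + ∑ j, z j • x j.succ =
        ∑ i : Fin (d + 1), (Fin.cons (1 - ∑ j, z j) z : Fin (d + 1) → ℝ) i • x i := by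
      rw [Fin.sum_univ_succ]; simp
    rw [h1]
    refine hc.sum_mem (fun i _ => ?_) ?_ (fun i _ => hx i)
    · refine Fin.cases ?_ (fun j => ?_) i
      · simp; linarith
      · simpa using (hz j).1
    · rw [Fin.sum_univ_succ]; simp
  · intro w hw
    have hu : IsUnit (dmat x).det := isUnit_iff_ne_zero.2 hdet
    refine ⟨(dmat x)⁻¹.mulVec (w - x 0), fun i => ?_, ?_⟩
    · set y := (dmat x)⁻¹.mulVec (w - x 0) with hy
      have hwy : w = x 0 + (dmat x).mulVec y := by
        rw [hy, Matrix.mulVec_mulVec, Matrix.mul_nonsing_inv _ hu, Matrix.one_mulVec]; abel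
      have h1 := hmax (Function.update x i.succ w) (by
        intro j
        rcases eq_or_ne j i.succ with rfl | h
        · simpa using hw
        · rw [Function.update_of_ne h]; exact hx j)
      have h2 : dmat (Function.update x i.succ w) =
          (dmat x).updateCol i ((dmat x).mulVec y) := by
        ext k j
        simp only [dmat, Matrix.of_apply, Matrix.updateCol_apply]
        rw [Function.update_of_ne (Fin.succ_ne_zero i).symm]
        split_ifs with h
        · subst h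
          rw [Function.update_self, hwy]
          simp [dmat]
        · rw [Function.update_of_ne (fun h' => h (Fin.succ_injective _ h'))]
      rw [h2] at h1
      have h3 : ((dmat x).updateCol i ((dmat x).mulVec y)).det = (dmat x).det * y i := by
        have h4 := Matrix.cramer_apply (dmat x) ((dmat x).mulVec y) i
        rw [← h4]
        have h6 : (dmat x).cramer ((dmat x).mulVec y) = (dmat x).det • y := by
          rw [Matrix.cramer_eq_adjugate_mulVec, Matrix.mulVec_mulVec, Matrix.adjugate_mul,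
            Matrix.smul_mulVec, Matrix.one_mulVec]
        rw [h6]; simp
      rw [h3, abs_mul] at h1
      have h7 : 0 < |(dmat x).det| := abs_pos.2 hdet
      nlinarith
    · rw [Matrix.mulVec_mulVec, Matrix.mul_nonsing_inv _ hu, Matrix.one_mulVec]; abel

end Crest.Agent.R225
end

-- ▼ part R225/Disc
section

/-!
# Row 225 (S0347): node `Disc` (discretisation of the windows to residues mod `P`)
-/

set_option autoImplicit false

open Finset MeasureTheory
open scoped BigOperators ENNReal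

namespace Crest.Agent.R225
namespace Disc

/-! ## total variation of quasi-concave sequences -/

lemma tv_seq (g : ℕ → ℝ) (n : ℕ)
    (hq : ∀ i j k, i ≤ j → j ≤ k → k ≤ n → min (g i) (g k) ≤ g j) :
    ∃ M, (∃ j ≤ n, g j = M) ∧ (∀ j ≤ n, g j ≤ M) ∧
      ∑ k ∈ range n, |g (k + 1) - g k| + g 0 + g n = 2 * M := by
  induction n with
  | zero =>
    refine ⟨g 0, ⟨0, le_rfl, rfl⟩, ?_, by simp; ring⟩
    intro j hj
    obtain rfl : j = 0 := by omega
    exact le_rfl
  | succ n ih =>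
    obtain ⟨M, ⟨j, hj, hjM⟩, hM, hs⟩ := ih (fun i j k h1 h2 h3 => hq i j k h1 h2 (by omega))
    rw [sum_range_succ]
    have hjn := hq j n (n + 1) hj (by omega) le_rfl
    rw [hjM] at hjn
    rcases le_or_gt M (g (n + 1)) with h | h
    · rw [min_eq_left h] at hjn
      have h2 : g n = M := le_antisymm (hM n le_rfl) hjn
      refine ⟨g (n + 1), ⟨n + 1, le_rfl, rfl⟩, ?_, ?_⟩
      · intro i hi
        rcases Nat.lt_or_ge i (n + 1) with h' | h'
        · exact (hM i (by omega)).trans h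
        · obtain rfl : i = n + 1 := by omega
          exact le_rfl
      · rw [h2] at hs ⊢
        rw [abs_of_nonneg (by linarith)]
        linarith
    · rw [min_eq_right h.le] at hjn
      refine ⟨M, ⟨j, by omega, hjM⟩, ?_, ?_⟩
      · intro i hi
        rcases Nat.lt_or_ge i (n + 1) with h' | h'
        · exact hM i (by omega)
        · obtain rfl : i = n + 1 := by omega
          exact h.le
      · rw [abs_of_nonpos (by linarith)]
        linarith

/-- quasi-concavity on `ℝ` -/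
def QC (F : ℝ → ℝ) : Prop := ∀ x y z, x ≤ y → y ≤ z → min (F x) (F z) ≤ F y

lemma tv_mono {F : ℝ → ℝ} (hF : QC F) {α : ℝ} (hα : ∀ s, F s ≤ α) (t : ℕ → ℝ) (ht : Monotone t)
    (n : ℕ) : ∑ k ∈ range n, |F (t (k + 1)) - F (t k)| + F (t 0) + F (t n) ≤ 2 * α := by
  obtain ⟨M, ⟨j, -, hj⟩, -, h⟩ := tv_seq (fun i => F (t i)) n
    (fun i j k h1 h2 _ => hF _ _ _ (ht h1) (ht h2))
  rw [h, ← hj]
  have := hα (t j)
  linarith

lemma sum_pairs (f : ℕ → ℝ) (n : ℕ) :
    ∑ i ∈ range (2 * n), f i = ∑ k ∈ range n, (f (2 * k) + f (2 * k + 1)) := by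
  induction n with
  | zero => simp
  | succ n ih =>
    rw [show 2 * (n + 1) = 2 * n + 1 + 1 by ring, sum_range_succ, sum_range_succ, ih,
      sum_range_succ]
    ring

/-- interleaved sequence -/
noncomputable def tt (s0 h u : ℝ) (i : ℕ) : ℝ :=
  s0 + ((i / 2 : ℕ) : ℝ) * h + if i % 2 = 0 then 0 else u

lemma tt_even (s0 h u : ℝ) (k : ℕ) : tt s0 h u (2 * k) = s0 + k * h := by
  simp [tt]

lemma tt_odd (s0 h u : ℝ) (k : ℕ) : tt s0 h u (2 * k + 1) = s0 + k * h + u := by
  have h1 : (2 * k + 1) / 2 = k := by omega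
  have h2 : (2 * k + 1) % 2 = 1 := by omega
  simp [tt, h1, h2]

lemma tt_mono {s0 h u : ℝ} (h0 : 0 ≤ u) (h1 : u ≤ h) : Monotone (tt s0 h u) := by
  refine monotone_nat_of_le_succ fun i => ?_
  rcases Nat.even_or_odd' i with ⟨k, rfl | rfl⟩
  · rw [tt_even, tt_odd]; linarith
  · rw [show 2 * k + 1 + 1 = 2 * (k + 1) by ring, tt_even, tt_odd]
    push_cast
    linarith

lemma tv_pairs {F : ℝ → ℝ} (hF : QC F) {α : ℝ} (h0 : ∀ s, 0 ≤ F s) (hα : ∀ s, F s ≤ α)
    (s0 h u : ℝ) (hu : 0 ≤ u) (hu' : u ≤ h) (n : ℕ) :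
    ∑ k ∈ range n, |F (s0 + k * h + u) - F (s0 + k * h)| ≤ 2 * α := by
  have h1 := tv_mono hF hα (tt s0 h u) (tt_mono hu hu') (2 * n)
  rw [sum_pairs (fun i => |F (tt s0 h u (i + 1)) - F (tt s0 h u i)|)] at h1
  have h2 : ∑ k ∈ range n, |F (s0 + k * h + u) - F (s0 + k * h)| ≤
      ∑ k ∈ range n, (|F (tt s0 h u (2 * k + 1)) - F (tt s0 h u (2 * k))| +
        |F (tt s0 h u (2 * k + 1 + 1)) - F (tt s0 h u (2 * k + 1))|) := by
    refine sum_le_sum fun k _ => ?_
    rw [tt_odd, tt_even]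
    have := abs_nonneg (F (tt s0 h u (2 * k + 1 + 1)) - F (s0 + k * h + u))
    linarith
  have h3 := h0 (tt s0 h u 0)
  have h4 := h0 (tt s0 h u (2 * n))
  linarith

/-- Riemann sums of quasi-concave functions -/
lemma riemann {F : ℝ → ℝ} (hF : QC F) (hm : Measurable F) {α : ℝ} (h0 : ∀ s, 0 ≤ F s)
    (hα : ∀ s, F s ≤ α) {h : ℝ} (hh : 0 < h) (s0 : ℝ) (n : ℕ) :
    |(∑ k ∈ range n, h * F (s0 + k * h)) - ∫ s in s0..(s0 + n * h), F s| ≤ 2 * α * h := by
  have hint : ∀ a b : ℝ, IntervalIntegrable F volume a b := by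
    intro a b
    refine (intervalIntegrable_const (c := α)).mono_fun hm.aestronglyMeasurable ?_
    refine Filter.Eventually.of_forall fun s => ?_
    simp only [Real.norm_eq_abs]
    rw [abs_of_nonneg (h0 s)]
    exact (hα s).trans (le_abs_self α)
  have hsum : ∫ s in s0..(s0 + n * h), F s =
      ∑ k ∈ range n, ∫ u in (0 : ℝ)..h, F (s0 + k * h + u) := by
    have := intervalIntegral.sum_integral_adjacent_intervals (f := F) (μ := volume)
      (a := fun k : ℕ => s0 + k * h) (n := n) (fun k _ => hint _ _)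
    simp only [Nat.cast_zero, zero_mul, add_zero] at this
    rw [← this]
    refine sum_congr rfl fun k _ => ?_
    rw [intervalIntegral.integral_comp_add_left (fun s => F s)]
    congr 1
    · ring
    · push_cast; ring
  have hconst : ∀ k : ℕ, h * F (s0 + k * h) = ∫ _u in (0 : ℝ)..h, F (s0 + k * h) := by
    intro k
    simp
  have hint2 : ∀ c : ℝ, IntervalIntegrable (fun u => F (c + u)) volume 0 h := by
    intro c
    refine (intervalIntegrable_const (c := α)).mono_fun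
      (hm.comp (measurable_const_add c)).aestronglyMeasurable ?_
    refine Filter.Eventually.of_forall fun s => ?_
    simp only [Real.norm_eq_abs]
    rw [abs_of_nonneg (h0 _)]
    exact (hα _).trans (le_abs_self α)
  rw [hsum, ← sum_sub_distrib]
  have hrw : ∑ k ∈ range n, (h * F (s0 + k * h) - ∫ u in (0 : ℝ)..h, F (s0 + k * h + u)) =
      ∫ u in (0 : ℝ)..h, ∑ k ∈ range n, (F (s0 + k * h) - F (s0 + k * h + u)) := by
    rw [intervalIntegral.integral_finsetSum]
    · refine sum_congr rfl fun k _ => ?_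
      rw [hconst, intervalIntegral.integral_sub intervalIntegrable_const (hint2 _)]
    · intro k _
      exact intervalIntegrable_const.sub (hint2 _)
  rw [hrw]
  have hb := intervalIntegral.norm_integral_le_of_norm_le_const (a := (0 : ℝ)) (b := h)
    (f := fun u => ∑ k ∈ range n, (F (s0 + k * h) - F (s0 + k * h + u))) (C := 2 * α) ?_
  · rw [sub_zero, abs_of_pos hh] at hb
    exact hb
  · intro u hu
    rw [Set.uIoc_of_le hh.le] at hu
    refine (abs_sum_le_sum_abs _ _).trans ?_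
    refine le_trans (le_of_eq ?_) (tv_pairs hF h0 hα s0 h u hu.1.le hu.2 n)
    exact sum_congr rfl fun k _ => abs_sub_comm _ _

/-! ## residues -/

lemma sum_val (P : ℕ) [NeZero P] (f : ℕ → ℝ) : ∑ ξ : ZMod P, f ξ.val = ∑ i ∈ range P, f i := by
  cases P with
  | zero => exact absurd rfl (NeZero.ne 0)
  | succ n => exact Fin.sum_univ_eq_sum_range f (n + 1)

/-- the integer in `[k0, k0 + P)` congruent to `ξ` -/
def kq {P : ℕ} (k0 : ℤ) (ξ : ZMod P) : ℤ := k0 + ((ξ - (k0 : ZMod P)).val : ℤ)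

lemma kq_cast {P : ℕ} [NeZero P] (k0 : ℤ) (ξ : ZMod P) : ((kq k0 ξ : ℤ) : ZMod P) = ξ := by
  simp [kq]

lemma sum_kq {P : ℕ} [NeZero P] (k0 : ℤ) (G : ℤ → ℝ) :
    ∑ ξ : ZMod P, G (kq k0 ξ) = ∑ i ∈ range P, G (k0 + i) := by
  rw [← sum_val P (fun i => G (k0 + i))]
  exact Fintype.sum_equiv (Equiv.subRight (k0 : ZMod P)) _ _ (fun ξ => rfl)

lemma sum_kq_succ {P : ℕ} [NeZero P] (k0 : ℤ) (G : ℤ → ℝ) :
    ∑ ξ : ZMod P, |G (kq k0 (ξ + 1)) - G (kq k0 ξ)| =
      ∑ i ∈ range P, |G (k0 + ((i + 1) % P : ℕ)) - G (k0 + i)| := by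
  rw [← sum_val P (fun i => |G (k0 + ((i + 1) % P : ℕ)) - G (k0 + i)|)]
  refine Fintype.sum_equiv (Equiv.subRight (k0 : ZMod P)) _ _ (fun ξ => ?_)
  have : (ξ + 1 - (k0 : ZMod P)).val = ((ξ - (k0 : ZMod P)).val + 1) % P := by
    rw [show ξ + 1 - (k0 : ZMod P) = (ξ - (k0 : ZMod P)) + 1 by ring, ZMod.val_add,
      ZMod.val_one_eq_one_mod, Nat.add_mod_mod]
  simp only [kq, this, Equiv.subRight_apply]

/-- cyclic total variation -/
lemma tv_cyc {F : ℝ → ℝ} (hF : QC F) {α : ℝ} (h0 : ∀ s, 0 ≤ F s) (hα : ∀ s, F s ≤ α)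
    {P : ℕ} [NeZero P] (k0 : ℤ) {h : ℝ} (hh : 0 < h) :
    ∑ ξ : ZMod P, |F (kq k0 (ξ + 1) * h) - F (kq k0 ξ * h)| ≤ 2 * α := by
  rw [sum_kq_succ k0 (fun k => F (k * h))]
  obtain ⟨n, rfl⟩ : ∃ n, P = n + 1 := ⟨P - 1, by have := NeZero.pos P; omega⟩
  rw [sum_range_succ, Nat.mod_self]
  have h1 := tv_mono hF hα (fun i => ((k0 + i : ℤ) : ℝ) * h) (by
    intro i j hij
    have : ((k0 + i : ℤ) : ℝ) ≤ ((k0 + j : ℤ) : ℝ) := by exact_mod_cast (by omega)
    exact mul_le_mul_of_nonneg_right this hh.le) n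
  have h2 : ∑ i ∈ range n, |F (((k0 + ((i + 1) % (n + 1) : ℕ) : ℤ) : ℝ) * h) -
      F (((k0 + i : ℤ) : ℝ) * h)| =
      ∑ i ∈ range n, |F (((k0 + (i + 1 : ℕ) : ℤ) : ℝ) * h) - F (((k0 + i : ℤ) : ℝ) * h)| := by
    refine sum_congr rfl fun i hi => ?_
    rw [Nat.mod_eq_of_lt (by have := mem_range.1 hi; omega)]
  rw [h2]
  have h3 := h0 (((k0 + (0 : ℕ) : ℤ) : ℝ) * h)
  have h4 := h0 (((k0 + (n : ℕ) : ℤ) : ℝ) * h)
  have h5 : |F (((k0 + (0 : ℕ) : ℤ) : ℝ) * h) - F (((k0 + (n : ℕ) : ℤ) : ℝ) * h)| ≤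
      F (((k0 + (0 : ℕ) : ℤ) : ℝ) * h) + F (((k0 + (n : ℕ) : ℤ) : ℝ) * h) := by
    rw [abs_le]; constructor <;> linarith
  linarith

/-- mean of the samples versus the integral over the window -/
lemma mean_window {F : ℝ → ℝ} (hF : QC F) (hm : Measurable F) {α : ℝ} (h0 : ∀ s, 0 ≤ F s)
    (hα : ∀ s, F s ≤ α) {P : ℕ} [NeZero P] {a c c' : ℝ} (ha : 0 < a) (hc : c' ≤ c + a)
    (hsupp : ∀ s, s ∉ Set.Ico c c' → F s = 0) :
    |(𝔼 ξ : ZMod P, F (kq ⌈c * P / a⌉ ξ * (a / P))) - 1 / a * ∫ s, F s| ≤ 4 / P * α := by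
  have hP : (0 : ℝ) < P := by exact_mod_cast NeZero.pos P
  have hα0 : 0 ≤ α := (h0 0).trans (hα 0)
  set k0 : ℤ := ⌈c * P / a⌉ with hk0
  set h : ℝ := a / P with hh
  have hpos : 0 < h := div_pos ha hP
  have e1 : c ≤ k0 * h := by
    have := Int.le_ceil (c * P / a)
    rw [← hk0] at this
    rw [hh]
    rw [div_le_iff₀ ha] at this
    rw [← mul_div_assoc, le_div_iff₀ hP]
    exact this
  have e2 : (k0 - 1 : ℝ) * h < c := by
    have := Int.ceil_lt_add_one (c * P / a)
    rw [← hk0] at this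
    have h3 : (k0 - 1 : ℝ) < c * P / a := by linarith
    rw [lt_div_iff₀ ha] at h3
    rw [hh, ← mul_div_assoc, div_lt_iff₀ hP]
    exact h3
  have hr := riemann hF hm h0 hα hpos ((k0 - 1) * h) (P + 1)
  have hend : (k0 - 1 : ℝ) * h + ((P + 1 : ℕ) : ℝ) * h = k0 * h + a := by
    have : (P : ℝ) * h = a := by rw [hh]; field_simp
    push_cast
    linarith
  rw [hend] at hr
  have hI : ∫ s in ((k0 - 1 : ℝ) * h)..(k0 * h + a), F s = ∫ s, F s := by
    rw [intervalIntegral.integral_of_le (by nlinarith)]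
    refine setIntegral_eq_integral_of_forall_compl_eq_zero fun s hs => hsupp s fun hs' => hs ?_
    exact ⟨lt_of_lt_of_le e2 hs'.1, by linarith [hs'.2]⟩
  rw [hI] at hr
  have hS : ∑ k ∈ range (P + 1), h * F ((k0 - 1) * h + k * h) =
      h * ∑ ξ : ZMod P, F (kq k0 ξ * h) := by
    rw [sum_kq k0 (fun k => F (k * h)), sum_range_succ', mul_sum]
    have hz : F ((k0 - 1) * h + ((0 : ℕ) : ℝ) * h) = 0 := by
      apply hsupp
      intro hs
      have := hs.1
      simp only [Nat.cast_zero, zero_mul, add_zero] at this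
      linarith
    rw [hz, mul_zero, add_zero]
    refine sum_congr rfl fun i _ => ?_
    congr 2
    push_cast
    ring
  rw [hS] at hr
  rw [Fintype.expect_eq_sum_div_card, ZMod.card]
  set S := ∑ ξ : ZMod P, F (kq k0 ξ * h) with hSdef
  have hfin : S / P - 1 / a * ∫ s, F s = (1 / a) * (h * S - ∫ s, F s) := by
    rw [hh]; field_simp
  rw [hfin, abs_mul, abs_of_pos (by positivity : 0 < 1 / a)]
  calc 1 / a * |h * S - ∫ s, F s| ≤ 1 / a * (2 * α * h) := by gcongr
    _ = 2 / P * α := by rw [hh]; field_simp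
    _ ≤ 4 / P * α := by gcongr; norm_num

/-! ## positivity of the parameters -/


lemma al_pos (X : ℝ) (i : ℕ) : 0 < al X i := Real.exp_pos _

lemma alf_pos {X α0 : ℝ} (h : 0 < α0) (I j : ℕ) : 0 < alf X α0 I j := by
  unfold alf
  split_ifs
  · exact h
  · exact al_pos _ _

/-! ## log-concave functions in the last variable -/

lemma LC.min_le {E : Type*} [AddCommGroup E] [Module ℝ E] {f : E → ℝ≥0∞} (hf : LC f)
    (x y : E) (t : ℝ) (h0 : 0 ≤ t) (h1 : t ≤ 1) :
    min (f x) (f y) ≤ f ((1 - t) • x + t • y) := by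
  rcases h0.eq_or_lt with rfl | h0
  · simp
  rcases h1.eq_or_lt with rfl | h1
  · simp
  refine le_trans ?_ (hf x y t h0 h1)
  set v := min (f x) (f y)
  rcases eq_or_ne v 0 with hv | hv
  · rw [hv]; exact zero_le
  rcases eq_or_ne v ∞ with hv' | hv'
  · have hx : f x = ∞ := top_le_iff.1 (hv' ▸ min_le_left (f x) (f y))
    have hy : f y = ∞ := top_le_iff.1 (hv' ▸ min_le_right (f x) (f y))
    rw [hx, hy, ENNReal.top_rpow_of_pos (by linarith), ENNReal.top_rpow_of_pos h0]
    simp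
  calc v = v ^ ((1 - t) + t) := by rw [sub_add_cancel, ENNReal.rpow_one]
    _ = v ^ (1 - t) * v ^ t := ENNReal.rpow_add _ _ hv hv'
    _ ≤ f x ^ (1 - t) * f y ^ t := by
        gcongr
        · exact min_le_left _ _
        · exact min_le_right _ _

lemma snoc_comb {n : ℕ} (x : Fin n → ℝ) (s s' t : ℝ) :
    (Fin.snoc x ((1 - t) * s + t * s') : Fin (n + 1) → ℝ) =
      (1 - t) • (Fin.snoc x s : Fin (n + 1) → ℝ) + t • (Fin.snoc x s' : Fin (n + 1) → ℝ) := by
  funext i
  refine Fin.lastCases ?_ (fun i => ?_) i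
  · simp
  · simp only [Fin.snoc_castSucc, Pi.add_apply, Pi.smul_apply, smul_eq_mul]
    ring

lemma measurable_snoc {n : ℕ} (x : Fin n → ℝ) :
    Measurable fun s : ℝ => (Fin.snoc x s : Fin (n + 1) → ℝ) := by
  refine measurable_pi_iff.2 fun i => ?_
  refine Fin.lastCases ?_ (fun i => ?_) i
  · simpa using measurable_id'
  · simp

open Classical in
/-- the function of the last variable in the window -/
noncomputable def FF' {n : ℕ} (f : (Fin (n + 1) → ℝ) → ℝ≥0∞) (x : Fin n → ℝ) (c c' : ℝ) : ℝ → ℝ :=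
  (Set.Ico c c').indicator fun s => (f (Fin.snoc x s)).toReal

lemma FF'_nonneg {n : ℕ} (f : (Fin (n + 1) → ℝ) → ℝ≥0∞) (x : Fin n → ℝ) (c c' s : ℝ) :
    0 ≤ FF' f x c c' s := Set.indicator_nonneg (fun _ _ => ENNReal.toReal_nonneg) _

lemma FF'_qc {n : ℕ} {f : (Fin (n + 1) → ℝ) → ℝ≥0∞} (hf : LC f) (hfin : ∀ x, f x ≠ ∞)
    (x : Fin n → ℝ) (c c' : ℝ) : QC (FF' f x c c') := by
  intro r s t hrs hst
  by_cases hr : r ∈ Set.Ico c c'
  · by_cases ht : t ∈ Set.Ico c c'
    · have hs : s ∈ Set.Ico c c' := ⟨hr.1.trans hrs, lt_of_le_of_lt hst ht.2⟩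
      simp only [FF', Set.indicator_of_mem hr, Set.indicator_of_mem hs, Set.indicator_of_mem ht]
      rcases hrs.eq_or_lt with rfl | hrs'
      · exact min_le_left _ _
      have hrt : 0 < t - r := by linarith
      have hmin := LC.min_le hf (Fin.snoc x r) (Fin.snoc x t) ((s - r) / (t - r))
        (div_nonneg (by linarith) hrt.le) ((div_le_one hrt).2 (by linarith))
      rw [← snoc_comb] at hmin
      have he : (1 - (s - r) / (t - r)) * r + (s - r) / (t - r) * t = s := by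
        field_simp; ring
      rw [he] at hmin
      rw [← ENNReal.toReal_min (hfin _) (hfin _)]
      exact ENNReal.toReal_mono (hfin _) hmin
    · have : FF' f x c c' t = 0 := Set.indicator_of_notMem ht _
      rw [this]
      exact (min_le_right _ _).trans (FF'_nonneg _ _ _ _ _)
  · have : FF' f x c c' r = 0 := Set.indicator_of_notMem hr _
    rw [this]
    exact (min_le_left _ _).trans (FF'_nonneg _ _ _ _ _)

lemma FF'_meas {n : ℕ} {f : (Fin (n + 1) → ℝ) → ℝ≥0∞} (hf : Measurable f)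
    (x : Fin n → ℝ) (c c' : ℝ) : Measurable (FF' f x c c') :=
  ((hf.comp (measurable_snoc x)).ennreal_toReal).indicator measurableSet_Ico

lemma FF'_integral {n : ℕ} {f : (Fin (n + 1) → ℝ) → ℝ≥0∞} (hf : Measurable f)
    (hfin : ∀ x, f x ≠ ∞) (x : Fin n → ℝ) (c c' : ℝ) :
    ∫ s, FF' f x c c' s = (∫⁻ s in Set.Ico c c', f (Fin.snoc x s)).toReal := by
  unfold FF'
  rw [integral_indicator measurableSet_Ico]
  exact integral_toReal (hf.comp (measurable_snoc x)).aemeasurable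
    (Filter.Eventually.of_forall fun s => lt_top_iff_ne_top.2 (hfin _))

/-! ## the process -/

section
variable {X : ℝ} {d I : ℕ} {α0 : ℝ} {K : Set (Fin (d + (I + 1)) → ℝ)} {a : ℕ → ℝ}
  {U : ∀ j : ℕ, (Fin (d + j) → ℝ) → ℝ≥0∞}

open Classical in
/-- left end of the window -/
noncomputable def cL (C : Chain X d I α0 K a U) (j : ℕ) (x : Fin (d + j) → ℝ) : ℝ :=
  if h : j ≤ I ∧ U j x ≠ 0 then (C.win j h.1 x h.2).choose else 0

open Classical in
/-- right end of the window -/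
noncomputable def cR (C : Chain X d I α0 K a U) (j : ℕ) (x : Fin (d + j) → ℝ) : ℝ :=
  if h : j ≤ I ∧ U j x ≠ 0 then (C.win j h.1 x h.2).choose_spec.choose else 0

lemma window (C : Chain X d I α0 K a U) (j : ℕ) (x : Fin (d + j) → ℝ) (hj : j ≤ I)
    (hx : U j x ≠ 0) : cL C j x ≤ cR C j x ∧ cR C j x ≤ cL C j x + a j ∧
    U j x = ENNReal.ofReal (1 / a j) *
      ∫⁻ s in Set.Ico (cL C j x) (cR C j x), U (j + 1) (Fin.snoc x s) := by
  have h : j ≤ I ∧ U j x ≠ 0 := ⟨hj, hx⟩
  have e1 : cL C j x = (C.win j h.1 x h.2).choose := dif_pos h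
  have e2 : cR C j x = (C.win j h.1 x h.2).choose_spec.choose := dif_pos h
  rw [e1, e2]
  exact (C.win j h.1 x h.2).choose_spec.choose_spec

/-- first index of the window -/
noncomputable def i0 (C : Chain X d I α0 K a U) (P j : ℕ) (x : Fin (d + j) → ℝ) : ℤ :=
  ⌈cL C j x * P / a j⌉

/-- position after the residues `l` -/
noncomputable def pos (C : Chain X d I α0 K a U) (P : ℕ) (x : Fin d → ℝ) :
    (l : List (ZMod P)) → (Fin (d + l.length) → ℝ)
  | [] => x
  | ξ :: l => (Fin.snoc (pos C P x l)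
      (kq (i0 C P l.length (pos C P x l)) ξ * (a l.length / P)) : Fin (d + l.length + 1) → ℝ)

open Classical in
/-- weight after the residues `l` -/
noncomputable def W (C : Chain X d I α0 K a U) (P : ℕ) (x : Fin d → ℝ) : List (ZMod P) → ℝ
  | [] => (U 0 x).toReal
  | ξ :: l => if W C P x l ≠ 0 ∧ l.length ≤ I then
      FF' (U (l.length + 1)) (pos C P x l) (cL C l.length (pos C P x l))
        (cR C l.length (pos C P x l))
        (kq (i0 C P l.length (pos C P x l)) ξ * (a l.length / P)) else 0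

lemma W_spec (C : Chain X d I α0 K a U) (P : ℕ) (x : Fin d → ℝ) (l : List (ZMod P)) :
    W C P x l = 0 ∨ (l.length ≤ I + 1 ∧ W C P x l = (U l.length (pos C P x l)).toReal) := by
  cases l with
  | nil => exact Or.inr ⟨by simp, rfl⟩
  | cons ξ l =>
    by_cases h : W C P x l ≠ 0 ∧ l.length ≤ I
    · have e : W C P x (ξ :: l) = FF' (U (l.length + 1)) (pos C P x l)
          (cL C l.length (pos C P x l)) (cR C l.length (pos C P x l))
          (kq (i0 C P l.length (pos C P x l)) ξ * (a l.length / P)) := if_pos h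
      by_cases h2 : (kq (i0 C P l.length (pos C P x l)) ξ * (a l.length / P) : ℝ) ∈
          Set.Ico (cL C l.length (pos C P x l)) (cR C l.length (pos C P x l))
      · right
        refine ⟨by simp only [List.length_cons]; omega, ?_⟩
        rw [e, FF', Set.indicator_of_mem h2]
        rfl
      · left
        rw [e, FF', Set.indicator_of_notMem h2]
    · left
      exact if_neg h

lemma fin_U (C : Chain X d I α0 K a U) (j : ℕ) (hj : j ≤ I + 1) (x : Fin (d + j) → ℝ) :
    U j x ≠ ∞ := by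
  rcases C.rng j hj x with h | h
  · rw [h]; exact ENNReal.zero_ne_top
  · exact ne_top_of_le_ne_top ENNReal.ofReal_ne_top h.2

lemma toReal_le (hα : 0 < α0) (C : Chain X d I α0 K a U) (j : ℕ) (hj : j ≤ I + 1)
    (x : Fin (d + j) → ℝ) : (U j x).toReal ≤ alf X α0 I j := by
  rcases C.rng j hj x with h | h
  · rw [h]; simpa using (alf_pos hα I j).le
  · exact ENNReal.toReal_le_of_le_ofReal (alf_pos hα I j).le h.2

lemma FF'_le (hα : 0 < α0) (C : Chain X d I α0 K a U) (j : ℕ) (hj : j ≤ I)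
    (x : Fin (d + j) → ℝ) (c c' s : ℝ) : FF' (U (j + 1)) x c c' s ≤ alf X α0 I (j + 1) := by
  unfold FF'
  by_cases hs : s ∈ Set.Ico c c'
  · rw [Set.indicator_of_mem hs]
    exact toReal_le hα C (j + 1) (by omega) _
  · rw [Set.indicator_of_notMem hs]
    exact (alf_pos hα I _).le

lemma pos_spec (C : Chain X d I α0 K a U) (P : ℕ) [NeZero P] (x : Fin d → ℝ)
    (l : List (ZMod P)) : ∃ k : Fin l.length → ℤ,
      l.reverse = List.ofFn (fun j => (k j : ZMod P)) ∧
      pos C P x l = Fin.append x (fun j : Fin l.length => a j * k j / P) := by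
  induction l with
  | nil =>
    refine ⟨Fin.elim0, by simp, ?_⟩
    funext i
    exact (Fin.append_left x (fun j : Fin 0 => a j * (Fin.elim0 j : ℤ) / P) i).symm
  | cons ξ l ih =>
    obtain ⟨k, hk, hp⟩ := ih
    refine ⟨(Fin.snoc k (kq (i0 C P l.length (pos C P x l)) ξ) : Fin (l.length + 1) → ℤ),
      ?_, ?_⟩
    · rw [List.reverse_cons, hk]
      show _ = List.ofFn (n := l.length + 1) _
      rw [List.ofFn_succ']
      simp [kq_cast]
    · have : (fun j : Fin (l.length + 1) => a j *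
          ((Fin.snoc k (kq (i0 C P l.length (pos C P x l)) ξ) : Fin (l.length + 1) → ℤ) j : ℝ)
            / P) = (Fin.snoc (fun j : Fin l.length => a j * k j / P)
            (kq (i0 C P l.length (pos C P x l)) ξ * (a l.length / P)) :
              Fin (l.length + 1) → ℝ) := by
        funext j
        refine Fin.lastCases ?_ (fun i => ?_) j
        · simp only [Fin.snoc_last, Fin.val_last]
          ring
        · simp
      refine Eq.trans ?_ (congrArg (Fin.append (n := l.length + 1) x) this.symm)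
      rw [Fin.append_snoc, ← hp]
      rfl

end

end Disc

open Disc

theorem prf_Disc : S_Disc := by
  intro X d I α0 K a U hα C P _ x
  refine ⟨W C P x, rfl, ?_, ?_, ?_, ?_, ?_⟩
  · intro l ξ h
    exact if_neg (fun h' => h'.1 h)
  · intro l hl
    rcases W_spec C P x l with h | h
    · exact Or.inl h
    · rcases C.rng l.length hl (pos C P x l) with h1 | h1
      · left
        rw [h.2, h1]
        rfl
      · right
        rw [h.2]
        refine ⟨?_, ENNReal.toReal_le_of_le_ofReal (alf_pos hα I _).le h1.2⟩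
        exact (ENNReal.ofReal_le_iff_le_toReal (fin_U C _ hl _)).1 h1.1
  · intro l hl
    have hlI : l.length ≤ I := by omega
    by_cases h : W C P x l = 0
    · have h0 : ∀ ξ, W C P x (ξ :: l) = 0 := fun ξ => if_neg (fun h' => h'.1 h)
      simp only [h0, h]
      simp only [Finset.expect_const_zero, sub_zero, abs_zero]
      have := (alf_pos (X := X) hα I (l.length + 1)).le
      positivity
    · have hs : W C P x l = (U l.length (pos C P x l)).toReal := by
        rcases W_spec C P x l with h' | h'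
        · exact absurd h' h
        · exact h'.2
      have hU : U l.length (pos C P x l) ≠ 0 := by
        intro h'
        rw [hs, h'] at h
        exact h rfl
      obtain ⟨w1, w2, w3⟩ := window C l.length (pos C P x l) hlI hU
      have hW : ∀ ξ : ZMod P, W C P x (ξ :: l) = FF' (U (l.length + 1)) (pos C P x l)
          (cL C l.length (pos C P x l)) (cR C l.length (pos C P x l))
          (kq (i0 C P l.length (pos C P x l)) ξ * (a l.length / P)) := fun ξ => if_pos ⟨h, hlI⟩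
      simp only [hW]
      have hfin := fin_U C (l.length + 1) (by omega)
      have hI : W C P x l = 1 / a l.length * ∫ s, FF' (U (l.length + 1)) (pos C P x l)
          (cL C l.length (pos C P x l)) (cR C l.length (pos C P x l)) s := by
        rw [FF'_integral (C.meas (l.length + 1) (by omega)) hfin, hs, w3, ENNReal.toReal_mul,
          ENNReal.toReal_ofReal (by have := C.pos l.length; positivity)]
      rw [hI]
      have q1 := FF'_qc (C.lc (l.length + 1) (by omega)) hfin (pos C P x l)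
        (cL C l.length (pos C P x l)) (cR C l.length (pos C P x l))
      have q2 := FF'_meas (C.meas (l.length + 1) (by omega)) (pos C P x l)
        (cL C l.length (pos C P x l)) (cR C l.length (pos C P x l))
      have q3 := FF'_nonneg (U (l.length + 1)) (pos C P x l)
        (cL C l.length (pos C P x l)) (cR C l.length (pos C P x l))
      have q4 := FF'_le hα C l.length hlI (pos C P x l)
        (cL C l.length (pos C P x l)) (cR C l.length (pos C P x l))
      exact mean_window q1 q2 q3 q4 (C.pos _) w2 (fun s hs => Set.indicator_of_notMem hs _)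
  · intro l hl
    have hlI : l.length ≤ I := by omega
    by_cases h : W C P x l = 0
    · have h0 : ∀ ξ, W C P x (ξ :: l) = 0 := fun ξ => if_neg (fun h' => h'.1 h)
      simp only [h0]
      have := (alf_pos (X := X) hα I (l.length + 1)).le
      simpa using this
    · have hW : ∀ ξ, W C P x (ξ :: l) = FF' (U (l.length + 1)) (pos C P x l)
          (cL C l.length (pos C P x l)) (cR C l.length (pos C P x l))
          (kq (i0 C P l.length (pos C P x l)) ξ * (a l.length / P)) := fun ξ => if_pos ⟨h, hlI⟩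
      simp only [hW]
      have hfin := fin_U C (l.length + 1) (by omega)
      have hP : (0 : ℝ) < P := by exact_mod_cast NeZero.pos P
      have q1 := FF'_qc (C.lc (l.length + 1) (by omega)) hfin (pos C P x l)
        (cL C l.length (pos C P x l)) (cR C l.length (pos C P x l))
      have q3 := FF'_nonneg (U (l.length + 1)) (pos C P x l)
        (cL C l.length (pos C P x l)) (cR C l.length (pos C P x l))
      have q4 := FF'_le hα C l.length hlI (pos C P x l)
        (cL C l.length (pos C P x l)) (cR C l.length (pos C P x l))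
      exact tv_cyc q1 q3 q4 _ (div_pos (C.pos _) hP)
  · intro l hl h
    have hs : W C P x l = (U l.length (pos C P x l)).toReal := by
      rcases W_spec C P x l with h' | h'
      · exact absurd h' h
      · exact h'.2
    have hU : U l.length (pos C P x l) ≠ 0 := by
      intro h'
      rw [hs, h'] at h
      exact h rfl
    obtain ⟨k, hk, hp⟩ := pos_spec C P x l
    rw [hp] at hU
    have key : ∀ (n : ℕ) (hn : l.length = n), ∃ k' : Fin n → ℤ,
        l.reverse = List.ofFn (fun j => (k' j : ZMod P)) ∧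
        U n (Fin.append x (fun j : Fin n => a j * k' j / P)) ≠ 0 := by
      intro n hn
      subst hn
      exact ⟨k, hk, hU⟩
    obtain ⟨k', h1, h2⟩ := key (I + 1) hl
    refine ⟨k', h1, ?_⟩
    rw [C.top] at h2
    exact Set.mem_of_indicator_ne_zero h2

end Crest.Agent.R225
end

-- ▼ part R225/Geom

/-!
# Row 225 (S0347), node Geom: existence of the chain (iterate Row)
-/

set_option autoImplicit false

open Finset MeasureTheory
open scoped BigOperators ENNReal

namespace Crest.Agent.R225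

namespace GeomAux

/-- properties of one function of the chain -/
def PP (X : ℝ) (d I : ℕ) (α0 : ℝ) (j : ℕ) (F : (Fin (d + j) → ℝ) → ℝ≥0∞) : Prop :=
  LC F ∧ Measurable F ∧ BddSupp F ∧ Vals (alf X α0 I j) (tauf X I j) F ∧ ∫⁻ x, F x ≠ 0

/-- relation between two consecutive functions -/
def RR (X : ℝ) (d I : ℕ) (α0 : ℝ) (j : ℕ) (a : ℝ) (F' : (Fin (d + j) → ℝ) → ℝ≥0∞)
    (F : (Fin (d + (j + 1)) → ℝ) → ℝ≥0∞) : Prop :=
  0 < a ∧ (∀ x : Fin (d + j) → ℝ, F' x ≠ 0 → ∃ c c', c ≤ c' ∧ c' ≤ c + a ∧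
    F' x = ENNReal.ofReal (1 / a) * ∫⁻ s in Set.Ico c c', F (Fin.snoc x s)) ∧
  (ENNReal.ofReal (1 - 100 / lam X (I - j)) * ∫⁻ x, F x ≤ ENNReal.ofReal a * ∫⁻ x, F' x) ∧
  ∃ (x : Fin (d + j) → ℝ) (s1 s2 : ℝ), F (Fin.snoc x s1) ≠ 0 ∧
    F (Fin.snoc x s2) ≠ 0 ∧ a ≤ 2 * Qf X α0 I j * (s2 - s1)

/-- numerical conditions -/
structure NumOk (X Λ : ℝ) : Prop where
  X0 : 0 ≤ X
  lamΛ : ∀ i, Λ ≤ lam X i
  lamθ : ∀ i, lam X i ≤ Real.exp (theta * xl X i)
  sum : ∀ i, ∑ j ∈ range i, 1 / lam X j ≤ 1 / 200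

lemma lam_pos (X : ℝ) (i : ℕ) : 0 < lam X i := Real.exp_pos _

lemma al_pos (X : ℝ) (i : ℕ) : 0 < al X i := Real.exp_pos _

lemma al_zero (X : ℝ) : al X 0 = 1 := by simp [al, xl]

lemma al_succ (X : ℝ) (i : ℕ) :
    al X (i + 1) = al X i * lam X i / (lam X i * Real.exp (theta * xl X i)) := by
  have : al X (i + 1) = al X i / Real.exp (theta * xl X i) := by
    unfold al
    rw [← Real.exp_sub]
    congr 1
    unfold xl
    ring
  rw [this]
  field_simp [(lam_pos X i).ne', (Real.exp_pos (theta * xl X i)).ne']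

lemma tau_zero (X : ℝ) : tau X 0 = 1 := by simp [tau]

lemma tau_succ (X : ℝ) (i : ℕ) : tau X (i + 1) = tau X i / (2 * lam X i ^ 2) := by
  unfold tau
  rw [prod_range_succ]; ring

lemma tau_pos (X : ℝ) (i : ℕ) : 0 < tau X i := by
  unfold tau
  exact prod_pos fun j _ => by have := lam_pos X j; positivity

lemma tau_le_one (X : ℝ) (i : ℕ) : tau X i ≤ 1 := by
  unfold tau
  refine prod_le_one (fun j _ => by have := lam_pos X j; positivity) fun j _ => ?_
  have h1 : 1 ≤ lam X j := Real.one_le_exp (Real.sqrt_nonneg _)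
  rw [div_le_one (by positivity)]
  nlinarith

lemma step (hRowΛ : ℝ)
    (hRow : ∀ (k : ℕ) (α τ lm Q : ℝ) (f : (Fin (k + 1) → ℝ) → ℝ≥0∞),
      0 < α → 0 < τ → τ ≤ 1 → hRowΛ ≤ lm → lm ^ 2 ≤ Q → LC f → Measurable f → BddSupp f →
      Vals α τ f → ∫⁻ x, f x ≠ 0 → ∃ (a : ℝ) (f' : (Fin k → ℝ) → ℝ≥0∞), 0 < a ∧ LC f' ∧
      Measurable f' ∧ BddSupp f' ∧ Vals (α * lm / Q) (τ / (2 * lm ^ 2)) f' ∧
      (∀ x, f' x ≠ 0 → ∃ c c', c ≤ c' ∧ c' ≤ c + a ∧
        f' x = ENNReal.ofReal (1 / a) * ∫⁻ s in Set.Ico c c', f (Fin.snoc x s)) ∧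
      ENNReal.ofReal (1 - 100 / lm) * ∫⁻ x, f x ≤ ENNReal.ofReal a * ∫⁻ x, f' x ∧
      ∃ (x : Fin k → ℝ) (s1 s2 : ℝ), f (Fin.snoc x s1) ≠ 0 ∧ f (Fin.snoc x s2) ≠ 0 ∧
        a ≤ 2 * Q * (s2 - s1))
    {X : ℝ} (hnum : NumOk X hRowΛ) (d I : ℕ) (α0 : ℝ) (hα0 : 0 < α0)
    (hα0' : α0 * Real.exp (theta * xl X I) ≤ al X I) (j : ℕ) (hj : j ≤ I)
    (F : (Fin (d + (j + 1)) → ℝ) → ℝ≥0∞) (hF : PP X d I α0 (j + 1) F) :
    ∃ (a : ℝ) (F' : (Fin (d + j) → ℝ) → ℝ≥0∞), PP X d I α0 j F' ∧ RR X d I α0 j a F' F := by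
  obtain ⟨hlc, hmeas, hbdd, hvals, hint⟩ := hF
  have hidx : I + 1 - (j + 1) = I - j := by omega
  have hidx' : I + 1 - j = I - j + 1 := by omega
  have hα : alf X α0 I (j + 1) = al X (I - j) := by
    unfold alf; rw [if_neg (Nat.succ_ne_zero j), hidx]
  have hτ : tauf X I (j + 1) = tau X (I - j) := by unfold tauf; rw [hidx]
  have hτ' : tauf X I j = tau X (I - j) / (2 * lam X (I - j) ^ 2) := by
    unfold tauf; rw [hidx', tau_succ]
  rw [hα, hτ] at hvals
  have hlm := hnum.lamΛ (I - j)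
  have hlmθ := hnum.lamθ (I - j)
  have hlpos := lam_pos X (I - j)
  have hQ : lam X (I - j) ^ 2 ≤ Qf X α0 I j := by
    unfold Qf
    split_ifs with h0
    · subst h0
      rw [le_div_iff₀ hα0, Nat.sub_zero]
      rw [Nat.sub_zero] at hlmθ hlpos
      calc lam X I ^ 2 * α0 = lam X I * (α0 * lam X I) := by ring
        _ ≤ lam X I * (α0 * Real.exp (theta * xl X I)) := by gcongr
        _ ≤ lam X I * al X I := by gcongr
        _ = al X I * lam X I := by ring
    · rw [sq]; gcongr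
  have hα' : al X (I - j) * lam X (I - j) / Qf X α0 I j = alf X α0 I j := by
    unfold Qf alf
    split_ifs with h0
    · subst h0
      rw [Nat.sub_zero] at hlpos ⊢
      have := al_pos X I
      field_simp
    · rw [hidx', al_succ]
  obtain ⟨a, F', ha, hlc', hmeas', hbdd', hvals', hwin, hmass, hseg⟩ :=
    hRow (d + j) (al X (I - j)) (tau X (I - j)) (lam X (I - j)) (Qf X α0 I j) F (al_pos _ _)
      (tau_pos _ _) (tau_le_one _ _) hlm hQ hlc hmeas hbdd hvals hint
  rw [hα', ← hτ'] at hvals'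
  refine ⟨a, F', ⟨hlc', hmeas', hbdd', hvals', ?_⟩, ha, hwin, hmass, hseg⟩
  intro h0
  rw [h0, mul_zero] at hmass
  have h1 : ENNReal.ofReal (1 - 100 / lam X (I - j)) * ∫⁻ x, F x = 0 := le_antisymm hmass bot_le
  rcases mul_eq_zero.1 h1 with h2 | h2
  · rw [ENNReal.ofReal_eq_zero] at h2
    have h3 := hnum.sum (I - j + 1)
    rw [sum_range_succ] at h3
    have h4 : 0 ≤ ∑ x ∈ range (I - j), 1 / lam X x :=
      sum_nonneg fun x _ => by have := lam_pos X x; positivity
    have h5 : 1 / lam X (I - j) ≤ 1 / 200 := by linarith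
    have h6 : 100 / lam X (I - j) = 100 * (1 / lam X (I - j)) := by ring
    rw [h6] at h2
    linarith
  · exact hint h2

end GeomAux

open GeomAux in
theorem prf_Geom (hNum : S_Num) (hRow : S_Row) : S_Geom := by
  obtain ⟨Λ, hΛ1, hRow⟩ := hRow
  set K0 : ℝ := max (max 200 (1 / theta ^ 2)) ((Real.log Λ) ^ 2) with hK0
  have hθ : 0 < theta := by unfold theta; norm_num
  obtain ⟨X0, hX1, hX0⟩ := hNum K0
  have hK200 : (200:ℝ) ≤ K0 := (le_max_left _ _).trans (le_max_left _ _)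
  have hKθ : 1 / theta ^ 2 ≤ K0 := (le_max_right _ _).trans (le_max_left _ _)
  have hKΛ : (Real.log Λ) ^ 2 ≤ K0 := le_max_right _ _
  refine ⟨X0, fun X hX d I α0 K hα0 hα0' hKc hKconv hKv => ?_⟩
  have hnum : NumOk X Λ := by
    refine ⟨by linarith, fun i => ?_, fun i => ?_, fun i => ?_⟩
    · have hx := (hX0 X hX i).1
      unfold lam
      rw [← Real.log_le_iff_le_exp (by linarith)]
      refine Real.le_sqrt_of_sq_le ?_
      linarith
    · have hx := (hX0 X hX i).1
      unfold lam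
      apply Real.exp_le_exp.2
      have hxpos : 0 < xl X i := by linarith
      rw [Real.sqrt_le_left (by positivity)]
      have h1 : 1 ≤ theta ^ 2 * xl X i := by
        have : 1 / theta ^ 2 ≤ xl X i := hKθ.trans hx
        rw [div_le_iff₀ (by positivity)] at this
        linarith
      nlinarith
    · obtain ⟨-, -, -, -, -, -, -, h⟩ := hX0 X hX i
      refine h.trans ?_
      rw [abs_of_nonneg (by linarith)]
      exact one_div_le_one_div_of_le (by norm_num) (by linarith)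
  -- the top function
  have hKmeas : MeasurableSet K := hKc.measurableSet
  have htop : PP X d I α0 (I + 1) (K.indicator 1) := by
    refine ⟨?_, measurable_one.indicator hKmeas, ?_, ?_, ?_⟩
    · intro x y t ht0 ht1
      by_cases hx : x ∈ K
      · by_cases hy : y ∈ K
        · have : (1 - t) • x + t • y ∈ K := hKconv hx hy (by linarith) ht0.le (by ring)
          simp [hx, hy, this]
        · simp [hy, ht0]
      · simp [hx, ENNReal.zero_rpow_of_pos (by linarith : 0 < 1 - t)]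
    · obtain ⟨B, hB⟩ := hKc.isBounded.exists_norm_le
      refine ⟨B, fun x hx i => ?_⟩
      have hxK : x ∈ K := by
        by_contra h; exact hx (by simp [h])
      have := hB x hxK
      exact (norm_le_pi_norm x i).trans this
    · intro x
      have h1 : alf X α0 I (I + 1) = 1 := by
        unfold alf; rw [if_neg (Nat.succ_ne_zero I), Nat.sub_self, al_zero]
      have h2 : tauf X I (I + 1) = 1 := by
        unfold tauf; rw [Nat.sub_self, tau_zero]
      rw [h1, h2]
      by_cases hx : x ∈ K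
      · right; simp [hx]
      · left; simp [hx]
    · rw [lintegral_indicator_one hKmeas]; exact hKv
  -- downward induction
  have hmain : ∀ t : ℕ, t ≤ I + 1 → ∃ (a : ℕ → ℝ) (U : ∀ j : ℕ, (Fin (d + j) → ℝ) → ℝ≥0∞),
      U (I + 1) = K.indicator 1 ∧ (∀ j, 0 < a j) ∧
      (∀ j, I + 1 - t ≤ j → j ≤ I + 1 → PP X d I α0 j (U j)) ∧
      (∀ j, I + 1 - t ≤ j → j ≤ I → RR X d I α0 j (a j) (U j) (U (j + 1))) := by
    intro t
    induction t with
    | zero =>
      intro _
      refine ⟨fun _ => 1, Function.update (fun _ _ => 0) (I + 1) (K.indicator 1),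
        Function.update_self _ _ _, fun _ => one_pos, ?_, ?_⟩
      · intro j hj hj'
        have : j = I + 1 := by omega
        subst this
        rw [Function.update_self]
        exact htop
      · intro j hj hj'; omega
    | succ t ih =>
      intro ht
      obtain ⟨a, U, hU, ha, hP, hR⟩ := ih (by omega)
      have hj0 : I + 1 - t = (I - t) + 1 := by omega
      obtain ⟨a', F', hP', hR'⟩ := step Λ hRow hnum d I α0 hα0 hα0' (I - t) (by omega)
        (U (I - t + 1)) (hP (I - t + 1) (by omega) (by omega))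
      refine ⟨Function.update a (I - t) a', Function.update U (I - t) F', ?_, ?_, ?_, ?_⟩
      · rw [Function.update_of_ne (by omega)]; exact hU
      · intro j
        by_cases hj : j = I - t
        · subst hj; rw [Function.update_self]; exact hR'.1
        · rw [Function.update_of_ne hj]; exact ha j
      · intro j hj hj'
        by_cases hjj : j = I - t
        · subst hjj; rw [Function.update_self]; exact hP'
        · rw [Function.update_of_ne hjj]; exact hP j (by omega) hj'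
      · intro j hj hj'
        by_cases hjj : j = I - t
        · subst hjj
          rw [Function.update_self, Function.update_self, Function.update_of_ne (by omega)]
          exact hR'
        · rw [Function.update_of_ne hjj, Function.update_of_ne hjj,
            Function.update_of_ne (by omega)]
          exact hR j (by omega) hj'
  obtain ⟨a, U, hU, ha, hP, hR⟩ := hmain (I + 1) le_rfl
  rw [Nat.sub_self] at hP hR
  refine ⟨a, U, ⟨ha, fun x => by rw [hU], fun j hj => (hP j (Nat.zero_le _) hj).1,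
    fun j hj => (hP j (Nat.zero_le _) hj).2.1, fun j hj => (hP j (Nat.zero_le _) hj).2.2.1,
    fun j hj => (hP j (Nat.zero_le _) hj).2.2.2.1, fun j hj => (hR j (Nat.zero_le _) hj).2.1,
    ?_, fun j hj => (hR j (Nat.zero_le _) hj).2.2.2⟩⟩
  -- mass
  have hq : ∀ i, 0 ≤ 1 - 100 / lam X i := by
    intro i
    have h3 := hnum.sum (i + 1)
    rw [sum_range_succ] at h3
    have h4 : 0 ≤ ∑ x ∈ range i, 1 / lam X x :=
      sum_nonneg fun x _ => by have := lam_pos X x; positivity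
    have h6 : 100 / lam X i = 100 * (1 / lam X i) := by ring
    rw [h6]
    linarith
  have htel : ∀ k : ℕ, k ≤ I + 1 →
      ENNReal.ofReal (∏ j ∈ range k, (1 - 100 / lam X (I - j))) * ∫⁻ x, U k x ≤
      ENNReal.ofReal (∏ j ∈ range k, a j) * ∫⁻ x, U 0 x := by
    intro k
    induction k with
    | zero => intro _; simp
    | succ k ih =>
      intro hk
      have hR' := (hR k (Nat.zero_le _) (by omega)).2.2.1
      rw [prod_range_succ, prod_range_succ, ENNReal.ofReal_mul (prod_nonneg fun i _ => hq _),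
        ENNReal.ofReal_mul (prod_nonneg fun i _ => (ha _).le)]
      calc ENNReal.ofReal (∏ j ∈ range k, (1 - 100 / lam X (I - j))) *
            ENNReal.ofReal (1 - 100 / lam X (I - k)) * ∫⁻ x, U (k + 1) x
          = ENNReal.ofReal (∏ j ∈ range k, (1 - 100 / lam X (I - j))) *
            (ENNReal.ofReal (1 - 100 / lam X (I - k)) * ∫⁻ x, U (k + 1) x) := by ring
        _ ≤ ENNReal.ofReal (∏ j ∈ range k, (1 - 100 / lam X (I - j))) *
            (ENNReal.ofReal (a k) * ∫⁻ x, U k x) := by gcongr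
        _ = ENNReal.ofReal (a k) * (ENNReal.ofReal (∏ j ∈ range k, (1 - 100 / lam X (I - j))) *
            ∫⁻ x, U k x) := by ring
        _ ≤ ENNReal.ofReal (a k) * (ENNReal.ofReal (∏ j ∈ range k, a j) * ∫⁻ x, U 0 x) :=
            mul_le_mul_right (ih (by omega)) _
        _ = _ := by ring
  have hprod : (1:ℝ) / 2 ≤ ∏ j ∈ range (I + 1), (1 - 100 / lam X (I - j)) := by
    have h1 : ∏ j ∈ range (I + 1), (1 - 100 / lam X (I - j)) =
        ∏ j ∈ range (I + 1), (1 - 100 / lam X j) := by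
      rw [← prod_range_reflect]
      refine prod_congr rfl fun j hj => ?_
      rw [mem_range] at hj
      congr 3
      omega
    rw [h1]
    have h2 : ∀ k : ℕ, 1 - ∑ j ∈ range k, 100 / lam X j ≤ ∏ j ∈ range k, (1 - 100 / lam X j) := by
      intro k
      induction k with
      | zero => simp
      | succ k ih =>
        rw [sum_range_succ, prod_range_succ]
        have hp1 : ∏ j ∈ range k, (1 - 100 / lam X j) ≤ 1 := by
          refine prod_le_one (fun j _ => hq j) fun j _ => ?_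
          have : 0 < 100 / lam X j := by have := lam_pos X j; positivity
          linarith
        have hp2 : 0 < 100 / lam X k := by have := lam_pos X k; positivity
        nlinarith [hq k]
    have h3 : ∑ j ∈ range (I + 1), 100 / lam X j ≤ 1 / 2 := by
      have h4 : ∑ j ∈ range (I + 1), 100 / lam X j = 100 * ∑ j ∈ range (I + 1), 1 / lam X j := by
        rw [mul_sum]; exact sum_congr rfl fun j _ => by ring
      rw [h4]
      have := hnum.sum (I + 1)
      linarith
    linarith [h2 (I + 1)]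
  have hfin := htel (I + 1) le_rfl
  have hUK : ∫⁻ x, U (I + 1) x = volume K := by
    rw [hU, lintegral_indicator_one hKmeas]
  rw [hUK] at hfin
  have h2 : (1:ℝ≥0∞) ≤ 2 * ENNReal.ofReal (∏ j ∈ range (I + 1), (1 - 100 / lam X (I - j))) := by
    have : (1:ℝ≥0∞) = 2 * ENNReal.ofReal (1 / 2) := by
      rw [show (2:ℝ≥0∞) = ENNReal.ofReal 2 by norm_num, ← ENNReal.ofReal_mul (by norm_num)]
      norm_num
    rw [this]
    gcongr
  calc volume K = 1 * volume K := (one_mul _).symm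
    _ ≤ 2 * ENNReal.ofReal (∏ j ∈ range (I + 1), (1 - 100 / lam X (I - j))) * volume K := by
        gcongr
    _ = 2 * (ENNReal.ofReal (∏ j ∈ range (I + 1), (1 - 100 / lam X (I - j))) * volume K) := by
        ring
    _ ≤ 2 * (ENNReal.ofReal (∏ j ∈ range (I + 1), a j) * ∫⁻ x, U 0 x) := by gcongr
    _ = _ := by ring

end Crest.Agent.R225
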