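import Crest.Agent.R225.Iface
import Crest.Agent.R225.L.Amp
import Crest.Agent.R225.Geo3
import Crest.Agent.R225.Defs
import Crest.Agent.R225.Geom_Mg
import Crest.Agent.R225.Num

-- ▼ part R225/Amp
section

/-! Row 225: node Amp. -/

set_option autoImplicit false

open Finset

namespace Crest.Agent.R225

theorem prf_Amp : S_Amp := by
  classical
  intro r N T _ _ ι _ B u hu hN hB
  obtain ⟨v, hv⟩ := L.amplify (G := T) (Θ := ι) r
    (fun y ε => B y (univ.filter (fun i => ε i = true))) u hu (fun y ε => hB y _)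
  refine ⟨v, fun y => ?_⟩
  refine le_trans ?_ ((hv y).trans ?_)
  · refine Nat.cast_le.2 (card_le_card ?_)
    intro c hc
    rw [mem_filter] at hc ⊢
    refine ⟨mem_univ _, fun ε => ?_⟩
    have h := hc.2 (univ.filter (fun i => ε i = true))
    rwa [Finset.sum_filter] at h
  · refine mul_le_mul_of_nonneg_right ?_ (Nat.cast_nonneg _)
    refine pow_le_pow_left₀ (by positivity) ?_ _
    refine mul_le_mul_of_nonneg_right ?_ hu
    have h1 : ((2 ^ r * Fintype.card ι : ℕ) : ℝ) ≤ N := by exact_mod_cast hN.le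
    push_cast at h1
    linarith

end Crest.Agent.R225
end

-- ▼ part R225/Geo4
section

/-!
Row 225 (S0347), geometry 4: one step of the row recursion on `E × ℝ`.
-/

set_option autoImplicit false
set_option linter.unusedSectionVars false

namespace Crest.Agent.R225.GS

open MeasureTheory Set Filter Crest.Agent.Lib.PrekopaLeindler
open scoped ENNReal Pointwise Topology

variable {E : Type*} [AddCommGroup E] [Module ℝ E] [MeasurableSpace E] {u : E × ℝ → ℝ} {lo hi : ℝ}

/-- primitive -/
noncomputable def VV (u : E × ℝ → ℝ) (x : E) (c : ℝ) : ℝ := ∫ s in (0 : ℝ)..c, u (x, s)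

theorem sec_integrable (h : Adm u lo hi) (x : E) : Integrable (fun s => u (x, s)) := by
  obtain ⟨R, hR⟩ := h.bdd
  have h1 : (fun s => u (x, s)) = (Icc (-R) R).indicator (fun s => u (x, s)) := by
    funext s
    by_cases hs : s ∈ Icc (-R) R
    · rw [indicator_of_mem hs]
    · rw [indicator_of_notMem hs]
      by_contra hne
      exact hs (abs_le.1 (hR (x, s) (lt_of_le_of_ne (h.nonneg _) (Ne.symm hne))))
  rw [h1, integrable_indicator_iff measurableSet_Icc]
  refine Measure.integrableOn_of_bounded (M := hi) ?_ (meas_sec h x).aestronglyMeasurable ?_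
  · rw [Real.volume_Icc]; exact ENNReal.ofReal_ne_top
  · refine Eventually.of_forall fun s => ?_
    rw [Real.norm_eq_abs, abs_of_nonneg (h.nonneg _)]
    exact h.le _

theorem VV_continuous (h : Adm u lo hi) (x : E) : Continuous (VV u x) :=
  intervalIntegral.continuous_primitive (fun _ _ => (sec_integrable h x).intervalIntegrable) 0

theorem setint_VV (h : Adm u lo hi) (x : E) {c c' : ℝ} (hc : c ≤ c') :
    ∫⁻ s in Ico c c', ENNReal.ofReal (u (x, s)) = ENNReal.ofReal (VV u x c' - VV u x c) := by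
  have hi' : ∀ a b : ℝ, IntervalIntegrable (fun s => u (x, s)) volume a b :=
    fun _ _ => (sec_integrable h x).intervalIntegrable
  unfold VV
  rw [intervalIntegral.integral_interval_sub_left (hi' _ _) (hi' _ _),
    intervalIntegral.integral_of_le hc, ← integral_Icc_eq_integral_Ioc, integral_Icc_eq_integral_Ico,
    ofReal_integral_eq_lintegral_ofReal (sec_integrable h x).integrableOn
      (Eventually.of_forall fun s => h.nonneg _)]

theorem VV_mono (h : Adm u lo hi) (x : E) : Monotone (VV u x) := by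
  intro c c' hc
  have hi' : ∀ a b : ℝ, IntervalIntegrable (fun s => u (x, s)) volume a b :=
    fun _ _ => (sec_integrable h x).intervalIntegrable
  have : 0 ≤ VV u x c' - VV u x c := by
    unfold VV
    rw [intervalIntegral.integral_interval_sub_left (hi' _ _) (hi' _ _)]
    exact intervalIntegral.integral_nonneg hc fun s _ => h.nonneg _
  linarith

theorem win_eq (h : Adm u lo hi) {a : ℝ} (ha : 0 ≤ a) (x : E) (c : ℝ) :
    win u a x c = ENNReal.ofReal (VV u x (c + a) - VV u x c) :=
  setint_VV h x (by linarith)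

theorem win_continuous (h : Adm u lo hi) {a : ℝ} (ha : 0 ≤ a) (x : E) :
    Continuous (win u a x) := by
  have : win u a x = fun c => ENNReal.ofReal (VV u x (c + a) - VV u x c) :=
    funext fun c => win_eq h ha x c
  rw [this]
  have hV := VV_continuous h x
  exact ENNReal.continuous_ofReal.comp ((hV.comp (continuous_id.add continuous_const)).sub hV)

theorem SS_eq_rat (h : Adm u lo hi) {a : ℝ} (ha : 0 ≤ a) (x : E) :
    SS u a x = ⨆ q : ℚ, win u a x q := by
  apply le_antisymm
  · refine iSup_le fun c => ?_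
    refine Rat.denseRange_cast.induction_on (p := fun c => win u a x c ≤ ⨆ q : ℚ, win u a x q) c
      (isClosed_le (win_continuous h ha x) continuous_const) fun q => ?_
    exact le_iSup (fun q : ℚ => win u a x q) q
  · exact iSup_le fun q => le_iSup (fun c : ℝ => win u a x c) q

theorem SS_measurable (h : Adm u lo hi) {a : ℝ} (ha : 0 ≤ a) : Measurable (SS u a) := by
  have : SS u a = fun x => ⨆ q : ℚ, win u a x q := funext fun x => SS_eq_rat h ha x
  rw [this]
  refine Measurable.iSup fun q => ?_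
  unfold win
  exact Measurable.lintegral_prod_right' (f := fun p : E × ℝ => ENNReal.ofReal (u p))
    (ENNReal.measurable_ofReal.comp h.meas)

/-- the largest window integral is attained -/
theorem exists_win (h : Adm u lo hi) {a : ℝ} (ha : 0 ≤ a) (x : E) : ∃ c, SS u a x = win u a x c := by
  obtain ⟨R, hR⟩ := h.bdd
  obtain ⟨c, hc, hmax⟩ := (isCompact_Icc (a := -(|R| + a)) (b := |R| + a)).exists_isMaxOn
    ⟨0, by constructor <;> linarith [abs_nonneg R]⟩ (win_continuous h ha x).continuousOn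
  refine ⟨c, le_antisymm (iSup_le fun d => ?_) (le_iSup (fun c => win u a x c) c)⟩
  by_cases hd : d ∈ Icc (-(|R| + a)) (|R| + a)
  · exact hmax hd
  · have : win u a x d = 0 := by
      unfold win
      rw [setLIntegral_congr_fun (g := fun _ => 0) measurableSet_Ico]
      · simp
      · intro s hs
        have : u (x, s) ≤ 0 := by
          by_contra hpos
          have h1 := abs_le.1 ((hR (x, s) (not_le.1 hpos)).trans (le_abs_self R))
          apply hd
          constructor
          · linarith [hs.2, h1.1]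
          · linarith [hs.1, h1.2]
        simp [ENNReal.ofReal_of_nonpos this]
    rw [this]; exact bot_le

/-- log-concavity of the largest window integral -/
theorem SS_lc (h : Adm u lo hi) {a : ℝ} (ha : 0 ≤ a) : Crest.Agent.R225.LC (SS u a) := by
  intro x y θ hθ0 hθ1
  obtain ⟨c, hc⟩ := exists_win h ha x
  obtain ⟨d, hd⟩ := exists_win h ha y
  rw [hc, hd]
  have hθ1' : 0 < 1 - θ := by linarith
  refine le_trans ?_ (le_iSup (fun c => win u a ((1 - θ) • x + θ • y) c) ((1 - θ) * c + θ * d))
  unfold win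
  rw [← lintegral_indicator measurableSet_Ico, ← lintegral_indicator measurableSet_Ico,
    ← lintegral_indicator measurableSet_Ico]
  have hm : ∀ z : E, Measurable fun s => ENNReal.ofReal (u (z, s)) := fun z =>
    ENNReal.measurable_ofReal.comp (meas_sec h z)
  refine PL_real θ hθ0 hθ1 _ _ _ ((hm _).indicator measurableSet_Ico)
    ((hm _).indicator measurableSet_Ico) ((hm _).indicator measurableSet_Ico) ?_
  intro s r
  by_cases hs : s ∈ Ico c (c + a)
  · by_cases hr : r ∈ Ico d (d + a)
    · have hz : (1 - θ) • s + θ • r ∈ Ico ((1 - θ) * c + θ * d) ((1 - θ) * c + θ * d + a) := by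
        simp only [smul_eq_mul]
        constructor
        · have := mul_le_mul_of_nonneg_left hs.1 hθ1'.le
          have := mul_le_mul_of_nonneg_left hr.1 hθ0.le
          linarith
        · have := mul_lt_mul_of_pos_left hs.2 hθ1'
          have := mul_lt_mul_of_pos_left hr.2 hθ0
          linarith
      rw [indicator_of_mem hs, indicator_of_mem hr, indicator_of_mem hz]
      rcases eq_or_lt_of_le (h.nonneg (x, s)) with h1 | h1
      · rw [← h1, ENNReal.ofReal_zero, ENNReal.zero_rpow_of_pos hθ1', zero_mul]; exact bot_le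
      rcases eq_or_lt_of_le (h.nonneg (y, r)) with h2 | h2
      · rw [← h2, ENNReal.ofReal_zero, ENNReal.zero_rpow_of_pos hθ0, mul_zero]; exact bot_le
      rw [ENNReal.ofReal_rpow_of_pos h1, ENNReal.ofReal_rpow_of_pos h2,
        ← ENNReal.ofReal_mul (by positivity)]
      exact ENNReal.ofReal_le_ofReal (h.lc θ hθ0 hθ1 (x, s) (y, r) h1 h2)
    · rw [indicator_of_notMem hr, ENNReal.zero_rpow_of_pos hθ0, mul_zero]; exact bot_le
  · rw [indicator_of_notMem hs, ENNReal.zero_rpow_of_pos hθ1', zero_mul]; exact bot_le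

/-- value of the next function before the floor -/
noncomputable def vv (u : E × ℝ → ℝ) (a hi' : ℝ) (x : E) : ℝ≥0∞ :=
  min (ENNReal.ofReal hi') (ENNReal.ofReal (1 / a) * SS u a x)

open scoped Classical in
/-- the next function -/
noncomputable def nx (u : E × ℝ → ℝ) (a lo' hi' : ℝ) (x : E) : ℝ≥0∞ :=
  if ENNReal.ofReal lo' ≤ vv u a hi' x then vv u a hi' x else 0

theorem rpow_split (x : ℝ≥0∞) {θ : ℝ} (hθ0 : 0 < θ) (hθ1 : θ < 1) : x ^ (1 - θ) * x ^ θ = x := by
  rw [← ENNReal.rpow_add_of_nonneg _ _ (by linarith) hθ0.le]; simp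

theorem vv_measurable (h : Adm u lo hi) {a hi' : ℝ} (ha : 0 ≤ a) : Measurable (vv u a hi') :=
  measurable_const.min ((SS_measurable h ha).const_mul _)

theorem nx_measurable (h : Adm u lo hi) {a lo' hi' : ℝ} (ha : 0 ≤ a) :
    Measurable (nx u a lo' hi') := by
  classical
  unfold nx
  exact Measurable.ite (measurableSet_le measurable_const (vv_measurable h ha)) (vv_measurable h ha)
    measurable_const

theorem vv_lc (h : Adm u lo hi) {a hi' : ℝ} (ha : 0 ≤ a) : Crest.Agent.R225.LC (vv u a hi') := by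
  intro x y θ hθ0 hθ1
  have hθ1' : 0 ≤ 1 - θ := by linarith
  unfold vv
  refine le_min ?_ ?_
  · calc _ ≤ ENNReal.ofReal hi' ^ (1 - θ) * ENNReal.ofReal hi' ^ θ :=
        mul_le_mul' (ENNReal.rpow_le_rpow (min_le_left _ _) hθ1')
          (ENNReal.rpow_le_rpow (min_le_left _ _) hθ0.le)
      _ = _ := rpow_split _ hθ0 hθ1
  · calc _ ≤ (ENNReal.ofReal (1 / a) * SS u a x) ^ (1 - θ) * (ENNReal.ofReal (1 / a) * SS u a y) ^ θ :=
        mul_le_mul' (ENNReal.rpow_le_rpow (min_le_right _ _) hθ1')
          (ENNReal.rpow_le_rpow (min_le_right _ _) hθ0.le)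
      _ = (ENNReal.ofReal (1 / a) ^ (1 - θ) * ENNReal.ofReal (1 / a) ^ θ) *
            (SS u a x ^ (1 - θ) * SS u a y ^ θ) := by
          rw [ENNReal.mul_rpow_of_nonneg _ _ hθ1', ENNReal.mul_rpow_of_nonneg _ _ hθ0.le]; ring
      _ ≤ _ := by
          rw [rpow_split _ hθ0 hθ1]
          exact mul_le_mul_right (SS_lc h ha x y θ hθ0 hθ1) _

theorem nx_lc (h : Adm u lo hi) {a lo' hi' : ℝ} (ha : 0 ≤ a) :
    Crest.Agent.R225.LC (nx u a lo' hi') := by
  intro x y θ hθ0 hθ1
  have hθ1' : 0 < 1 - θ := by linarith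
  by_cases hx : ENNReal.ofReal lo' ≤ vv u a hi' x
  · by_cases hy : ENNReal.ofReal lo' ≤ vv u a hi' y
    · have h1 := vv_lc h (hi' := hi') ha x y θ hθ0 hθ1
      have h2 : ENNReal.ofReal lo' ≤ vv u a hi' ((1 - θ) • x + θ • y) := by
        refine le_trans ?_ h1
        calc ENNReal.ofReal lo' = ENNReal.ofReal lo' ^ (1 - θ) * ENNReal.ofReal lo' ^ θ :=
              (rpow_split _ hθ0 hθ1).symm
          _ ≤ _ := mul_le_mul' (ENNReal.rpow_le_rpow hx hθ1'.le) (ENNReal.rpow_le_rpow hy hθ0.le)
      unfold nx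
      rw [if_pos hx, if_pos hy, if_pos h2]
      exact h1
    · have : nx u a lo' hi' y = 0 := by unfold nx; rw [if_neg hy]
      rw [this, ENNReal.zero_rpow_of_pos hθ0, mul_zero]; exact bot_le
  · have : nx u a lo' hi' x = 0 := by unfold nx; rw [if_neg hx]
    rw [this, ENNReal.zero_rpow_of_pos hθ1', zero_mul]; exact bot_le

/-- the value is the average over a window of length at most `a` -/
theorem nx_window (h : Adm u lo hi) {a lo' hi' : ℝ} (ha : 0 < a) (hhi' : 0 ≤ hi') (x : E)
    (hx : nx u a lo' hi' x ≠ 0) :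
    ∃ c c', c ≤ c' ∧ c' ≤ c + a ∧
      nx u a lo' hi' x = ENNReal.ofReal (1 / a) * ∫⁻ s in Ico c c', ENNReal.ofReal (u (x, s)) := by
  obtain ⟨c, hc⟩ := exists_win h ha.le x
  have hnx : nx u a lo' hi' x = vv u a hi' x := by
    unfold nx
    split_ifs with h1
    · rfl
    · exact absurd (by unfold nx; rw [if_neg h1]) hx
  rw [hnx]
  unfold vv
  rcases le_total (ENNReal.ofReal (1 / a) * SS u a x) (ENNReal.ofReal hi') with h1 | h1
  · refine ⟨c, c + a, by linarith, le_rfl, ?_⟩
    rw [min_eq_right h1, hc]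
    rfl
  · rw [min_eq_left h1]
    -- intermediate value theorem
    have hV := VV_continuous h x
    have h2 : a * hi' ≤ VV u x (c + a) - VV u x c := by
      rw [hc, win_eq h ha.le, ← ENNReal.ofReal_mul (by positivity)] at h1
      have h3 : 0 ≤ 1 / a * (VV u x (c + a) - VV u x c) :=
        mul_nonneg (by positivity) (sub_nonneg.2 (VV_mono h x (by linarith)))
      have h4 := (ENNReal.ofReal_le_ofReal_iff h3).1 h1
      rw [one_div, inv_mul_eq_div, le_div_iff₀ ha] at h4
      linarith
    have h3 : VV u x c + a * hi' ∈ Icc (VV u x c) (VV u x (c + a)) := by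
      constructor
      · have := mul_nonneg ha.le hhi'; linarith
      · linarith
    obtain ⟨c', hc', hval⟩ := intermediate_value_Icc (show c ≤ c + a by linarith) hV.continuousOn h3
    refine ⟨c, c', hc'.1, hc'.2, ?_⟩
    rw [setint_VV h x hc'.1, hval, add_sub_cancel_left, ← ENNReal.ofReal_mul (by positivity)]
    congr 1
    field_simp

variable {μ : Measure E} [SFinite μ]

theorem gg_measurable (h : Adm u lo hi) : Measurable (gg u) :=
  Measurable.lintegral_prod_right' (f := fun p : E × ℝ => ENNReal.ofReal (u p))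
    (ENNReal.measurable_ofReal.comp h.meas)

theorem int_gg (h : Adm u lo hi) :
    ∫⁻ x, gg u x ∂μ = ∫⁻ p, ENNReal.ofReal (wid u p) ∂(nuE μ) := by
  rw [lintegral_nuE (F := fun p => ENNReal.ofReal (wid u p))
    (ENNReal.measurable_ofReal.comp (wid_measurable h))]
  exact lintegral_congr fun x => gg_eq h x

theorem int_ww (h : Adm u lo hi) :
    ∫⁻ x, ww u x ∂μ = ∫⁻ p, ENNReal.ofReal (wid u p ^ 2) ∂(nuE μ) := by
  rw [lintegral_nuE (F := fun p => ENNReal.ofReal (wid u p ^ 2))
    (ENNReal.measurable_ofReal.comp ((wid_measurable h).pow_const 2))]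
  rfl

theorem int_bb (h : Adm u lo hi) : ∫⁻ x, bb u x ∂μ = nuE μ {p | 0 < wid u p} := by
  have hms : MeasurableSet {p : E × ℝ | 0 < wid u p} :=
    measurableSet_lt measurable_const (wid_measurable h)
  have h1 := lintegral_nuE (μ := μ) (F := {p : E × ℝ | 0 < wid u p}.indicator 1)
    (measurable_one.indicator hms)
  rw [lintegral_indicator_one hms] at h1
  rw [h1]
  refine lintegral_congr fun x => ?_
  unfold bb
  refine lintegral_congr fun t => ?_
  congr 1

end Crest.Agent.R225.GS
end

-- ▼ part R225/Row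
section

/-!
Row 225 (S0347): node `Row`, one step of the row recursion.
-/

set_option autoImplicit false
set_option linter.unusedSectionVars false

namespace Crest.Agent.R225.GS

open MeasureTheory Set Filter Crest.Agent.Lib.PrekopaLeindler
open scoped ENNReal Pointwise Topology

variable {E : Type*} [AddCommGroup E] [Module ℝ E] [MeasurableSpace E] {u : E × ℝ → ℝ} {lo hi : ℝ}
  {μ : Measure E} [SFinite μ]

theorem gg_zero_of_notMem (h : Adm u lo hi) {K : Set E} (hK : ∀ p, 0 < u p → p.1 ∈ K) {x : E}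
    (hx : x ∉ K) : gg u x = 0 := by
  unfold gg
  have : ∀ s, u (x, s) = 0 := fun s => by
    by_contra hne
    exact hx (hK (x, s) (lt_of_le_of_ne (h.nonneg _) (Ne.symm hne)))
  simp [this]

theorem SS_le_gg (a : ℝ) (x : E) : SS u a x ≤ gg u x :=
  iSup_le fun _ => setLIntegral_le_lintegral _ _

theorem gg_le (h : Adm u lo hi) {R : ℝ} (hR : ∀ p, 0 < u p → |p.2| ≤ R) (x : E) :
    gg u x ≤ ENNReal.ofReal hi * ENNReal.ofReal (2 * |R|) := by
  unfold gg
  calc ∫⁻ s, ENNReal.ofReal (u (x, s)) ≤
      ∫⁻ s, (Icc (-|R|) |R|).indicator (fun _ => ENNReal.ofReal hi) s := by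
        refine lintegral_mono fun s => ?_
        by_cases hs : s ∈ Icc (-|R|) |R|
        · rw [indicator_of_mem hs]
          exact ENNReal.ofReal_le_ofReal (h.le _)
        · rw [indicator_of_notMem hs]
          have : u (x, s) ≤ 0 := by
            by_contra hpos
            exact hs (abs_le.1 ((hR (x, s) (not_le.1 hpos)).trans (le_abs_self R)))
          rw [ENNReal.ofReal_of_nonpos this]
    _ = _ := by
        rw [lintegral_indicator measurableSet_Icc, setLIntegral_const, Real.volume_Icc]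
        congr 2
        ring

theorem bb_le (h : Adm u lo hi) (hhi : 0 ≤ hi) (x : E) : bb u x ≤ ENNReal.ofReal hi := by
  rw [← exp_le_int hi hhi]
  refine lintegral_mono fun t => ?_
  dsimp only
  gcongr
  by_cases ht : 0 < wid u (x, t)
  · rw [if_pos ht, if_pos]
    by_contra hgt
    have he : lev u (x, t) = ∅ := by
      ext s
      constructor
      · intro hs
        exact absurd (le_trans hs (h.le _)) hgt
      · intro hs; exact absurd hs (notMem_empty _)
    have : wid u (x, t) = 0 := by rw [wid, he]; simp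
    linarith
  · rw [if_neg ht]; exact bot_le

theorem bb_zero_of_notMem {K : Set E} (hK : ∀ p, 0 < u p → p.1 ∈ K) {x : E}
    (hx : x ∉ K) : bb u x = 0 := by
  unfold bb
  have : ∀ t, ¬ 0 < wid u (x, t) := fun t ht => by
    have he : lev u (x, t) = ∅ := by
      ext s
      constructor
      · intro hs
        exact absurd (hK (x, s) ((Real.exp_pos _).trans_le hs)) hx
      · intro hs; exact absurd hs (notMem_empty _)
    have : wid u (x, t) = 0 := by rw [wid, he]; simp
    linarith
  simp [this]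

/-- pointwise estimate of the loss -/
theorem gg_le_vv (h : Adm u lo hi) (hhi : 0 < hi) {lm Q L : ℝ} (hlm : 0 < lm) (hQ : 0 < Q)
    (hL : 0 < L) (x : E) :
    gg u x ≤ ENNReal.ofReal (Q * L) * vv u (Q * L) (hi * lm / Q) x +
      ENNReal.ofReal (2 / (Q * L) + 1 / (4 * (lm * L))) * ww u x := by
  have ha : 0 < Q * L := by positivity
  rw [ENNReal.ofReal_add (by positivity) (by positivity), add_mul]
  unfold vv
  rcases le_total (ENNReal.ofReal (hi * lm / Q)) (ENNReal.ofReal (1 / (Q * L)) * SS u (Q * L) x)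
    with h1 | h1
  · rw [min_eq_left h1, ← ENNReal.ofReal_mul ha.le]
    have e : Q * L * (hi * lm / Q) = lm * L * hi := by field_simp
    rw [e]
    refine (cap_loss h x (lm * L) (by positivity) hhi.le).trans ?_
    gcongr
    exact le_add_self
  · rw [min_eq_right h1, ← mul_assoc, ← ENNReal.ofReal_mul ha.le]
    have e : Q * L * (1 / (Q * L)) = 1 := by field_simp
    rw [e, ENNReal.ofReal_one, one_mul]
    refine (window_loss h x (Q * L) ha).trans ?_
    gcongr
    exact le_self_add

theorem vv_le_nx (a lo' hi' : ℝ) (x : E) :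
    vv u a hi' x ≤ nx u a lo' hi' x + {x | gg u x ≠ 0}.indicator (fun _ => ENNReal.ofReal lo') x := by
  by_cases h1 : ENNReal.ofReal lo' ≤ vv u a hi' x
  · refine le_trans (le_of_eq ?_) le_self_add
    unfold nx
    rw [if_pos h1]
  · by_cases h2 : gg u x = 0
    · have : vv u a hi' x = 0 := by
        unfold vv
        have h3 : SS u a x = 0 := le_antisymm ((SS_le_gg a x).trans h2.le) bot_le
        rw [h3, mul_zero]; exact min_eq_right bot_le
      rw [this]; exact bot_le
    · rw [indicator_of_mem (show x ∈ {x | gg u x ≠ 0} from h2)]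
      exact (not_le.1 h1).le.trans le_add_self

/-- **one step**, mass inequality and a long segment -/
theorem mass_step (hE : PL E μ) (h : Adm u lo hi) (hlo : 0 < lo) (hhi : 0 < hi) {K : Set E}
    (hK : ∀ p, 0 < u p → p.1 ∈ K) (hKm : MeasurableSet K) (hKf : μ K ≠ ∞)
    (hI0 : ∫⁻ x, gg u x ∂μ ≠ 0) {lm Q : ℝ} (hlm : 1 ≤ lm) (hQ : lm ^ 2 ≤ Q) :
    ∃ L : ℝ, 0 < L ∧
      ENNReal.ofReal (1 - 100 / lm) * ∫⁻ x, gg u x ∂μ ≤
        ENNReal.ofReal (Q * L) * ∫⁻ x, nx u (Q * L) (lo / (2 * lm * Q)) (hi * lm / Q) x ∂μ ∧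
      ∃ (x : E) (s₁ s₂ : ℝ), 0 < u (x, s₁) ∧ 0 < u (x, s₂) ∧ L / 2 ≤ s₂ - s₁ := by
  have hlm0 : 0 < lm := by linarith
  have hQ0 : 0 < Q := lt_of_lt_of_le (by positivity) hQ
  set I : ℝ≥0∞ := ∫⁻ x, gg u x ∂μ with hIdef
  set B : ℝ≥0∞ := ∫⁻ x, bb u x ∂μ with hBdef
  set WW : ℝ≥0∞ := ∫⁻ x, ww u x ∂μ with hWdef
  obtain ⟨R, hR⟩ := h.bdd
  -- finiteness
  have hIf : I ≠ ∞ := by
    have h1 : I ≤ ∫⁻ x, K.indicator (fun _ => ENNReal.ofReal hi * ENNReal.ofReal (2 * |R|)) x ∂μ := by
      refine lintegral_mono fun x => ?_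
      by_cases hx : x ∈ K
      · rw [indicator_of_mem hx]; exact gg_le h hR x
      · rw [indicator_of_notMem hx, gg_zero_of_notMem h hK hx]
    rw [lintegral_indicator hKm, setLIntegral_const] at h1
    exact ne_top_of_le_ne_top (ENNReal.mul_ne_top (ENNReal.mul_ne_top ENNReal.ofReal_ne_top
      ENNReal.ofReal_ne_top) hKf) h1
  have hBf : B ≠ ∞ := by
    have h1 : B ≤ ∫⁻ x, K.indicator (fun _ => ENNReal.ofReal hi) x ∂μ := by
      refine lintegral_mono fun x => ?_
      by_cases hx : x ∈ K
      · rw [indicator_of_mem hx]; exact bb_le h hhi.le x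
      · rw [indicator_of_notMem hx, bb_zero_of_notMem hK hx]
    rw [lintegral_indicator hKm, setLIntegral_const] at h1
    exact ne_top_of_le_ne_top (ENNReal.mul_ne_top ENNReal.ofReal_ne_top hKf) h1
  have hBnu : B = nuE μ {p | 0 < wid u p} := int_bb h
  have hInu : I = ∫⁻ p, ENNReal.ofReal (wid u p) ∂(nuE μ) := int_gg h
  have hWnu : WW = ∫⁻ p, ENNReal.ofReal (wid u p ^ 2) ∂(nuE μ) := int_ww h
  have hB0 : B ≠ 0 := by
    intro hB0
    apply hI0
    rw [hBnu] at hB0
    have hmW : Measurable fun p => ENNReal.ofReal (wid u p) :=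
      ENNReal.measurable_ofReal.comp (wid_measurable h)
    rw [hInu, lintegral_eq_zero_iff hmW]
    have : ∀ᵐ p ∂(nuE μ), ¬ 0 < wid u p := by
      rw [ae_iff]; simpa using hB0
    filter_upwards [this] with p hp
    simp only [Pi.zero_apply, ENNReal.ofReal_eq_zero]
    exact not_lt.1 hp
  have hch : B * WW ≤ 2 * I ^ 2 := by
    rw [hBnu, hInu, hWnu]; exact chord hE h
  have hWf : WW ≠ ∞ := by
    intro hW
    rw [hW, ENNReal.mul_top hB0] at hch
    exact (ENNReal.mul_ne_top ENNReal.ofNat_ne_top (ENNReal.pow_ne_top hIf)) (top_le_iff.1 hch)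
  -- real versions
  set iR := I.toReal with hiR
  set bR := B.toReal with hbR
  set wR := WW.toReal with hwR
  have hi0 : 0 < iR := ENNReal.toReal_pos hI0 hIf
  have hb0 : 0 < bR := ENNReal.toReal_pos hB0 hBf
  have hw0 : 0 ≤ wR := ENNReal.toReal_nonneg
  have eI : I = ENNReal.ofReal iR := (ENNReal.ofReal_toReal hIf).symm
  have eB : B = ENNReal.ofReal bR := (ENNReal.ofReal_toReal hBf).symm
  have eW : WW = ENNReal.ofReal wR := (ENNReal.ofReal_toReal hWf).symm
  have hchR : bR * wR ≤ 2 * iR ^ 2 := by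
    have h1 := ENNReal.toReal_mono (ENNReal.mul_ne_top ENNReal.ofNat_ne_top
      (ENNReal.pow_ne_top hIf)) hch
    simpa [ENNReal.toReal_mul, ENNReal.toReal_pow] using h1
  set L : ℝ := iR / bR with hLdef
  have hL : 0 < L := div_pos hi0 hb0
  have ha : 0 < Q * L := by positivity
  have hLb : L * bR = iR := by rw [hLdef]; field_simp
  refine ⟨L, hL, ?_, ?_⟩
  · -- mass
    set N : ℝ≥0∞ := ∫⁻ x, nx u (Q * L) (lo / (2 * lm * Q)) (hi * lm / Q) x ∂μ with hN
    set lo' : ℝ := lo / (2 * lm * Q) with hlo'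
    set hi' : ℝ := hi * lm / Q with hhi'
    have hlo'0 : 0 < lo' := by positivity
    have hmg : MeasurableSet {x | gg u x ≠ 0} := (gg_measurable h) (measurableSet_singleton 0).compl
    have h1 : I ≤ ENNReal.ofReal (Q * L) * (∫⁻ x, vv u (Q * L) hi' x ∂μ) +
        ENNReal.ofReal (2 / (Q * L) + 1 / (4 * (lm * L))) * WW := by
      have hmw : Measurable (ww u : E → ℝ≥0∞) := by
        unfold ww
        apply Measurable.lintegral_prod_right'
          (f := fun p : E × ℝ => ENNReal.ofReal (Real.exp (-p.2)) * ENNReal.ofReal (wid u p ^ 2))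
        exact (ENNReal.measurable_ofReal.comp (Real.measurable_exp.comp measurable_snd.neg)).mul
          (ENNReal.measurable_ofReal.comp ((wid_measurable h).pow_const 2))
      calc I ≤ ∫⁻ x, (ENNReal.ofReal (Q * L) * vv u (Q * L) hi' x +
            ENNReal.ofReal (2 / (Q * L) + 1 / (4 * (lm * L))) * ww u x) ∂μ :=
            lintegral_mono fun x => gg_le_vv h hhi hlm0 hQ0 hL x
        _ = _ := by
            rw [lintegral_add_right _ (hmw.const_mul _), lintegral_const_mul _ hmw,
              lintegral_const_mul _ (vv_measurable h ha.le)]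
    have h2 : ∫⁻ x, vv u (Q * L) hi' x ∂μ ≤ N + ENNReal.ofReal lo' * μ {x | gg u x ≠ 0} := by
      calc ∫⁻ x, vv u (Q * L) hi' x ∂μ ≤ ∫⁻ x, (nx u (Q * L) lo' hi' x +
            {x | gg u x ≠ 0}.indicator (fun _ => ENNReal.ofReal lo') x) ∂μ :=
            lintegral_mono fun x => vv_le_nx _ _ _ _
        _ = _ := by
            rw [lintegral_add_right _ (measurable_const.indicator hmg), lintegral_indicator hmg,
              setLIntegral_const]
    have h3 : ENNReal.ofReal lo * μ {x | gg u x ≠ 0} ≤ B := by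
      calc ENNReal.ofReal lo * μ {x | gg u x ≠ 0} =
            ∫⁻ x, {x | gg u x ≠ 0}.indicator (fun _ => ENNReal.ofReal lo) x ∂μ := by
            rw [lintegral_indicator hmg, setLIntegral_const]
        _ ≤ B := by
            refine lintegral_mono fun x => ?_
            by_cases hx : gg u x ≠ 0
            · rw [indicator_of_mem (show x ∈ {x | gg u x ≠ 0} from hx)]
              exact lo_le_bb h hlo.le x hx
            · rw [indicator_of_notMem (show x ∉ {x | gg u x ≠ 0} from hx)]; exact bot_le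
    have h4 : ENNReal.ofReal lo' * μ {x | gg u x ≠ 0} ≤ ENNReal.ofReal (1 / (2 * lm * Q)) * B := by
      have e : ENNReal.ofReal lo' = ENNReal.ofReal (1 / (2 * lm * Q)) * ENNReal.ofReal lo := by
        rw [← ENNReal.ofReal_mul (by positivity)]
        congr 1
        rw [hlo']; field_simp
      rw [e, mul_assoc]
      exact mul_le_mul_right h3 _
    have h5 : I ≤ ENNReal.ofReal (Q * L) * N + ENNReal.ofReal (5 / lm * iR) := by
      calc I ≤ ENNReal.ofReal (Q * L) * (N + ENNReal.ofReal (1 / (2 * lm * Q)) * B) +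
            ENNReal.ofReal (2 / (Q * L) + 1 / (4 * (lm * L))) * WW := by
            refine h1.trans ?_
            gcongr
            exact h2.trans (add_le_add_right h4 _)
        _ = ENNReal.ofReal (Q * L) * N + (ENNReal.ofReal (Q * L) * (ENNReal.ofReal (1 / (2 * lm * Q)) *
              B) + ENNReal.ofReal (2 / (Q * L) + 1 / (4 * (lm * L))) * WW) := by ring
        _ ≤ _ := by
            gcongr
            rw [eB, eW, ← ENNReal.ofReal_mul (by positivity), ← ENNReal.ofReal_mul (by positivity),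
              ← ENNReal.ofReal_mul (by positivity), ← ENNReal.ofReal_add (by positivity)
              (by positivity)]
            apply ENNReal.ofReal_le_ofReal
            have e1 : Q * L * (1 / (2 * lm * Q) * bR) = 1 / (2 * lm) * iR := by
              rw [← hLb]; field_simp
            have hwb : wR ≤ 2 * iR * L := by
              have : wR ≤ 2 * iR ^ 2 / bR := by rw [le_div_iff₀ hb0]; linarith
              refine this.trans (le_of_eq ?_)
              rw [hLdef]; field_simp
            have e2 : (2 / (Q * L) + 1 / (4 * (lm * L))) * wR ≤ (4 / Q + 1 / (2 * lm)) * iR := by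
              calc (2 / (Q * L) + 1 / (4 * (lm * L))) * wR ≤
                    (2 / (Q * L) + 1 / (4 * (lm * L))) * (2 * iR * L) := by gcongr
                _ = _ := by field_simp; ring
            have e3 : 4 / Q ≤ 4 / lm := by
              apply div_le_div_of_nonneg_left (by norm_num) hlm0
              nlinarith
            rw [e1]
            have e4 : 1 / (2 * lm) * iR + (4 / Q + 1 / (2 * lm)) * iR ≤ 5 / lm * iR := by
              have e5 : 1 / (2 * lm) + (4 / Q + 1 / (2 * lm)) ≤ 5 / lm := by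
                have e6 : 1 / (2 * lm) + (4 / lm + 1 / (2 * lm)) = 5 / lm := by field_simp; ring
                linarith
              calc _ = (1 / (2 * lm) + (4 / Q + 1 / (2 * lm))) * iR := by ring
                _ ≤ _ := by gcongr
            linarith
    -- conclusion
    by_cases hl : 100 ≤ lm
    · have h6 : 0 ≤ 1 - 5 / lm := by
        rw [sub_nonneg, div_le_one hlm0]; linarith
      have h7 : ENNReal.ofReal ((1 - 5 / lm) * iR) + ENNReal.ofReal (5 / lm * iR) ≤
          ENNReal.ofReal (Q * L) * N + ENNReal.ofReal (5 / lm * iR) := by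
        rw [← ENNReal.ofReal_add (by positivity) (by positivity)]
        have e : (1 - 5 / lm) * iR + 5 / lm * iR = iR := by ring
        rw [e, ← eI]; exact h5
      have h8 := (ENNReal.add_le_add_iff_right ENNReal.ofReal_ne_top).1 h7
      refine le_trans ?_ h8
      rw [eI, ← ENNReal.ofReal_mul' hi0.le]
      apply ENNReal.ofReal_le_ofReal
      gcongr
      norm_num
    · have : ENNReal.ofReal (1 - 100 / lm) = 0 := by
        apply ENNReal.ofReal_of_nonpos
        rw [sub_nonpos, le_div_iff₀ hlm0]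
        linarith [not_le.1 hl]
      rw [this, zero_mul]; exact bot_le
  · -- long segment
    by_contra hcon
    push Not at hcon
    have hwid : ∀ p : E × ℝ, wid u p ≤ L / 2 := by
      intro p
      have h1 : volume (lev u p) ≤ ENNReal.ofReal (L / 2) := by
        refine (Real.volume_le_diam _).trans (Metric.ediam_le fun s hs r hr => ?_)
        rw [edist_dist, Real.dist_eq]
        apply ENNReal.ofReal_le_ofReal
        rw [abs_le]
        have hs' := (Real.exp_pos (-p.2)).trans_le hs
        have hr' := (Real.exp_pos (-p.2)).trans_le hr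
        constructor
        · linarith [hcon p.1 s r hs' hr']
        · linarith [hcon p.1 r s hr' hs']
      rw [← ofReal_wid h] at h1
      exact (ENNReal.ofReal_le_ofReal_iff (by positivity)).1 h1
    have hms : MeasurableSet {p : E × ℝ | 0 < wid u p} :=
      measurableSet_lt measurable_const (wid_measurable h)
    have h2 : I ≤ ENNReal.ofReal (L / 2) * B := by
      rw [hInu, hBnu, ← setLIntegral_const, ← lintegral_indicator hms]
      refine lintegral_mono fun p => ?_
      by_cases hp : 0 < wid u p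
      · rw [indicator_of_mem (show p ∈ {p | 0 < wid u p} from hp)]
        exact ENNReal.ofReal_le_ofReal (hwid p)
      · rw [indicator_of_notMem (show p ∉ {p | 0 < wid u p} from hp)]
        rw [ENNReal.ofReal_of_nonpos (not_lt.1 hp)]
    rw [eI, eB, ← ENNReal.ofReal_mul (by positivity)] at h2
    have h3 := (ENNReal.ofReal_le_ofReal_iff (by positivity)).1 h2
    have : L / 2 * bR = iR / 2 := by rw [← hLb]; ring
    rw [this] at h3
    linarith

end Crest.Agent.R225.GS

namespace Crest.Agent.R225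

open MeasureTheory Set Filter Crest.Agent.Lib.PrekopaLeindler
open scoped ENNReal

/-- transfer to `Fin k → ℝ` and `ℝ` -/
noncomputable def GS.uf {k : ℕ} (f : (Fin (k + 1) → ℝ) → ℝ≥0∞) (p : (Fin k → ℝ) × ℝ) : ℝ :=
  (f (Fin.snoc p.1 p.2)).toReal

theorem GS.snoc_measurable {k : ℕ} :
    Measurable fun p : (Fin k → ℝ) × ℝ => (Fin.snoc p.1 p.2 : Fin (k + 1) → ℝ) := by
  rw [measurable_pi_iff]
  intro i
  refine Fin.lastCases ?_ (fun j => ?_) i
  · simp only [Fin.snoc_last]; exact measurable_snd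
  · simp only [Fin.snoc_castSucc]; exact (measurable_pi_apply j).comp measurable_fst

theorem GS.snoc_comb {k : ℕ} (a b : ℝ) (x y : Fin k → ℝ) (s r : ℝ) :
    (Fin.snoc (a • x + b • y) (a • s + b • r) : Fin (k + 1) → ℝ) =
      a • (Fin.snoc x s : Fin (k + 1) → ℝ) + b • (Fin.snoc y r : Fin (k + 1) → ℝ) := by
  ext i
  refine Fin.lastCases ?_ (fun j => ?_) i
  · simp
  · simp

theorem GS.lintegral_snoc {k : ℕ} {f : (Fin (k + 1) → ℝ) → ℝ≥0∞} (hf : Measurable f) :
    ∫⁻ x, f x = ∫⁻ x : Fin k → ℝ, ∫⁻ s : ℝ, f (Fin.snoc x s) := by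
  have h := (volume_preserving_piFinSuccAbove (fun _ : Fin (k + 1) => ℝ) (Fin.last k)).symm
  have h1 := h.lintegral_comp hf
  rw [← h1]
  have h2 : ∀ p : ℝ × (Fin k → ℝ),
      f ((MeasurableEquiv.piFinSuccAbove (fun _ : Fin (k + 1) => ℝ) (Fin.last k)).symm p) =
        f (Fin.snoc p.2 p.1) := by
    intro p
    congr 1
    ext i
    refine Fin.lastCases ?_ (fun j => ?_) i
    · simp [MeasurableEquiv.piFinSuccAbove]
    · simp [MeasurableEquiv.piFinSuccAbove]
  simp_rw [h2]
  have hm : Measurable fun p : ℝ × (Fin k → ℝ) => f (Fin.snoc p.2 p.1) :=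
    hf.comp (GS.snoc_measurable.comp measurable_swap)
  have hv : (volume : Measure (ℝ × (Fin k → ℝ))) = (volume : Measure ℝ).prod volume := rfl
  rw [hv, lintegral_prod_symm _ hm.aemeasurable]

theorem prf_Row : S_Row := by
  refine ⟨1, le_rfl, ?_⟩
  intro k α τ lm Q f hα hτ hτ1 hlm hQ hlc hfm hbd hV hI
  have hlm0 : 0 < lm := by linarith
  have hQ0 : 0 < Q := lt_of_lt_of_le (by positivity) hQ
  have hfin : ∀ x, f x ≠ ∞ := by
    intro x
    rcases hV x with h | h
    · rw [h]; exact ENNReal.zero_ne_top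
    · exact ne_top_of_le_ne_top ENNReal.ofReal_ne_top h.2
  have hof : ∀ (x : Fin k → ℝ) (s : ℝ), ENNReal.ofReal (GS.uf f (x, s)) = f (Fin.snoc x s) :=
    fun x s => ENNReal.ofReal_toReal (hfin _)
  have hpos : ∀ p : (Fin k → ℝ) × ℝ, 0 < GS.uf f p ↔ f (Fin.snoc p.1 p.2) ≠ 0 := by
    intro p
    unfold GS.uf
    rw [ENNReal.toReal_pos_iff]
    constructor
    · rintro ⟨h1, -⟩; exact h1.ne'
    · intro h1; exact ⟨pos_iff_ne_zero.2 h1, lt_top_iff_ne_top.2 (hfin _)⟩
  obtain ⟨R, hR⟩ := hbd
  have hadm : GS.Adm (GS.uf f) (τ * α) α := by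
    refine ⟨(hfm.comp GS.snoc_measurable).ennreal_toReal, fun p => ENNReal.toReal_nonneg, ?_, ?_, ?_,
      ⟨R, ?_⟩⟩
    · intro p
      rcases hV (Fin.snoc p.1 p.2) with h | h
      · unfold GS.uf; rw [h]; simpa using hα.le
      · have := ENNReal.toReal_mono ENNReal.ofReal_ne_top h.2
        rwa [ENNReal.toReal_ofReal hα.le] at this
    · intro p hp
      rcases hV (Fin.snoc p.1 p.2) with h | h
      · exact absurd h ((hpos p).1 hp)
      · have := ENNReal.toReal_mono (hfin _) h.1
        rwa [ENNReal.toReal_ofReal (by positivity)] at this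
    · intro t ht0 ht1 p q hp hq
      have h1 := hlc (Fin.snoc p.1 p.2) (Fin.snoc q.1 q.2) t ht0 ht1
      have h2 := ENNReal.toReal_mono (hfin _) h1
      rw [ENNReal.toReal_mul, ← ENNReal.toReal_rpow, ← ENNReal.toReal_rpow, ← GS.snoc_comb] at h2
      exact h2
    · intro p hp
      have := hR _ ((hpos p).1 hp) (Fin.last k)
      simpa using this
  set K : Set (Fin k → ℝ) := Set.pi univ fun _ => Icc (-R) R with hKdef
  have hK : ∀ p : (Fin k → ℝ) × ℝ, 0 < GS.uf f p → p.1 ∈ K := by
    intro p hp i _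
    have := hR _ ((hpos p).1 hp) i.castSucc
    simp only [Fin.snoc_castSucc] at this
    exact abs_le.1 this
  have hKm : MeasurableSet K := MeasurableSet.univ_pi fun _ => measurableSet_Icc
  have hKf : volume K ≠ ∞ := (isCompact_univ_pi fun _ => isCompact_Icc).measure_lt_top.ne
  have hgg : ∀ x : Fin k → ℝ, GS.gg (GS.uf f) x = ∫⁻ s, f (Fin.snoc x s) := by
    intro x
    unfold GS.gg
    exact lintegral_congr fun s => hof x s
  have hIeq : ∫⁻ x, f x = ∫⁻ x : Fin k → ℝ, GS.gg (GS.uf f) x := by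
    rw [GS.lintegral_snoc hfm]
    exact lintegral_congr fun x => (hgg x).symm
  have hI0 : ∫⁻ x : Fin k → ℝ, GS.gg (GS.uf f) x ≠ 0 := by rw [← hIeq]; exact hI
  obtain ⟨L, hL, hmass, x, s₁, s₂, h1, h2, h3⟩ := GS.mass_step (PL_pi k) hadm (by positivity) hα hK
    hKm hKf hI0 hlm hQ
  have ha : 0 < Q * L := by positivity
  have hhi' : 0 ≤ α * lm / Q := by positivity
  refine ⟨Q * L, GS.nx (GS.uf f) (Q * L) (τ * α / (2 * lm * Q)) (α * lm / Q), ha,
    GS.nx_lc hadm ha.le, GS.nx_measurable hadm ha.le, ⟨R, ?_⟩, ?_, ?_, ?_, x, s₁, s₂, (hpos _).1 h1,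
    (hpos _).1 h2, ?_⟩
  · intro x hx i
    obtain ⟨c, c', -, -, hval⟩ := GS.nx_window hadm ha hhi' x hx
    have hne : ¬ ∀ s, f (Fin.snoc x s) = 0 := by
      intro hall
      apply hx
      rw [hval]
      have : ∀ s, ENNReal.ofReal (GS.uf f (x, s)) = 0 := fun s => by rw [hof]; exact hall s
      simp [this]
    push Not at hne
    obtain ⟨s, hs⟩ := hne
    have := hR _ hs i.castSucc
    simpa using this
  · intro x
    by_cases hx : ENNReal.ofReal (τ * α / (2 * lm * Q)) ≤ GS.vv (GS.uf f) (Q * L) (α * lm / Q) x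
    · right
      have e : τ / (2 * lm ^ 2) * (α * lm / Q) = τ * α / (2 * lm * Q) := by
        field_simp
      rw [e]
      unfold GS.nx
      rw [if_pos hx]
      exact ⟨hx, min_le_left _ _⟩
    · left
      unfold GS.nx
      rw [if_neg hx]
  · intro x hx
    obtain ⟨c, c', h1, h2, hval⟩ := GS.nx_window hadm ha hhi' x hx
    refine ⟨c, c', h1, h2, ?_⟩
    rw [hval]
    congr 1
    exact lintegral_congr fun s => hof x s
  · rw [hIeq]; exact hmass
  · nlinarith

end Crest.Agent.R225
end

-- ▼ part R225/Final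
section

/-!
# Row 225 (S0347): final statement from `S_Large` and `S_Small`
-/

set_option autoImplicit false

open MeasureTheory

namespace Crest.Agent.R225

theorem final_result (hL : S_Large) (hS : S_Small) :
    ∃ C : ℝ, ∀ (n : ℕ), 2 ≤ n → ∀ (K : Set (Fin n → ℝ)),
      IsCompact K → Convex ℝ K → (interior K).Nonempty →
        ∃ g : Matrix (Fin n) (Fin n) ℝ, g.det ≠ 0 ∧
          (∀ x : Fin n → ℝ, ∃ z : Fin n → ℤ, x - g.mulVec (fun i => (z i : ℝ)) ∈ K) ∧
          (volume K).toReal / |g.det| ≤ C * n * Real.log n := by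
  obtain ⟨C, n0, hL⟩ := hL
  choose Cs hCs using hS
  -- constant for small dimensions
  set D : ℝ := ∑ n ∈ Finset.range n0, |Cs n| with hD
  have hD0 : 0 ≤ D := Finset.sum_nonneg fun _ _ => abs_nonneg _
  have hlog2 : 0 < Real.log 2 := Real.log_pos (by norm_num)
  refine ⟨|C| + D / Real.log 2, fun n hn K hK hc hi => ?_⟩
  have hnR : (2 : ℝ) ≤ n := by exact_mod_cast hn
  have hlogn : Real.log 2 ≤ Real.log n := Real.log_le_log (by norm_num) hnR
  have hnlog : 0 ≤ (n : ℝ) * Real.log n := by positivity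
  by_cases h : n0 ≤ n
  · obtain ⟨g, hg, hcov, hd⟩ := hL n h K hK hc hi
    refine ⟨g, hg, hcov, hd.trans ?_⟩
    have h1 : C * NN n ≤ |C| * (n * Real.log n) :=
      mul_le_mul_of_nonneg_right (le_abs_self C) hnlog
    have h2 : 0 ≤ D / Real.log 2 * (n * Real.log n) := by positivity
    calc C * NN n ≤ |C| * (n * Real.log n) := h1
      _ ≤ (|C| + D / Real.log 2) * n * Real.log n := by nlinarith
  · obtain ⟨g, hg, hcov, hd⟩ := hCs n K hK hc hi
    refine ⟨g, hg, hcov, hd.trans ?_⟩
    have h1 : Cs n ≤ D := (le_abs_self _).trans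
      (Finset.single_le_sum (f := fun n => |Cs n|) (fun _ _ => abs_nonneg _)
        (Finset.mem_range.2 (not_le.1 h)))
    have h2 : D ≤ D / Real.log 2 * (n * Real.log n) := by
      have : D / Real.log 2 * (n * Real.log n) = D * (n * (Real.log n / Real.log 2)) := by
        field_simp
      rw [this]
      have h3 : 1 ≤ Real.log n / Real.log 2 := (one_le_div hlog2).2 hlogn
      have h4 : 1 ≤ (n : ℝ) * (Real.log n / Real.log 2) := by nlinarith
      nlinarith
    have h3 : 0 ≤ |C| * (n * Real.log n) := by positivity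
    calc Cs n ≤ D := h1
      _ ≤ D / Real.log 2 * (n * Real.log n) := h2
      _ ≤ (|C| + D / Real.log 2) * n * Real.log n := by nlinarith

end Crest.Agent.R225
end

-- ▼ part R225/LargeAll
section

/-! Row 225: S0347 from Grid and PMain only. -/

set_option autoImplicit false

open MeasureTheory

namespace Crest.Agent.R225

theorem prf_Large_of (hGrid : S_Grid) (hPMain : S_PMain) : S_Large :=
  prf_Large (prf_Geom prf_Num prf_Row) prf_Disc hGrid hPMain prf_Amp prf_L2 prf_L3
    (prf_L4c prf_L4a prf_L4b) prf_L6 (prf_L7 prf_L1)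

theorem main_of (hGrid : S_Grid) (hPMain : S_PMain) :
    ∃ C : ℝ, ∀ (n : ℕ), 2 ≤ n → ∀ (K : Set (Fin n → ℝ)),
      IsCompact K → Convex ℝ K → (interior K).Nonempty →
        ∃ g : Matrix (Fin n) (Fin n) ℝ, g.det ≠ 0 ∧
          (∀ x : Fin n → ℝ, ∃ z : Fin n → ℤ, x - g.mulVec (fun i => (z i : ℝ)) ∈ K) ∧
          (volume K).toReal / |g.det| ≤ C * n * Real.log n :=
  final_result (prf_Large_of hGrid hPMain) prf_Small

end Crest.Agent.R225
end

-- ▼ part R225/Surv
section

/-!
# Row 225 (S0347): node Surv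

`prf_Surv : S_F2 → S_Num → S_Surv`.
-/

set_option autoImplicit false

open Finset MeasureTheory
open scoped BigOperators ENNReal

namespace Crest.Agent.R225

namespace Surv

/-! ### elementary facts on the parameters -/

lemma theta_pos : 0 < theta := by norm_num [theta]

lemma xl_nonneg {X : ℝ} (hX : 0 ≤ X) (i : ℕ) : 0 ≤ xl X i :=
  mul_nonneg hX (pow_nonneg (by linarith [theta_pos]) _)

lemma xl_succ (X : ℝ) (i : ℕ) : xl X (i + 1) = (1 + theta) * xl X i := by
  simp only [xl, pow_succ]; ring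

lemma xl_le_succ {X : ℝ} (hX : 0 ≤ X) (i : ℕ) : xl X i ≤ xl X (i + 1) := by
  rw [xl_succ]
  nlinarith [xl_nonneg hX i, theta_pos]

lemma lam_ge_one (X : ℝ) (i : ℕ) : 1 ≤ lam X i := Real.one_le_exp (Real.sqrt_nonneg _)

lemma lam_pos (X : ℝ) (i : ℕ) : 0 < lam X i := Real.exp_pos _

lemma lam_le_succ {X : ℝ} (hX : 0 ≤ X) (i : ℕ) : lam X i ≤ lam X (i + 1) := by
  unfold lam
  exact Real.exp_le_exp.mpr (Real.sqrt_le_sqrt (xl_le_succ hX i))

lemma tau_pos (X : ℝ) (i : ℕ) : 0 < tau X i := by
  unfold tau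
  apply Finset.prod_pos
  intro j _
  have := lam_pos X j
  positivity

lemma tau_succ (X : ℝ) (i : ℕ) : tau X (i + 1) = tau X i * (1 / (2 * (lam X i) ^ 2)) := by
  unfold tau
  rw [Finset.prod_range_succ]

lemma tau_succ_le (X : ℝ) (i : ℕ) : tau X (i + 1) ≤ tau X i := by
  rw [tau_succ]
  have h1 := tau_pos X i
  have h2 := lam_ge_one X i
  have h3 : 1 / (2 * (lam X i) ^ 2) ≤ 1 := by
    rw [div_le_one (by positivity)]
    nlinarith
  nlinarith

lemma tau_le_one (X : ℝ) (i : ℕ) : tau X i ≤ 1 := by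
  induction i with
  | zero => simp [tau]
  | succ i ih => exact (tau_succ_le X i).trans ih

lemma al_pos (X : ℝ) (i : ℕ) : 0 < al X i := Real.exp_pos _

lemma dl_pos (X : ℝ) (i : ℕ) : 0 < dl X i := by
  unfold dl
  have h1 := tau_pos X (i + 1)
  have h2 := lam_pos X i
  positivity

lemma dl_le_one {X : ℝ} (hX : 0 ≤ X) (i : ℕ) : dl X i ≤ 1 := by
  unfold dl
  have h2 := lam_ge_one X i
  rw [div_le_one (by positivity)]
  have h3 : Real.exp (-(theta * xl X i)) ≤ 1 := by
    rw [Real.exp_le_one_iff]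
    have := mul_nonneg theta_pos.le (xl_nonneg hX i)
    linarith
  have h4 : tau X (i + 1) * Real.exp (-(theta * xl X i)) ≤ 1 :=
    mul_le_one₀ (tau_le_one X _) (Real.exp_pos _).le h3
  linarith

lemma dl_succ_le {X : ℝ} (hX : 0 ≤ X) (i : ℕ) : dl X (i + 1) ≤ dl X i := by
  unfold dl
  have h1 := tau_pos X (i + 1 + 1)
  have h1' := tau_pos X (i + 1)
  have h2 := lam_pos X i
  have h3 := lam_pos X (i + 1)
  apply div_le_div₀ (by positivity)
  · apply mul_le_mul (tau_succ_le X (i + 1)) _ (Real.exp_pos _).le h1'.le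
    apply Real.exp_le_exp.mpr
    have := mul_le_mul_of_nonneg_left (xl_le_succ hX i) theta_pos.le
    linarith
  · positivity
  · have := lam_le_succ hX i
    linarith

lemma Hd_le_succ {X : ℝ} (hX : 0 ≤ X) (i : ℕ) : Hd X i ≤ Hd X (i + 1) := by
  unfold Hd
  apply Nat.ceil_le_ceil
  have h1 := dl_pos X i
  have h2 := dl_pos X (i + 1)
  have h3 := dl_succ_le hX i
  gcongr

lemma Hd_mono {X : ℝ} (hX : 0 ≤ X) : Monotone (Hd X) := monotone_nat_of_le_succ (Hd_le_succ hX)

/-- the accuracy times the new bound is the old lower bound over `8λ` -/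
lemma dl_mul_al (X : ℝ) (i : ℕ) :
    dl X i * al X i = tau X (i + 1) * al X (i + 1) / (8 * lam X i) := by
  unfold dl al
  rw [xl_succ]
  have h : Real.exp (-((1 + theta) * xl X i - X))
      = Real.exp (-(theta * xl X i)) * Real.exp (-(xl X i - X)) := by
    rw [← Real.exp_add]; congr 1; ring
  rw [h]
  ring

/-! ### largeness of `P` -/

/-- `P` is large enough for the row from level `j+1` to level `j` -/
def Pok (X : ℝ) (rX z P j : ℕ) : Prop :=
  1000 * (Hd X j : ℝ) ≤ dl X j * P ∧ 4 * Hd X j * (z + 1) * (rX + 1) < P ∧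
    4 / P * al X j ≤ tau X (j + 1) * al X (j + 1) / (8 * lam X j)

lemma exists_Pok (X : ℝ) (rX z j : ℕ) : ∃ P0 : ℕ, ∀ P ≥ P0, Pok X rX z P j := by
  have h1 := dl_pos X j
  set c := tau X (j + 1) * al X (j + 1) / (8 * lam X j) with hc
  have hc0 : 0 < c := by
    rw [hc]
    have h1 := tau_pos X (j + 1)
    have h2 := lam_pos X j
    have h3 := al_pos X (j + 1)
    positivity
  refine ⟨max (max ⌈1000 * (Hd X j : ℝ) / dl X j⌉₊ (4 * Hd X j * (z + 1) * (rX + 1) + 1))
    (max 1 ⌈4 * al X j / c⌉₊), ?_⟩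
  intro P hP
  have hP1 : ⌈1000 * (Hd X j : ℝ) / dl X j⌉₊ ≤ P :=
    (le_max_left _ _).trans ((le_max_left _ _).trans hP)
  have hP2 : 4 * Hd X j * (z + 1) * (rX + 1) + 1 ≤ P :=
    (le_max_right _ _).trans ((le_max_left _ _).trans hP)
  have hP3 : 1 ≤ P := (le_max_left _ _).trans ((le_max_right _ _).trans hP)
  have hP4 : ⌈4 * al X j / c⌉₊ ≤ P := (le_max_right _ _).trans ((le_max_right _ _).trans hP)
  refine ⟨?_, by omega, ?_⟩
  · have := Nat.ceil_le.mp hP1
    rw [div_le_iff₀ h1] at this
    linarith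
  · have := Nat.ceil_le.mp hP4
    rw [div_le_iff₀ hc0] at this
    have hPpos : (0:ℝ) < P := by exact_mod_cast hP3
    rw [div_mul_eq_mul_div, div_le_iff₀ hPpos]
    linarith

lemma exists_Pok_all (X : ℝ) (rX z N : ℕ) : ∃ P0 : ℕ, ∀ P ≥ P0, ∀ j < N, Pok X rX z P j := by
  induction N with
  | zero => exact ⟨0, fun P _ j hj => absurd hj (Nat.not_lt_zero _)⟩
  | succ N ih =>
    obtain ⟨P0, h0⟩ := ih
    obtain ⟨P1, h1⟩ := exists_Pok X rX z N
    refine ⟨max P0 P1, fun P hP j hj => ?_⟩
    rcases Nat.lt_succ_iff_lt_or_eq.mp hj with h | h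
    · exact h0 P ((le_max_left _ _).trans hP) j h
    · rw [h]; exact h1 P ((le_max_right _ _).trans hP)

/-! ### monotonicity of `Ex` -/

lemma Ex_mono {P m : ℕ} [NeZero P] (k : ℕ) {F F' : List (Row P m) → ℝ} (h : ∀ l, F l ≤ F' l) :
    ∀ rows, Ex k F rows ≤ Ex k F' rows := by
  induction k with
  | zero => intro rows; exact h rows
  | succ k ih =>
    intro rows
    simp only [Ex]
    exact Finset.expect_le_expect fun r _ => ih (r :: rows)

/-- monotonicity, only for lists of the right form -/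
lemma Ex_mono_of {P m : ℕ} [NeZero P] (k : ℕ) {F F' : List (Row P m) → ℝ} :
    ∀ rows, (∀ l : List (Row P m), l.length = k → F (l ++ rows) ≤ F' (l ++ rows)) →
      Ex k F rows ≤ Ex k F' rows := by
  induction k with
  | zero => intro rows h; exact h [] rfl
  | succ k ih =>
    intro rows h
    simp only [Ex]
    refine Finset.expect_le_expect fun r _ => ih (r :: rows) ?_
    intro l hl
    have := h (l ++ [r]) (by simp [hl])
    simpa using this

/-! ### one row -/

/-- `BRel` is monotone in the height -/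
lemma BRel.mono {m : ℕ} {Z : Finset (Pt m)} {B B' : ℝ} (h : B ≤ B') {v : Pt m → ℤ}
    (hv : BRel Z B v) : BRel Z B' v := ⟨hv.1, fun g => (hv.2 g).trans h⟩

/-- one row, from level `j+1` to level `j` -/
lemma one_row (hF2 : S_F2) {P m I rX z : ℕ} [Fact P.Prime] {X : ℝ} (hX : 0 ≤ X)
    {w : Pt m → List (ZMod P) → ℝ} {G Z : Finset (Pt m)} (hctx : Ctx P m I rX X w G)
    (hZG : Z ⊆ G) (hz : Z.card ≤ z) {j : ℕ} (hP : Pok X rX z P j) (rows : List (Row P m))
    (hlen : rows.length + (j + 1) = I) (hrel : ∀ h, BRel Z (Hd X j) h → h = 0) :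
    𝔼 r : Row P m, ∏ g ∈ Z, wt w (r :: rows) g
      ≤ (1 + 1 / (4 * lam X j)) ^ Z.card * ∏ g ∈ Z, wt w rows g := by
  classical
  have hP0 : 0 < P := (Fact.out : P.Prime).pos
  have hlenlt : rows.length < I := by omega
  have hhist : ∀ g, (hist rows g).length = rows.length := by
    intro g; simp [hist]
  have hIj : I - (rows.length + 1) = j := by omega
  have hIj1 : I - rows.length = j + 1 := by omega
  have hlam := lam_pos X j
  have halpos := al_pos X j
  -- weights are nonnegative
  have hwnn : ∀ g, 0 ≤ wt w rows g := by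
    intro g
    unfold wt
    rcases hctx.hw.rng g (hist rows g) (by rw [hhist]; omega) with h | h
    · rw [h]
    · refine le_trans ?_ h.1
      rw [hhist]
      exact mul_nonneg (tau_pos _ _).le (al_pos _ _).le
  by_cases hdead : ∃ g ∈ Z, wt w rows g = 0
  · obtain ⟨g, hg, hg0⟩ := hdead
    have h1 : ∏ g ∈ Z, wt w rows g = 0 := Finset.prod_eq_zero hg hg0
    have h2 : ∀ r : Row P m, ∏ g ∈ Z, wt w (r :: rows) g = 0 := by
      intro r
      apply Finset.prod_eq_zero hg
      unfold wt
      simp only [hist, List.map_cons]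
      exact hctx.hw.dead g _ _ hg0
    rw [h1, mul_zero]
    simp only [h2]
    simp
  push Not at hdead
  obtain ⟨g0, hg0⟩ := hctx.box
  have hF := hF2 m (Hd X j) P rX (dl X j) (al X j) Z g0 (fun g x => w g (x :: hist rows g))
    (dl_pos X j) (dl_le_one hX j) (Nat.le_ceil _) hP.1 ?_ halpos
    (fun g hg k => hg0 g (hZG hg) k) ?_ hrel
  · -- main estimate
    have e1 : (𝔼 r : Row P m, ∏ g ∈ Z, wt w (r :: rows) g)
        = 𝔼 r : Row P m, ∏ g ∈ Z, w g (res r g :: hist rows g) := rfl
    rw [e1]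
    refine hF.trans ?_
    rw [← Finset.prod_const, ← Finset.prod_mul_distrib]
    apply Finset.prod_le_prod
    · intro g hg
      have : 0 ≤ 𝔼 x, w g (x :: hist rows g) := by
        apply Finset.expect_nonneg
        intro x _
        rcases hctx.hw.rng g (x :: hist rows g) (by simp [hhist]; omega) with h | h
        · rw [h]
        · refine le_trans ?_ h.1
          exact mul_nonneg (tau_pos _ _).le (al_pos _ _).le
      have := mul_nonneg (dl_pos X j).le halpos.le
      linarith
    · intro g hg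
      have hw0 : wt w rows g ≠ 0 := hdead g hg
      have hmart := hctx.hw.mart g (hist rows g) (by rw [hhist]; exact hlenlt)
      rw [hhist, hIj, abs_le] at hmart
      have hlow : tau X (j + 1) * al X (j + 1) ≤ wt w rows g := by
        rcases hctx.hw.rng g (hist rows g) (by rw [hhist]; omega) with h | h
        · exact absurd h hw0
        · have := h.1
          rw [hhist, hIj1] at this
          exact this
      have h3 := hP.2.2
      have h4 := dl_mul_al X j
      have h5 : tau X (j + 1) * al X (j + 1) / (8 * lam X j) ≤ wt w rows g / (8 * lam X j) := by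
        gcongr
      have h6 : (1 + 1 / (4 * lam X j)) * wt w rows g
          = wt w rows g + wt w rows g / (8 * lam X j) + wt w rows g / (8 * lam X j) := by
        field_simp
        ring
      rw [h6]
      have h7 : w g (hist rows g) = wt w rows g := rfl
      rw [h7] at hmart
      linarith [hmart.2]
  · calc 4 * Hd X j * (Z.card + 1) * (rX + 1) ≤ 4 * Hd X j * (z + 1) * (rX + 1) := by gcongr
      _ < P := hP.2.1
  · intro g hg
    constructor
    · intro x
      show 0 ≤ w g (x :: hist rows g) ∧ w g (x :: hist rows g) ≤ al X j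
      rcases hctx.hw.rng g (x :: hist rows g) (by simp [hhist]; omega) with h | h
      · rw [h]; exact ⟨le_rfl, halpos.le⟩
      · simp only [List.length_cons, hhist, hIj] at h
        exact ⟨le_trans (mul_nonneg (tau_pos _ _).le (al_pos _ _).le) h.1, h.2⟩
    · have := hctx.hw.tv g (hist rows g) (by rw [hhist]; exact hlenlt)
      rw [hhist, hIj] at this
      exact this

/-- iteration of `one_row` -/
lemma many_rows (hF2 : S_F2) {P m I rX z : ℕ} [Fact P.Prime] {X : ℝ} (hX : 0 ≤ X)
    {w : Pt m → List (ZMod P) → ℝ} {G Z : Finset (Pt m)} (hctx : Ctx P m I rX X w G)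
    (hZG : Z ⊆ G) (hz : Z.card ≤ z) (i : ℕ) : ∀ (k : ℕ) (_ : ∀ j < i + k, Pok X rX z P j)
    (rows : List (Row P m)) (_ : rows.length + (i + k) = I)
    (_ : ∀ h, BRel Z (Hd X (i + k)) h → h = 0),
    Ex k (fun rows' => ∏ g ∈ Z, wt w rows' g) rows
      ≤ (∏ j ∈ Finset.Ico i (i + k), (1 + 1 / (4 * lam X j))) ^ Z.card * ∏ g ∈ Z, wt w rows g := by
  intro k
  induction k with
  | zero =>
    intro _ rows _ _
    simp [Ex]
  | succ k ih =>
    intro hP rows hlen hrel
    have hrel' : ∀ j ≤ i + (k + 1), ∀ h, BRel Z (Hd X j) h → h = 0 := by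
      intro j hj h hh
      refine hrel h (BRel.mono ?_ hh)
      exact_mod_cast Hd_mono hX hj
    have h1 := one_row hF2 hX hctx hZG hz (hP (i + k) (by omega)) rows (by omega)
      (hrel' (i + k) (by omega))
    have hCnn : 0 ≤ (∏ j ∈ Finset.Ico i (i + k), (1 + 1 / (4 * lam X j))) ^ Z.card := by
      apply pow_nonneg
      apply Finset.prod_nonneg
      intro j _
      have := lam_pos X j
      positivity
    calc Ex (k + 1) (fun rows' => ∏ g ∈ Z, wt w rows' g) rows
        = 𝔼 r : Row P m, Ex k (fun rows' => ∏ g ∈ Z, wt w rows' g) (r :: rows) := rfl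
      _ ≤ 𝔼 r : Row P m, (∏ j ∈ Finset.Ico i (i + k), (1 + 1 / (4 * lam X j))) ^ Z.card
            * ∏ g ∈ Z, wt w (r :: rows) g := by
          refine Finset.expect_le_expect fun r _ => ih (fun j hj => hP j (by omega)) (r :: rows)
            (by simp only [List.length_cons]; omega) (hrel' (i + k) (by omega))
      _ = (∏ j ∈ Finset.Ico i (i + k), (1 + 1 / (4 * lam X j))) ^ Z.card
            * 𝔼 r : Row P m, ∏ g ∈ Z, wt w (r :: rows) g := by
          rw [Finset.mul_expect]
      _ ≤ (∏ j ∈ Finset.Ico i (i + k), (1 + 1 / (4 * lam X j))) ^ Z.card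
            * ((1 + 1 / (4 * lam X (i + k))) ^ Z.card * ∏ g ∈ Z, wt w rows g) := by
          gcongr
      _ = _ := by
          rw [← mul_assoc, ← mul_pow, ← add_assoc, Finset.prod_Ico_succ_top (by omega)]

end Surv

open Surv in
theorem prf_Surv (hF2 : S_F2) (hNum : S_Num) : S_Surv := by
  classical
  obtain ⟨X0, hX01, hX0⟩ := hNum 0
  refine ⟨X0, fun X hX m i t rX z ht => ?_⟩
  have hXnn : 0 ≤ X := by linarith
  obtain ⟨P0, hP0⟩ := exists_Pok_all X rX z (i + t)
  refine ⟨P0, fun P hP _ I w G Z rows hctx hlen hz hZ hrel => ?_⟩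
  have hZG : Z ⊆ G := fun g hg => (Finset.mem_filter.mp (hZ hg)).1
  have hmr := many_rows hF2 hXnn hctx hZG hz i t (hP0 P hP) rows hlen hrel
  have hti := mul_pos (tau_pos X i) (al_pos X i)
  -- the product of the losses is at most 2
  have hprod : ∏ j ∈ Finset.Ico i (i + t), (1 + 1 / (4 * lam X j)) ≤ 2 := by
    have hsum := (hX0 X hX (i + t)).2.2.2.2.2.2.2
    simp only [abs_zero, add_zero, div_one] at hsum
    calc ∏ j ∈ Finset.Ico i (i + t), (1 + 1 / (4 * lam X j))
        ≤ ∏ j ∈ Finset.Ico i (i + t), Real.exp (1 / (4 * lam X j)) := by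
          apply Finset.prod_le_prod
          · intro j _
            have := lam_pos X j
            positivity
          · intro j _
            have := Real.add_one_le_exp (1 / (4 * lam X j))
            linarith
      _ = Real.exp (∑ j ∈ Finset.Ico i (i + t), 1 / (4 * lam X j)) := by
          rw [Real.exp_sum]
      _ ≤ Real.exp (1 / 4) := by
          apply Real.exp_le_exp.mpr
          calc ∑ j ∈ Finset.Ico i (i + t), 1 / (4 * lam X j)
              ≤ ∑ j ∈ Finset.range (i + t), 1 / (4 * lam X j) := by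
                apply Finset.sum_le_sum_of_subset_of_nonneg
                · intro j hj
                  rw [Finset.mem_Ico] at hj
                  exact Finset.mem_range.mpr hj.2
                · intro j _ _
                  have := lam_pos X j
                  positivity
            _ = 1 / 4 * ∑ j ∈ Finset.range (i + t), 1 / lam X j := by
                rw [Finset.mul_sum]
                apply Finset.sum_congr rfl
                intro j _
                have := lam_pos X j
                field_simp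
            _ ≤ 1 / 4 * 1 := by gcongr
            _ = 1 / 4 := by ring
      _ ≤ 2 := by
          have h1 : Real.exp (1 / 4) ≤ Real.exp 1 ^ (1 / 4 : ℝ) := by
            rw [← Real.exp_mul]; simp
          have h2 : Real.exp 1 ^ (1 / 4 : ℝ) ≤ (16 : ℝ) ^ (1 / 4 : ℝ) := by
            apply Real.rpow_le_rpow (Real.exp_pos _).le _ (by norm_num)
            have := Real.exp_one_lt_d9
            linarith
          have h3 : (16 : ℝ) ^ (1 / 4 : ℝ) = 2 := by
            rw [show (16 : ℝ) = 2 ^ (4 : ℝ) by norm_num, ← Real.rpow_mul (by norm_num)]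
            norm_num
          linarith
  have hwt : ∏ g ∈ Z, wt w rows g ≤ al X (i + t) ^ Z.card := by
    rw [← Finset.prod_const]
    apply Finset.prod_le_prod
    · intro g hg
      exact (Finset.mem_filter.mp (hZ hg)).2.le
    · intro g hg
      have h0 : 0 < wt w rows g := (Finset.mem_filter.mp (hZ hg)).2
      rcases hctx.hw.rng g (hist rows g) (by simp [hist]; omega) with h | h
      · exact absurd h h0.ne'
      · have h2 := h.2
        have : I - (hist rows g).length = i + t := by simp [hist]; omega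
        rw [this] at h2
        exact h2
  -- indicator bound
  have hind : Ex t (fun rows' => if Z ⊆ alive w G rows' then (1 : ℝ) else 0) rows
      ≤ Ex t (fun rows' => (1 / (tau X i * al X i)) ^ Z.card * ∏ g ∈ Z, wt w rows' g) rows := by
    apply Ex_mono_of
    intro l hl
    have hlen' : ∀ g, (hist (l ++ rows) g).length = l.length + rows.length := by
      intro g; simp [hist]
    have hIi : I - (l.length + rows.length) = i := by omega
    have hnn : ∀ g, 0 ≤ wt w (l ++ rows) g := by
      intro g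
      unfold wt
      rcases hctx.hw.rng g (hist (l ++ rows) g) (by rw [hlen']; omega) with h | h
      · rw [h]
      · refine le_trans ?_ h.1
        exact mul_nonneg (tau_pos _ _).le (al_pos _ _).le
    split_ifs with hsub
    · rw [← Finset.prod_const, ← Finset.prod_mul_distrib]
      have : ∀ g ∈ Z, 1 ≤ 1 / (tau X i * al X i) * wt w (l ++ rows) g := by
        intro g hg
        have h0 : 0 < wt w (l ++ rows) g := (Finset.mem_filter.mp (hsub hg)).2
        rcases hctx.hw.rng g (hist (l ++ rows) g) (by rw [hlen']; omega) with h | h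
        · exact absurd h h0.ne'
        · have h2 := h.1
          rw [hlen', hIi] at h2
          rw [div_mul_eq_mul_div, one_mul, one_le_div hti]
          exact h2
      calc (1:ℝ) = ∏ g ∈ Z, (1:ℝ) := by simp
        _ ≤ _ := Finset.prod_le_prod (fun _ _ => zero_le_one) this
    · exact mul_nonneg (pow_nonneg (by positivity) _) (Finset.prod_nonneg fun g _ => hnn g)
  have hmul : ∀ (c : ℝ) (F : List (Row P m) → ℝ) (k : ℕ) (l : List (Row P m)),
      Ex k (fun r => c * F r) l = c * Ex k F l := by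
    intro c F k
    induction k with
    | zero => intro l; rfl
    | succ k ih =>
      intro l
      simp only [Ex, ih]
      rw [Finset.mul_expect]
  have hprodnn : 0 ≤ ∏ j ∈ Finset.Ico i (i + t), (1 + 1 / (4 * lam X j)) := by
    apply Finset.prod_nonneg
    intro j _
    have := lam_pos X j
    positivity
  calc Ex t (fun rows' => if Z ⊆ alive w G rows' then (1 : ℝ) else 0) rows
      ≤ Ex t (fun rows' => (1 / (tau X i * al X i)) ^ Z.card * ∏ g ∈ Z, wt w rows' g) rows := hind
    _ = (1 / (tau X i * al X i)) ^ Z.card * Ex t (fun rows' => ∏ g ∈ Z, wt w rows' g) rows :=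
        hmul _ _ _ _
    _ ≤ (1 / (tau X i * al X i)) ^ Z.card *
        ((∏ j ∈ Finset.Ico i (i + t), (1 + 1 / (4 * lam X j))) ^ Z.card
          * ∏ g ∈ Z, wt w rows g) := by gcongr
    _ ≤ (1 / (tau X i * al X i)) ^ Z.card * (2 ^ Z.card * al X (i + t) ^ Z.card) := by
        have : 0 ≤ ∏ g ∈ Z, wt w rows g :=
          Finset.prod_nonneg fun g hg => (Finset.mem_filter.mp (hZ hg)).2.le
        gcongr
    _ = (2 * al X (i + t) / (tau X i * al X i)) ^ Z.card := by
        rw [div_pow, div_pow, mul_pow, one_pow]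
        ring

end Crest.Agent.R225
end

-- ▼ part R225/ExLib
section

/-!
# Row 225: basic library for the iterated expectation `Ex`, alive sets and weights
-/

set_option autoImplicit false
set_option linter.unusedSectionVars false

open Finset
open scoped BigOperators

namespace Crest.Agent.R225

variable {P m : ℕ} [NeZero P]

theorem Ex_zero (F : List (Row P m) → ℝ) (rows : List (Row P m)) : Ex 0 F rows = F rows := rfl

theorem Ex_succ (k : ℕ) (F : List (Row P m) → ℝ) (rows : List (Row P m)) :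
    Ex (k + 1) F rows = 𝔼 r : Row P m, Ex k F (r :: rows) := rfl

/-- tower law -/
theorem Ex_add (j k : ℕ) (F : List (Row P m) → ℝ) (rows : List (Row P m)) :
    Ex (j + k) F rows = Ex j (fun rows' => Ex k F rows') rows := by
  induction j generalizing rows with
  | zero => simp [Ex_zero]
  | succ j ih =>
    rw [show j + 1 + k = (j + k) + 1 by ring, Ex_succ, Ex_succ]
    exact Finset.expect_congr rfl (fun r _ => ih (r :: rows))

theorem Ex_succ' (k : ℕ) (F : List (Row P m) → ℝ) (rows : List (Row P m)) :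
    Ex (k + 1) F rows = Ex k (fun rows' => 𝔼 r : Row P m, F (r :: rows')) rows := by
  rw [Ex_add k 1]; rfl



theorem Ex_const (k : ℕ) (c : ℝ) (rows : List (Row P m)) : Ex k (fun _ => c) rows = c := by
  induction k generalizing rows with
  | zero => rfl
  | succ k ih =>
    rw [Ex_succ]
    simp only [ih]
    exact Finset.expect_const univ_nonempty c





theorem Ex_mul_left (k : ℕ) (c : ℝ) (F : List (Row P m) → ℝ) (rows : List (Row P m)) :
    Ex k (fun l => c * F l) rows = c * Ex k F rows := by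
  induction k generalizing rows with
  | zero => rfl
  | succ k ih =>
    simp only [Ex_succ, ih]
    exact (Finset.mul_expect _ _ _).symm











/-! ### one point: the residue is uniform -/


/-! ### alive sets -/

variable {w : Pt m → List (ZMod P) → ℝ} {b : ℕ} {α τ : ℕ → ℝ} {ε : ℝ} {G : Finset (Pt m)}

theorem mem_alive {rows : List (Row P m)} {g : Pt m} :
    g ∈ alive w G rows ↔ g ∈ G ∧ 0 < wt w rows g := by
  classical
  simp [alive]

theorem alive_subset (rows : List (Row P m)) : alive w G rows ⊆ G := fun _ hg =>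
  (mem_alive.1 hg).1


theorem hist_length (rows : List (Row P m)) (g : Pt m) : (hist rows g).length = rows.length := by
  simp [hist]



theorem WHyp.wt_dead (hw : WHyp w b α τ ε) {rows : List (Row P m)} {g : Pt m}
    (h : wt w rows g = 0) (r : Row P m) : wt w (r :: rows) g = 0 :=
  hw.dead g _ _ h


theorem WHyp.wt_rng (hw : WHyp w b α τ ε) {rows : List (Row P m)} (hl : rows.length ≤ b)
    (g : Pt m) : wt w rows g = 0 ∨
      (τ rows.length * α rows.length ≤ wt w rows g ∧ wt w rows g ≤ α rows.length) := by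
  have := hw.rng g (hist rows g) (by simpa [hist_length] using hl)
  simpa [hist_length, wt] using this

theorem WHyp.wt_nonneg (hw : WHyp w b α τ ε) {rows : List (Row P m)} (hl : rows.length ≤ b)
    (h0 : 0 ≤ τ rows.length * α rows.length) (g : Pt m) : 0 ≤ wt w rows g := by
  rcases hw.wt_rng hl g with h | h
  · exact h.ge
  · exact h0.trans h.1

theorem WHyp.le_wt (hw : WHyp w b α τ ε) {rows : List (Row P m)} (hl : rows.length ≤ b)
    {g : Pt m} (hg : g ∈ alive w G rows) : τ rows.length * α rows.length ≤ wt w rows g := by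
  rcases hw.wt_rng hl g with h | h
  · exact absurd (mem_alive.1 hg).2 (by rw [h]; exact lt_irrefl 0)
  · exact h.1


theorem WHyp.not_mem_alive (hw : WHyp w b α τ ε) {rows : List (Row P m)} (hl : rows.length ≤ b)
    (h0 : 0 ≤ τ rows.length * α rows.length) {g : Pt m} (hg : g ∈ G)
    (hga : g ∉ alive w G rows) : wt w rows g = 0 := by
  rcases (hw.wt_nonneg hl h0 g).lt_or_eq with h | h
  · exact absurd (mem_alive.2 ⟨hg, h⟩) hga
  · exact h.symm



/-- the total weight is carried by the alive set -/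
theorem WHyp.Stot_eq (hw : WHyp w b α τ ε) {rows : List (Row P m)} (hl : rows.length ≤ b)
    (h0 : 0 ≤ τ rows.length * α rows.length) :
    Stot w G rows = ∑ g ∈ alive w G rows, wt w rows g := by
  rw [Stot]
  refine (Finset.sum_subset (alive_subset rows) (fun g hg hga => ?_)).symm
  exact hw.not_mem_alive hl h0 hg hga

theorem WHyp.card_mul_le_Stot (hw : WHyp w b α τ ε) {rows : List (Row P m)}
    (hl : rows.length ≤ b) (h0 : 0 ≤ τ rows.length * α rows.length) :
    ((alive w G rows).card : ℝ) * (τ rows.length * α rows.length) ≤ Stot w G rows := by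
  rw [hw.Stot_eq hl h0, ← nsmul_eq_mul]
  exact Finset.card_nsmul_le_sum _ _ _ (fun g hg => hw.le_wt hl hg)


/-- the next-step weight function of the atom `g` -/
theorem WHyp.tvok (hw : WHyp w b α τ ε) {rows : List (Row P m)} (hl : rows.length < b)
    (h0 : 0 ≤ τ (rows.length + 1) * α (rows.length + 1)) (h1 : 0 ≤ α (rows.length + 1))
    (g : Pt m) : TVok (α (rows.length + 1)) (fun ξ => w g (ξ :: hist rows g)) := by
  refine ⟨fun ξ => ?_, ?_⟩
  · have := hw.rng g (ξ :: hist rows g) (by simpa [hist_length] using hl)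
    simp only [List.length_cons, hist_length] at this
    change 0 ≤ w g (ξ :: hist rows g) ∧ w g (ξ :: hist rows g) ≤ α (rows.length + 1)
    rcases this with h | h
    · rw [h]; exact ⟨le_rfl, h1⟩
    · exact ⟨h0.trans h.1, h.2⟩
  · have := hw.tv g (hist rows g) (by simpa [hist_length] using hl)
    simpa only [hist_length] using this

theorem WHyp.mart_wt (hw : WHyp w b α τ ε) {rows : List (Row P m)} (hl : rows.length < b)
    (g : Pt m) : |(𝔼 ξ, w g (ξ :: hist rows g)) - wt w rows g| ≤ ε * α (rows.length + 1) := by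
  have := hw.mart g (hist rows g) (by simpa [hist_length] using hl)
  rw [hist_length] at this
  exact this

/-- the sum of the conditional means over the alive set is close to the present total weight -/
theorem WHyp.sum_mart (hw : WHyp w b α τ ε) {rows : List (Row P m)} (hl : rows.length < b)
    (h0 : 0 ≤ τ rows.length * α rows.length) :
    |(∑ g ∈ alive w G rows, 𝔼 ξ, w g (ξ :: hist rows g)) - Stot w G rows|
      ≤ (alive w G rows).card * (ε * α (rows.length + 1)) := by
  rw [hw.Stot_eq hl.le h0, ← Finset.sum_sub_distrib, ← nsmul_eq_mul]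
  refine (Finset.abs_sum_le_sum_abs _ _).trans ?_
  exact Finset.sum_le_card_nsmul _ _ _ (fun g _ => hw.mart_wt hl g)

/-- after one more row only the atoms alive before carry weight -/
theorem WHyp.Stot_cons (hw : WHyp w b α τ ε) {rows : List (Row P m)} (hl : rows.length ≤ b)
    (h0 : 0 ≤ τ rows.length * α rows.length) (r : Row P m) :
    Stot w G (r :: rows) = ∑ g ∈ alive w G rows, w g (res r g :: hist rows g) := by
  rw [Stot]
  refine (Finset.sum_subset (alive_subset rows) (fun g hg hga => ?_)).symm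
  exact hw.wt_dead (hw.not_mem_alive hl h0 hg hga) r

end Crest.Agent.R225
end

-- ▼ part R225/MultiA
section

/-!
# Row 225 (S0347): node Multi, part A: deviation of the total weight in one row
-/

set_option autoImplicit false

open Finset MeasureTheory Filter
open scoped BigOperators ENNReal

namespace Crest.Agent.R225

namespace MultiN

open scoped Classical in
/-- one-row deviation of the total weight, in the multi-level regime -/
def S_RowDev : Prop := ∀ c0 Crat : ℝ, 0 < c0 → c0 ≤ 1 / 100 → 1 ≤ Crat → ∃ X0 : ℝ, ∀ X ≥ X0,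
  ∃ n0 : ℕ, ∀ n ≥ n0, ∀ (m i rX : ℕ), xl X (i + 1) ≤ 2 * (n : ℝ) ^ (9 / 10 : ℝ) →
  ∃ P0 : ℕ, ∀ P ≥ P0, ∀ [Fact P.Prime], ∀ (I : ℕ) (w : Pt m → List (ZMod P) → ℝ)
    (G : Finset (Pt m)) (rows : List (Row P m)), Ctx P m I rX X w G →
    rows.length + (i + 1) = I →
    ((alive w G rows).card : ℝ) ≤ Mb X Crat n (i + 1) →
    (𝔼 r : Row P m, if |Stot w G (r :: rows) - Stot w G rows| ≤
        Crat * Real.exp X * NN n / lam X i then (0 : ℝ) else 1) ≤
      Real.exp (c0 / 1000 * NN n) * ((En (kk X c0 n (i + 1)) (alive w G rows) : ℝ) /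
        Mb X Crat n (i + 1) ^ (2 * kk X c0 n (i + 1)))

/-- `n^{9/10} = o(n log n)` -/
lemma ev_n (C ε : ℝ) (hε : 0 < ε) : ∃ n0 : ℕ, ∀ n : ℕ, n0 ≤ n →
    3 ≤ n ∧ C * (n : ℝ) ^ (9 / 10 : ℝ) + C ≤ ε * NN n := by
  have h1 : ∀ᶠ x : ℝ in atTop, (|C| + |C|) / ε ≤ x ^ (1 / 10 : ℝ) :=
    (tendsto_rpow_atTop (by norm_num : (0 : ℝ) < 1 / 10)).eventually_ge_atTop _
  have h2 := tendsto_natCast_atTop_atTop (R := ℝ) |>.eventually h1
  obtain ⟨N, hN⟩ := (h2.and (eventually_ge_atTop 3)).exists_forall_of_atTop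
  refine ⟨N, fun n hn => ?_⟩
  obtain ⟨h3, h4⟩ := hN n hn
  refine ⟨h4, ?_⟩
  have hn1 : (3 : ℝ) ≤ n := by exact_mod_cast h4
  have hn0 : (0 : ℝ) < n := by linarith
  have hlog : 1 ≤ Real.log n := by
    rw [Real.le_log_iff_exp_le hn0]
    have := Real.exp_one_lt_d9
    linarith
  have hr1 : (1 : ℝ) ≤ (n : ℝ) ^ (9 / 10 : ℝ) := Real.one_le_rpow (by linarith) (by norm_num)
  have hmul : (n : ℝ) ^ (1 / 10 : ℝ) * (n : ℝ) ^ (9 / 10 : ℝ) = n := by
    rw [← Real.rpow_add hn0]; norm_num
  have h5 : (|C| + |C|) * (n : ℝ) ^ (9 / 10 : ℝ) ≤ ε * n := by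
    rw [div_le_iff₀ hε] at h3
    calc (|C| + |C|) * (n : ℝ) ^ (9 / 10 : ℝ)
        ≤ ((n : ℝ) ^ (1 / 10 : ℝ) * ε) * (n : ℝ) ^ (9 / 10 : ℝ) := by gcongr
      _ = ε * ((n : ℝ) ^ (1 / 10 : ℝ) * (n : ℝ) ^ (9 / 10 : ℝ)) := by ring
      _ = ε * n := by rw [hmul]
  have h6 : C * (n : ℝ) ^ (9 / 10 : ℝ) + C ≤ (|C| + |C|) * (n : ℝ) ^ (9 / 10 : ℝ) := by
    have := le_abs_self C
    have := abs_nonneg C
    nlinarith
  have h7 : ε * n ≤ ε * NN n := by
    unfold NN
    have : (n : ℝ) * 1 ≤ n * Real.log n := by gcongr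
    nlinarith
  linarith

lemma NN_pos {n : ℕ} (hn : 3 ≤ n) : 0 < NN n := by
  have hn1 : (3 : ℝ) ≤ n := by exact_mod_cast hn
  unfold NN
  exact mul_pos (by linarith) (Real.log_pos (by linarith))

lemma Mb_pos {X Crat : ℝ} {n : ℕ} (hn : 3 ≤ n) (hC : 1 ≤ Crat) (i : ℕ) : 0 < Mb X Crat n i := by
  unfold Mb
  have := NN_pos hn
  have := NumL.tau_pos X i
  have : 0 < Crat := by linarith
  positivity

/-- consequences of `S_Num` used for the row deviation -/
lemma num_a (hNum : S_Num) : ∃ X0 : ℝ, 1 ≤ X0 ∧ ∀ X ≥ X0, ∀ i : ℕ,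
    5 + Real.log (Hd X i) + Real.sqrt (xl X i) + theta * xl X i + Real.log (1 / tau X (i + 1)) ≤
      4 * theta * xl X (i + 1) := by
  obtain ⟨X0, h1, h⟩ := hNum 10000
  refine ⟨X0, h1, fun X hX i => ?_⟩
  obtain ⟨a1, a2, a3, a4, a5, a6, a7, a8⟩ := h X hX (i + 1)
  obtain ⟨b1, b2, b3, b4, b5, b6, b7, b8⟩ := h X hX i
  have hX0 : 0 ≤ X := by linarith
  have hx := Surv.xl_le_succ (X := X) hX0 i
  have hth := NumL.theta_pos
  have hlog : 0 ≤ Real.log (xl X (i + 1)) := Real.log_nonneg (by linarith)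
  have hs : 0 ≤ Real.sqrt (xl X (i + 1)) := Real.sqrt_nonneg _
  have c1 : 10000 * (10000 * Real.sqrt (xl X (i + 1))) ≤ theta * xl X (i + 1) := by
    have : 10000 * Real.sqrt (xl X (i + 1)) ≤ (xl X (i + 1)) ^ (3 / 4 : ℝ) := by
      refine le_trans ?_ a3
      nlinarith
    linarith
  have c2 : Real.sqrt (xl X i) ≤ Real.sqrt (xl X (i + 1)) := Real.sqrt_le_sqrt hx
  have c3 : 5 ≤ Real.sqrt (xl X (i + 1)) := by
    apply Real.le_sqrt_of_sq_le
    linarith
  nlinarith

lemma al_mul_exp (X : ℝ) (i : ℕ) : al X i * Real.exp (xl X i) = Real.exp X := by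
  unfold al; rw [← Real.exp_add]; congr 1; ring

/-- the basic threshold -/
noncomputable def thr (X Crat : ℝ) (n i : ℕ) : ℝ := Crat * Real.exp X * NN n / (4 * lam X i)

lemma thr_pos {X Crat : ℝ} {n : ℕ} (hn : 3 ≤ n) (hC : 1 ≤ Crat) (i : ℕ) : 0 < thr X Crat n i := by
  unfold thr
  have := NN_pos hn
  have := NumL.lam_pos X i
  have : 0 < Crat := by linarith
  positivity

lemma num_b {X0 X Crat : ℝ} {n i : ℕ} (hn : 3 ≤ n) (hC : 1 ≤ Crat)
    (hX : X ≥ X0) (h : ∀ X ≥ X0, ∀ i : ℕ,
    5 + Real.log (Hd X i) + Real.sqrt (xl X i) + theta * xl X i + Real.log (1 / tau X (i + 1)) ≤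
      4 * theta * xl X (i + 1)) :
    8 * Hd X i * al X i / thr X Crat n i * Mb X Crat n (i + 1) ≤
      Real.exp (4 * theta * xl X (i + 1)) := by
  have hNN := NN_pos hn
  have hlam := NumL.lam_pos X i
  have hC0 : 0 < Crat := by linarith
  have htau := NumL.tau_pos X (i + 1)
  have h1 : 8 * Hd X i * al X i / thr X Crat n i * Mb X Crat n (i + 1) =
      64 * Hd X i * lam X i * Real.exp (theta * xl X i) * (1 / tau X (i + 1)) := by
    have e1 : Real.exp (xl X (i + 1)) = Real.exp (xl X i) * Real.exp (theta * xl X i) := by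
      rw [← Real.exp_add]; congr 1
      rw [NumL.xl_succ]; ring
    have e2 := al_mul_exp X i
    unfold thr Mb
    rw [e1]
    rw [← e2]
    have := (Real.exp_pos (xl X i)).ne'
    have := (Surv.al_pos X i).ne'
    field_simp
    ring
  rw [h1]
  have hH : (0 : ℝ) < Hd X i := by
    unfold Hd
    have := Surv.dl_pos X i
    exact_mod_cast Nat.ceil_pos.mpr (by positivity)
  have h2 : 64 * Hd X i * lam X i * Real.exp (theta * xl X i) * (1 / tau X (i + 1)) ≤
      Real.exp (5 + Real.log (Hd X i) + Real.sqrt (xl X i) + theta * xl X i +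
        Real.log (1 / tau X (i + 1))) := by
    rw [Real.exp_add, Real.exp_add, Real.exp_add, Real.exp_add, Real.exp_log hH,
      Real.exp_log (by positivity)]
    have h64 : (64 : ℝ) ≤ Real.exp 5 := by
      have : Real.exp 5 = (Real.exp 1) ^ 5 := by rw [← Real.exp_nat_mul]; norm_num
      rw [this]
      have h27 : (2.7 : ℝ) ≤ Real.exp 1 := by have := Real.exp_one_gt_d9; linarith
      calc (64 : ℝ) ≤ 2.7 ^ 5 := by norm_num
        _ ≤ _ := by gcongr
    unfold lam
    gcongr
  exact h2.trans (Real.exp_le_exp.mpr (h X hX i))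

lemma kk_le {X c0 : ℝ} {n i : ℕ} (hc0 : 0 < c0) (hn : 3 ≤ n) (hx : 0 < xl X i) :
    (kk X c0 n i : ℝ) * xl X i ≤ c0 * NN n + xl X i := by
  have hNN := NN_pos hn
  have h1 : (kk X c0 n i : ℝ) ≤ c0 * NN n / xl X i + 1 :=
    (Nat.ceil_lt_add_one (by positivity)).le
  calc (kk X c0 n i : ℝ) * xl X i ≤ (c0 * NN n / xl X i + 1) * xl X i := by gcongr
    _ = c0 * NN n + xl X i := by field_simp


lemma one_le_kk {X c0 : ℝ} {n i : ℕ} (hc0 : 0 < c0) (hn : 3 ≤ n) (hx : 0 < xl X i) :
    1 ≤ kk X c0 n i := by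
  have hNN := NN_pos hn
  exact Nat.ceil_pos.mpr (by positivity)

theorem rowDev (hF3 : S_F3) (hNum : S_Num) : S_RowDev := by
  intro c0 Crat hc0 hc1 hCrat
  obtain ⟨X0, hX01, hX0⟩ := num_a hNum
  refine ⟨X0, fun X hX => ?_⟩
  obtain ⟨n0, hn0⟩ := ev_n 1 (c0 / 2000) (by positivity)
  refine ⟨n0, fun n hn m i rX hxl => ?_⟩
  obtain ⟨hn3, hnn⟩ := hn0 n hn
  set q := kk X c0 n (i + 1) with hq
  obtain ⟨P0, hP0⟩ := Surv.exists_Pok X rX (2 * q) i
  refine ⟨P0, fun P hP _ I w G rows hctx hlen hcard => ?_⟩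
  obtain ⟨hP1, hP2, hP3⟩ := hP0 P hP
  have hX1 : 0 ≤ X := by linarith
  have hxpos : 0 < xl X (i + 1) := NumL.xl_pos (by linarith) _
  obtain ⟨g0, hg0⟩ := hctx.box
  have hI1 : I - (rows.length + 1) = i := by omega
  have hI2 : I - rows.length = i + 1 := by omega
  have hw := hctx.hw
  have hα0 : 0 ≤ (fun j => tau X (I - j)) rows.length * (fun j => al X (I - j)) rows.length :=
    mul_nonneg (NumL.tau_pos _ _).le (Surv.al_pos _ _).le
  have hα1 : 0 ≤ (fun j => tau X (I - j)) (rows.length + 1) *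
      (fun j => al X (I - j)) (rows.length + 1) :=
    mul_nonneg (NumL.tau_pos _ _).le (Surv.al_pos _ _).le
  have hα2 : 0 ≤ (fun j => al X (I - j)) (rows.length + 1) := (Surv.al_pos _ _).le
  have hltI : rows.length < I := by omega
  have htpos := thr_pos (X := X) (Crat := Crat) (i := i) hn3 hCrat
  have hNN := NN_pos hn3
  have hlam := NumL.lam_pos X i
  have htau := NumL.tau_pos X (i + 1)
  set W := alive w G rows with hW
  have hF := hF3 m (Hd X i) P rX q (dl X i) (al X i) (thr X Crat n i) W g0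
    (fun g x => w g (x :: hist rows g)) (Surv.dl_pos X i) (Surv.dl_le_one hX1 i) (Nat.le_ceil _)
    hP1 hP2 (one_le_kk hc0 hn3 hxpos) (Surv.al_pos X i) htpos
    (fun g hg k => hg0 g (alive_subset rows hg) k)
    (fun g hg => by
      have := WHyp.tvok hw hltI hα1 hα2 g
      simpa only [hI1] using this)
  -- the deterministic part
  have hdet : dl X i * al X i * W.card ≤ thr X Crat n i := by
    rw [Surv.dl_mul_al]
    calc tau X (i + 1) * al X (i + 1) / (8 * lam X i) * W.card
        ≤ tau X (i + 1) * al X (i + 1) / (8 * lam X i) * Mb X Crat n (i + 1) := by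
          have := Surv.al_pos X (i + 1)
          gcongr
      _ = thr X Crat n i := by
          have e2 := al_mul_exp X (i + 1)
          unfold thr Mb
          rw [← e2]
          field_simp
          ring
  have hmart : |(∑ g ∈ W, 𝔼 ξ, w g (ξ :: hist rows g)) - Stot w G rows| ≤ thr X Crat n i := by
    have h1 := WHyp.sum_mart hw hltI hα0 (G := G)
    refine h1.trans ?_
    simp only [hI1]
    calc ((alive w G rows).card : ℝ) * (4 / (P : ℝ) * al X i)
        ≤ (alive w G rows).card * (dl X i * al X i) := by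
          rw [Surv.dl_mul_al]
          gcongr
      _ = dl X i * al X i * W.card := by rw [hW]; ring
      _ ≤ _ := hdet
  have hstep : (𝔼 r : Row P m, if |Stot w G (r :: rows) - Stot w G rows| ≤
        Crat * Real.exp X * NN n / lam X i then (0 : ℝ) else 1) ≤
      𝔼 r : Row P m, if dl X i * al X i * W.card + thr X Crat n i <
        |∑ g ∈ W, w g (res r g :: hist rows g) - ∑ g ∈ W, 𝔼 x, w g (x :: hist rows g)|
        then (1 : ℝ) else 0 := by
    refine Finset.expect_le_expect fun r _ => ?_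
    have hT : Crat * Real.exp X * NN n / lam X i = 4 * thr X Crat n i := by
      unfold thr; field_simp
    have hcons := WHyp.Stot_cons hw hltI.le hα0 (G := G) r
    rw [hT]
    by_cases hle : |Stot w G (r :: rows) - Stot w G rows| ≤ 4 * thr X Crat n i
    · rw [if_pos hle]
      split_ifs <;> norm_num
    · rw [if_neg hle, if_pos]
      push Not at hle
      rw [← hcons]
      have := abs_sub_le (Stot w G (r :: rows)) (∑ g ∈ W, 𝔼 x, w g (x :: hist rows g))
        (Stot w G rows)
      linarith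
  refine hstep.trans (hF.trans ?_)
  have hMpos := Mb_pos (X := X) (Crat := Crat) (i := i + 1) hn3 hCrat
  have hkey := num_b hn3 hCrat hX hX0 (n := n) (i := i)
  have hA0 : 0 ≤ 8 * Hd X i * al X i / thr X Crat n i := by
    have := Surv.al_pos X i
    positivity
  have hpow : 2 * (8 * Hd X i * al X i / thr X Crat n i) ^ (2 * q) *
      Mb X Crat n (i + 1) ^ (2 * q) ≤ Real.exp (c0 / 1000 * NN n) := by
    rw [mul_assoc, ← mul_pow]
    calc 2 * (8 * Hd X i * al X i / thr X Crat n i * Mb X Crat n (i + 1)) ^ (2 * q)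
        ≤ Real.exp 1 * (Real.exp (4 * theta * xl X (i + 1))) ^ (2 * q) := by
          have : (2 : ℝ) ≤ Real.exp 1 := by have := Real.exp_one_gt_d9; linarith
          have h0 : 0 ≤ 8 * Hd X i * al X i / thr X Crat n i * Mb X Crat n (i + 1) :=
            mul_nonneg hA0 hMpos.le
          gcongr
      _ = Real.exp (1 + 8 * theta * (q * xl X (i + 1))) := by
          rw [← Real.exp_nat_mul, ← Real.exp_add]
          congr 1
          push_cast
          ring
      _ ≤ Real.exp (c0 / 1000 * NN n) := by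
          apply Real.exp_le_exp.mpr
          have h1 := kk_le (c0 := c0) (X := X) (i := i + 1) hc0 hn3 hxpos
          rw [← hq] at h1
          have h2 : 8 * theta * (q * xl X (i + 1)) ≤
              8 * theta * (c0 * NN n + 2 * (n : ℝ) ^ (9 / 10 : ℝ)) := by
            have := NumL.theta_pos
            have h3 : (q : ℝ) * xl X (i + 1) ≤ c0 * NN n + 2 * (n : ℝ) ^ (9 / 10 : ℝ) := by
              linarith
            gcongr
          have h4 : 8 * theta * (c0 * NN n + 2 * (n : ℝ) ^ (9 / 10 : ℝ)) =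
              c0 * NN n / 25000 + 2 / 25000 * (n : ℝ) ^ (9 / 10 : ℝ) := by
            unfold theta; ring
          have h5 : 0 ≤ (n : ℝ) ^ (9 / 10 : ℝ) := by positivity
          have h6 : 0 ≤ c0 * NN n := by positivity
          linarith
  have hEn : (0 : ℝ) ≤ En q W := Nat.cast_nonneg _
  calc 2 * (8 * Hd X i * al X i / thr X Crat n i) ^ (2 * q) * (En q W : ℝ)
      = (2 * (8 * Hd X i * al X i / thr X Crat n i) ^ (2 * q) * Mb X Crat n (i + 1) ^ (2 * q)) *
          ((En q W : ℝ) / Mb X Crat n (i + 1) ^ (2 * q)) := by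
        field_simp
    _ ≤ Real.exp (c0 / 1000 * NN n) * ((En q W : ℝ) / Mb X Crat n (i + 1) ^ (2 * q)) := by
        gcongr

end MultiN

end Crest.Agent.R225
end

-- ▼ part R225/ExCalc
section

/-!
# Row 225 (S0347): calculus of `Ex` (expectation over further uniform rows)

Linearity, monotonicity, tower law, suffix functions, Markov and union bounds, products of one-step
bounds, union bound over the first failing time.
-/

set_option autoImplicit false

open Finset
open scoped BigOperators

namespace Crest.Agent.R225.ExCalc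

variable {P m : ℕ} [NeZero P]

theorem Ex_zero (F : List (Row P m) → ℝ) (rows : List (Row P m)) : Ex 0 F rows = F rows := rfl

theorem Ex_succ (k : ℕ) (F : List (Row P m) → ℝ) (rows : List (Row P m)) :
    Ex (k + 1) F rows = 𝔼 r : Row P m, Ex k F (r :: rows) := rfl

/-- only lists `l ++ rows` with `l.length = k` matter -/
theorem Ex_congr (k : ℕ) {F G : List (Row P m) → ℝ} (rows : List (Row P m))
    (h : ∀ l : List (Row P m), l.length = k → F (l ++ rows) = G (l ++ rows)) :
    Ex k F rows = Ex k G rows := by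
  induction k generalizing rows with
  | zero => exact h [] rfl
  | succ k ih =>
    rw [Ex_succ, Ex_succ]
    refine Finset.expect_congr rfl fun r _ => ih (r :: rows) fun l hl => ?_
    have := h (l ++ [r]) (by simp [hl])
    simpa using this

theorem Ex_mono (k : ℕ) {F G : List (Row P m) → ℝ} (rows : List (Row P m))
    (h : ∀ l : List (Row P m), l.length = k → F (l ++ rows) ≤ G (l ++ rows)) :
    Ex k F rows ≤ Ex k G rows := by
  induction k generalizing rows with
  | zero => exact h [] rfl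
  | succ k ih =>
    rw [Ex_succ, Ex_succ]
    refine Finset.expect_le_expect fun r _ => ih (r :: rows) fun l hl => ?_
    have := h (l ++ [r]) (by simp [hl])
    simpa using this

theorem Ex_const (k : ℕ) (c : ℝ) (rows : List (Row P m)) : Ex k (fun _ => c) rows = c := by
  induction k generalizing rows with
  | zero => rfl
  | succ k ih =>
    rw [Ex_succ]
    simp only [ih]
    exact Finset.expect_const univ_nonempty c


theorem Ex_le_const (k : ℕ) {F : List (Row P m) → ℝ} {c : ℝ} (rows : List (Row P m))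
    (h : ∀ l : List (Row P m), l.length = k → F (l ++ rows) ≤ c) : Ex k F rows ≤ c := by
  have := Ex_mono k (F := F) (G := fun _ => c) rows h
  rwa [Ex_const] at this

theorem Ex_add (k : ℕ) (F G : List (Row P m) → ℝ) (rows : List (Row P m)) :
    Ex k (fun l => F l + G l) rows = Ex k F rows + Ex k G rows := by
  induction k generalizing rows with
  | zero => rfl
  | succ k ih =>
    rw [Ex_succ, Ex_succ, Ex_succ, ← Finset.expect_add_distrib]
    exact Finset.expect_congr rfl fun r _ => ih (r :: rows)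

theorem Ex_mul_left (k : ℕ) (c : ℝ) (F : List (Row P m) → ℝ) (rows : List (Row P m)) :
    Ex k (fun l => c * F l) rows = c * Ex k F rows := by
  induction k generalizing rows with
  | zero => rfl
  | succ k ih =>
    rw [Ex_succ, Ex_succ, Finset.mul_expect]
    exact Finset.expect_congr rfl fun r _ => ih (r :: rows)




theorem Ex_sum {ι : Type*} (s : Finset ι) (k : ℕ) (F : ι → List (Row P m) → ℝ)
    (rows : List (Row P m)) :
    Ex k (fun l => ∑ i ∈ s, F i l) rows = ∑ i ∈ s, Ex k (F i) rows := by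
  classical
  induction s using Finset.induction_on with
  | empty => simp [Ex_const]
  | insert a s ha ih =>
    simp only [Finset.sum_insert ha]
    rw [Ex_add, ih]


/-- tower law -/
theorem Ex_tower (j k : ℕ) (F : List (Row P m) → ℝ) (rows : List (Row P m)) :
    Ex (j + k) F rows = Ex j (fun l => Ex k F l) rows := by
  induction j generalizing rows with
  | zero => simp [Ex_zero]
  | succ j ih =>
    rw [show j + 1 + k = (j + k) + 1 by ring, Ex_succ, Ex_succ]
    exact Finset.expect_congr rfl fun r _ => ih (r :: rows)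

theorem Ex_succ' (k : ℕ) (F : List (Row P m) → ℝ) (rows : List (Row P m)) :
    Ex (k + 1) F rows = Ex k (fun l => 𝔼 r : Row P m, F (r :: l)) rows := by
  rw [Ex_tower k 1]
  rfl

/-- a function of the first `j` of `j + k` new rows -/
theorem Ex_drop (j k : ℕ) (F : List (Row P m) → ℝ) (rows : List (Row P m)) :
    Ex (j + k) (fun l => F (l.drop k)) rows = Ex j F rows := by
  rw [Ex_tower]
  refine Ex_congr j rows fun l _ => ?_
  rw [Ex_congr k (F := fun l => F (l.drop k)) (G := fun _ => F (l ++ rows)) (l ++ rows), Ex_const]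
  intro l' hl'
  rw [List.drop_append_of_le_length (by omega), List.drop_of_length_le (by omega)]
  simp

/-- a property of the first `j` of `k ≥ j` new rows -/
theorem Ex_drop_of_le {j k : ℕ} (hjk : j ≤ k) (F : List (Row P m) → ℝ) (rows : List (Row P m)) :
    Ex k (fun l => F (l.drop (k - j))) rows = Ex j F rows := by
  have := Ex_drop j (k - j) F rows
  rwa [Nat.add_sub_cancel' hjk] at this









open scoped Classical in
/-- first failing time: `C` is a property of row lists; if not all suffixes (extending `rows`)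
satisfy `C` then there is a first one that does not. -/
theorem Ex_first_fail (k : ℕ) (C : List (Row P m) → Prop) (rows : List (Row P m)) :
    Ex k (fun l => if ∀ s, s <:+ l → rows.length ≤ s.length → C s then (0 : ℝ) else 1) rows ≤
      ∑ j ∈ range (k + 1), Ex j (fun l => if (∀ s, s <:+ l → rows.length ≤ s.length →
        s.length < l.length → C s) ∧ ¬ C l then (1 : ℝ) else 0) rows := by
  have key : ∀ j ∈ range (k + 1),
      Ex j (fun l => if (∀ s, s <:+ l → rows.length ≤ s.length →
        s.length < l.length → C s) ∧ ¬ C l then (1 : ℝ) else 0) rows =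
      Ex k (fun l => if (∀ s, s <:+ (l.drop (k - j)) → rows.length ≤ s.length →
        s.length < (l.drop (k - j)).length → C s) ∧ ¬ C (l.drop (k - j)) then (1 : ℝ) else 0)
        rows := by
    intro j hj
    have hj' : j ≤ k := by
      have := mem_range.1 hj
      omega
    exact (Ex_drop_of_le hj' (fun l => if (∀ s, s <:+ l → rows.length ≤ s.length →
        s.length < l.length → C s) ∧ ¬ C l then (1 : ℝ) else 0) rows).symm
  rw [Finset.sum_congr rfl key, ← Ex_sum]
  refine Ex_mono k rows fun l hl => ?_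
  split_ifs with h
  · exact Finset.sum_nonneg fun i _ => by split_ifs <;> norm_num
  · push Not at h
    -- choose the shortest failing suffix
    have hex : ∃ n : ℕ, ∃ s, s <:+ l ++ rows ∧ rows.length ≤ s.length ∧ ¬ C s ∧ s.length = n := by
      obtain ⟨s, h1, h2, h3⟩ := h
      exact ⟨s.length, s, h1, h2, h3, rfl⟩
    obtain ⟨s, hs1, hs2, hs3, hs4⟩ := Nat.find_spec hex
    have hmin := fun n hn => Nat.find_min hex (m := n) hn
    have hslen : s.length ≤ k + rows.length := by
      have := hs1.length_le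
      simpa [hl] using this
    have hdrop : (l ++ rows).drop (k - (s.length - rows.length)) = s := by
      have h1 := List.suffix_iff_eq_drop.1 hs1
      have h2 : (l ++ rows).length - s.length = k - (s.length - rows.length) := by
        rw [List.length_append, hl]
        omega
      rw [h2] at h1
      exact h1.symm
    have hmem : s.length - rows.length ∈ range (k + 1) := by
      rw [mem_range]; omega
    refine le_trans ?_ (Finset.single_le_sum (f := fun j => if (∀ s, s <:+ ((l ++ rows).drop (k - j)) →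
      rows.length ≤ s.length → s.length < ((l ++ rows).drop (k - j)).length → C s) ∧
      ¬ C ((l ++ rows).drop (k - j)) then (1 : ℝ) else 0)
      (fun j _ => by split_ifs <;> norm_num) hmem)
    rw [hdrop, if_pos]
    refine ⟨fun s' hs' hlen hlt => ?_, hs3⟩
    by_contra hC
    exact hmin s'.length (by rw [← hs4]; exact hlt) ⟨s', hs'.trans hs1, hlen, hC, rfl⟩

end Crest.Agent.R225.ExCalc
end

-- ▼ part R225/Multi

/-!
# Row 225 (S0347): node Multi

`prf_Multi : S_F3 → S_Num → S_HP1 → S_HRC → S_HP2 → S_Multi`.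
-/

set_option autoImplicit false
set_option linter.unusedSectionVars false

open Finset MeasureTheory Filter
open scoped BigOperators ENNReal

namespace Crest.Agent.R225

namespace MultiN

/-! ### numerical facts -/

lemma exists_P0 (Q : ℕ → ℕ → Prop) (N : ℕ) (h : ∀ i < N, ∃ P0 : ℕ, ∀ P ≥ P0, Q P i) :
    ∃ P0 : ℕ, ∀ P ≥ P0, ∀ i < N, Q P i := by
  induction N with
  | zero => exact ⟨0, fun P _ j hj => absurd hj (Nat.not_lt_zero _)⟩
  | succ N ih =>
    obtain ⟨P0, h0⟩ := ih fun i hi => h i (by omega)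
    obtain ⟨P1, h1⟩ := h N (by omega)
    refine ⟨max P0 P1, fun P hP j hj => ?_⟩
    rcases Nat.lt_succ_iff_lt_or_eq.mp hj with h | h
    · exact h0 P ((le_max_left _ _).trans hP) j h
    · rw [h]; exact h1 P ((le_max_right _ _).trans hP)

lemma Rst_pos : 0 < Rst := by
  by_contra h
  have h0 : Rst = 0 := by omega
  have := NumL.pow_Rst_ge
  rw [h0] at this
  norm_num at this

lemma xl_mono {X : ℝ} (hX : 0 ≤ X) {i j : ℕ} (h : i ≤ j) : xl X i ≤ xl X j := by
  induction h with
  | refl => exact le_rfl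
  | step _ ih => exact ih.trans (Surv.xl_le_succ hX _)

lemma kk_anti {X c0 : ℝ} {n : ℕ} (hX : 0 < X) (hc0 : 0 < c0) (hn : 3 ≤ n) {i j : ℕ} (h : i ≤ j) :
    kk X c0 n j ≤ kk X c0 n i := by
  unfold kk
  apply Nat.ceil_mono
  have := NN_pos hn
  have := NumL.xl_pos hX i
  have := xl_mono hX.le h
  gcongr

lemma sp_anti {X c0 : ℝ} {n : ℕ} (hX : 0 < X) (hc0 : 0 < c0) (hn : 3 ≤ n) {i j : ℕ} (h : i ≤ j) :
    sp X c0 n j ≤ sp X c0 n i := by
  unfold sp
  have := NN_pos hn
  have := NumL.xl_pos hX i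
  have := xl_mono hX.le h
  gcongr

lemma sum_xl_succ (X : ℝ) (N : ℕ) :
    ∑ k ∈ range N, xl X (k + 1) = (1 + theta) / theta * (xl X N - X) := by
  have hth := NumL.theta_pos
  induction N with
  | zero => simp [NumL.xl_zero]
  | succ N ih =>
    rw [sum_range_succ, ih, NumL.xl_succ]
    field_simp
    ring

/-- `∑ 1/x_k^{1/4}` is small -/
lemma sum_quarter : ∃ X0 : ℝ, 1 ≤ X0 ∧ ∀ X ≥ X0, ∀ N : ℕ,
    ∑ k ∈ range N, 1 / (xl X k) ^ (1 / 4 : ℝ) ≤ 1 / 100 := by
  have hth := NumL.theta_pos
  set ρ : ℝ := (1 + theta) ^ (1 / 4 : ℝ) with hρ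
  have hρ1 : 1 < ρ := Real.one_lt_rpow (by linarith) (by norm_num)
  set C : ℝ := (1 - 1 / ρ)⁻¹ with hC
  have hr0 : 0 ≤ 1 / ρ := by positivity
  have hr1 : 1 / ρ < 1 := by rw [div_lt_one (by linarith)]; exact hρ1
  have hC0 : 0 < C := by rw [hC]; exact inv_pos.mpr (by linarith)
  have h1 : ∀ᶠ x : ℝ in atTop, 100 * C ≤ x ^ (1 / 4 : ℝ) :=
    (tendsto_rpow_atTop (by norm_num : (0 : ℝ) < 1 / 4)).eventually_ge_atTop _
  obtain ⟨X0, hX0⟩ := (h1.and (eventually_ge_atTop 1)).exists_forall_of_atTop
  refine ⟨max X0 1, le_max_right _ _, fun X hX N => ?_⟩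
  obtain ⟨h2, h3⟩ := hX0 X ((le_max_left _ _).trans hX)
  have hXpos : 0 < X := by linarith
  have hterm : ∀ k : ℕ, 1 / (xl X k) ^ (1 / 4 : ℝ) = 1 / X ^ (1 / 4 : ℝ) * (1 / ρ) ^ k := by
    intro k
    unfold xl
    rw [Real.mul_rpow hXpos.le (by positivity), ← Real.rpow_natCast, ← Real.rpow_mul (by linarith),
      mul_comm (k : ℝ), Real.rpow_mul (by linarith), Real.rpow_natCast, one_div_pow, hρ]
    field_simp
  simp_rw [hterm]
  rw [← mul_sum]
  have hgeo : ∑ k ∈ range N, (1 / ρ) ^ k ≤ C := by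
    have := (summable_geometric_of_lt_one hr0 hr1).sum_le_tsum (range N)
      (fun i _ => pow_nonneg hr0 i)
    rwa [tsum_geometric_of_lt_one hr0 hr1] at this
  have hXq : 0 < X ^ (1 / 4 : ℝ) := by positivity
  calc 1 / X ^ (1 / 4 : ℝ) * ∑ k ∈ range N, (1 / ρ) ^ k ≤ 1 / X ^ (1 / 4 : ℝ) * C := by gcongr
    _ ≤ 1 / 100 := by
      rw [one_div_mul_eq_div, div_le_iff₀ hXq]
      linarith

/-- number of levels -/
lemma I_le {X : ℝ} {n I : ℕ} (hX : 1 ≤ X) (h : xl X I ≤ 2 * (n : ℝ) ^ (9 / 10 : ℝ)) :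
    (I : ℝ) ≤ 400000 * (n : ℝ) ^ (9 / 10 : ℝ) := by
  have h1 : 1 + (I : ℝ) * theta ≤ (1 + theta) ^ I :=
    one_add_mul_le_pow (by have := NumL.theta_pos; linarith) I
  unfold xl at h
  have h2 : (1 + theta) ^ I ≤ 2 * (n : ℝ) ^ (9 / 10 : ℝ) := by
    refine le_trans ?_ h
    have : 0 ≤ (1 + theta) ^ I := by have := NumL.theta_pos; positivity
    nlinarith
  unfold theta at h1 h2
  linarith

/-! ### the data and the conditions -/

/-- all data of the multi-level regime -/
structure D (P m : ℕ) where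
  n : ℕ
  I : ℕ
  X : ℝ
  c0 : ℝ
  Crat : ℝ
  G : Finset (Pt m)
  w : Pt m → List (ZMod P) → ℝ

variable {P m : ℕ} [NeZero P]

namespace D

/-- remaining number of rows -/
def lev (d : D P m) (l : List (Row P m)) : ℕ := d.I - l.length

/-- alive set -/
noncomputable def al (d : D P m) (l : List (Row P m)) : Finset (Pt m) := alive d.w d.G l

/-- small deviation in the last row -/
def dev (d : D P m) (l : List (Row P m)) : Prop :=
  ∀ r l', l = r :: l' → |Stot d.w d.G (r :: l') - Stot d.w d.G l'| ≤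
    d.Crat * Real.exp d.X * NN d.n / lam d.X (d.lev l)

def c2 (d : D P m) (l : List (Row P m)) : Prop :=
  NoRel (d.al l) (Bh d.X (d.lev l)) (sp d.X d.c0 d.n (d.lev l))

def c3 (d : D P m) (l : List (Row P m)) : Prop :=
  ∀ Z ⊆ d.al l, Z.card ≤ 2 * kk d.X d.c0 d.n (d.lev l) → ¬ RkGe Z (Hd d.X (d.lev l + 1)) 16

/-- normalised energy -/
noncomputable def en (d : D P m) (l : List (Row P m)) : ℝ :=
  (En (kk d.X d.c0 d.n (d.lev l)) (d.al l) : ℝ) /
    Mb d.X d.Crat d.n (d.lev l) ^ (2 * kk d.X d.c0 d.n (d.lev l))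

def c4 (d : D P m) (l : List (Row P m)) : Prop :=
  (En (kk d.X d.c0 d.n (d.lev l)) (d.al l) : ℝ) ≤
    Mb d.X d.Crat d.n (d.lev l) ^ (2 * kk d.X d.c0 d.n (d.lev l)) *
      Real.exp (-(d.c0 / 4 * NN d.n))

def good (d : D P m) (l : List (Row P m)) : Prop := d.dev l ∧ d.c2 l ∧ d.c3 l ∧ d.c4 l

/-- all suffixes (including the list itself) are good -/
def allGood (d : D P m) (l : List (Row P m)) : Prop := ∀ s, s <:+ l → d.good s

/-- all proper suffixes are good -/
def before (d : D P m) (l : List (Row P m)) : Prop := ∀ s, s <:+ l → s.length < l.length → d.good s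

open scoped Classical in
/-- averaged energies -/
noncomputable def a (d : D P m) (j : ℕ) : ℝ :=
  Ex j (fun l => if d.before l ∧ d.c2 l ∧ d.c3 l then d.en l else 0) []

lemma allGood_of_before_append (d : D P m) {l' l : List (Row P m)} (h : d.before (l' ++ l))
    (hl' : 0 < l'.length) : d.allGood l := by
  intro s hs
  refine h s (hs.trans (List.suffix_append l' l)) ?_
  have := hs.length_le
  rw [List.length_append]
  omega

lemma allGood_of_before_cons (d : D P m) {r : Row P m} {l : List (Row P m)}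
    (h : d.before (r :: l)) : d.allGood l :=
  d.allGood_of_before_append (l' := [r]) (by simpa using h) (by simp)

lemma before_of_allGood (d : D P m) {l : List (Row P m)} (h : d.allGood l) : d.before l :=
  fun s hs _ => h s hs

/-- standing assumptions -/
structure Std (d : D P m) (rX : ℕ) : Prop where
  hX : 1 ≤ d.X
  hn : 3 ≤ d.n
  hc0 : 0 < d.c0
  hCrat : 1 ≤ d.Crat
  ctx : Ctx P m d.I rX d.X d.w d.G
  start : GoodStart d.n m d.I rX d.X d.c0 d.Crat d.G d.w
  slam : ∀ N, ∑ j ∈ range N, 1 / lam d.X j ≤ 1 / (1 + 4 * d.Crat)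

variable {d : D P m} {rX : ℕ}

lemma Stot_dev (h : d.Std rX) : ∀ l : List (Row P m), (∀ s, s <:+ l → d.dev s) →
    l.length ≤ d.I → |Stot d.w d.G l - Stot d.w d.G []| ≤
      d.Crat * Real.exp d.X * NN d.n * ∑ k ∈ Ico (d.I - l.length) d.I, 1 / lam d.X k := by
  intro l
  induction l with
  | nil => intro _ _; simp
  | cons r l ih =>
    intro hs hl
    simp only [List.length_cons] at hl
    have h1 := ih (fun s hs' => hs s (hs'.trans (List.suffix_cons r l))) (by omega)
    have h2 := hs (r :: l) (List.suffix_refl _) r l rfl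
    have h3 : Ico (d.I - (r :: l).length) d.I =
        insert (d.I - (r :: l).length) (Ico (d.I - l.length) d.I) := by
      simp only [List.length_cons]
      ext k
      simp only [mem_insert, mem_Ico]
      omega
    rw [h3, sum_insert (by simp only [List.length_cons, mem_Ico]; omega)]
    have h4 : d.lev (r :: l) = d.I - (r :: l).length := rfl
    rw [h4] at h2
    have h5 := abs_sub_le (Stot d.w d.G (r :: l)) (Stot d.w d.G l) (Stot d.w d.G [])
    calc |Stot d.w d.G (r :: l) - Stot d.w d.G []|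
        ≤ d.Crat * Real.exp d.X * NN d.n / lam d.X (d.I - (r :: l).length) +
          d.Crat * Real.exp d.X * NN d.n * ∑ k ∈ Ico (d.I - l.length) d.I, 1 / lam d.X k := by
          linarith
      _ = _ := by ring

lemma Stot_bounds (h : d.Std rX) {l : List (Row P m)} (hs : ∀ s, s <:+ l → d.dev s)
    (hl : l.length ≤ d.I) :
    1 / 2 * (Real.exp d.X * NN d.n) ≤ Stot d.w d.G l ∧
    Stot d.w d.G l ≤ 2 * d.Crat * (Real.exp d.X * NN d.n) := by
  have h1 := Stot_dev h l hs hl
  have hNN := NN_pos h.hn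
  have hC : 0 < d.Crat := by have := h.hCrat; linarith
  have h2 : ∑ k ∈ Ico (d.I - l.length) d.I, 1 / lam d.X k ≤ 1 / (1 + 4 * d.Crat) := by
    refine le_trans ?_ (h.slam d.I)
    apply sum_le_sum_of_subset_of_nonneg
    · intro k hk
      simp only [mem_Ico, mem_range] at *
      omega
    · intro k _ _
      have := NumL.lam_pos d.X k
      positivity
  have hE : 0 < Real.exp d.X * NN d.n := by positivity
  have h3 : d.Crat * Real.exp d.X * NN d.n * ∑ k ∈ Ico (d.I - l.length) d.I, 1 / lam d.X k ≤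
      1 / 4 * (Real.exp d.X * NN d.n) := by
    calc d.Crat * Real.exp d.X * NN d.n * ∑ k ∈ Ico (d.I - l.length) d.I, 1 / lam d.X k
        ≤ d.Crat * Real.exp d.X * NN d.n * (1 / (1 + 4 * d.Crat)) := by gcongr
      _ = (d.Crat / (1 + 4 * d.Crat)) * (Real.exp d.X * NN d.n) := by ring
      _ ≤ 1 / 4 * (Real.exp d.X * NN d.n) := by
        have h9 : d.Crat / (1 + 4 * d.Crat) ≤ 1 / 4 := by
          rw [div_le_div_iff₀ (by positivity) (by norm_num)]
          linarith
        exact mul_le_mul_of_nonneg_right h9 hE.le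
  have h4 : Stot d.w d.G [] = ∑ g ∈ d.G, d.w g [] := rfl
  have h5 := h.start.lower
  have h6 := h.start.upper
  rw [← h4] at h5 h6
  have h7 := abs_le.mp h1
  have h8 := h.hCrat
  constructor
  · nlinarith [h7.1]
  · nlinarith [h7.2]

lemma card_le (h : d.Std rX) {l : List (Row P m)} (hs : ∀ s, s <:+ l → d.dev s)
    (hl : l.length ≤ d.I) : ((alive d.w d.G l).card : ℝ) ≤ Mb d.X d.Crat d.n (d.lev l) := by
  have h1 := (Stot_bounds h hs hl).2
  have hw := h.ctx.hw
  have h2 : ((alive d.w d.G l).card : ℝ) *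
      (tau d.X (d.I - l.length) * Crest.Agent.R225.al d.X (d.I - l.length)) ≤ Stot d.w d.G l :=
    WHyp.card_mul_le_Stot hw (G := d.G) (rows := l) hl
    (mul_nonneg (NumL.tau_pos _ _).le (Surv.al_pos _ _).le)
  have h3 := NumL.tau_pos d.X (d.I - l.length)
  have h4 := Surv.al_pos d.X (d.I - l.length)
  have h5 : 0 < tau d.X (d.I - l.length) * Crest.Agent.R225.al d.X (d.I - l.length) := by positivity
  have h6 : Mb d.X d.Crat d.n (d.lev l) =
      2 * d.Crat * (Real.exp d.X * NN d.n) /
        (tau d.X (d.I - l.length) * Crest.Agent.R225.al d.X (d.I - l.length)) := by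
    have e := al_mul_exp d.X (d.I - l.length)
    unfold Mb
    rw [← e]
    unfold D.lev
    field_simp
  rw [h6, le_div_iff₀ h5]
  linarith

lemma alive_nonempty (h : d.Std rX) {l : List (Row P m)} (hs : ∀ s, s <:+ l → d.dev s)
    (hl : l.length ≤ d.I) : alive d.w d.G l ≠ ∅ := by
  have h1 := (Stot_bounds h hs hl).1
  intro he
  have hw := h.ctx.hw
  have h2 := WHyp.Stot_eq hw (G := d.G) (rows := l) hl
    (mul_nonneg (NumL.tau_pos _ _).le (Surv.al_pos _ _).le)
  rw [he, sum_empty] at h2
  have hNN := NN_pos h.hn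
  have : 0 < Real.exp d.X * NN d.n := by positivity
  linarith

lemma alive_sub (w : Pt m → List (ZMod P) → ℝ) (G : Finset (Pt m)) (l : List (Row P m)) :
    alive w G l ⊆ G := alive_subset l

lemma en_nonneg (h : d.Std rX) (l : List (Row P m)) : 0 ≤ d.en l := by
  unfold D.en
  have := Mb_pos (X := d.X) (Crat := d.Crat) (i := d.lev l) h.hn h.hCrat
  positivity

/-! ### the four failure probabilities -/

/-- `HP2` (with `t = 1`) at the parameters `d`, level `i` -/
def UseHP2 (d : D P m) : Prop := ∀ i < d.I, ∀ rows : List (Row P m), rows.length + (i + 1) = d.I →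
  ((alive d.w d.G rows).card : ℝ) ≤ Mb d.X d.Crat d.n (i + 1) →
  (𝔼 r : Row P m, (open scoped Classical in if ∀ Z ⊆ alive d.w d.G (r :: rows),
      Z.card ≤ 2 * kk d.X d.c0 d.n i → ¬ RkGe Z (Hd d.X (i + 1)) 16
      then (En (kk d.X d.c0 d.n i) (alive d.w d.G (r :: rows)) : ℝ) else 0)) ≤
    Mb d.X d.Crat d.n i ^ (2 * kk d.X d.c0 d.n i) *
        (Real.exp (d.c0 * NN d.n / (xl d.X i) ^ (1 / 4 : ℝ) + 16 * xl d.X (i + 1)) *
            ((En (kk d.X d.c0 d.n (i + 1)) (alive d.w d.G rows) : ℝ) /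
              Mb d.X d.Crat d.n (i + 1) ^ (2 * kk d.X d.c0 d.n (i + 1)))
          + Real.exp (-(95 / 100 * d.c0 * NN d.n)))

open scoped Classical in
lemma a_succ (h : d.Std rX) (hHP2 : d.UseHP2) {j : ℕ} (hj : j < d.I) :
    d.a (j + 1) ≤ Real.exp (d.c0 * NN d.n / (xl d.X (d.I - (j + 1))) ^ (1 / 4 : ℝ) +
      16 * xl d.X (d.I - (j + 1) + 1)) * d.a j + Real.exp (-(95 / 100 * d.c0 * NN d.n)) := by
  unfold D.a
  rw [ExCalc.Ex_succ', ← ExCalc.Ex_mul_left, ← ExCalc.Ex_const (P := P) (m := m) j
    (Real.exp (-(95 / 100 * d.c0 * NN d.n))) [], ← ExCalc.Ex_add]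
  refine ExCalc.Ex_mono j [] fun l hl => ?_
  rw [List.append_nil]
  set i := d.I - (j + 1) with hi
  have hlev : d.lev l = i + 1 := by unfold D.lev; omega
  have hleni : l.length + (i + 1) = d.I := by omega
  have hE0 : 0 ≤ Real.exp (-(95 / 100 * d.c0 * NN d.n)) := (Real.exp_pos _).le
  by_cases hB : d.allGood l
  · have hdev : ∀ s, s <:+ l → d.dev s := fun s hs => (hB s hs).1
    have hll := hB l (List.suffix_refl l)
    have hcard := card_le h hdev (by omega)
    rw [hlev] at hcard
    have h1 := hHP2 i (by omega) l hleni hcard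
    rw [if_pos ⟨d.before_of_allGood hB, hll.2.1, hll.2.2.1⟩]
    have hMb := Mb_pos (X := d.X) (Crat := d.Crat) (i := i) h.hn h.hCrat
    have h2 : 𝔼 r : Row P m, (if d.before (r :: l) ∧ d.c2 (r :: l) ∧ d.c3 (r :: l)
        then d.en (r :: l) else 0) ≤
        (1 / Mb d.X d.Crat d.n i ^ (2 * kk d.X d.c0 d.n i)) *
        𝔼 r : Row P m, (if ∀ Z ⊆ alive d.w d.G (r :: l),
          Z.card ≤ 2 * kk d.X d.c0 d.n i → ¬ RkGe Z (Hd d.X (i + 1)) 16
          then (En (kk d.X d.c0 d.n i) (alive d.w d.G (r :: l)) : ℝ) else 0) := by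
      rw [Finset.mul_expect]
      refine Finset.expect_le_expect fun r _ => ?_
      have hlev' : d.lev (r :: l) = i := by
        unfold D.lev; simp only [List.length_cons]; omega
      by_cases hc3 : d.c3 (r :: l)
      · have hc3' := hc3
        unfold D.c3 at hc3'
        rw [hlev'] at hc3'
        rw [if_pos (show ∀ Z ⊆ alive d.w d.G (r :: l), Z.card ≤ 2 * kk d.X d.c0 d.n i →
          ¬ RkGe Z (Hd d.X (i + 1)) 16 from hc3')]
        have hen : d.en (r :: l) = (1 / Mb d.X d.Crat d.n i ^ (2 * kk d.X d.c0 d.n i)) *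
            (En (kk d.X d.c0 d.n i) (alive d.w d.G (r :: l)) : ℝ) := by
          unfold D.en D.al
          rw [hlev']
          ring
        rw [← hen]
        have := en_nonneg h (r :: l)
        split_ifs <;> linarith
      · rw [if_neg (fun hh => hc3 hh.2.2)]
        have : (0 : ℝ) ≤ En (kk d.X d.c0 d.n i) (alive d.w d.G (r :: l)) := Nat.cast_nonneg _
        split_ifs <;> positivity
    refine h2.trans ?_
    have h3 : d.en l = (En (kk d.X d.c0 d.n (i + 1)) (alive d.w d.G l) : ℝ) /
              Mb d.X d.Crat d.n (i + 1) ^ (2 * kk d.X d.c0 d.n (i + 1)) := by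
      unfold D.en D.al
      rw [hlev]
    rw [h3]
    calc (1 / Mb d.X d.Crat d.n i ^ (2 * kk d.X d.c0 d.n i)) * _
        ≤ (1 / Mb d.X d.Crat d.n i ^ (2 * kk d.X d.c0 d.n i)) * _ :=
          mul_le_mul_of_nonneg_left h1 (by positivity)
      _ = _ := by
          field_simp
  · have h1 : ∀ r : Row P m, (if d.before (r :: l) ∧ d.c2 (r :: l) ∧ d.c3 (r :: l)
        then d.en (r :: l) else 0) = 0 := fun r =>
      if_neg fun hh => hB (d.allGood_of_before_cons hh.1)
    simp only [h1]
    rw [Finset.expect_const_zero]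
    have := en_nonneg h l
    split_ifs <;> positivity

open scoped Classical in
lemma a_zero (h : d.Std rX) : d.a 0 ≤ Real.exp (-(9 / 10 * d.c0 * NN d.n)) := by
  have h1 : d.en [] ≤ Real.exp (-(9 / 10 * d.c0 * NN d.n)) := by
    have h2 : d.lev ([] : List (Row P m)) = d.I := by simp [D.lev]
    have h3 : d.al [] = d.G := by
      classical
      unfold D.al alive
      apply Finset.filter_true_of_mem
      intro g hg
      exact h.start.pos g hg
    have hMb := Mb_pos (X := d.X) (Crat := d.Crat) (i := d.I) h.hn h.hCrat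
    unfold D.en
    rw [h2, h3, div_le_iff₀ (by positivity)]
    have := h.start.energy
    linarith
  have h0 : d.a 0 = if d.before [] ∧ d.c2 [] ∧ d.c3 [] then d.en [] else 0 := rfl
  rw [h0]
  split_ifs
  · exact h1
  · positivity

/-- the loss in one level -/
noncomputable def loss (d : D P m) (k : ℕ) : ℝ :=
  d.c0 * NN d.n / (xl d.X k) ^ (1 / 4 : ℝ) + 16 * xl d.X (k + 1)

lemma loss_nonneg (h : d.Std rX) (k : ℕ) : 0 ≤ d.loss k := by
  unfold D.loss
  have := NN_pos h.hn
  have := h.hc0
  have := NumL.xl_pos (X := d.X) (by have := h.hX; linarith) k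
  have := NumL.xl_pos (X := d.X) (by have := h.hX; linarith) (k + 1)
  positivity

lemma a_le (h : d.Std rX) (hHP2 : d.UseHP2) : ∀ j : ℕ, j ≤ d.I →
    d.a j ≤ Real.exp (∑ k ∈ Ico (d.I - j) d.I, d.loss k) *
      ((1 + j) * Real.exp (-(9 / 10 * d.c0 * NN d.n))) := by
  intro j
  induction j with
  | zero =>
    intro _
    simpa using a_zero h
  | succ j ih =>
    intro hj
    have h1 := a_succ h hHP2 (j := j) (by omega)
    have h2 := ih (by omega)
    have h3 : Ico (d.I - (j + 1)) d.I = insert (d.I - (j + 1)) (Ico (d.I - j) d.I) := by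
      ext k
      simp only [mem_insert, mem_Ico]
      omega
    rw [h3, sum_insert (by simp only [mem_Ico]; omega), Real.exp_add]
    have hl0 := loss_nonneg h (d.I - (j + 1))
    have hs0 : 0 ≤ ∑ k ∈ Ico (d.I - j) d.I, d.loss k := sum_nonneg fun k _ => loss_nonneg h k
    have h4 : Real.exp (-(95 / 100 * d.c0 * NN d.n)) ≤
        Real.exp (d.loss (d.I - (j + 1))) * Real.exp (∑ k ∈ Ico (d.I - j) d.I, d.loss k) *
          Real.exp (-(9 / 10 * d.c0 * NN d.n)) := by
      rw [← Real.exp_add, ← Real.exp_add]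
      apply Real.exp_le_exp.mpr
      have := mul_pos h.hc0 (NN_pos h.hn)
      linarith
    have h5 : Real.exp (d.c0 * NN d.n / (xl d.X (d.I - (j + 1))) ^ (1 / 4 : ℝ) +
      16 * xl d.X (d.I - (j + 1) + 1)) = Real.exp (d.loss (d.I - (j + 1))) := rfl
    rw [h5] at h1
    push_cast
    calc d.a (j + 1) ≤ Real.exp (d.loss (d.I - (j + 1))) * d.a j +
          Real.exp (-(95 / 100 * d.c0 * NN d.n)) := h1
      _ ≤ Real.exp (d.loss (d.I - (j + 1))) * (Real.exp (∑ k ∈ Ico (d.I - j) d.I, d.loss k) *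
          ((1 + j) * Real.exp (-(9 / 10 * d.c0 * NN d.n)))) +
          Real.exp (d.loss (d.I - (j + 1))) * Real.exp (∑ k ∈ Ico (d.I - j) d.I, d.loss k) *
          Real.exp (-(9 / 10 * d.c0 * NN d.n)) := by gcongr
      _ = _ := by ring

/-- numerical closure -/
structure Cl (d : D P m) : Prop where
  loss : ∑ k ∈ range d.I, d.loss k ≤ 5 / 100 * (d.c0 * NN d.n)
  cnt : 4 * ((d.I : ℝ) + 1) ≤ Real.exp (d.c0 / 400 * NN d.n)

lemma a_le' (h : d.Std rX) (hHP2 : d.UseHP2) (hcl : d.Cl) {j : ℕ} (hj : j ≤ d.I) :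
    d.a j ≤ Real.exp (-(8 / 10 * (d.c0 * NN d.n))) := by
  refine (a_le h hHP2 j hj).trans ?_
  have h1 : ∑ k ∈ Ico (d.I - j) d.I, d.loss k ≤ 5 / 100 * (d.c0 * NN d.n) := by
    refine le_trans ?_ hcl.loss
    apply sum_le_sum_of_subset_of_nonneg
    · intro k hk
      simp only [mem_Ico, mem_range] at *
      omega
    · intro k _ _
      exact loss_nonneg h k
  have h2 : (1 + (j : ℝ)) ≤ Real.exp (d.c0 / 400 * NN d.n) := by
    refine le_trans ?_ hcl.cnt
    have : (j : ℝ) ≤ d.I := by exact_mod_cast hj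
    linarith
  calc Real.exp (∑ k ∈ Ico (d.I - j) d.I, d.loss k) *
      ((1 + j) * Real.exp (-(9 / 10 * d.c0 * NN d.n)))
      ≤ Real.exp (5 / 100 * (d.c0 * NN d.n)) * (Real.exp (d.c0 / 400 * NN d.n) *
        Real.exp (-(9 / 10 * d.c0 * NN d.n))) := by gcongr
    _ ≤ _ := by
      rw [← Real.exp_add, ← Real.exp_add]
      apply Real.exp_le_exp.mpr
      have := mul_pos h.hc0 (NN_pos h.hn)
      linarith

open scoped Classical in
/-- row deviation at the parameters `d` -/
def UseRow (d : D P m) : Prop := ∀ i < d.I, ∀ rows : List (Row P m), rows.length + (i + 1) = d.I →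
  ((alive d.w d.G rows).card : ℝ) ≤ Mb d.X d.Crat d.n (i + 1) →
  (𝔼 r : Row P m, if |Stot d.w d.G (r :: rows) - Stot d.w d.G rows| ≤
        d.Crat * Real.exp d.X * NN d.n / lam d.X i then (0 : ℝ) else 1) ≤
      Real.exp (d.c0 / 1000 * NN d.n) *
        ((En (kk d.X d.c0 d.n (i + 1)) (alive d.w d.G rows) : ℝ) /
        Mb d.X d.Crat d.n (i + 1) ^ (2 * kk d.X d.c0 d.n (i + 1)))

open scoped Classical in
lemma p1_succ (h : d.Std rX) (hRow : d.UseRow) {j : ℕ} (hj : j < d.I) :
    Ex (j + 1) (fun l => if d.before l ∧ ¬ d.dev l then (1 : ℝ) else 0) [] ≤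
      Real.exp (d.c0 / 1000 * NN d.n) * d.a j := by
  unfold D.a
  rw [ExCalc.Ex_succ', ← ExCalc.Ex_mul_left]
  refine ExCalc.Ex_mono j [] fun l hl => ?_
  rw [List.append_nil]
  set i := d.I - (j + 1) with hi
  have hlev : d.lev l = i + 1 := by unfold D.lev; omega
  have hleni : l.length + (i + 1) = d.I := by omega
  by_cases hB : d.allGood l
  · have hdev : ∀ s, s <:+ l → d.dev s := fun s hs => (hB s hs).1
    have hll := hB l (List.suffix_refl l)
    have hcard := card_le h hdev (by omega)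
    rw [hlev] at hcard
    have h1 := hRow i (by omega) l hleni hcard
    rw [if_pos ⟨d.before_of_allGood hB, hll.2.1, hll.2.2.1⟩]
    have h3 : d.en l = (En (kk d.X d.c0 d.n (i + 1)) (alive d.w d.G l) : ℝ) /
              Mb d.X d.Crat d.n (i + 1) ^ (2 * kk d.X d.c0 d.n (i + 1)) := by
      unfold D.en D.al
      rw [hlev]
    rw [h3]
    refine le_trans ?_ h1
    refine Finset.expect_le_expect fun r _ => ?_
    have hlev' : d.lev (r :: l) = i := by
      unfold D.lev; simp only [List.length_cons]; omega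
    by_cases hle : |Stot d.w d.G (r :: l) - Stot d.w d.G l| ≤
        d.Crat * Real.exp d.X * NN d.n / lam d.X i
    · rw [if_pos hle, if_neg]
      rintro ⟨_, hnd⟩
      apply hnd
      intro r' l' hrl
      rw [List.cons.injEq] at hrl
      obtain ⟨rfl, rfl⟩ := hrl
      rw [hlev']
      exact hle
    · rw [if_neg hle]
      split_ifs <;> norm_num
  · have h1 : ∀ r : Row P m, (if d.before (r :: l) ∧ ¬ d.dev (r :: l) then (1 : ℝ) else 0) = 0 :=
      fun r => if_neg fun hh => hB (d.allGood_of_before_cons hh.1)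
    simp only [h1]
    rw [Finset.expect_const_zero]
    have := en_nonneg h l
    split_ifs <;> positivity

open scoped Classical in
lemma p1 (h : d.Std rX) (hHP2 : d.UseHP2) (hRow : d.UseRow) (hcl : d.Cl) {j : ℕ} (hj : j ≤ d.I) :
    Ex j (fun l => if d.before l ∧ ¬ d.dev l then (1 : ℝ) else 0) [] ≤
      Real.exp (-(d.c0 / 200 * NN d.n)) := by
  cases j with
  | zero =>
    have : Ex 0 (fun l => if d.before l ∧ ¬ d.dev l then (1 : ℝ) else 0) [] = 0 := by
      rw [ExCalc.Ex_zero, if_neg]
      rintro ⟨_, hh⟩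
      apply hh
      intro r l' hrl
      exact absurd hrl (by simp)
    rw [this]
    positivity
  | succ j =>
    refine (p1_succ h hRow (by omega)).trans ?_
    have h1 := a_le' h hHP2 hcl (j := j) (by omega)
    calc Real.exp (d.c0 / 1000 * NN d.n) * d.a j
        ≤ Real.exp (d.c0 / 1000 * NN d.n) * Real.exp (-(8 / 10 * (d.c0 * NN d.n))) := by gcongr
      _ ≤ _ := by
        rw [← Real.exp_add]
        apply Real.exp_le_exp.mpr
        have := mul_pos h.hc0 (NN_pos h.hn)
        linarith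

open scoped Classical in
/-- HP1 at the parameters `d` -/
def UseHP1 (d : D P m) : Prop := ∀ i, i + Rst ≤ d.I → ∀ rows : List (Row P m),
  rows.length + (i + Rst) = d.I →
  ((alive d.w d.G rows).card : ℝ) ≤ Mb d.X d.Crat d.n (i + Rst) →
  NoRel (alive d.w d.G rows) (Bh d.X (i + Rst)) (sp d.X d.c0 d.n (i + Rst)) →
  (En (kk d.X d.c0 d.n (i + Rst)) (alive d.w d.G rows) : ℝ) ≤
      Mb d.X d.Crat d.n (i + Rst) ^ (2 * kk d.X d.c0 d.n (i + Rst)) *
        Real.exp (-(d.c0 / 4 * NN d.n)) →
  Ex Rst (fun rows' => if NoRel (alive d.w d.G rows') (Bh d.X i) (sp d.X d.c0 d.n i)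
      then (0 : ℝ) else 1) rows ≤ Real.exp (-(d.c0 / 200 * NN d.n))

open scoped Classical in
/-- HRC at the parameters `d` -/
def UseHRC (d : D P m) : Prop := ∀ i, i + Rst ≤ d.I → ∀ rows : List (Row P m),
  rows.length + (i + Rst) = d.I →
  ((alive d.w d.G rows).card : ℝ) ≤ Mb d.X d.Crat d.n (i + Rst) →
  (En (kk d.X d.c0 d.n (i + Rst)) (alive d.w d.G rows) : ℝ) ≤
      Mb d.X d.Crat d.n (i + Rst) ^ (2 * kk d.X d.c0 d.n (i + Rst)) *
        Real.exp (-(d.c0 / 4 * NN d.n)) →
  Ex Rst (fun rows' => if NoRel (alive d.w d.G rows') (Bh d.X i) (sp d.X d.c0 d.n i) ∧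
        ∃ Z ⊆ alive d.w d.G rows', Z.card ≤ 2 * kk d.X d.c0 d.n i ∧
          RkGe Z (2 * (Hd d.X (i + Rst) : ℝ) ^ 2) 16 then (1 : ℝ) else 0) rows ≤
    Real.exp (-(d.c0 / 2 * NN d.n))

open scoped Classical in
lemma p2 (h : d.Std rX) (hHP1 : d.UseHP1) {j : ℕ} (hj : j ≤ d.I) :
    Ex j (fun l => if d.before l ∧ ¬ d.c2 l then (1 : ℝ) else 0) [] ≤
      Real.exp (-(d.c0 / 200 * NN d.n)) := by
  have hXp : 0 < d.X := by have := h.hX; linarith
  by_cases hjR : j < Rst
  · have h1 : Ex j (fun l => if d.before l ∧ ¬ d.c2 l then (1 : ℝ) else 0) [] =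
        Ex j (fun _ : List (Row P m) => (0 : ℝ)) [] := by
      refine ExCalc.Ex_congr j [] fun l hl => ?_
      rw [List.append_nil, if_neg]
      rintro ⟨_, hh⟩
      apply hh
      intro Z hZ hcard v hv
      refine h.start.clean Z (hZ.trans (alive_sub _ _ _)) (hcard.trans ?_) v hv.1
      apply sp_anti hXp h.hc0 h.hn
      unfold D.lev
      omega
    rw [h1, ExCalc.Ex_const]
    positivity
  · push Not at hjR
    obtain ⟨j', rfl⟩ : ∃ j', j = j' + Rst := ⟨j - Rst, by omega⟩
    rw [ExCalc.Ex_tower]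
    refine ExCalc.Ex_le_const j' [] fun l hl => ?_
    rw [List.append_nil]
    set i := d.I - (j' + Rst) with hi
    have hlev : d.lev l = i + Rst := by unfold D.lev; omega
    have hleni : l.length + (i + Rst) = d.I := by omega
    by_cases hB : d.allGood l
    · have hdev : ∀ s, s <:+ l → d.dev s := fun s hs => (hB s hs).1
      have hll := hB l (List.suffix_refl l)
      have hcard := card_le h hdev (by omega)
      rw [hlev] at hcard
      have hc2 := hll.2.1
      have hc4 := hll.2.2.2
      unfold D.c2 at hc2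
      unfold D.c4 at hc4
      rw [hlev] at hc2 hc4
      have h1 := hHP1 i (by omega) l hleni hcard hc2 hc4
      refine le_trans ?_ h1
      refine ExCalc.Ex_mono Rst l fun l' hl' => ?_
      have hlev' : d.lev (l' ++ l) = i := by
        unfold D.lev; rw [List.length_append]; omega
      by_cases hN : NoRel (alive d.w d.G (l' ++ l)) (Bh d.X i) (sp d.X d.c0 d.n i)
      · rw [if_pos hN, if_neg]
        rintro ⟨_, hnd⟩
        apply hnd
        unfold D.c2
        rw [hlev']
        exact hN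
      · rw [if_neg hN]
        split_ifs <;> norm_num
    · have h1 : Ex Rst (fun l => if d.before l ∧ ¬ d.c2 l then (1 : ℝ) else 0) l =
          Ex Rst (fun _ => 0) l := by
        refine ExCalc.Ex_congr Rst l fun l' hl' => ?_
        exact if_neg fun hh => hB (d.allGood_of_before_append hh.1 (by rw [hl']; exact Rst_pos))
      rw [h1, ExCalc.Ex_const]
      positivity

lemma RkGe_mono {Z : Finset (Pt m)} {B B' : ℝ} {k : ℕ} (hB : B ≤ B') (h : RkGe Z B k) :
    RkGe Z B' k := by
  obtain ⟨v, h1, h2⟩ := h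
  exact ⟨v, fun l => Surv.BRel.mono hB (h1 l), h2⟩

lemma one_le_Hd {X : ℝ} (i : ℕ) : 1 ≤ Hd X i := by
  unfold Hd
  have := Surv.dl_pos X i
  exact Nat.ceil_pos.mpr (by positivity)

open scoped Classical in
lemma p3 (h : d.Std rX) (hHRC : d.UseHRC) {j : ℕ} (hj : j ≤ d.I) :
    Ex j (fun l => if d.before l ∧ d.c2 l ∧ ¬ d.c3 l then (1 : ℝ) else 0) [] ≤
      Real.exp (-(d.c0 / 200 * NN d.n)) := by
  have hXp : 0 < d.X := by have := h.hX; linarith
  by_cases hjR : j < Rst
  · have h1 : Ex j (fun l => if d.before l ∧ d.c2 l ∧ ¬ d.c3 l then (1 : ℝ) else 0) [] =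
        Ex j (fun _ : List (Row P m) => (0 : ℝ)) [] := by
      refine ExCalc.Ex_congr j [] fun l hl => ?_
      rw [List.append_nil, if_neg]
      rintro ⟨_, _, hh⟩
      apply hh
      intro Z hZ hcard hrk
      refine h.start.rank Z (hZ.trans (alive_sub _ _ _)) (hcard.trans ?_) ?_
      · have := kk_anti (n := d.n) hXp h.hc0 h.hn (i := d.I - Rst) (j := d.lev l)
          (by unfold D.lev; omega)
        omega
      · obtain ⟨v, h1, h2⟩ := hrk
        exact ⟨v, fun l => (h1 l).1, h2⟩
    rw [h1, ExCalc.Ex_const]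
    positivity
  · push Not at hjR
    obtain ⟨j', rfl⟩ : ∃ j', j = j' + Rst := ⟨j - Rst, by omega⟩
    rw [ExCalc.Ex_tower]
    refine ExCalc.Ex_le_const j' [] fun l hl => ?_
    rw [List.append_nil]
    set i := d.I - (j' + Rst) with hi
    have hlev : d.lev l = i + Rst := by unfold D.lev; omega
    have hleni : l.length + (i + Rst) = d.I := by omega
    have hNN := NN_pos h.hn
    have hc0 := h.hc0
    by_cases hB : d.allGood l
    · have hdev : ∀ s, s <:+ l → d.dev s := fun s hs => (hB s hs).1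
      have hll := hB l (List.suffix_refl l)
      have hcard := card_le h hdev (by omega)
      rw [hlev] at hcard
      have hc4 := hll.2.2.2
      unfold D.c4 at hc4
      rw [hlev] at hc4
      have h1 := hHRC i (by omega) l hleni hcard hc4
      refine le_trans ?_ (h1.trans ?_)
      · refine ExCalc.Ex_mono Rst l fun l' hl' => ?_
        have hlev' : d.lev (l' ++ l) = i := by
          unfold D.lev; rw [List.length_append]; omega
        by_cases hN : d.before (l' ++ l) ∧ d.c2 (l' ++ l) ∧ ¬ d.c3 (l' ++ l)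
        · rw [if_pos hN, if_pos]
          obtain ⟨_, hN2, hN3⟩ := hN
          unfold D.c2 at hN2
          unfold D.c3 at hN3
          rw [hlev'] at hN2 hN3
          refine ⟨hN2, ?_⟩
          push Not at hN3
          obtain ⟨Z, hZ1, hZ2, hZ3⟩ := hN3
          refine ⟨Z, hZ1, hZ2, RkGe_mono ?_ hZ3⟩
          have e1 : (Hd d.X (i + 1) : ℝ) ≤ Hd d.X (i + Rst) := by
            exact_mod_cast Surv.Hd_mono hXp.le (by have := Rst_pos; omega)
          have e2 : (1 : ℝ) ≤ Hd d.X (i + Rst) := by exact_mod_cast one_le_Hd (i + Rst)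
          nlinarith
        · rw [if_neg hN]
          split_ifs <;> norm_num
      · apply Real.exp_le_exp.mpr
        have := mul_pos hc0 hNN
        linarith
    · have h1 : Ex Rst (fun l => if d.before l ∧ d.c2 l ∧ ¬ d.c3 l then (1 : ℝ) else 0) l =
          Ex Rst (fun _ => 0) l := by
        refine ExCalc.Ex_congr Rst l fun l' hl' => ?_
        exact if_neg fun hh => hB (d.allGood_of_before_append hh.1 (by rw [hl']; exact Rst_pos))
      rw [h1, ExCalc.Ex_const]
      positivity

open scoped Classical in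
lemma p4 (h : d.Std rX) (hHP2 : d.UseHP2) (hcl : d.Cl) {j : ℕ} (hj : j ≤ d.I) :
    Ex j (fun l => if d.before l ∧ d.c2 l ∧ d.c3 l ∧ ¬ d.c4 l then (1 : ℝ) else 0) [] ≤
      Real.exp (-(d.c0 / 200 * NN d.n)) := by
  have h1 : Ex j (fun l => if d.before l ∧ d.c2 l ∧ d.c3 l ∧ ¬ d.c4 l then (1 : ℝ) else 0) [] ≤
      Real.exp (d.c0 / 4 * NN d.n) * d.a j := by
    unfold D.a
    rw [← ExCalc.Ex_mul_left]
    refine ExCalc.Ex_mono j [] fun l hl => ?_
    rw [List.append_nil]
    by_cases hh : d.before l ∧ d.c2 l ∧ d.c3 l ∧ ¬ d.c4 l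
    · rw [if_pos hh, if_pos ⟨hh.1, hh.2.1, hh.2.2.1⟩]
      have h4 := hh.2.2.2
      unfold D.c4 at h4
      push Not at h4
      have hMb := Mb_pos (X := d.X) (Crat := d.Crat) (i := d.lev l) h.hn h.hCrat
      have h5 : Real.exp (-(d.c0 / 4 * NN d.n)) ≤ d.en l := by
        unfold D.en
        rw [le_div_iff₀ (by positivity)]
        linarith
      calc (1 : ℝ) = Real.exp (d.c0 / 4 * NN d.n) * Real.exp (-(d.c0 / 4 * NN d.n)) := by
            rw [← Real.exp_add]; simp
        _ ≤ _ := by gcongr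
    · rw [if_neg hh]
      have := en_nonneg h l
      split_ifs <;> positivity
  refine h1.trans ?_
  have h2 := a_le' h hHP2 hcl hj
  calc Real.exp (d.c0 / 4 * NN d.n) * d.a j
      ≤ Real.exp (d.c0 / 4 * NN d.n) * Real.exp (-(8 / 10 * (d.c0 * NN d.n))) := by gcongr
    _ ≤ _ := by
      rw [← Real.exp_add]
      apply Real.exp_le_exp.mpr
      have := mul_pos h.hc0 (NN_pos h.hn)
      linarith

open scoped Classical in
lemma main (h : d.Std rX) (hHP2 : d.UseHP2) (hRow : d.UseRow) (hHP1 : d.UseHP1)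
    (hHRC : d.UseHRC) (hcl : d.Cl) :
    Ex d.I (fun l => if alive d.w d.G l = ∅ then (1 : ℝ) else 0) [] ≤
      Real.exp (-(d.c0 / 400 * NN d.n)) := by
  have h1 : Ex d.I (fun l => if alive d.w d.G l = ∅ then (1 : ℝ) else 0) [] ≤
      Ex d.I (fun l => if ∀ s, s <:+ l → ([] : List (Row P m)).length ≤ s.length → d.good s
        then (0 : ℝ) else 1) [] := by
    refine ExCalc.Ex_mono d.I [] fun l hl => ?_
    rw [List.append_nil]
    by_cases hg : ∀ s, s <:+ l → ([] : List (Row P m)).length ≤ s.length → d.good s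
    · rw [if_pos hg, if_neg]
      exact alive_nonempty h (fun s hs => (hg s hs (by simp)).1) (by omega)
    · rw [if_neg hg]
      split_ifs <;> norm_num
  refine h1.trans ((ExCalc.Ex_first_fail d.I d.good []).trans ?_)
  have h2 : ∀ j ∈ range (d.I + 1), Ex j (fun l => if (∀ s, s <:+ l →
      ([] : List (Row P m)).length ≤ s.length → s.length < l.length → d.good s) ∧ ¬ d.good l
      then (1 : ℝ) else 0) [] ≤ 4 * Real.exp (-(d.c0 / 200 * NN d.n)) := by
    intro j hj
    have hj' : j ≤ d.I := by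
      have := mem_range.1 hj
      omega
    have e1 := p1 h hHP2 hRow hcl hj'
    have e2 := p2 h hHP1 hj'
    have e3 := p3 h hHRC hj'
    have e4 := p4 h hHP2 hcl hj'
    have e5 : Ex j (fun l => if (∀ s, s <:+ l →
        ([] : List (Row P m)).length ≤ s.length → s.length < l.length → d.good s) ∧ ¬ d.good l
        then (1 : ℝ) else 0) [] ≤
        Ex j (fun l => (if d.before l ∧ ¬ d.dev l then (1 : ℝ) else 0) +
          ((if d.before l ∧ ¬ d.c2 l then (1 : ℝ) else 0) +
          ((if d.before l ∧ d.c2 l ∧ ¬ d.c3 l then (1 : ℝ) else 0) +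
          (if d.before l ∧ d.c2 l ∧ d.c3 l ∧ ¬ d.c4 l then (1 : ℝ) else 0)))) [] := by
      refine ExCalc.Ex_mono j [] fun l hl => ?_
      rw [List.append_nil]
      have hz1 : (0 : ℝ) ≤ (if d.before l ∧ ¬ d.dev l then (1 : ℝ) else 0) := by
        split_ifs <;> norm_num
      have hz2 : (0 : ℝ) ≤ (if d.before l ∧ ¬ d.c2 l then (1 : ℝ) else 0) := by
        split_ifs <;> norm_num
      have hz3 : (0 : ℝ) ≤ (if d.before l ∧ d.c2 l ∧ ¬ d.c3 l then (1 : ℝ) else 0) := by
        split_ifs <;> norm_num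
      have hz4 : (0 : ℝ) ≤ (if d.before l ∧ d.c2 l ∧ d.c3 l ∧ ¬ d.c4 l then (1 : ℝ) else 0) := by
        split_ifs <;> norm_num
      by_cases hh : (∀ s, s <:+ l → ([] : List (Row P m)).length ≤ s.length →
        s.length < l.length → d.good s) ∧ ¬ d.good l
      · rw [if_pos hh]
        have hb : d.before l := fun s hs hlt => hh.1 s hs (by simp) hlt
        by_cases k1 : d.dev l
        · by_cases k2 : d.c2 l
          · by_cases k3 : d.c3 l
            · by_cases k4 : d.c4 l
              · exact absurd ⟨k1, k2, k3, k4⟩ hh.2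
              · rw [if_pos (show d.before l ∧ d.c2 l ∧ d.c3 l ∧ ¬ d.c4 l from ⟨hb, k2, k3, k4⟩)]
                linarith
            · rw [if_pos (show d.before l ∧ d.c2 l ∧ ¬ d.c3 l from ⟨hb, k2, k3⟩)]
              linarith
          · rw [if_pos (show d.before l ∧ ¬ d.c2 l from ⟨hb, k2⟩)]
            linarith
        · rw [if_pos (show d.before l ∧ ¬ d.dev l from ⟨hb, k1⟩)]
          linarith
      · rw [if_neg hh]
        linarith
    refine e5.trans ?_
    rw [ExCalc.Ex_add, ExCalc.Ex_add, ExCalc.Ex_add]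
    linarith
  refine (sum_le_sum h2).trans ?_
  rw [sum_const, card_range, nsmul_eq_mul]
  push_cast
  calc ((d.I : ℝ) + 1) * (4 * Real.exp (-(d.c0 / 200 * NN d.n)))
      = (4 * ((d.I : ℝ) + 1)) * Real.exp (-(d.c0 / 200 * NN d.n)) := by ring
    _ ≤ Real.exp (d.c0 / 400 * NN d.n) * Real.exp (-(d.c0 / 200 * NN d.n)) := by
      have := hcl.cnt
      gcongr
    _ = Real.exp (-(d.c0 / 400 * NN d.n)) := by
      rw [← Real.exp_add]; congr 1; ring

end D

end MultiN

open MultiN in
theorem prf_Multi (hF3 : S_F3) (hNum : S_Num) (hHP1 : S_HP1) (hHRC : S_HRC) (hHP2 : S_HP2) :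
    S_Multi := by
  intro c0 Crat hc0 hc1 hCrat
  obtain ⟨Xa, ha⟩ := rowDev hF3 hNum c0 Crat hc0 hc1 hCrat
  obtain ⟨Xb, hb⟩ := hHP1 c0 Crat hc0 hc1 hCrat
  obtain ⟨Xc, hc⟩ := hHRC c0 Crat hc0 hc1 hCrat
  obtain ⟨Xd, hd⟩ := hHP2 c0 Crat hc0 hc1 hCrat
  obtain ⟨Xe, hXe, he⟩ := sum_quarter
  obtain ⟨Xf, hXf, hf⟩ := hNum (4 * Crat)
  refine ⟨max (max (max Xa Xb) (max Xc Xd)) (max Xe Xf), fun X hX => ?_⟩
  have hXa : X ≥ Xa := ((le_max_left _ _).trans ((le_max_left _ _).trans (le_max_left _ _))).trans hX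
  have hXb : X ≥ Xb := ((le_max_right _ _).trans ((le_max_left _ _).trans (le_max_left _ _))).trans hX
  have hXc : X ≥ Xc := ((le_max_left _ _).trans ((le_max_right _ _).trans (le_max_left _ _))).trans hX
  have hXd : X ≥ Xd := ((le_max_right _ _).trans ((le_max_right _ _).trans (le_max_left _ _))).trans hX
  have hXe' : X ≥ Xe := ((le_max_left _ _).trans (le_max_right _ _)).trans hX
  have hXf' : X ≥ Xf := ((le_max_right _ _).trans (le_max_right _ _)).trans hX
  have hX1 : 1 ≤ X := by linarith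
  obtain ⟨na, hna⟩ := ha X hXa
  obtain ⟨nb, hnb⟩ := hb X hXb
  obtain ⟨nc, hnc⟩ := hc X hXc
  obtain ⟨nd, hnd⟩ := hd X hXd
  obtain ⟨ne, hne⟩ := ev_n (16 * 400002) (4 / 100 * c0) (by positivity)
  obtain ⟨nf, hnf⟩ := ev_n (4 * 400001) (c0 / 400) (by positivity)
  refine ⟨max (max (max na nb) (max nc nd)) (max ne nf), fun n hn => ?_⟩
  have hn1 : na ≤ n := ((le_max_left _ _).trans ((le_max_left _ _).trans (le_max_left _ _))).trans hn
  have hn2 : nb ≤ n := ((le_max_right _ _).trans ((le_max_left _ _).trans (le_max_left _ _))).trans hn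
  have hn3 : nc ≤ n := ((le_max_left _ _).trans ((le_max_right _ _).trans (le_max_left _ _))).trans hn
  have hn4 : nd ≤ n := ((le_max_right _ _).trans ((le_max_right _ _).trans (le_max_left _ _))).trans hn
  have hn5 : ne ≤ n := ((le_max_left _ _).trans (le_max_right _ _)).trans hn
  have hn6 : nf ≤ n := ((le_max_right _ _).trans (le_max_right _ _)).trans hn
  obtain ⟨hnn, hn7⟩ := hne n hn5
  obtain ⟨_, hn8⟩ := hnf n hn6
  intro m I rX hI1 hI2
  have hxI : ∀ j, j ≤ I → xl X j ≤ 2 * (n : ℝ) ^ (9 / 10 : ℝ) := fun j hj =>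
    (xl_mono (by linarith) hj).trans hI2
  -- the four thresholds for `P`
  obtain ⟨Pa, hPa⟩ := exists_P0 (fun P i => ∀ [Fact P.Prime], ∀ (I : ℕ)
    (w : Pt m → List (ZMod P) → ℝ) (G : Finset (Pt m)) (rows : List (Row P m)),
    Ctx P m I rX X w G → rows.length + (i + 1) = I →
    ((alive w G rows).card : ℝ) ≤ Mb X Crat n (i + 1) →
    (𝔼 r : Row P m, (open scoped Classical in if |Stot w G (r :: rows) - Stot w G rows| ≤
        Crat * Real.exp X * NN n / lam X i then (0 : ℝ) else 1)) ≤
      Real.exp (c0 / 1000 * NN n) * ((En (kk X c0 n (i + 1)) (alive w G rows) : ℝ) /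
        Mb X Crat n (i + 1) ^ (2 * kk X c0 n (i + 1)))) I
    (fun i hi => by
      obtain ⟨P0, hP0⟩ := hna n hn1 m i rX (hxI _ (by omega))
      exact ⟨P0, fun P hP _ => hP0 P hP⟩)
  obtain ⟨Pb, hPb⟩ := exists_P0 (fun P i => i + Rst ≤ I → ∀ [Fact P.Prime], ∀ (I : ℕ)
    (w : Pt m → List (ZMod P) → ℝ) (G : Finset (Pt m)) (rows : List (Row P m)),
    Ctx P m I rX X w G → rows.length + (i + Rst) = I →
    ((alive w G rows).card : ℝ) ≤ Mb X Crat n (i + Rst) →
    NoRel (alive w G rows) (Bh X (i + Rst)) (sp X c0 n (i + Rst)) →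
    (En (kk X c0 n (i + Rst)) (alive w G rows) : ℝ) ≤
      Mb X Crat n (i + Rst) ^ (2 * kk X c0 n (i + Rst)) * Real.exp (-(c0 / 4 * NN n)) →
    Ex Rst (fun rows' => (open scoped Classical in
      if NoRel (alive w G rows') (Bh X i) (sp X c0 n i) then (0 : ℝ) else 1))
      rows ≤ Real.exp (-(c0 / 200 * NN n))) (I + 1)
    (fun i hi => by
      by_cases hle : i + Rst ≤ I
      · obtain ⟨P0, hP0⟩ := hnb n hn2 m i rX (hxI _ hle)
        exact ⟨P0, fun P hP _ _ => hP0 P hP⟩
      · exact ⟨0, fun P _ hle' => absurd hle' hle⟩)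
  obtain ⟨Pc, hPc⟩ := exists_P0 (fun P i => i + Rst ≤ I → ∀ [Fact P.Prime], ∀ (I : ℕ)
    (w : Pt m → List (ZMod P) → ℝ) (G : Finset (Pt m)) (rows : List (Row P m)),
    Ctx P m I rX X w G → rows.length + (i + Rst) = I →
    ((alive w G rows).card : ℝ) ≤ Mb X Crat n (i + Rst) →
    (En (kk X c0 n (i + Rst)) (alive w G rows) : ℝ) ≤
      Mb X Crat n (i + Rst) ^ (2 * kk X c0 n (i + Rst)) * Real.exp (-(c0 / 4 * NN n)) →
    Ex Rst (fun rows' => (open scoped Classical in
      if NoRel (alive w G rows') (Bh X i) (sp X c0 n i) ∧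
        ∃ Z ⊆ alive w G rows', Z.card ≤ 2 * kk X c0 n i ∧
          RkGe Z (2 * (Hd X (i + Rst) : ℝ) ^ 2) 16 then (1 : ℝ) else 0))
      rows ≤ Real.exp (-(c0 / 2 * NN n))) (I + 1)
    (fun i hi => by
      by_cases hle : i + Rst ≤ I
      · obtain ⟨P0, hP0⟩ := hnc n hn3 m i rX (hxI _ hle)
        exact ⟨P0, fun P hP _ _ => hP0 P hP⟩
      · exact ⟨0, fun P _ hle' => absurd hle' hle⟩)
  obtain ⟨Pd, hPd⟩ := exists_P0 (fun P i => ∀ [Fact P.Prime], ∀ (I : ℕ)
    (w : Pt m → List (ZMod P) → ℝ) (G : Finset (Pt m)) (rows : List (Row P m)),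
    Ctx P m I rX X w G → rows.length + (i + 1) = I →
    ((alive w G rows).card : ℝ) ≤ Mb X Crat n (i + 1) →
    Ex 1 (fun rows' => (open scoped Classical in
      if ∀ Z ⊆ alive w G rows', Z.card ≤ 2 * kk X c0 n i →
          ¬ RkGe Z (Hd X (i + 1)) 16 then (En (kk X c0 n i) (alive w G rows') : ℝ) else 0))
      rows ≤ Mb X Crat n i ^ (2 * kk X c0 n i) *
        (Real.exp (c0 * NN n / (xl X i) ^ (1 / 4 : ℝ) + 16 * xl X (i + 1)) *
            ((En (kk X c0 n (i + 1)) (alive w G rows) : ℝ) /
              Mb X Crat n (i + 1) ^ (2 * kk X c0 n (i + 1)))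
          + Real.exp (-(95 / 100 * c0 * NN n)))) I
    (fun i hi => by
      obtain ⟨P0, hP0⟩ := hnd n hn4 m i 1 rX le_rfl (by have := Rst_pos; omega) (hxI _ (by omega))
      exact ⟨P0, fun P hP _ => hP0 P hP⟩)
  refine ⟨max (max Pa Pb) (max Pc Pd), fun P hP _ w G hctx hstart => ?_⟩
  have hP1 : P ≥ Pa := ((le_max_left _ _).trans (le_max_left _ _)).trans hP
  have hP2 : P ≥ Pb := ((le_max_right _ _).trans (le_max_left _ _)).trans hP
  have hP3 : P ≥ Pc := ((le_max_left _ _).trans (le_max_right _ _)).trans hP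
  have hP4 : P ≥ Pd := ((le_max_right _ _).trans (le_max_right _ _)).trans hP
  let d : D P m := ⟨n, I, X, c0, Crat, G, w⟩
  have hNN := NN_pos hnn
  have hstd : d.Std rX := by
    refine ⟨hX1, hnn, hc0, hCrat, hctx, hstart, fun N => ?_⟩
    have := (hf X hXf' N).2.2.2.2.2.2.2
    rwa [abs_of_nonneg (by linarith)] at this
  have hUse2 : d.UseHP2 := fun i hi rows hrl hcard => hPd P hP4 i hi I w G rows hctx hrl hcard
  have hUseR : d.UseRow := fun i hi rows hrl hcard => hPa P hP1 i hi I w G rows hctx hrl hcard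
  have hUse1 : d.UseHP1 := fun i hi rows hrl hcard h1 h2 =>
    hPb P hP2 i (by have : i + Rst ≤ I := hi; omega) hi I w G rows hctx hrl hcard h1 h2
  have hUseC : d.UseHRC := fun i hi rows hrl hcard h1 =>
    hPc P hP3 i (by have : i + Rst ≤ I := hi; omega) hi I w G rows hctx hrl hcard h1
  have hcl : d.Cl := by
    constructor
    · show ∑ k ∈ range I, (c0 * NN n / (xl X k) ^ (1 / 4 : ℝ) + 16 * xl X (k + 1)) ≤
        5 / 100 * (c0 * NN n)
      rw [sum_add_distrib]
      have e1 : ∑ k ∈ range I, c0 * NN n / (xl X k) ^ (1 / 4 : ℝ) =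
          c0 * NN n * ∑ k ∈ range I, 1 / (xl X k) ^ (1 / 4 : ℝ) := by
        rw [mul_sum]; exact sum_congr rfl fun k _ => by ring
      have e2 := he X hXe' I
      have e3 : ∑ k ∈ range I, 16 * xl X (k + 1) ≤ 4 / 100 * c0 * NN n := by
        rw [← mul_sum, sum_xl_succ]
        have : (1 + theta) / theta = 200001 := by unfold theta; norm_num
        rw [this]
        have h0 : 0 ≤ X := by linarith
        nlinarith
      rw [e1]
      have e4 : c0 * NN n * ∑ k ∈ range I, 1 / (xl X k) ^ (1 / 4 : ℝ) ≤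
          c0 * NN n * (1 / 100) := by gcongr
      linarith
    · show 4 * ((I : ℝ) + 1) ≤ Real.exp (c0 / 400 * NN n)
      have e1 := I_le hX1 hI2
      have e2 := Real.add_one_le_exp (c0 / 400 * NN n)
      have e3 : 0 ≤ (n : ℝ) ^ (9 / 10 : ℝ) := by positivity
      linarith
  exact D.main hstd hUse2 hUseR hUse1 hUseC hcl

end Crest.Agent.R225
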