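import Crest.Agent.R225.B4Iface
import Crest.Agent.R225.EarSurv
import Crest.Agent.R225.B012_Mg
import Mathlib
import Crest.Agent.R225.Iface
import Crest.Agent.R225.Multi_Mg
import Crest.Agent.R225.G3_Mg
import Crest.Agent.R225.HP1_Mg
import Crest.Agent.R225.Base
import Crest.Agent.R225.B5C_Mg

-- ▼ part R225/B4
section

/-!
# Row 225 (S0347), node B4 (cleaning): final assembly (helper925)

`prf_B4 : S_surv1 → S_core → S_num4 → S_B4`.
-/

set_option autoImplicit false

open Finset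
open scoped BigOperators

namespace Crest.Agent.R225
namespace B4

theorem prf_B4 (hsurv : S_surv1) (hcore : S_core) (hnum : S_num4) : S_B4 := by
  classical
  intro c1 Crat hc1 hc1' hCrat
  obtain ⟨X0, hX0, hnum⟩ := hnum c1 Crat hc1 hc1' hCrat
  refine ⟨X0, fun X hX => ?_⟩
  obtain ⟨n0, hn0, hnum⟩ := hnum X hX
  refine ⟨n0, fun n hn m I h1 h2 hm hm' G => ?_⟩
  obtain ⟨hR, hT, hs1, hs10, hclean, hbound⟩ :=
    hnum n hn I h1 h2 _ _ _ _ _ _ _ _ rfl rfl rfl rfl rfl rfl rfl rfl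
  set L : ℕ := ⌈Real.log n⌉₊ with hL
  set s1 : ℕ := ⌊(n : ℝ) ^ (2 / 100 : ℝ)⌋₊ with hs1def
  set s0 : ℕ := ⌊sp X (c1 / 400) n (I - Rst)⌋₊ with hs0
  set k : ℕ := ⌈(n : ℝ) ^ (1 / 2 : ℝ)⌉₊ with hk
  set B : ℕ := ((L * s1 + s0 + 2) * (n ^ 16 + 1)) ^ (L * s1 + s0 + 2) with hB
  set Λ : ℝ := (2 * B + 1 : ℝ) ^ (L * s1 + s0 + 2) with hΛ
  set R : ℝ := Mb X Crat n I / tau X (I + 1) with hRdef
  set T : ℝ := Mb X Crat n I * Real.exp (-(2 * (n : ℝ) ^ (1 / 2 : ℝ))) with hTdef
  have hXge : (1 : ℝ) ≤ X := le_trans hX0 hX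
  obtain ⟨P0, hP0⟩ := hsurv c1 Crat X hc1 hCrat hXge n m I (L * s1 + s0 + k + 2)
    (le_trans hn0 hn) G
  refine ⟨P0, fun P hP _ α0 w hctx => ?_⟩
  obtain ⟨hRS, hGR⟩ := hP0 P hP α0 w hctx
  obtain ⟨g0, hg0⟩ := hctx.grid.box
  have hc := hcore m (n ^ 16) L s1 s0 k (L * s1 + s0 + k + 2) B (Row P m)
    (fun r => alive w G [r]) G g0 (2 * α0 / (tau X I * al X I)) R T
    (Real.exp (-(c1 * n))) (Real.exp (-(c1 * NN n))) (Real.exp (-(n : ℝ) ^ (6 / 10 : ℝ))) Λ
    hRS (fun g hg k => hg0 g hg k) hGR hR hT (Real.exp_pos _).le (Real.exp_pos _).le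
    (Real.exp_pos _).le le_rfl hs1 hs10 le_rfl rfl
    (fun s h y hs hh => hctx.grid.rel3 s h y hs hh)
    (fun s h y hs hh => by
      refine hctx.grid.relL s h y ?_ hh
      have := (Nat.floor_lt' (by omega : s ≠ 0)).mp hs
      exact this.le)
    (fun c c' h h' => hctx.grid.pair c c' h h')
  refine le_trans ?_ (le_trans hc hbound)
  refine Finset.expect_le_expect fun r _ => ?_
  by_cases hgood : ∃ G' ⊆ alive w G [r],
      ((alive w G [r] \ G').card : ℝ) ≤ (2 * ((n ^ 16 : ℕ) : ℝ) + 1) ^ (L * s1) + Λ * T ∧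
      NoRelInf G' s0
  · have hgood' : ∃ G' ⊆ alive w G [r],
        ((alive w G [r] \ G').card : ℝ) ≤ Mb X Crat n I * Real.exp (-(n : ℝ) ^ (1 / 2 : ℝ)) ∧
        NoRelInf G' (sp X (c1 / 400) n (I - Rst)) := by
      obtain ⟨G', hG', hcard, hno⟩ := hgood
      refine ⟨G', hG', le_trans hcard hclean, fun Z hZ hZc h hh => hno Z hZ ?_ h hh⟩
      exact_mod_cast Nat.le_floor hZc
    rw [if_pos hgood', if_pos hgood]
  · rw [if_neg hgood]
    split_ifs <;> norm_num

end B4
end Crest.Agent.R225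
end

-- ▼ part R225/B4Surv
section

/-!
# Row 225 (S0347), node B4: survival in the special row (`S_surv1`, from `S_B0`)
-/

set_option autoImplicit false

open Finset
open scoped BigOperators

namespace Crest.Agent.R225
namespace B4

theorem prf_surv1 (hB0 : S_B0) : S_surv1 := by
  intro c1 Crat X _ _ _ n m I kmax hn G
  obtain ⟨P0, hP0⟩ := Ear.surv hB0 n I kmax X G hn
  refine ⟨P0, fun P hP => ?_⟩
  intro _ α0 w h
  have hR := Ear.R_le h
  have hρ := (Ear.rho_pos (X := X) (I := I) h.hα0).le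
  refine ⟨⟨fun r => ?_, hρ, fun J hJ hind hk => hP0 P hP c1 Crat α0 w h J hJ hk hind⟩, hR⟩
  exact Finset.filter_subset _ _

end B4
end Crest.Agent.R225
end

-- ▼ part R225/B4All
section

/-!
# Row 225 (S0347), node B4 (cleaning): closing file (helper925)
-/

set_option autoImplicit false

namespace Crest.Agent.R225

theorem prf_B4_of (hB0 : S_B0) (hB1 : S_B1) (hB2 : S_B2) : S_B4 :=
  B4.prf_B4 (B4.prf_surv1 hB0)
    (B4.prf_core B4.prf_circ_ind (B4.prf_ear (B4.prf_int_rel hB2)) B4.prf_badY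
      (B4.prf_chain B4.prf_circ_ind) (B4.prf_mom hB1) B4.prf_ASet
      (B4.prf_det hB1 B4.prf_circ_ind (B4.prf_int_rel hB2) B4.prf_clean))
    B4.prf_num4

theorem prf_B4 : S_B4 := prf_B4_of prf_B0 prf_B1 prf_B2

end Crest.Agent.R225
end

-- ▼ part R225/Maj
section

/-!
# Row 225: trigonometric majorants and minorants on `ZMod P`

`exists_trig_bounds`: a real function `f` on `ZMod P` with total variation `V` has trigonometric
majorants / minorants of degree `≤ H` with mean difference `≤ C V / H`.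
-/

set_option autoImplicit false

open scoped BigOperators Pointwise
open Finset

namespace Crest.Agent.R225.Maj

section Alg

variable (P : ℕ) [NeZero P]

/-- the character `x ↦ e(kx/P)` -/
noncomputable def ch (k : ℤ) (x : ZMod P) : ℂ := ZMod.stdAddChar ((k : ZMod P) * x)

/-- trigonometric polynomial with coefficients `c` -/
noncomputable def trig (H : ℕ) (c : ℤ → ℂ) (x : ZMod P) : ℂ :=
  ∑ k ∈ Finset.Icc (-(H:ℤ)) H, c k * ZMod.stdAddChar ((k : ZMod P) * x)

/-- trig polynomials of degree `≤ H` -/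
noncomputable def T (H : ℕ) : Submodule ℂ (ZMod P → ℂ) :=
  Submodule.span ℂ {F | ∃ k : ℤ, |k| ≤ H ∧ F = ch P k}

variable {P}

theorem ch_mem {H : ℕ} {k : ℤ} (hk : |k| ≤ H) : ch P k ∈ T P H :=
  Submodule.subset_span ⟨k, hk, rfl⟩

theorem T_mono {H H' : ℕ} (h : H ≤ H') : T P H ≤ T P H' := by
  refine Submodule.span_mono ?_
  rintro F ⟨k, hk, rfl⟩
  exact ⟨k, le_trans hk (by exact_mod_cast h), rfl⟩

theorem ch_mul (k l : ℤ) : ch P k * ch P l = ch P (k + l) := by
  funext x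
  simp only [Pi.mul_apply, ch]
  rw [← AddChar.map_add_eq_mul]
  congr 1
  push_cast
  ring

theorem ch_conj (k : ℤ) (x : ZMod P) : (starRingEnd ℂ) (ch P k x) = ch P (-k) x := by
  simp only [ch]
  rw [← AddChar.map_neg_eq_conj]
  congr 1
  push_cast
  ring

theorem T_mul {H H' : ℕ} {F G : ZMod P → ℂ} (hF : F ∈ T P H) (hG : G ∈ T P H') :
    F * G ∈ T P (H + H') := by
  have h : F * G ∈ T P H * T P H' := Submodule.mul_mem_mul hF hG
  rw [T, T, Submodule.span_mul_span] at h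
  refine Submodule.span_mono ?_ h
  rintro _ ⟨A, ⟨k, hk, rfl⟩, B, ⟨l, hl, rfl⟩, rfl⟩
  refine ⟨k + l, ?_, ch_mul k l⟩
  push_cast
  exact le_trans (abs_add_le k l) (add_le_add hk hl)

theorem T_conj {H : ℕ} {F : ZMod P → ℂ} (hF : F ∈ T P H) :
    (fun x => (starRingEnd ℂ) (F x)) ∈ T P H := by
  rw [T] at hF
  induction hF using Submodule.span_induction with
  | mem F h =>
    obtain ⟨k, hk, rfl⟩ := h
    have : (fun x => (starRingEnd ℂ) (ch P k x)) = ch P (-k) := by
      funext x; exact ch_conj k x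
    rw [this]
    exact ch_mem (by rwa [abs_neg])
  | zero =>
    have : (fun x : ZMod P => (starRingEnd ℂ) ((0 : ZMod P → ℂ) x)) = 0 := by
      funext x; simp
    rw [this]; exact Submodule.zero_mem _
  | add F G _ _ h1 h2 =>
    have : (fun x : ZMod P => (starRingEnd ℂ) ((F + G) x)) =
        (fun x => (starRingEnd ℂ) (F x)) + (fun x => (starRingEnd ℂ) (G x)) := by
      funext x; simp
    rw [this]; exact Submodule.add_mem _ h1 h2
  | smul a F _ h1 =>
    have : (fun x : ZMod P => (starRingEnd ℂ) ((a • F) x)) =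
        (starRingEnd ℂ a) • (fun x => (starRingEnd ℂ) (F x)) := by
      funext x; simp
    rw [this]; exact Submodule.smul_mem _ _ h1

theorem T_shift {H : ℕ} {F : ZMod P → ℂ} (hF : F ∈ T P H) (j : ZMod P) :
    (fun x => F (x - j)) ∈ T P H := by
  rw [T] at hF
  induction hF using Submodule.span_induction with
  | mem F h =>
    obtain ⟨k, hk, rfl⟩ := h
    have : (fun x => ch P k (x - j)) = (ch P k (-j)) • ch P k := by
      funext x
      simp only [ch, Pi.smul_apply, smul_eq_mul]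
      rw [← AddChar.map_add_eq_mul]
      congr 1
      ring
    rw [this]
    exact Submodule.smul_mem _ _ (ch_mem hk)
  | zero =>
    have : (fun x : ZMod P => ((0 : ZMod P → ℂ) (x - j))) = 0 := by
      funext x; simp
    rw [this]; exact Submodule.zero_mem _
  | add F G _ _ h1 h2 => exact Submodule.add_mem _ h1 h2
  | smul a F _ h1 => exact Submodule.smul_mem _ _ h1

theorem exists_coeff {H : ℕ} {F : ZMod P → ℂ} (hF : F ∈ T P H) :
    ∃ c : ℤ → ℂ, ∀ x, F x = trig P H c x := by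
  rw [T] at hF
  induction hF using Submodule.span_induction with
  | mem F h =>
    obtain ⟨k, hk, rfl⟩ := h
    refine ⟨fun l => if l = k then 1 else 0, fun x => ?_⟩
    have hk' : k ∈ Finset.Icc (-(H:ℤ)) H := by
      rw [Finset.mem_Icc]; exact abs_le.1 hk
    simp only [trig, ch, ite_mul, one_mul, zero_mul]
    rw [Finset.sum_ite_eq' (Finset.Icc (-(H:ℤ)) H) k, if_pos hk']
  | zero => exact ⟨0, fun x => by simp [trig]⟩
  | add F G _ _ h1 h2 =>
    obtain ⟨c, hc⟩ := h1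
    obtain ⟨c', hc'⟩ := h2
    refine ⟨c + c', fun x => ?_⟩
    rw [Pi.add_apply, hc, hc']
    simp only [trig, Pi.add_apply, add_mul, Finset.sum_add_distrib]
  | smul a F _ h1 =>
    obtain ⟨c, hc⟩ := h1
    refine ⟨fun k => a * c k, fun x => ?_⟩
    rw [Pi.smul_apply, hc]
    simp only [trig, smul_eq_mul, Finset.mul_sum, mul_assoc]

theorem sum_ch (k : ℤ) : ∑ x : ZMod P, ch P k x = if (k : ZMod P) = 0 then (P : ℂ) else 0 := by
  have h := AddChar.sum_mulShift (R := ZMod P) (k : ZMod P) (ZMod.isPrimitive_stdAddChar P)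
  have h2 : ∑ x : ZMod P, ch P k x = ∑ x : ZMod P, ZMod.stdAddChar (x * (k : ZMod P)) := by
    refine Finset.sum_congr rfl fun x _ => ?_
    rw [ch, mul_comm]
  rw [h2, h, ZMod.card]
  split_ifs <;> simp

omit [NeZero P] in
theorem intCast_eq_zero_of_lt {k : ℤ} (hk : |k| < P) (h : (k : ZMod P) = 0) : k = 0 := by
  rw [ZMod.intCast_zmod_eq_zero_iff_dvd] at h
  exact Int.eq_zero_of_abs_lt_dvd h hk

theorem coeff_eq {H : ℕ} (hH : 2 * H < P) (c : ℤ → ℂ) (k : ℤ) (hk : |k| ≤ H) :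
    ∑ x : ZMod P, trig P H c x * (starRingEnd ℂ) (ch P k x) = P * c k := by
  have hk' : k ∈ Finset.Icc (-(H:ℤ)) H := by
    rw [Finset.mem_Icc]; exact abs_le.1 hk
  have h1 : ∀ x : ZMod P, trig P H c x * (starRingEnd ℂ) (ch P k x) =
      ∑ l ∈ Finset.Icc (-(H:ℤ)) H, c l * ch P (l - k) x := by
    intro x
    rw [trig, Finset.sum_mul]
    refine Finset.sum_congr rfl fun l _ => ?_
    rw [ch_conj, mul_assoc, sub_eq_add_neg, ← ch_mul]
    rfl
  simp_rw [h1]
  rw [Finset.sum_comm]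
  simp_rw [← Finset.mul_sum, sum_ch]
  rw [Finset.sum_eq_single k]
  · simp [mul_comm]
  · intro l hl hlk
    rw [if_neg, mul_zero]
    intro h0
    apply hlk
    have h2 : |l - k| < P := by
      rw [Finset.mem_Icc] at hl
      obtain ⟨a, b⟩ := abs_le.1 hk
      rw [abs_lt]
      have : (2:ℤ) * H < P := by exact_mod_cast hH
      constructor <;> linarith [hl.1, hl.2]
    have := intCast_eq_zero_of_lt h2 h0
    linarith
  · intro h; exact absurd hk' h

theorem norm_ch (k : ℤ) (x : ZMod P) : ‖ch P k x‖ = 1 := AddChar.norm_apply _ _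

/-- Fourier coefficients are bounded by the mean of the absolute value -/
theorem coeff_le {H : ℕ} (hH : 2 * H < P) (c : ℤ → ℂ) (k : ℤ) (hk : |k| ≤ H) :
    ‖c k‖ ≤ (∑ x : ZMod P, ‖trig P H c x‖) / P := by
  have hP : (0:ℝ) < P := by exact_mod_cast Nat.pos_of_ne_zero (NeZero.ne P)
  rw [le_div_iff₀ hP]
  have h := coeff_eq hH c k hk
  have h2 : ‖c k‖ * P = ‖∑ x : ZMod P, trig P H c x * (starRingEnd ℂ) (ch P k x)‖ := by
    rw [h, norm_mul, Complex.norm_natCast, mul_comm]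
  rw [h2]
  refine le_trans (norm_sum_le _ _) (le_of_eq ?_)
  refine Finset.sum_congr rfl fun x _ => ?_
  rw [norm_mul, RCLike.norm_conj, norm_ch, mul_one]

theorem coeff_zero_eq {H : ℕ} (hH : 2 * H < P) (c : ℤ → ℂ) :
    c 0 = (∑ x : ZMod P, trig P H c x) / P := by
  have hP : (P:ℂ) ≠ 0 := by exact_mod_cast NeZero.ne P
  have h := coeff_eq hH c 0 (by simp)
  rw [eq_div_iff hP, mul_comm, ← h]
  refine Finset.sum_congr rfl fun x _ => ?_
  simp [ch]

end Alg

section Kernel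

variable {P : ℕ} [NeZero P]

/-- Dirichlet sum with a phase shift -/
noncomputable def D (m : ℕ) (δ : ℝ) (x : ZMod P) : ℂ :=
  ∑ j ∈ Finset.range m, (Complex.exp (Complex.I * δ) * ZMod.stdAddChar x) ^ j

theorem D_eq (m : ℕ) (δ : ℝ) :
    (D m δ : ZMod P → ℂ) = ∑ j ∈ Finset.range m, (Complex.exp (Complex.I * δ)) ^ j • ch P (j : ℤ) := by
  funext x
  simp only [D, Finset.sum_apply, Pi.smul_apply, smul_eq_mul, ch]
  refine Finset.sum_congr rfl fun j _ => ?_
  rw [mul_pow, ← AddChar.map_nsmul_eq_pow, nsmul_eq_mul]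
  push_cast
  rfl

theorem D_mem (m : ℕ) (δ : ℝ) : (D m δ : ZMod P → ℂ) ∈ T P (m - 1) := by
  rw [D_eq]
  refine Submodule.sum_mem _ fun j hj => Submodule.smul_mem _ _ (ch_mem ?_)
  rw [Finset.mem_range] at hj
  rw [Nat.abs_cast]
  exact_mod_cast (by omega : j ≤ m - 1)

/-- `‖D‖²` as a trigonometric polynomial -/
theorem D_sq_mem (m : ℕ) (δ : ℝ) :
    (fun x : ZMod P => ((‖D m δ x‖ ^ 2 : ℝ) : ℂ)) ∈ T P (2 * (m - 1)) := by
  have h := T_mul (D_mem (P := P) m δ) (T_conj (D_mem (P := P) m δ))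
  have h2 : (fun x : ZMod P => ((‖D m δ x‖ ^ 2 : ℝ) : ℂ)) =
      (D m δ : ZMod P → ℂ) * (fun x => (starRingEnd ℂ) (D m δ x)) := by
    funext x
    rw [Pi.mul_apply, Complex.mul_conj']
    push_cast
    rfl
  rw [h2, two_mul]
  exact h

theorem norm_u (δ : ℝ) : ‖Complex.exp (Complex.I * δ)‖ = 1 := by
  rw [mul_comm]; exact Complex.norm_exp_ofReal_mul_I δ

theorem sum_D_sq (m : ℕ) (hm : m ≤ P) (δ : ℝ) :
    ∑ x : ZMod P, ‖D m δ x‖ ^ 2 = m * P := by
  set u := Complex.exp (Complex.I * δ) with hu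
  have huu : ∀ a : ℕ, u ^ a * (starRingEnd ℂ) (u ^ a) = 1 := by
    intro a
    rw [Complex.mul_conj', norm_pow, hu, norm_u]
    simp
  have h1 : ∀ x : ZMod P, ((‖D m δ x‖ ^ 2 : ℝ) : ℂ) =
      ∑ a ∈ Finset.range m, ∑ b ∈ Finset.range m,
        (u ^ a * (starRingEnd ℂ) (u ^ b)) * ch P ((a : ℤ) - b) x := by
    intro x
    have : ((‖D m δ x‖ ^ 2 : ℝ) : ℂ) = D m δ x * (starRingEnd ℂ) (D m δ x) := by
      rw [Complex.mul_conj']; push_cast; rfl
    rw [this, D_eq]
    simp only [Finset.sum_apply, Pi.smul_apply, smul_eq_mul, map_sum, map_mul]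
    rw [Finset.sum_mul_sum]
    refine Finset.sum_congr rfl fun a _ => Finset.sum_congr rfl fun b _ => ?_
    rw [ch_conj, sub_eq_add_neg, ← ch_mul, Pi.mul_apply]
    ring
  have h2 : ((∑ x : ZMod P, ‖D m δ x‖ ^ 2 : ℝ) : ℂ) = (m * P : ℝ) := by
    push_cast
    have h3 : ∀ x : ZMod P, ((‖D m δ x‖ : ℂ)) ^ 2 = ((‖D m δ x‖ ^ 2 : ℝ) : ℂ) := by
      intro x; push_cast; rfl
    simp_rw [h3, h1]
    rw [Finset.sum_comm]
    have h4 : ∀ a ∈ Finset.range m, (∑ x : ZMod P, ∑ b ∈ Finset.range m,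
        (u ^ a * (starRingEnd ℂ) (u ^ b)) * ch P ((a : ℤ) - b) x) = (P : ℂ) := by
      intro a ha
      rw [Finset.sum_comm]
      simp_rw [← Finset.mul_sum, sum_ch]
      rw [Finset.sum_eq_single a]
      · rw [sub_self, Int.cast_zero, if_pos rfl, huu, one_mul]
      · intro b hb hba
        rw [if_neg, mul_zero]
        intro h0
        apply hba
        rw [Finset.mem_range] at ha hb
        have h5 : |((a:ℤ) - b)| < P := by
          rw [abs_lt]; constructor <;> omega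
        have := intCast_eq_zero_of_lt h5 h0
        omega
      · intro h; exact absurd ha h
    rw [Finset.sum_congr rfl h4]
    simp
  exact_mod_cast h2

/-- distance to `0` in `ZMod P` -/
def d (x : ZMod P) : ℕ := x.valMinAbs.natAbs

theorem stdAddChar_eq (x : ZMod P) :
    (ZMod.stdAddChar x : ℂ) = Complex.exp (Complex.I * ((2 * Real.pi * x.valMinAbs / P : ℝ) : ℂ)) := by
  conv_lhs => rw [← ZMod.coe_valMinAbs x, ZMod.stdAddChar_coe]
  congr 1
  push_cast
  ring

omit [NeZero P] in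
theorem abs_valMinAbs (x : ZMod P) : |(x.valMinAbs : ℝ)| = (d x : ℝ) := by
  rw [d, ← Int.cast_abs, Nat.cast_natAbs]

theorem two_d_le (x : ZMod P) : 2 * d x ≤ P := by
  have := ZMod.natAbs_valMinAbs_le x
  rw [d]; omega

theorem norm_sub_one_le (x : ZMod P) : ‖(ZMod.stdAddChar x : ℂ) - 1‖ ≤ 2 * Real.pi * d x / P := by
  rw [stdAddChar_eq, Complex.norm_exp_I_mul_ofReal_sub_one, Real.norm_eq_abs, abs_mul]
  have hP : (0:ℝ) < P := by exact_mod_cast Nat.pos_of_ne_zero (NeZero.ne P)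
  have h1 : |Real.sin (2 * Real.pi * x.valMinAbs / P / 2)| ≤ |2 * Real.pi * x.valMinAbs / P / 2| :=
    Real.abs_sin_le_abs
  have h2 : |2 * Real.pi * (x.valMinAbs : ℝ) / P / 2| = Real.pi * d x / P := by
    rw [← abs_valMinAbs x]
    rw [show 2 * Real.pi * (x.valMinAbs : ℝ) / P / 2 = (Real.pi / P) * x.valMinAbs by ring, abs_mul,
      abs_of_pos (by positivity)]
    ring
  rw [h2] at h1
  rw [abs_of_pos (by norm_num : (0:ℝ) < 2)]
  calc 2 * |Real.sin (2 * Real.pi * x.valMinAbs / P / 2)| ≤ 2 * (Real.pi * d x / P) := by linarith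
    _ = _ := by ring

theorem le_norm_sub_one (x : ZMod P) : 4 * (d x : ℝ) / P ≤ ‖(ZMod.stdAddChar x : ℂ) - 1‖ := by
  rw [stdAddChar_eq, Complex.norm_exp_I_mul_ofReal_sub_one, Real.norm_eq_abs, abs_mul,
    abs_of_pos (by norm_num : (0:ℝ) < 2)]
  have hP : (0:ℝ) < P := by exact_mod_cast Nat.pos_of_ne_zero (NeZero.ne P)
  have hd : 2 * (d x : ℝ) ≤ P := by exact_mod_cast two_d_le x
  have h1 : |Real.sin (2 * Real.pi * x.valMinAbs / P / 2)| =
      |Real.sin (Real.pi * d x / P)| := by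
    rcases le_total 0 (x.valMinAbs : ℝ) with h | h
    · have : (x.valMinAbs : ℝ) = d x := by rw [← abs_valMinAbs, abs_of_nonneg h]
      rw [this]; congr 2; ring
    · have : (x.valMinAbs : ℝ) = - d x := by rw [← abs_valMinAbs, abs_of_nonpos h]; ring
      rw [this, show 2 * Real.pi * (-(d x : ℝ)) / P / 2 = -(Real.pi * d x / P) by ring,
        Real.sin_neg, abs_neg]
  rw [h1]
  have h0 : 0 ≤ Real.pi * d x / P := by positivity
  have h2 : Real.pi * d x / P ≤ Real.pi / 2 := by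
    rw [div_le_div_iff₀ hP (by norm_num)]
    nlinarith [Real.pi_pos]
  have h3 := Real.mul_le_sin h0 h2
  have h4 : 2 / Real.pi * (Real.pi * d x / P) = 2 * (d x : ℝ) / P := by
    field_simp
  rw [h4] at h3
  have h5 := le_abs_self (Real.sin (Real.pi * d x / P))
  calc 4 * (d x : ℝ) / P = 2 * (2 * (d x : ℝ) / P) := by ring
    _ ≤ 2 * |Real.sin (Real.pi * d x / P)| := by linarith

theorem D_mul (m : ℕ) (δ : ℝ) (x : ZMod P) :
    ‖D m δ x‖ * ‖Complex.exp (Complex.I * δ) * ZMod.stdAddChar x - 1‖ =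
      ‖(Complex.exp (Complex.I * δ) * ZMod.stdAddChar x) ^ m - 1‖ := by
  rw [← norm_mul, D, geom_sum_mul]

/-- decay of the Dirichlet kernel -/
theorem D_d_le (m : ℕ) (x : ZMod P) : ‖D m 0 x‖ * d x ≤ P / 2 := by
  have hP : (0:ℝ) < P := by exact_mod_cast Nat.pos_of_ne_zero (NeZero.ne P)
  have h1 := D_mul m 0 x
  have h2 : Complex.exp (Complex.I * (0:ℝ)) = 1 := by simp
  rw [h2, one_mul] at h1
  have h3 : ‖(ZMod.stdAddChar x : ℂ) ^ m - 1‖ ≤ 2 := by
    refine le_trans (norm_sub_le _ _) ?_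
    rw [norm_pow, AddChar.norm_apply]
    norm_num
  have h4 := le_norm_sub_one x
  have h5 : ‖D m 0 x‖ * (4 * (d x : ℝ) / P) ≤ 2 := by
    refine le_trans (mul_le_mul_of_nonneg_left h4 (norm_nonneg _)) ?_
    rw [h1]; exact h3
  have h6 : ‖D m 0 x‖ * (4 * (d x : ℝ) / P) = (‖D m 0 x‖ * d x) * (4 / P) := by ring
  rw [h6] at h5
  have h7 : (‖D m 0 x‖ * d x) * (4 / P) * (P / 4) ≤ 2 * (P / 4) :=
    mul_le_mul_of_nonneg_right h5 (by positivity)
  have h8 : (‖D m 0 x‖ * d x) * (4 / P) * (P / 4) = ‖D m 0 x‖ * d x := by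
    field_simp
  rw [h8] at h7
  linarith

/-- the pair of shifted Fejér kernels -/
noncomputable def E (m : ℕ) (x : ZMod P) : ℝ := ‖D m 0 x‖ ^ 2 + ‖D m (Real.pi / m) x‖ ^ 2

theorem E_nonneg (m : ℕ) (x : ZMod P) : 0 ≤ E m x := by unfold E; positivity

theorem E_mem (m : ℕ) : (fun x : ZMod P => ((E m x : ℝ) : ℂ)) ∈ T P (2 * (m - 1)) := by
  have := Submodule.add_mem _ (D_sq_mem (P := P) m 0) (D_sq_mem (P := P) m (Real.pi / m))
  convert this using 1
  funext x
  simp [E]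

theorem sum_E (m : ℕ) (hm : m ≤ P) : ∑ x : ZMod P, E m x = 2 * m * P := by
  simp only [E, Finset.sum_add_distrib]
  rw [sum_D_sq m hm, sum_D_sq m hm]
  ring

theorem norm_D_le (m : ℕ) (δ : ℝ) (x : ZMod P) : ‖D m δ x‖ ≤ m := by
  refine le_trans (norm_sum_le _ _) ?_
  have : ∀ j ∈ Finset.range m, ‖(Complex.exp (Complex.I * δ) * ZMod.stdAddChar x) ^ j‖ ≤ 1 := by
    intro j _
    rw [norm_pow, norm_mul, norm_u, AddChar.norm_apply]
    simp
  refine le_trans (Finset.sum_le_sum this) ?_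
  simp

theorem E_le (m : ℕ) (x : ZMod P) : E m x ≤ 2 * m ^ 2 := by
  have h1 := norm_D_le m 0 x
  have h2 := norm_D_le m (Real.pi / m) x
  have h3 : ‖D m 0 x‖ ^ 2 ≤ (m:ℝ) ^ 2 := pow_le_pow_left₀ (norm_nonneg _) h1 2
  have h4 : ‖D m (Real.pi / m) x‖ ^ 2 ≤ (m:ℝ) ^ 2 := pow_le_pow_left₀ (norm_nonneg _) h2 2
  unfold E
  linarith

/-- lower bound for the kernel pair -/
theorem le_E (m : ℕ) (hm : 0 < m) (x : ZMod P) :
    4 ≤ E m x * (2 * Real.pi * d x / P + Real.pi / m) ^ 2 := by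
  have hm' : (0:ℝ) < m := by exact_mod_cast hm
  have hP : (0:ℝ) < P := by exact_mod_cast Nat.pos_of_ne_zero (NeZero.ne P)
  set s : ℂ := ZMod.stdAddChar x with hs
  have hsn : ‖s‖ = 1 := AddChar.norm_apply _ _
  set u : ℂ := Complex.exp (Complex.I * ((Real.pi / m : ℝ) : ℂ)) with hu
  have h1 := D_mul m 0 x
  have h2 : Complex.exp (Complex.I * ((0:ℝ) : ℂ)) = 1 := by simp
  rw [h2, one_mul] at h1
  have h3 := D_mul m (Real.pi / m) x
  rw [← hu, ← hs] at h3
  rw [← hs] at h1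
  have hum : u ^ m = -1 := by
    rw [hu, ← Complex.exp_nat_mul]
    rw [show (m:ℂ) * (Complex.I * ((Real.pi / m : ℝ) : ℂ)) = Real.pi * Complex.I by
      push_cast
      have : (m:ℂ) ≠ 0 := by exact_mod_cast hm'.ne'
      field_simp]
    exact Complex.exp_pi_mul_I
  have h4 : ‖s ^ m - 1‖ ^ 2 + ‖(u * s) ^ m - 1‖ ^ 2 = 4 := by
    rw [mul_pow, hum]
    have h5 : (-1 * s ^ m - 1 : ℂ) = -(s ^ m + 1) := by ring
    rw [h5, norm_neg]
    have h6 := parallelogram_law_with_norm ℝ (s ^ m) (1:ℂ)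
    have h7 : ‖s ^ m‖ = 1 := by rw [norm_pow, hsn, one_pow]
    rw [h7, norm_one] at h6
    nlinarith
  have h8 : ‖s - 1‖ ≤ 2 * Real.pi * d x / P := norm_sub_one_le x
  have h9 : ‖u - 1‖ ≤ Real.pi / m := by
    rw [hu, Complex.norm_exp_I_mul_ofReal_sub_one, Real.norm_eq_abs, abs_mul,
      abs_of_pos (by norm_num : (0:ℝ) < 2)]
    have := @Real.abs_sin_le_abs (Real.pi / m / 2)
    rw [abs_of_pos (by positivity : 0 < Real.pi / m / 2)] at this
    linarith
  have h10 : ‖u * s - 1‖ ≤ 2 * Real.pi * d x / P + Real.pi / m := by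
    have : u * s - 1 = (u - 1) * s + (s - 1) := by ring
    rw [this]
    refine le_trans (norm_add_le _ _) ?_
    rw [norm_mul, hsn, mul_one]
    linarith
  set ρ := 2 * Real.pi * (d x : ℝ) / P + Real.pi / m with hρ
  have hρ0 : 0 ≤ ρ := by positivity
  have h11 : ‖s - 1‖ ≤ ρ := le_trans h8 (by rw [hρ]; linarith [div_pos Real.pi_pos hm'])
  have h12 : ‖s ^ m - 1‖ ^ 2 ≤ ‖D m 0 x‖ ^ 2 * ρ ^ 2 := by
    rw [← h1, mul_pow]
    exact mul_le_mul_of_nonneg_left (pow_le_pow_left₀ (norm_nonneg _) h11 2) (by positivity)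
  have h13 : ‖(u * s) ^ m - 1‖ ^ 2 ≤ ‖D m (Real.pi / m) x‖ ^ 2 * ρ ^ 2 := by
    rw [← h3, mul_pow]
    exact mul_le_mul_of_nonneg_left (pow_le_pow_left₀ (norm_nonneg _) h10 2) (by positivity)
  unfold E
  rw [add_mul]
  linarith

end Kernel

section Tail

variable {P : ℕ} [NeZero P]

/-- the (unnormalised) Jackson kernel -/
noncomputable def q (m : ℕ) (x : ZMod P) : ℝ := ‖D m 0 x‖ ^ 2 * ‖D m 0 x‖ ^ 2

theorem q_nonneg (m : ℕ) (x : ZMod P) : 0 ≤ q m x := by unfold q; positivity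

theorem q_mem (m : ℕ) : (fun x : ZMod P => ((q m x : ℝ) : ℂ)) ∈ T P (4 * (m - 1)) := by
  have := T_mul (D_sq_mem (P := P) m 0) (D_sq_mem (P := P) m 0)
  have h : 2 * (m - 1) + 2 * (m - 1) = 4 * (m - 1) := by ring
  rw [h] at this
  convert this using 1
  funext x
  simp [q]

theorem D_ge (m : ℕ) (hm : 0 < m) (j : ℕ) (hj : j ≤ P / (2 * m)) :
    2 * (m : ℝ) / Real.pi ≤ ‖(D m 0 (j : ZMod P) : ℂ)‖ := by
  have hm' : (0:ℝ) < m := by exact_mod_cast hm
  have hP : (0:ℝ) < P := by exact_mod_cast Nat.pos_of_ne_zero (NeZero.ne P)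
  rcases Nat.eq_zero_or_pos j with rfl | hj0
  · have : (D m 0 ((0 : ℕ) : ZMod P) : ℂ) = m := by
      simp [D]
    rw [this, Complex.norm_natCast, div_le_iff₀ Real.pi_pos]
    nlinarith [Real.pi_gt_three]
  have hj1 : (0:ℝ) < j := by exact_mod_cast hj0
  have hjm : j * (2 * m) ≤ P := le_trans (Nat.mul_le_mul_right _ hj) (Nat.div_mul_le_self P (2 * m))
  have h1 := D_mul m 0 (j : ZMod P)
  have h2 : Complex.exp (Complex.I * ((0:ℝ) : ℂ)) = 1 := by simp
  rw [h2, one_mul] at h1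
  have h3 : (ZMod.stdAddChar ((j : ℕ) : ZMod P) : ℂ) ^ m =
      ZMod.stdAddChar (((m * j : ℕ)) : ZMod P) := by
    rw [← AddChar.map_nsmul_eq_pow, nsmul_eq_mul]
    push_cast
    rfl
  rw [h3] at h1
  have h4 := le_norm_sub_one ((m * j : ℕ) : ZMod P)
  have h5 : d (((m * j : ℕ)) : ZMod P) = m * j := by
    have h50 : m * j ≤ P / 2 := by
      rw [Nat.le_div_iff_mul_le (by norm_num)]
      calc m * j * 2 = j * (2 * m) := by ring
        _ ≤ P := hjm
    rw [d, ZMod.valMinAbs_natCast_of_le_half h50, Int.natAbs_natCast]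
  rw [h5] at h4
  have h6 := norm_sub_one_le ((j : ℕ) : ZMod P)
  have h7 : (d ((j : ℕ) : ZMod P) : ℝ) ≤ j := by
    have h8 := ZMod.natAbs_min_of_le_div_two P (((j : ℕ) : ZMod P)).valMinAbs (j : ℤ)
      (by rw [ZMod.coe_valMinAbs]; push_cast; rfl) (ZMod.natAbs_valMinAbs_le _)
    rw [Int.natAbs_natCast] at h8
    exact_mod_cast h8
  have h8 : ‖(ZMod.stdAddChar ((j : ℕ) : ZMod P) : ℂ) - 1‖ ≤ 2 * Real.pi * j / P := by
    refine le_trans h6 ?_
    gcongr
  have h9 : 4 * ((m * j : ℕ) : ℝ) / P ≤ ‖(D m 0 (j : ZMod P) : ℂ)‖ * (2 * Real.pi * j / P) := by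
    refine le_trans h4 ?_
    rw [← h1]
    exact mul_le_mul_of_nonneg_left h8 (norm_nonneg _)
  have h10 : 2 * (m : ℝ) / Real.pi * (2 * Real.pi * j / P) = 4 * ((m * j : ℕ) : ℝ) / P := by
    push_cast
    field_simp
    ring
  rw [← h10] at h9
  exact le_of_mul_le_mul_right h9 (by positivity)

theorem sum_q_ge (m : ℕ) (hm : 0 < m) : 2 / 25 * ((P : ℝ) * m ^ 3) ≤ ∑ x : ZMod P, q m x := by
  have hm' : (0:ℝ) < m := by exact_mod_cast hm
  have hP0 : 0 < P := Nat.pos_of_ne_zero (NeZero.ne P)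
  have hP : (0:ℝ) < P := by exact_mod_cast hP0
  set n := P / (2 * m) with hn
  have hnP : n < P := Nat.div_lt_self hP0 (by omega)
  have hinj : Set.InjOn (fun j : ℕ => (j : ZMod P)) (Finset.range (n + 1) : Set ℕ) := by
    intro a ha b hb hab
    simp only [Finset.coe_range, Set.mem_Iio] at ha hb
    have h1 : ((a : ZMod P)).val = a := ZMod.val_natCast_of_lt (by omega)
    have h2 : ((b : ZMod P)).val = b := ZMod.val_natCast_of_lt (by omega)
    rw [← h1, ← h2]
    exact congrArg ZMod.val hab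
  have h1 : ∑ x ∈ (Finset.range (n + 1)).image (fun j : ℕ => (j : ZMod P)), q m x ≤
      ∑ x : ZMod P, q m x :=
    Finset.sum_le_sum_of_subset_of_nonneg (Finset.subset_univ _) fun x _ _ => q_nonneg m x
  rw [Finset.sum_image hinj] at h1
  have hpi4 : Real.pi ^ 4 ≤ 100 := by
    have h := Real.pi_lt_d2
    have h' := Real.pi_pos
    have h2 : Real.pi ^ 2 ≤ 10 := by nlinarith
    calc Real.pi ^ 4 = Real.pi ^ 2 * Real.pi ^ 2 := by ring
      _ ≤ 10 * 10 := mul_le_mul h2 h2 (by positivity) (by norm_num)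
      _ = 100 := by norm_num
  have h2 : ∀ j ∈ Finset.range (n + 1), 4 / 25 * (m:ℝ) ^ 4 ≤ q m (j : ZMod P) := by
    intro j hj
    rw [Finset.mem_range] at hj
    have h3 := D_ge (P := P) m hm j (by omega)
    have h4 : (2 * (m : ℝ) / Real.pi) ^ 2 ≤ ‖(D m 0 (j : ZMod P) : ℂ)‖ ^ 2 :=
      pow_le_pow_left₀ (by positivity) h3 2
    unfold q
    calc 4 / 25 * (m:ℝ) ^ 4 = 16 * (m:ℝ) ^ 4 / 100 := by ring
      _ ≤ 16 * (m:ℝ) ^ 4 / Real.pi ^ 4 :=
          div_le_div_of_nonneg_left (by positivity) (by positivity) hpi4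
      _ = (2 * (m : ℝ) / Real.pi) ^ 2 * (2 * (m : ℝ) / Real.pi) ^ 2 := by ring
      _ ≤ _ := mul_le_mul h4 h4 (by positivity) (by positivity)
  have h3 := Finset.sum_le_sum h2
  simp only [Finset.sum_const, Finset.card_range, nsmul_eq_mul] at h3
  have h4 : (P:ℝ) / (2 * m) ≤ ((n + 1 : ℕ) : ℝ) := by
    rw [div_le_iff₀ (by positivity)]
    have : P < (n + 1) * (2 * m) := by
      have := Nat.lt_div_mul_add (a := P) (b := 2 * m) (by omega)
      rw [← hn] at this
      linarith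
    exact_mod_cast this.le
  calc 2 / 25 * ((P : ℝ) * m ^ 3) = (P:ℝ) / (2 * m) * (4 / 25 * (m:ℝ) ^ 4) := by
        field_simp; norm_num
    _ ≤ ((n + 1 : ℕ) : ℝ) * (4 / 25 * (m:ℝ) ^ 4) := mul_le_mul_of_nonneg_right h4 (by positivity)
    _ ≤ _ := le_trans h3 h1

/-- the tail of the Jackson kernel -/
noncomputable def A (m : ℕ) (t : ZMod P) : ℝ := ∑ y : ZMod P, if d t ≤ d y then q m y else 0

theorem A_nonneg (m : ℕ) (t : ZMod P) : 0 ≤ A m t :=
  Finset.sum_nonneg fun y _ => by split_ifs; exacts [q_nonneg m y, le_rfl]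

theorem A_le (m : ℕ) (t : ZMod P) : A m t ≤ ∑ y : ZMod P, q m y :=
  Finset.sum_le_sum fun y _ => by split_ifs; exacts [le_rfl, q_nonneg m y]

theorem A_moment (m : ℕ) (hmP : m ≤ P) (t : ZMod P) :
    (d t : ℝ) ^ 2 * A m t ≤ (P:ℝ) ^ 3 * m / 4 := by
  rw [A, Finset.mul_sum]
  have h1 : ∀ y ∈ (Finset.univ : Finset (ZMod P)),
      (d t : ℝ) ^ 2 * (if d t ≤ d y then q m y else 0) ≤ (P:ℝ) ^ 2 / 4 * ‖D m 0 y‖ ^ 2 := by
    intro y _
    split_ifs with h
    · have h2 : (d t : ℝ) ^ 2 ≤ (d y : ℝ) ^ 2 :=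
        pow_le_pow_left₀ (by positivity) (by exact_mod_cast h) 2
      have h3 := D_d_le m y
      have h4 : (‖D m 0 y‖ * d y) ^ 2 ≤ ((P:ℝ) / 2) ^ 2 := pow_le_pow_left₀ (by positivity) h3 2
      unfold q
      calc (d t : ℝ) ^ 2 * (‖D m 0 y‖ ^ 2 * ‖D m 0 y‖ ^ 2)
          ≤ (d y : ℝ) ^ 2 * (‖D m 0 y‖ ^ 2 * ‖D m 0 y‖ ^ 2) :=
            mul_le_mul_of_nonneg_right h2 (by positivity)
        _ = (‖D m 0 y‖ * d y) ^ 2 * ‖D m 0 y‖ ^ 2 := by ring
        _ ≤ ((P:ℝ) / 2) ^ 2 * ‖D m 0 y‖ ^ 2 := mul_le_mul_of_nonneg_right h4 (by positivity)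
        _ = _ := by ring
    · rw [mul_zero]; positivity
  refine le_trans (Finset.sum_le_sum h1) ?_
  rw [← Finset.mul_sum, sum_D_sq m hmP]
  apply le_of_eq; ring

theorem A_le_E (m : ℕ) (hm : 0 < m) (hmP : m ≤ P) (t : ZMod P) :
    A m t / (∑ y : ZMod P, q m y) ≤ 52 / (m:ℝ) ^ 2 * E m t := by
  have hm' : (0:ℝ) < m := by exact_mod_cast hm
  have hP : (0:ℝ) < P := by exact_mod_cast Nat.pos_of_ne_zero (NeZero.ne P)
  have hQ := sum_q_ge (P := P) m hm
  set Q := ∑ y : ZMod P, q m y with hQd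
  have hQ0 : 0 < Q := lt_of_lt_of_le (by positivity) hQ
  set τ := A m t / Q with hτ
  have hτ0 : 0 ≤ τ := div_nonneg (A_nonneg m t) hQ0.le
  have hτ1 : τ ≤ 1 := (div_le_one hQ0).2 (A_le m t)
  have hAτ : A m t = τ * Q := by rw [hτ]; field_simp
  set z : ℝ := m * d t / P with hz
  have hz0 : 0 ≤ z := by positivity
  have h1 := A_moment m hmP t
  rw [hAτ] at h1
  have h2 : (d t : ℝ) ^ 2 * (τ * (2 / 25 * ((P : ℝ) * m ^ 3))) ≤ (P:ℝ) ^ 3 * m / 4 :=
    le_trans (mul_le_mul_of_nonneg_left (mul_le_mul_of_nonneg_left hQ hτ0) (by positivity)) h1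
  have h3 : τ * z ^ 2 ≤ 25 / 8 := by
    have h4 : (d t : ℝ) = z * P / m := by rw [hz]; field_simp
    rw [h4] at h2
    have h5 : (z * P / m) ^ 2 * (τ * (2 / 25 * ((P : ℝ) * m ^ 3))) =
        (τ * z ^ 2) * (2 / 25 * ((P:ℝ) ^ 3 * m)) := by
      field_simp
    rw [h5] at h2
    have h6 : (P:ℝ) ^ 3 * m / 4 = 25 / 8 * (2 / 25 * ((P:ℝ) ^ 3 * m)) := by ring
    rw [h6] at h2
    exact le_of_mul_le_mul_right h2 (by positivity)
  have h4 := le_E m hm t
  set ρ := 2 * Real.pi * (d t : ℝ) / P + Real.pi / m with hρ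
  have hρz : ρ * m = Real.pi * (2 * z + 1) := by
    rw [hρ, hz]; field_simp
  have hρ0 : 0 < ρ := by positivity
  have hpi : Real.pi ^ 2 ≤ 9.9225 := by
    have := Real.pi_lt_d2
    have := Real.pi_pos
    nlinarith
  have h5 : τ * (ρ * m) ^ 2 ≤ 208 := by
    rw [hρz, mul_pow]
    have h6 : (2 * z + 1) ^ 2 ≤ 5 * z ^ 2 + 5 := by nlinarith [sq_nonneg (z - 2)]
    calc τ * (Real.pi ^ 2 * (2 * z + 1) ^ 2) = Real.pi ^ 2 * (τ * (2 * z + 1) ^ 2) := by ring
      _ ≤ Real.pi ^ 2 * (τ * (5 * z ^ 2 + 5)) :=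
          mul_le_mul_of_nonneg_left (mul_le_mul_of_nonneg_left h6 hτ0) (by positivity)
      _ = Real.pi ^ 2 * (5 * (τ * z ^ 2) + 5 * τ) := by ring
      _ ≤ Real.pi ^ 2 * (165 / 8) := mul_le_mul_of_nonneg_left (by linarith) (by positivity)
      _ ≤ 9.9225 * (165 / 8) := mul_le_mul_of_nonneg_right hpi (by norm_num)
      _ ≤ 208 := by norm_num
  have h6 : (τ * (m:ℝ) ^ 2) * ρ ^ 2 ≤ (52 * E m t) * ρ ^ 2 := by
    have h7 : τ * (ρ * m) ^ 2 = (τ * (m:ℝ) ^ 2) * ρ ^ 2 := by ring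
    rw [h7] at h5
    nlinarith
  have h7 := le_of_mul_le_mul_right h6 (by positivity)
  rw [div_mul_eq_mul_div, le_div_iff₀ (by positivity)]
  exact h7

end Tail

section Main

variable {P : ℕ} [NeZero P]

/-- total variation density -/
def μ (f : ZMod P → ℝ) (j : ZMod P) : ℝ := |f (j + 1) - f j|

theorem d_natCast_le (i : ℕ) : d (i : ZMod P) ≤ i := by
  have h := ZMod.natAbs_min_of_le_div_two P ((i : ZMod P)).valMinAbs (i : ℤ)
    (by rw [ZMod.coe_valMinAbs]; push_cast; rfl) (ZMod.natAbs_valMinAbs_le _)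
  simpa [d] using h

omit [NeZero P] in
theorem d_neg (x : ZMod P) : d (-x) = d x := by
  simp [d, ZMod.natAbs_valMinAbs_neg]

theorem sum_image_le {f : ZMod P → ℝ} (n : ℕ) (hn : n < P) (x : ZMod P) (y : ZMod P) (hy : d y = n)
    (s : ZMod P) (c : ZMod P)
    (hs : s = 1 ∨ s = -1)
    (hg : ∀ i : ℕ, i < n → d (x - (c + s * (i : ZMod P))) ≤ n) :
    ∑ i ∈ Finset.range n, μ f (c + s * (i : ZMod P)) ≤
      ∑ j : ZMod P, if d (x - j) ≤ d y then μ f j else 0 := by
  have hinj : Set.InjOn (fun i : ℕ => c + s * (i : ZMod P)) (Finset.range n : Set ℕ) := by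
    intro a ha b hb hab
    simp only [Finset.coe_range, Set.mem_Iio] at ha hb
    have h0 : s * (a : ZMod P) = s * (b : ZMod P) := add_left_cancel hab
    have h00 : (a : ZMod P) = (b : ZMod P) := by
      rcases hs with h | h
      · rw [h, one_mul, one_mul] at h0; exact h0
      · rw [h, neg_mul, neg_mul, one_mul, one_mul] at h0; exact neg_injective h0
    have h1 : ((a : ZMod P)).val = a := ZMod.val_natCast_of_lt (by omega)
    have h2 : ((b : ZMod P)).val = b := ZMod.val_natCast_of_lt (by omega)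
    rw [← h1, ← h2]
    exact congrArg ZMod.val h00
  rw [← Finset.sum_image (f := fun j => μ f j) hinj, ← Finset.sum_filter]
  refine Finset.sum_le_sum_of_subset_of_nonneg ?_ fun _ _ _ => abs_nonneg _
  intro j hj
  rw [Finset.mem_image] at hj
  obtain ⟨i, hi, rfl⟩ := hj
  rw [Finset.mem_range] at hi
  rw [Finset.mem_filter]
  exact ⟨Finset.mem_univ _, by rw [hy]; exact hg i hi⟩

theorem path_le (f : ZMod P → ℝ) (x y : ZMod P) :
    |f x - f (x - y)| ≤ ∑ j : ZMod P, if d (x - j) ≤ d y then μ f j else 0 := by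
  have hP0 : 0 < P := Nat.pos_of_ne_zero (NeZero.ne P)
  have hlt : d y < P := by have := two_d_le y; omega
  rcases Int.natAbs_eq y.valMinAbs with h | h
  · have hy : y = ((d y : ℕ) : ZMod P) := by
      have h2 : ((y.valMinAbs : ℤ) : ZMod P) = ((y.valMinAbs.natAbs : ℤ) : ZMod P) :=
        congrArg _ h
      rw [ZMod.coe_valMinAbs, Int.cast_natCast] at h2
      exact h2
    have h1 : ∀ n : ℕ, |f x - f (x - (n : ZMod P))| ≤
        ∑ i ∈ Finset.range n, μ f ((x - 1) + (-1) * (i : ZMod P)) := by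
      intro n
      induction n with
      | zero => simp
      | succ n ih =>
        rw [Finset.sum_range_succ]
        have e1 : x - ((n + 1 : ℕ) : ZMod P) = x - 1 + (-1) * (n : ZMod P) := by push_cast; ring
        have e2 : x - 1 + (-1) * (n : ZMod P) + 1 = x - (n : ZMod P) := by ring
        have h2 : |f x - f (x - ((n + 1 : ℕ) : ZMod P))| ≤ |f x - f (x - (n : ZMod P))| +
            μ f (x - 1 + (-1) * (n : ZMod P)) := by
          rw [μ, e2, e1]
          exact abs_sub_le _ _ _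
        linarith
    have h2 := h1 (d y)
    rw [← hy] at h2
    refine le_trans h2 (sum_image_le (d y) hlt x y rfl (-1) (x - 1) (Or.inr rfl) ?_)
    intro i hi
    have : x - (x - 1 + (-1) * (i : ZMod P)) = ((i + 1 : ℕ) : ZMod P) := by push_cast; ring
    rw [this]
    exact le_trans (d_natCast_le _) hi
  · have hy : y = -((d y : ℕ) : ZMod P) := by
      have h2 : ((y.valMinAbs : ℤ) : ZMod P) = ((-(y.valMinAbs.natAbs : ℤ) : ℤ) : ZMod P) :=
        congrArg _ h
      rw [ZMod.coe_valMinAbs, Int.cast_neg, Int.cast_natCast] at h2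
      exact h2
    have h1 : ∀ n : ℕ, |f x - f (x + (n : ZMod P))| ≤
        ∑ i ∈ Finset.range n, μ f (x + 1 * (i : ZMod P)) := by
      intro n
      induction n with
      | zero => simp
      | succ n ih =>
        rw [Finset.sum_range_succ]
        have e1 : x + ((n + 1 : ℕ) : ZMod P) = x + 1 * (n : ZMod P) + 1 := by push_cast; ring
        have h2 : |f x - f (x + ((n + 1 : ℕ) : ZMod P))| ≤ |f x - f (x + (n : ZMod P))| +
            μ f (x + 1 * (n : ZMod P)) := by
          rw [μ, e1, abs_sub_comm (f (x + 1 * (n : ZMod P) + 1)), one_mul]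
          exact abs_sub_le _ _ _
        linarith
    have h2 := h1 (d y)
    have e : x - y = x + ((d y : ℕ) : ZMod P) := by
      conv_lhs => rw [hy]
      ring
    rw [← e] at h2
    refine le_trans h2 (sum_image_le (d y) hlt x y rfl 1 x (Or.inl rfl) ?_)
    intro i hi
    have : x - (x + 1 * (i : ZMod P)) = -(i : ZMod P) := by ring
    rw [this, d_neg]
    exact le_trans (d_natCast_le _) hi.le

theorem sum_sub_left (g : ZMod P → ℝ) (y : ZMod P) : ∑ x : ZMod P, g (x - y) = ∑ x : ZMod P, g x :=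
  (Equiv.subRight y).sum_comp g

/-- **Trigonometric majorants and minorants on `ZMod P`.** -/
theorem exists_trig_bounds (P : ℕ) [NeZero P] (H : ℕ) (hH : 0 < H) (hHP : 2 * H < P)
    (f : ZMod P → ℝ) (V : ℝ) (hV : ∑ x, |f (x + 1) - f x| ≤ V) :
    ∃ (Fm Fp : ZMod P → ℝ) (cm cp : ℤ → ℂ),
      (∀ x, (Fm x : ℂ) = trig P H cm x) ∧ (∀ x, (Fp x : ℂ) = trig P H cp x) ∧
      (∀ x, Fm x ≤ f x) ∧ (∀ x, f x ≤ Fp x) ∧
      (∑ x, Fp x) / P ≤ (∑ x, f x) / P + 416 * V / H ∧
      (∑ x, f x) / P - 416 * V / H ≤ (∑ x, Fm x) / P ∧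
      cp 0 = (((∑ x, Fp x) / P : ℝ) : ℂ) ∧ cm 0 = (((∑ x, Fm x) / P : ℝ) : ℂ) ∧
      (∀ k : ℤ, (H:ℤ) < |k| → cp k = 0 ∧ cm k = 0) ∧
      (∀ k, ‖cp k‖ ≤ (∑ x, |Fp x|) / P) ∧ (∀ k, ‖cm k‖ ≤ (∑ x, |Fm x|) / P) ∧
      (∀ k, ‖cp k‖ ≤ (∑ x, |f x|) / P + 416 * V / H) ∧
      (∀ k, ‖cm k‖ ≤ (∑ x, |f x|) / P + 416 * V / H) ∧
      (∀ k, ‖cp k - cm k‖ ≤ (∑ x, Fp x) / P - (∑ x, Fm x) / P) ∧
      ∀ M : ℝ, (∀ x, |f x| ≤ M) → ∀ x, |Fp x| ≤ M + 104 * V ∧ |Fm x| ≤ M + 104 * V := by
  have hP0 : 0 < P := Nat.pos_of_ne_zero (NeZero.ne P)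
  have hP : (0:ℝ) < P := by exact_mod_cast hP0
  have hH' : (0:ℝ) < H := by exact_mod_cast hH
  set m := H / 4 + 1 with hm
  have hm0 : 0 < m := Nat.succ_pos _
  have hm' : (0:ℝ) < m := by exact_mod_cast hm0
  have hmP : m ≤ P := by omega
  have hdeg : 4 * (m - 1) ≤ H := by omega
  have hdeg2 : 2 * (m - 1) ≤ H := by omega
  have hHm : (H:ℝ) ≤ 4 * m := by
    have : H ≤ 4 * m := by omega
    exact_mod_cast this
  set Q := ∑ y : ZMod P, q m y with hQd
  have hQ0 : 0 < Q := lt_of_lt_of_le (by positivity) (sum_q_ge (P := P) m hm0)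
  set v := ∑ x, |f (x + 1) - f x| with hv
  have hv0 : 0 ≤ v := Finset.sum_nonneg fun _ _ => abs_nonneg _
  have hvμ : v = ∑ j : ZMod P, μ f j := rfl
  -- the smoothed function
  set g : ZMod P → ℝ := fun x => ∑ j : ZMod P, f j / Q * q m (x - j) with hg
  have hg' : ∀ x, g x = ∑ y : ZMod P, f (x - y) * q m y / Q := by
    intro x
    rw [hg]
    simp only
    rw [← (Equiv.subLeft x).sum_comp]
    refine Finset.sum_congr rfl fun y _ => ?_
    simp only [Equiv.subLeft_apply]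
    rw [sub_sub_cancel]
    ring
  set R : ZMod P → ℝ := fun x => ∑ j : ZMod P, (52 / (m:ℝ) ^ 2 * μ f j) * E m (x - j) with hR
  have hR0 : ∀ x, 0 ≤ R x := fun x =>
    Finset.sum_nonneg fun j _ => mul_nonneg (mul_nonneg (by positivity) (abs_nonneg _)) (E_nonneg _ _)
  -- main estimate
  have hmain : ∀ x, |f x - g x| ≤ R x := by
    intro x
    have h1 : f x - g x = ∑ y : ZMod P, (f x - f (x - y)) * (q m y / Q) := by
      rw [hg' x]
      have : f x = ∑ y : ZMod P, f x * (q m y / Q) := by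
        rw [← Finset.mul_sum, ← Finset.sum_div, ← hQd, div_self hQ0.ne', mul_one]
      conv_lhs => rw [this]
      rw [← Finset.sum_sub_distrib]
      refine Finset.sum_congr rfl fun y _ => ?_
      ring
    rw [h1]
    refine le_trans (Finset.abs_sum_le_sum_abs _ _) ?_
    have h2 : ∀ y ∈ (Finset.univ : Finset (ZMod P)), |(f x - f (x - y)) * (q m y / Q)| ≤
        ∑ j : ZMod P, (if d (x - j) ≤ d y then q m y else 0) / Q * μ f j := by
      intro y _
      have h3 : 0 ≤ q m y / Q := div_nonneg (q_nonneg m y) hQ0.le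
      rw [abs_mul, abs_of_nonneg h3]
      refine le_trans (mul_le_mul_of_nonneg_right (path_le f x y) h3) (le_of_eq ?_)
      rw [Finset.sum_mul]
      refine Finset.sum_congr rfl fun j _ => ?_
      split_ifs
      · ring
      · simp
    refine le_trans (Finset.sum_le_sum h2) ?_
    rw [Finset.sum_comm]
    refine Finset.sum_le_sum fun j _ => ?_
    rw [← Finset.sum_mul, ← Finset.sum_div]
    have h3 := A_le_E (P := P) m hm0 hmP (x - j)
    rw [A] at h3
    calc (∑ y : ZMod P, if d (x - j) ≤ d y then q m y else 0) / Q * μ f j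
        ≤ 52 / (m:ℝ) ^ 2 * E m (x - j) * μ f j := mul_le_mul_of_nonneg_right h3 (abs_nonneg _)
      _ = _ := by ring
  -- sums
  have hsumg : ∑ x, g x = ∑ x, f x := by
    rw [hg]
    rw [Finset.sum_comm]
    refine Finset.sum_congr rfl fun j _ => ?_
    rw [← Finset.mul_sum, sum_sub_left (q m) j, ← hQd]
    field_simp
  have hsumR : ∑ x, R x = 104 * v / m * P := by
    rw [hR, Finset.sum_comm]
    have : ∀ j ∈ (Finset.univ : Finset (ZMod P)),
        ∑ x : ZMod P, (52 / (m:ℝ) ^ 2 * μ f j) * E m (x - j) =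
          μ f j * (104 / m * P) := by
      intro j _
      rw [← Finset.mul_sum, sum_sub_left (E m) j, sum_E m hmP]
      field_simp
      ring
    rw [Finset.sum_congr rfl this, ← Finset.sum_mul, ← hvμ]
    ring
  have hRV : 104 * v / m ≤ 416 * V / H := by
    rw [div_le_div_iff₀ hm' hH']
    have hV0 : 0 ≤ V := le_trans hv0 hV
    calc 104 * v * H ≤ 104 * V * (4 * m) := by
          apply mul_le_mul (by linarith) hHm hH'.le (by linarith)
      _ = 416 * V * m := by ring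
  have hRsup : ∀ x, R x ≤ 104 * V := by
    intro x
    rw [hR]
    calc ∑ j : ZMod P, (52 / (m:ℝ) ^ 2 * μ f j) * E m (x - j)
        ≤ ∑ j : ZMod P, (52 / (m:ℝ) ^ 2 * μ f j) * (2 * (m:ℝ) ^ 2) :=
          Finset.sum_le_sum fun j _ => mul_le_mul_of_nonneg_left (E_le m _)
            (mul_nonneg (by positivity) (abs_nonneg _))
      _ = 104 * v := by
          rw [← Finset.sum_mul, ← Finset.mul_sum, ← hvμ]
          field_simp
          ring
      _ ≤ 104 * V := by linarith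
  have hgsup : ∀ M : ℝ, (∀ x, |f x| ≤ M) → ∀ x, |g x| ≤ M := by
    intro M hM x
    rw [hg' x]
    refine le_trans (Finset.abs_sum_le_sum_abs _ _) ?_
    calc ∑ y : ZMod P, |f (x - y) * q m y / Q| ≤ ∑ y : ZMod P, M * (q m y / Q) := by
          refine Finset.sum_le_sum fun y _ => ?_
          rw [mul_div_assoc, abs_mul, abs_of_nonneg (div_nonneg (q_nonneg m y) hQ0.le)]
          exact mul_le_mul_of_nonneg_right (hM _) (div_nonneg (q_nonneg m y) hQ0.le)
      _ = M := by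
          rw [← Finset.mul_sum, ← Finset.sum_div, ← hQd, div_self hQ0.ne', mul_one]
  -- membership
  have hgT : (fun x => ((g x : ℝ) : ℂ)) ∈ T P H := by
    have : (fun x => ((g x : ℝ) : ℂ)) =
        ∑ j : ZMod P, ((f j / Q : ℝ) : ℂ) • (fun x : ZMod P => ((q m (x - j) : ℝ) : ℂ)) := by
      funext x
      rw [hg]
      simp [Finset.sum_apply]
    rw [this]
    refine Submodule.sum_mem _ fun j _ => Submodule.smul_mem _ _ ?_
    exact T_mono hdeg (T_shift (q_mem m) j)
  have hRT : (fun x => ((R x : ℝ) : ℂ)) ∈ T P H := by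
    have : (fun x => ((R x : ℝ) : ℂ)) =
        ∑ j : ZMod P, ((52 / (m:ℝ) ^ 2 * μ f j : ℝ) : ℂ) •
          (fun x : ZMod P => ((E m (x - j) : ℝ) : ℂ)) := by
      funext x
      rw [hR]
      simp [Finset.sum_apply]
    rw [this]
    refine Submodule.sum_mem _ fun j _ => Submodule.smul_mem _ _ ?_
    exact T_mono hdeg2 (T_shift (E_mem m) j)
  obtain ⟨cg, hcg⟩ := exists_coeff hgT
  obtain ⟨cR, hcR⟩ := exists_coeff hRT
  -- truncated coefficients
  have htrunc : ∀ (c : ℤ → ℂ) (x : ZMod P),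
      trig P H (fun k => if |k| ≤ (H:ℤ) then c k else 0) x = trig P H c x := by
    intro c x
    refine Finset.sum_congr rfl fun k hk => ?_
    rw [Finset.mem_Icc] at hk
    simp only
    rw [if_pos (abs_le.2 hk)]
  set cp : ℤ → ℂ := fun k => if |k| ≤ (H:ℤ) then cg k + cR k else 0 with hcp
  set cm : ℤ → ℂ := fun k => if |k| ≤ (H:ℤ) then cg k - cR k else 0 with hcm
  have hFp : ∀ x, ((g x + R x : ℝ) : ℂ) = trig P H cp x := by
    intro x
    rw [hcp, htrunc (fun k => cg k + cR k)]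
    push_cast
    have h1 : ((g x : ℝ) : ℂ) = _ := hcg x
    have h2 : ((R x : ℝ) : ℂ) = _ := hcR x
    rw [h1, h2]
    simp only [trig, add_mul, Finset.sum_add_distrib]
  have hFm : ∀ x, ((g x - R x : ℝ) : ℂ) = trig P H cm x := by
    intro x
    rw [hcm, htrunc (fun k => cg k - cR k)]
    push_cast
    have h1 : ((g x : ℝ) : ℂ) = _ := hcg x
    have h2 : ((R x : ℝ) : ℂ) = _ := hcR x
    rw [h1, h2]
    simp only [trig, sub_mul, Finset.sum_sub_distrib]
  have hbound : ∀ (F : ZMod P → ℝ) (c : ℤ → ℂ), (∀ x, (F x : ℂ) = trig P H c x) →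
      (∀ k : ℤ, (H:ℤ) < |k| → c k = 0) → ∀ k, ‖c k‖ ≤ (∑ x, |F x|) / P := by
    intro F c hF hc k
    rcases lt_or_ge (H:ℤ) |k| with hk | hk
    · rw [hc k hk, norm_zero]
      exact div_nonneg (Finset.sum_nonneg fun _ _ => abs_nonneg _) hP.le
    · refine le_trans (coeff_le hHP c k hk) (le_of_eq ?_)
      congr 1
      refine Finset.sum_congr rfl fun x _ => ?_
      rw [← hF x, Complex.norm_real, Real.norm_eq_abs]
  have hzero : ∀ (F : ZMod P → ℝ) (c : ℤ → ℂ), (∀ x, (F x : ℂ) = trig P H c x) →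
      c 0 = (((∑ x, F x) / P : ℝ) : ℂ) := by
    intro F c hF
    rw [coeff_zero_eq hHP c]
    push_cast
    congr 1
    exact Finset.sum_congr rfl fun x _ => (hF x).symm
  have hcp0 : ∀ k : ℤ, (H:ℤ) < |k| → cp k = 0 := fun k hk => by
    rw [hcp]; simp only; rw [if_neg (not_le.2 hk)]
  have hcm0 : ∀ k : ℤ, (H:ℤ) < |k| → cm k = 0 := fun k hk => by
    rw [hcm]; simp only; rw [if_neg (not_le.2 hk)]
  have hgabs : (∑ x, |g x|) / P ≤ (∑ x, |f x|) / P := by
    refine div_le_div_of_nonneg_right ?_ hP.le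
    calc ∑ x, |g x| ≤ ∑ x, ∑ y : ZMod P, |f (x - y)| * (q m y / Q) := by
          refine Finset.sum_le_sum fun x _ => ?_
          rw [hg' x]
          refine le_trans (Finset.abs_sum_le_sum_abs _ _) (le_of_eq ?_)
          refine Finset.sum_congr rfl fun y _ => ?_
          rw [mul_div_assoc, abs_mul, abs_of_nonneg (div_nonneg (q_nonneg m y) hQ0.le)]
      _ = ∑ x, |f x| := by
          rw [Finset.sum_comm]
          have : ∀ y ∈ (Finset.univ : Finset (ZMod P)),
              ∑ x : ZMod P, |f (x - y)| * (q m y / Q) = (∑ x, |f x|) * (q m y / Q) := by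
            intro y _
            rw [← Finset.sum_mul, sum_sub_left (fun x => |f x|) y]
          rw [Finset.sum_congr rfl this, ← Finset.mul_sum, ← Finset.sum_div, ← hQd,
            div_self hQ0.ne', mul_one]
  have hcgb : ∀ k : ℤ, |k| ≤ (H:ℤ) → ‖cg k‖ ≤ (∑ x, |f x|) / P := by
    intro k hk
    refine le_trans (coeff_le hHP cg k hk) (le_trans (le_of_eq ?_) hgabs)
    congr 1
    refine Finset.sum_congr rfl fun x _ => ?_
    have h1 : ((g x : ℝ) : ℂ) = _ := hcg x
    rw [← h1, Complex.norm_real, Real.norm_eq_abs]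
  have hcRb : ∀ k : ℤ, |k| ≤ (H:ℤ) → ‖cR k‖ ≤ 416 * V / H := by
    intro k hk
    refine le_trans (coeff_le hHP cR k hk) (le_trans (le_of_eq ?_) hRV)
    have : ∑ x : ZMod P, ‖trig P H cR x‖ = ∑ x, R x := by
      refine Finset.sum_congr rfl fun x _ => ?_
      have h1 : ((R x : ℝ) : ℂ) = _ := hcR x
      rw [← h1, Complex.norm_real, Real.norm_eq_abs, abs_of_nonneg (hR0 x)]
    rw [this, hsumR, mul_div_assoc, div_self hP.ne', mul_one]
  have hf0 : 0 ≤ (∑ x, |f x|) / P + 416 * V / H := by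
    have h1 : 0 ≤ (∑ x, |f x|) / P := div_nonneg (Finset.sum_nonneg fun _ _ => abs_nonneg _) hP.le
    have h2 : 0 ≤ 104 * v / m := by positivity
    linarith
  refine ⟨fun x => g x - R x, fun x => g x + R x, cm, cp, hFm, hFp, ?_, ?_, ?_, ?_, ?_, ?_, ?_, ?_,
    ?_, ?_, ?_, ?_, ?_⟩
  · intro x
    have := (abs_le.1 (hmain x)).1
    simp only; linarith
  · intro x
    have := (abs_le.1 (hmain x)).2
    simp only; linarith
  · rw [Finset.sum_add_distrib, hsumg, hsumR, add_div, mul_div_assoc (104 * v / m), div_self hP.ne',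
      mul_one]
    linarith
  · rw [Finset.sum_sub_distrib, hsumg, hsumR, sub_div, mul_div_assoc (104 * v / m), div_self hP.ne',
      mul_one]
    linarith
  · exact hzero _ cp hFp
  · exact hzero _ cm hFm
  · exact fun k hk => ⟨hcp0 k hk, hcm0 k hk⟩
  · exact hbound _ cp hFp hcp0
  · exact hbound _ cm hFm hcm0
  · intro k
    rcases lt_or_ge (H:ℤ) |k| with hk | hk
    · rw [hcp0 k hk, norm_zero]; exact hf0
    · rw [hcp]; simp only; rw [if_pos hk]
      exact le_trans (norm_add_le _ _) (add_le_add (hcgb k hk) (hcRb k hk))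
  · intro k
    rcases lt_or_ge (H:ℤ) |k| with hk | hk
    · rw [hcm0 k hk, norm_zero]; exact hf0
    · rw [hcm]; simp only; rw [if_pos hk]
      exact le_trans (norm_sub_le _ _) (add_le_add (hcgb k hk) (hcRb k hk))
  · intro k
    have h := hbound (fun x => (g x + R x) - (g x - R x)) (fun k => cp k - cm k) (fun x => by
      rw [Complex.ofReal_sub, hFp, hFm]
      simp only [trig, sub_mul, Finset.sum_sub_distrib]) (fun k hk => by
      rw [hcp0 k hk, hcm0 k hk, sub_zero]) k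
    refine le_trans h (le_of_eq ?_)
    rw [← sub_div, ← Finset.sum_sub_distrib]
    congr 1
    refine Finset.sum_congr rfl fun x _ => ?_
    rw [abs_of_nonneg]
    have := hR0 x
    linarith
  · intro M hM x
    have h1 := hgsup M hM x
    have h2 := hRsup x
    have h3 := hR0 x
    rw [abs_le] at h1
    constructor
    · rw [abs_le]; constructor <;> linarith [h1.1, h1.2]
    · rw [abs_le]; constructor <;> linarith [h1.1, h1.2]

end Main

end Crest.Agent.R225.Maj
end

-- ▼ part R225/F1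
section

/-!
# Row 225, node F1: trigonometric majorants and minorants
-/

set_option autoImplicit false

open Finset
open scoped BigOperators

namespace Crest.Agent.R225

theorem expect_zmod {P : ℕ} [NeZero P] (f : ZMod P → ℝ) : 𝔼 x, f x = (∑ x, f x) / P := by
  rw [Finset.expect_eq_sum_div_card, Finset.card_univ, ZMod.card]

theorem prf_F1 : S_F1 := by
  intro H P _ δ α f hδ hδ1 hH hHP hα hf
  have hP0 : 0 < P := Nat.pos_of_ne_zero (NeZero.ne P)
  have hP : (0:ℝ) < P := by exact_mod_cast hP0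
  have hH' : (0:ℝ) < H := lt_of_lt_of_le (by positivity) hH
  have hH0 : 0 < H := by exact_mod_cast hH'
  have h2 : 2 * H < P := by
    have h3 : δ * P ≤ P := by nlinarith
    have h4 : (2:ℝ) * H < P := by linarith
    exact_mod_cast h4
  obtain ⟨Fm, Fp, cm, cp, hFm, hFp, hm, hp, hmp, hmm, hcp0, hcm0, -, -, -, hcpb, hcmb, -, -⟩ :=
    Maj.exists_trig_bounds P H hH0 h2 f (2 * α) hf.2
  have hsmall : 416 * (2 * α) / H ≤ δ * α := by
    rw [div_le_iff₀ hH']
    have h5 : 1000 ≤ H * δ ^ 2 := by rwa [div_le_iff₀ (by positivity)] at hH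
    have h6 : H * δ ^ 2 ≤ H * δ := by
      apply mul_le_mul_of_nonneg_left _ hH'.le
      nlinarith
    nlinarith
  have hfm : (∑ x, |f x|) / P ≤ α := by
    rw [div_le_iff₀ hP]
    have h5 : ∀ x ∈ (Finset.univ : Finset (ZMod P)), |f x| ≤ α := fun x _ => by
      rw [abs_of_nonneg (hf.1 x).1]; exact (hf.1 x).2
    refine le_trans (Finset.sum_le_sum h5) ?_
    rw [Finset.sum_const, Finset.card_univ, ZMod.card, nsmul_eq_mul, mul_comm]
  have hδα : δ * α ≤ α := by nlinarith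
  refine ⟨Fp, Fm, ⟨cp, fun u => ?_, ?_, hFp⟩, ⟨cm, fun u => ?_, ?_, hFm⟩, fun x => ⟨hm x, hp x⟩,
    ?_, ?_⟩
  · have := hcpb u
    linarith
  · rw [hcp0, expect_zmod]
  · have := hcmb u
    linarith
  · rw [hcm0, expect_zmod]
  · rw [expect_zmod, expect_zmod]; linarith
  · rw [expect_zmod, expect_zmod]; linarith

end Crest.Agent.R225
end

-- ▼ part R225/UB/Fejer
section

/-!
# Fejér majorants and minorants on `ZMod P` (helper728)
-/

set_option autoImplicit false

namespace Crest.Agent.R225.UB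

open Finset ZMod

variable {P : ℕ} [NeZero P]





lemma conj_stdAddChar (x : ZMod P) : (starRingEnd ℂ) (stdAddChar x) = stdAddChar (-x) := by
  rw [stdAddChar_apply, stdAddChar_apply, ← Circle.coe_inv_eq_conj, AddChar.map_neg_eq_inv]

lemma norm_stdAddChar (x : ZMod P) : ‖(stdAddChar x : ℂ)‖ = 1 := by
  rw [stdAddChar_apply]; exact Circle.norm_coe _






















end Crest.Agent.R225.UB
end

-- ▼ part R225/UB/Row
section

/-!
# Row lemmas in the finite model (helper728)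

One row = a uniform element `ω = (c, ψ)` of `ZMod P × (Fin m → ZMod P)`, an atom `g : Fin m → ℤ`
has row value `xi ω g = c + ∑ ψ i * g i`.

* `survival` : `E ∏_a f_a (xi g_a) ≤ ∏ c0_a * #(H-bounded affine relations)`.
* `deviation_lower`, `deviation_upper` : tail bounds for `∑_a f_a (xi g_a)` through the weighted
  additive energy `En`.
-/

set_option autoImplicit false

namespace Crest.Agent.R225.UB

open Finset ZMod

variable {P : ℕ} [NeZero P] {m : ℕ}

/-- Sample space of one row. -/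
abbrev RowΩ (P m : ℕ) : Type := ZMod P × (Fin m → ZMod P)

/-- Row value of the atom `g`. -/
def xi (ω : RowΩ P m) (g : Fin m → ℤ) : ZMod P := ω.1 + ∑ i, ω.2 i * (g i : ZMod P)

/-- Average over one row. -/
noncomputable def avg (F : RowΩ P m → ℝ) : ℝ := (∑ ω, F ω) / (P : ℝ) ^ (m + 1)

lemma addChar_sum {α ι : Type*} [AddCommMonoid α] (e : AddChar α ℂ) (s : Finset ι) (h : ι → α) :
    e (∑ i ∈ s, h i) = ∏ i ∈ s, e (h i) := by
  classical
  induction s using Finset.induction_on with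
  | empty => simp
  | insert a s ha ih => rw [sum_insert ha, prod_insert ha, AddChar.map_add_eq_mul, ih]

lemma sum_char (b : ZMod P) : ∑ x : ZMod P, (stdAddChar (x * b) : ℂ) = if b = 0 then (P : ℂ) else 0 := by
  split_ifs with h
  · simp [h, ZMod.card]
  · have := AddChar.sum_eq_zero_of_ne_one (isPrimitive_stdAddChar P (a := b) h)
    simpa [AddChar.mulShift_apply, mul_comm] using this

lemma sum_char_row (b : ZMod P) (B : Fin m → ZMod P) :
    ∑ ω : RowΩ P m, (stdAddChar (ω.1 * b + ∑ i, ω.2 i * B i) : ℂ) =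
      if b = 0 ∧ ∀ i, B i = 0 then (P : ℂ) ^ (m + 1) else 0 := by
  have h1 : ∑ ω : RowΩ P m, (stdAddChar (ω.1 * b + ∑ i, ω.2 i * B i) : ℂ) =
      (∑ x : ZMod P, (stdAddChar (x * b) : ℂ)) * ∏ i, ∑ x : ZMod P, (stdAddChar (x * B i) : ℂ) := by
    rw [prod_univ_sum, Fintype.piFinset_univ, sum_mul_sum, ← Fintype.sum_prod_type']
    refine Fintype.sum_congr _ _ fun ω => ?_
    rw [AddChar.map_add_eq_mul, addChar_sum]
  rw [h1, sum_char]
  by_cases hb : b = 0
  · by_cases hB : ∀ i, B i = 0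
    · rw [if_pos hb, if_pos ⟨hb, hB⟩]
      have : ∏ i, ∑ x : ZMod P, (stdAddChar (x * B i) : ℂ) = (P : ℂ) ^ m := by
        rw [prod_congr rfl (g := fun _ => (P : ℂ)) (fun i _ => by rw [sum_char, if_pos (hB i)])]
        simp
      rw [this]; ring
    · push Not at hB
      obtain ⟨i, hi⟩ := hB
      have : ∏ i, ∑ x : ZMod P, (stdAddChar (x * B i) : ℂ) = 0 :=
        prod_eq_zero (mem_univ i) (by rw [sum_char, if_neg hi])
      rw [this, mul_zero, if_neg (fun h => hi (h.2 i))]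
  · rw [if_neg hb, if_neg (fun h => hb h.1), zero_mul]

section relations

variable {ι : Type*} [Fintype ι] [DecidableEq ι]



omit [NeZero P] [DecidableEq ι] in
/-- Atoms with bounded coordinates. -/
lemma sum_eq_zero_of_mod {H R : ℕ} (k : ι → ℤ) (hk : ∀ a, |k a| ≤ H) (h : ι → ℤ)
    (hh : ∀ a, |h a| ≤ R) (hP : Fintype.card ι * (H * R) < P)
    (h0 : ((∑ a, k a * h a : ℤ) : ZMod P) = 0) : ∑ a, k a * h a = 0 := by
  rw [ZMod.intCast_zmod_eq_zero_iff_dvd] at h0
  refine Int.eq_zero_of_abs_lt_dvd h0 ?_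
  calc |∑ a, k a * h a| ≤ ∑ a, |k a * h a| := abs_sum_le_sum_abs _ _
    _ ≤ ∑ a : ι, (H * R : ℤ) := by
      refine sum_le_sum fun a _ => ?_
      rw [abs_mul]
      exact mul_le_mul (hk a) (hh a) (abs_nonneg _) (by positivity)
    _ = (Fintype.card ι * (H * R) : ℕ) := by
      rw [sum_const, card_univ, nsmul_eq_mul]; push_cast; ring
    _ < P := by exact_mod_cast hP


/-- Weighted additive energy of order `2s` of the family `g`. -/
noncomputable def En (g : ι → Fin m → ℤ) (w : ι → ℝ) (s : ℕ) : ℝ :=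
  ∑ x : Fin s → ι, ∑ y : Fin s → ι,
    if (∀ i, ∑ j, g (x j) i = ∑ j, g (y j) i) then (∏ j, w (x j)) * ∏ j, w (y j) else 0


omit [DecidableEq ι] in
/-- Moment of a single harmonic. -/
theorem moment_le [Fact P.Prime] (g : ι → Fin m → ℤ) {R s : ℕ} (hR : ∀ a i, |g a i| ≤ R)
    (hP : 2 * s * R < P) (c : ι → ℂ) (w : ι → ℝ) (hc : ∀ a, ‖c a‖ ≤ w a)
    (k : ℤ) (hk0 : k ≠ 0) (hk : |k| < P) :
    avg (fun ω : RowΩ P m => ‖∑ a, c a * stdAddChar ((k : ZMod P) * xi ω (g a))‖ ^ (2 * s)) ≤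
      En g w s := by
  have hP0 : (0 : ℝ) < P := by exact_mod_cast Nat.pos_of_ne_zero (NeZero.ne P)
  have hw : ∀ a, 0 ≤ w a := fun a => (norm_nonneg _).trans (hc a)
  have hkne : (k : ZMod P) ≠ 0 := by
    intro h
    rw [ZMod.intCast_zmod_eq_zero_iff_dvd] at h
    exact hk0 (Int.eq_zero_of_abs_lt_dvd h hk)
  have h1 : ∀ ω : RowΩ P m,
      ((‖∑ a, c a * stdAddChar ((k : ZMod P) * xi ω (g a))‖ ^ (2 * s) : ℝ) : ℂ) =
      ∑ x : Fin s → ι, ∑ y : Fin s → ι, (∏ j, c (x j)) * (∏ j, (starRingEnd ℂ) (c (y j))) *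
        stdAddChar (ω.1 * 0 + ∑ i, ω.2 i *
          ((k : ZMod P) * ((∑ j, g (x j) i - ∑ j, g (y j) i : ℤ) : ZMod P))) := by
    intro ω
    have e1 : ((‖∑ a, c a * stdAddChar ((k : ZMod P) * xi ω (g a))‖ ^ (2 * s) : ℝ) : ℂ) =
        (∑ a, c a * stdAddChar ((k : ZMod P) * xi ω (g a))) ^ s *
        (∑ a, (starRingEnd ℂ) (c a) * stdAddChar (-((k : ZMod P) * xi ω (g a)))) ^ s := by
      rw [← mul_pow, pow_mul]
      push_cast
      rw [← Complex.mul_conj']
      congr 2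
      rw [map_sum]
      refine sum_congr rfl fun a _ => ?_
      rw [map_mul, conj_stdAddChar]
    rw [e1, Fintype.sum_pow, Fintype.sum_pow, sum_mul_sum]
    refine sum_congr rfl fun x _ => sum_congr rfl fun y _ => ?_
    rw [prod_mul_distrib, prod_mul_distrib, ← addChar_sum, ← addChar_sum]
    have e2 : ω.1 * 0 + ∑ i, ω.2 i *
          ((k : ZMod P) * ((∑ j, g (x j) i - ∑ j, g (y j) i : ℤ) : ZMod P)) =
        (∑ j, (k : ZMod P) * xi ω (g (x j))) + ∑ j, -((k : ZMod P) * xi ω (g (y j))) := by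
      unfold xi
      push_cast
      simp only [mul_add, sum_add_distrib, neg_add, sum_const, card_univ, Fintype.card_fin,
        mul_sub, sum_sub_distrib, sum_neg_distrib, mul_sum]
      rw [sum_comm (s := (univ : Finset (Fin s))) (t := (univ : Finset (Fin m)))
        (f := fun j i => (k : ZMod P) * (ω.2 i * (g (x j) i : ZMod P))),
        sum_comm (s := (univ : Finset (Fin s))) (t := (univ : Finset (Fin m)))
        (f := fun j i => (k : ZMod P) * (ω.2 i * (g (y j) i : ZMod P)))]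
      have e3 : ∀ z : Fin s → ι, ∑ i, ∑ j, (k : ZMod P) * (ω.2 i * (g (z j) i : ZMod P)) =
          ∑ i, ∑ j, ω.2 i * ((k : ZMod P) * (g (z j) i : ZMod P)) := fun z =>
        sum_congr rfl fun i _ => sum_congr rfl fun j _ => by ring
      rw [e3 x, e3 y]
      ring
    rw [e2, AddChar.map_add_eq_mul]
    ring
  have h2 : ((∑ ω : RowΩ P m, ‖∑ a, c a * stdAddChar ((k : ZMod P) * xi ω (g a))‖ ^ (2 * s) : ℝ) : ℂ) =
      ∑ x : Fin s → ι, ∑ y : Fin s → ι, (∏ j, c (x j)) * (∏ j, (starRingEnd ℂ) (c (y j))) *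
        (if (∀ i, (k : ZMod P) * ((∑ j, g (x j) i - ∑ j, g (y j) i : ℤ) : ZMod P) = 0)
          then (P : ℂ) ^ (m + 1) else 0) := by
    rw [Complex.ofReal_sum, sum_congr rfl fun ω _ => h1 ω, sum_comm]
    refine sum_congr rfl fun x _ => ?_
    rw [sum_comm]
    refine sum_congr rfl fun y _ => ?_
    rw [← mul_sum, sum_char_row]
    simp only [true_and]
  have h3 : ‖((∑ ω : RowΩ P m, ‖∑ a, c a * stdAddChar ((k : ZMod P) * xi ω (g a))‖ ^ (2 * s) : ℝ) : ℂ)‖ ≤
      En g w s * (P : ℝ) ^ (m + 1) := by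
    rw [h2]
    unfold En
    rw [sum_mul]
    refine (norm_sum_le _ _).trans (sum_le_sum fun x _ => ?_)
    rw [sum_mul]
    refine (norm_sum_le _ _).trans (sum_le_sum fun y _ => ?_)
    split_ifs with hmod hrel hrel
    · rw [norm_mul, norm_mul, norm_prod, norm_prod, norm_pow, Complex.norm_natCast]
      have i1 : ∏ j, ‖c (x j)‖ ≤ ∏ j, w (x j) :=
        prod_le_prod (fun _ _ => norm_nonneg _) (fun _ _ => hc _)
      have i2 : ∏ j, ‖(starRingEnd ℂ) (c (y j))‖ ≤ ∏ j, w (y j) := by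
        refine prod_le_prod (fun _ _ => norm_nonneg _) (fun j _ => ?_)
        rw [RCLike.norm_conj]; exact hc _
      have i3 : (0 : ℝ) ≤ ∏ j, ‖(starRingEnd ℂ) (c (y j))‖ := prod_nonneg fun _ _ => norm_nonneg _
      have i4 : (0 : ℝ) ≤ ∏ j, w (x j) := prod_nonneg fun _ _ => hw _
      gcongr
    · exfalso
      apply hrel
      intro i
      have := hmod i
      rcases mul_eq_zero.1 this with h | h
      · exact absurd h hkne
      · rw [ZMod.intCast_zmod_eq_zero_iff_dvd] at h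
        have hb : |∑ j, g (x j) i - ∑ j, g (y j) i| < P := by
          have b1 : ∀ z : Fin s → ι, |∑ j, g (z j) i| ≤ s * R := by
            intro z
            calc |∑ j, g (z j) i| ≤ ∑ j, |g (z j) i| := abs_sum_le_sum_abs _ _
              _ ≤ ∑ j : Fin s, (R : ℤ) := sum_le_sum fun j _ => hR _ _
              _ = s * R := by rw [sum_const, card_univ, Fintype.card_fin, nsmul_eq_mul]
          have b2 := b1 x
          have b3 := b1 y
          have b4 : ((2 * s * R : ℕ) : ℤ) < P := by exact_mod_cast hP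
          push_cast at b4
          calc |∑ j, g (x j) i - ∑ j, g (y j) i| ≤ |∑ j, g (x j) i| + |∑ j, g (y j) i| := abs_sub _ _
            _ ≤ s * R + s * R := add_le_add b2 b3
            _ < P := by linarith
        have := Int.eq_zero_of_abs_lt_dvd h hb
        omega
    · rw [mul_zero, norm_zero]
      have := mul_nonneg (prod_nonneg fun j (_ : j ∈ (univ : Finset (Fin s))) => hw (x j))
        (prod_nonneg fun j (_ : j ∈ (univ : Finset (Fin s))) => hw (y j))
      positivity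
    · rw [mul_zero, norm_zero, zero_mul]
  unfold avg
  rw [div_le_iff₀ (by positivity)]
  exact (le_abs_self _).trans (by rwa [Complex.norm_real, Real.norm_eq_abs] at h3)

/-- Probability of an event over one row. -/
noncomputable def pr (A : RowΩ P m → Prop) : ℝ := by
  classical exact (#{ω : RowΩ P m | A ω} : ℝ) / (P : ℝ) ^ (m + 1)



/-- Markov's inequality for one row. -/
lemma pr_le_avg_div {A : RowΩ P m → Prop} {F : RowΩ P m → ℝ} (hF : ∀ ω, 0 ≤ F ω) {t : ℝ} (ht : 0 < t)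
    (h : ∀ ω, A ω → t ≤ F ω) : pr A ≤ avg F / t := by
  classical
  have hP0 : (0 : ℝ) < P := by exact_mod_cast Nat.pos_of_ne_zero (NeZero.ne P)
  unfold pr avg
  rw [div_div, mul_comm, ← div_div]
  have : (#{ω : RowΩ P m | A ω} : ℝ) ≤ (∑ ω, F ω) / t := by
    rw [le_div_iff₀ ht]
    calc (#{ω : RowΩ P m | A ω} : ℝ) * t = ∑ ω ∈ {ω : RowΩ P m | A ω}, t := by
          rw [sum_const, nsmul_eq_mul]
      _ ≤ ∑ ω ∈ {ω : RowΩ P m | A ω}, F ω := sum_le_sum fun ω hω => h ω (mem_filter.1 hω).2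
      _ ≤ ∑ ω, F ω := sum_le_sum_of_subset_of_nonneg (filter_subset _ _) (fun ω _ _ => hF ω)
  gcongr

lemma norm_sum_pow_le {κ : Type*} (S : Finset κ) (z : κ → ℂ) (n : ℕ) :
    ‖∑ k ∈ S, z k‖ ^ (n + 1) ≤ (#S : ℝ) ^ n * ∑ k ∈ S, ‖z k‖ ^ (n + 1) := by
  rcases S.eq_empty_or_nonempty with rfl | hS
  · simp
  have hcard : (0 : ℝ) < #S := by exact_mod_cast hS.card_pos
  have h := pow_sum_div_card_le_sum_pow (s := S) (f := fun k => ‖z k‖) (fun _ _ => norm_nonneg _) n
  rw [div_le_iff₀ (by positivity)] at h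
  calc ‖∑ k ∈ S, z k‖ ^ (n + 1) ≤ (∑ k ∈ S, ‖z k‖) ^ (n + 1) := by
        gcongr; exact norm_sum_le _ _
    _ ≤ _ := by rw [mul_comm]; exact h




end relations

end Crest.Agent.R225.UB
end

-- ▼ part R225/F23
section

/-!
# Row 225, nodes F2 and F3 (helper728): row survival and row deviation
-/

set_option autoImplicit false

namespace Crest.Agent.R225

open Finset ZMod UB
open scoped BigOperators

variable {P : ℕ} [NeZero P] {m : ℕ}


lemma card_Row : (Fintype.card (Row P m) : ℝ) = (P : ℝ) ^ (m + 1) := by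
  rw [Fintype.card_prod, ZMod.card, Fintype.card_fun, ZMod.card, Fintype.card_fin]
  push_cast
  ring

lemma expect_Row (F : Row P m → ℝ) : 𝔼 r : Row P m, F r = avg F := by
  rw [Fintype.expect_eq_sum_div_card, card_Row]
  rfl

/-- Exact evaluation of `E ∏ F_a (xi g_a)` when there are no bounded relations. -/
theorem avg_prod_eq {ι : Type*} [Fintype ι] [DecidableEq ι] (g : ι → Pt m) (g0 : Pt m) {H R : ℕ}
    (hR : ∀ a i, |g a i - g0 i| ≤ R)
    (hP : Fintype.card ι * (H * (R + 1)) < P)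
    (F : ι → ZMod P → ℝ) (c : ι → ℤ → ℂ)
    (hF : ∀ a x, (F a x : ℂ) = ∑ k ∈ Icc (-(H : ℤ)) H, c a k * stdAddChar ((k : ZMod P) * x))
    (hrel : ∀ k : ι → ℤ, (∀ a, |k a| ≤ H) → ∑ a, k a = 0 → (∀ i, ∑ a, k a * g a i = 0) → k = 0) :
    ((avg (fun ω : RowΩ P m => ∏ a, F a (xi ω (g a))) : ℝ) : ℂ) = ∏ a, c a 0 := by
  have hP0 : (P : ℂ) ≠ 0 := by exact_mod_cast NeZero.ne P
  have h2 : ((∑ ω : RowΩ P m, ∏ a, F a (xi ω (g a)) : ℝ) : ℂ) =
      ∑ k ∈ Fintype.piFinset (fun _ : ι => Icc (-(H : ℤ)) H), (∏ a, c a (k a)) *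
        (if ((∑ a, k a : ℤ) : ZMod P) = 0 ∧ ∀ i, ((∑ a, k a * g a i : ℤ) : ZMod P) = 0
          then (P : ℂ) ^ (m + 1) else 0) := by
    push_cast
    have h3 : ∀ ω : RowΩ P m, ∏ a, (F a (xi ω (g a)) : ℂ) =
        ∑ k ∈ Fintype.piFinset (fun _ : ι => Icc (-(H : ℤ)) H), (∏ a, c a (k a)) *
          stdAddChar (ω.1 * ((∑ a, k a : ℤ) : ZMod P) +
            ∑ i, ω.2 i * ((∑ a, k a * g a i : ℤ) : ZMod P)) := by
      intro ω
      rw [prod_congr rfl fun a _ => hF a _, prod_univ_sum]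
      refine sum_congr rfl fun k _ => ?_
      rw [prod_mul_distrib, ← addChar_sum]
      congr 2
      unfold xi
      push_cast
      simp only [mul_add, sum_add_distrib, mul_sum]
      congr 1
      · exact sum_congr rfl fun a _ => by ring
      · rw [sum_comm]
        refine sum_congr rfl fun i _ => sum_congr rfl fun a _ => by ring
    rw [sum_congr rfl fun ω _ => h3 ω, sum_comm]
    refine sum_congr rfl fun k _ => ?_
    rw [← mul_sum, sum_char_row]
    push_cast
    rfl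
  have h4 : ∀ k ∈ Fintype.piFinset (fun _ : ι => Icc (-(H : ℤ)) H), k ≠ 0 →
      (∏ a, c a (k a)) *
        (if ((∑ a, k a : ℤ) : ZMod P) = 0 ∧ ∀ i, ((∑ a, k a * g a i : ℤ) : ZMod P) = 0
          then (P : ℂ) ^ (m + 1) else 0) = 0 := by
    intro k hk hk0
    have hk' : ∀ a, |k a| ≤ (H : ℤ) := by
      intro a
      rw [Fintype.mem_piFinset] at hk
      have := hk a
      rw [mem_Icc] at this
      exact abs_le.2 this
    rw [if_neg, mul_zero]
    rintro ⟨hm1, hm2⟩
    apply hk0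
    have e0 : ∑ a, k a = 0 := by
      have := sum_eq_zero_of_mod (P := P) (R := R + 1) k hk' (fun _ => 1)
        (fun a => by rw [abs_one]; push_cast; linarith [Nat.cast_nonneg (α := ℤ) R]) hP
        (by simpa using hm1)
      simpa using this
    refine hrel k hk' e0 fun i => ?_
    have e1 : ((∑ a, k a * (g a i - g0 i) : ℤ) : ZMod P) = 0 := by
      have : ∑ a, k a * (g a i - g0 i) = ∑ a, k a * g a i - (∑ a, k a) * g0 i := by
        rw [sum_mul, ← sum_sub_distrib]; exact sum_congr rfl fun a _ => by ring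
      rw [this, e0, zero_mul, sub_zero]
      exact hm2 i
    have e2 := sum_eq_zero_of_mod (P := P) (R := R + 1) k hk' (fun a => g a i - g0 i)
      (fun a => (hR a i).trans (by push_cast; linarith)) hP e1
    have : ∑ a, k a * g a i = ∑ a, k a * (g a i - g0 i) + (∑ a, k a) * g0 i := by
      rw [sum_mul, ← sum_add_distrib]; exact sum_congr rfl fun a _ => by ring
    rw [this, e2, e0]; ring
  have h5 : ((∑ ω : RowΩ P m, ∏ a, F a (xi ω (g a)) : ℝ) : ℂ) = (∏ a, c a 0) * (P : ℂ) ^ (m + 1) := by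
    rw [h2, sum_eq_single (0 : ι → ℤ) (fun k hk hk0 => h4 k hk hk0)]
    · simp
    · intro h
      exfalso
      apply h
      rw [Fintype.mem_piFinset]
      intro a
      rw [mem_Icc]
      simp
  unfold avg
  rw [Complex.ofReal_div, h5]
  push_cast
  field_simp

theorem prf_F2 (hF1 : S_F1) : S_F2 := by
  intro m H P rX _ δ α Z g0 f hδ hδ1 hH hHP hP hα hbox hTV hrel
  classical
  choose! Fp Fm hp using fun (g : Pt m) (hg : g ∈ Z) => hF1 H P δ α (f g) hδ hδ1 hH hHP hα (hTV g hg)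
  choose! c hc using fun (g : Pt m) (hg : g ∈ Z) => (hp g hg).1
  rw [expect_Row]
  have h1 : avg (fun r : Row P m => ∏ g ∈ Z, f g (res r g)) ≤
      avg (fun r : Row P m => ∏ a : Z, Fp a (xi r (a : Pt m))) := by
    unfold avg
    gcongr with r _
    show ∏ g ∈ Z, f g (res r g) ≤ ∏ a : Z, Fp a (xi r (a : Pt m))
    rw [← prod_coe_sort Z (fun g => f g (res r g))]
    refine prod_le_prod (fun a _ => ((hTV a a.2).1 _).1) (fun a _ => ?_)
    exact ((hp a a.2).2.2.1 _).2
  have h2 := avg_prod_eq (P := P) (ι := Z) (fun a => (a : Pt m)) g0 (H := H) (R := rX)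
    (fun a i => hbox a a.2 i) (by
      rw [Fintype.card_coe]
      have h3 : Z.card * (H * (rX + 1)) ≤ 4 * H * (Z.card + 1) * (rX + 1) := by
        have : Z.card * (H * (rX + 1)) = H * Z.card * (rX + 1) := by ring
        rw [this]
        gcongr
        · omega
        · omega
      exact lt_of_le_of_lt h3 hP)
    (fun a => Fp a) (fun a => c a) (fun a x => (hc a a.2).2.2 x) (by
      intro k hk h0 hi
      set h : Pt m → ℤ := fun g => if hg : g ∈ Z then k ⟨g, hg⟩ else 0 with hh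
      have hval : ∀ a : Z, h a = k a := fun a => by rw [hh]; simp
      have hbr : BRel Z H h := by
        refine ⟨⟨fun g hg => by rw [hh]; simp [hg], ?_, ?_⟩, ?_⟩
        · rw [← sum_coe_sort Z, ← h0]
          exact sum_congr rfl fun a _ => hval a
        · rw [← sum_coe_sort Z]
          funext i
          rw [Finset.sum_apply, Pi.zero_apply, ← hi i]
          exact sum_congr rfl fun a _ => by rw [Pi.smul_apply, hval, smul_eq_mul]
        · intro g
          rw [hh]
          by_cases hg : g ∈ Z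
          · simp only [hg, dite_true]
            have := hk ⟨g, hg⟩
            exact_mod_cast this
          · simp [hg]
      have := hrel h hbr
      funext a
      rw [← hval a, this]
      rfl)
  have h3 : avg (fun r : Row P m => ∏ a : Z, Fp a (xi r (a : Pt m))) =
      ∏ a : Z, 𝔼 x, Fp a x := by
    have : ((avg (fun r : Row P m => ∏ a : Z, Fp a (xi r (a : Pt m))) : ℝ) : ℂ) =
        ((∏ a : Z, 𝔼 x, Fp a x : ℝ) : ℂ) := by
      rw [h2]
      push_cast
      refine prod_congr rfl fun a _ => ?_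
      rw [(hc a a.2).2.1]
      push_cast
      rfl
    exact_mod_cast this
  rw [h3] at h1
  refine h1.trans ?_
  rw [← prod_coe_sort Z (fun g => (𝔼 x, f g x) + δ * α)]
  refine prod_le_prod (fun a _ => ?_) (fun a _ => (hp a a.2).2.2.2.1)
  refine expect_nonneg fun x _ => ?_
  exact ((hTV a a.2).1 x).1.trans ((hp a a.2).2.2.1 x).2

lemma UBEn_shift {ι : Type*} [Fintype ι] (g : ι → Pt m) (g0 : Pt m) (w : ι → ℝ) (s : ℕ) :
    UB.En (fun a => g a - g0) w s = UB.En g w s := by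
  unfold UB.En
  refine sum_congr rfl fun x _ => sum_congr rfl fun y _ => ?_
  have : (∀ i, ∑ j, (g (x j) - g0) i = ∑ j, (g (y j) - g0) i) ↔
      (∀ i, ∑ j, g (x j) i = ∑ j, g (y j) i) := by
    refine forall_congr' fun i => ?_
    rw [Finset.sum_congr rfl fun j _ => Pi.sub_apply (g (x j)) g0 i,
      Finset.sum_congr rfl fun j _ => Pi.sub_apply (g (y j)) g0 i,
      Finset.sum_sub_distrib, Finset.sum_sub_distrib]
    constructor
    · intro h; linarith
    · intro h; linarith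
  exact if_congr this rfl rfl

omit [NeZero P] in
lemma xi_shift (ω : RowΩ P m) (g g0 : Pt m) :
    xi ω g = (∑ i, ω.2 i * (g0 i : ZMod P)) + xi ω (g - g0) := by
  unfold xi
  have : ∀ i, ω.2 i * (((g - g0) i : ℤ) : ZMod P) =
      ω.2 i * (g i : ZMod P) - ω.2 i * (g0 i : ZMod P) := by
    intro i; rw [Pi.sub_apply, Int.cast_sub, mul_sub]
  rw [Finset.sum_congr rfl fun i _ => this i, Finset.sum_sub_distrib]
  ring

lemma norm_sum_shift {ι : Type*} [Fintype ι] (g : ι → Pt m) (g0 : Pt m) (c : ι → ℂ) (k : ZMod P)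
    (ω : RowΩ P m) : ‖∑ a, c a * stdAddChar (k * xi ω (g a))‖ =
      ‖∑ a, c a * stdAddChar (k * xi ω (g a - g0))‖ := by
  have h4 : ∑ a, c a * stdAddChar (k * xi ω (g a)) =
      stdAddChar (k * ∑ i, ω.2 i * (g0 i : ZMod P)) *
        ∑ a, c a * stdAddChar (k * xi ω (g a - g0)) := by
    rw [mul_sum]
    refine sum_congr rfl fun a _ => ?_
    rw [xi_shift ω (g a) g0, mul_add, AddChar.map_add_eq_mul]; ring
  rw [h4, norm_mul, norm_stdAddChar, one_mul]

/-- `moment_le` with a base point. -/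
theorem moment_le_shift {ι : Type*} [Fintype ι] [Fact P.Prime] (g : ι → Pt m) (g0 : Pt m)
    {R s : ℕ} (hR : ∀ a i, |g a i - g0 i| ≤ R)
    (hP : 2 * s * R < P) (c : ι → ℂ) (w : ι → ℝ) (hc : ∀ a, ‖c a‖ ≤ w a)
    (k : ℤ) (hk0 : k ≠ 0) (hk : |k| < P) :
    avg (fun ω : RowΩ P m => ‖∑ a, c a * stdAddChar ((k : ZMod P) * xi ω (g a))‖ ^ (2 * s)) ≤
      UB.En g w s := by
  have h1 := moment_le (P := P) (fun a => g a - g0) (R := R) (s := s) hR hP c w hc k hk0 hk
  rw [UBEn_shift] at h1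
  refine le_trans (le_of_eq ?_) h1
  unfold avg
  congr 1
  refine sum_congr rfl fun ω _ => ?_
  exact congrArg (fun z : ℝ => z ^ (2 * s)) (norm_sum_shift g g0 c (k : ZMod P) ω)

/-- `osc_tail` with a base point. -/
theorem osc_tail_shift {ι : Type*} [Fintype ι] [Fact P.Prime] (g : ι → Pt m) (g0 : Pt m)
    {R s H : ℕ} (hR : ∀ a i, |g a i - g0 i| ≤ R)
    (hP : 2 * s * R < P) (hH : H < P) (hs : 0 < s)
    (F : ι → ZMod P → ℝ) (c : ι → ℤ → ℂ) (c0 w : ι → ℝ)
    (hF : ∀ a x, (F a x : ℂ) = ∑ k ∈ Icc (-(H : ℤ)) H, c a k * stdAddChar ((k : ZMod P) * x))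
    (hc0 : ∀ a, c a 0 = c0 a) (hc : ∀ a k, k ≠ 0 → ‖c a k‖ ≤ w a) {t : ℝ} (ht : 0 < t) :
    pr (fun ω : RowΩ P m => t ≤ |∑ a, F a (xi ω (g a)) - ∑ a, c0 a|) ≤
      (2 * H / t) ^ (2 * s) * UB.En g w s := by
  have hP0 : (0 : ℝ) < P := by exact_mod_cast Nat.pos_of_ne_zero (NeZero.ne P)
  set S : Finset ℤ := (Icc (-(H : ℤ)) H).erase 0 with hSdef
  have hScard : #S = 2 * H := by
    rw [hSdef, card_erase_of_mem (by rw [mem_Icc]; omega), Int.card_Icc]; omega
  set Z : ℤ → RowΩ P m → ℂ := fun k ω => ∑ a, c a k * stdAddChar ((k : ZMod P) * xi ω (g a)) with hZ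
  have hosc : ∀ ω : RowΩ P m, ((∑ a, F a (xi ω (g a)) - ∑ a, c0 a : ℝ) : ℂ) = ∑ k ∈ S, Z k ω := by
    intro ω
    push_cast
    rw [sum_congr rfl fun a _ => hF a _, sum_comm,
      ← add_sum_erase (Icc (-(H : ℤ)) H) _ (show (0 : ℤ) ∈ Icc (-(H : ℤ)) H by rw [mem_Icc]; omega)]
    have : ∑ a, c a 0 * (stdAddChar (((0 : ℤ) : ZMod P) * xi ω (g a)) : ℂ) = ∑ a, (c0 a : ℂ) := by
      refine sum_congr rfl fun a _ => ?_
      rw [hc0]; simp
    rw [this]
    ring
  obtain ⟨n, hn⟩ : ∃ n, 2 * s = n + 1 := ⟨2 * s - 1, by omega⟩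
  have h1 : pr (fun ω : RowΩ P m => t ≤ |∑ a, F a (xi ω (g a)) - ∑ a, c0 a|) ≤
      avg (fun ω : RowΩ P m => (2 * H : ℝ) ^ n * ∑ k ∈ S, ‖Z k ω‖ ^ (2 * s)) / t ^ (2 * s) := by
    refine pr_le_avg_div (fun ω => by positivity) (by positivity) fun ω hω => ?_
    have h2 : |∑ a, F a (xi ω (g a)) - ∑ a, c0 a| = ‖∑ k ∈ S, Z k ω‖ := by
      rw [← hosc, Complex.norm_real, Real.norm_eq_abs]
    rw [h2] at hω
    calc t ^ (2 * s) ≤ ‖∑ k ∈ S, Z k ω‖ ^ (2 * s) := by gcongr
      _ = ‖∑ k ∈ S, Z k ω‖ ^ (n + 1) := by rw [hn]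
      _ ≤ (#S : ℝ) ^ n * ∑ k ∈ S, ‖Z k ω‖ ^ (n + 1) := norm_sum_pow_le _ _ _
      _ = _ := by rw [hScard, ← hn]; push_cast; rfl
  have h3 : avg (fun ω : RowΩ P m => (2 * H : ℝ) ^ n * ∑ k ∈ S, ‖Z k ω‖ ^ (2 * s)) =
      (2 * H : ℝ) ^ n * ∑ k ∈ S, avg (fun ω : RowΩ P m => ‖Z k ω‖ ^ (2 * s)) := by
    unfold avg
    rw [← mul_sum, sum_comm, ← sum_div]
    ring
  have h4 : ∀ k ∈ S, avg (fun ω : RowΩ P m => ‖Z k ω‖ ^ (2 * s)) ≤ UB.En g w s := by
    intro k hk
    rw [hSdef, mem_erase, mem_Icc] at hk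
    refine moment_le_shift g g0 hR hP (fun a => c a k) w (fun a => hc a k hk.1) k hk.1 ?_
    rw [abs_lt]; constructor <;> omega
  refine h1.trans ?_
  rw [h3]
  have h5 : ∑ k ∈ S, avg (fun ω : RowΩ P m => ‖Z k ω‖ ^ (2 * s)) ≤ (2 * H : ℝ) * UB.En g w s := by
    refine (sum_le_sum h4).trans (le_of_eq ?_)
    rw [sum_const, hScard, nsmul_eq_mul]; push_cast; ring
  have h6 : (2 * H : ℝ) ^ (2 * s) = (2 * H : ℝ) ^ n * (2 * H) := by rw [hn, pow_succ]
  rw [div_pow, h6, div_mul_eq_mul_div, mul_assoc]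
  gcongr

lemma UBEn_const (W : Finset (Pt m)) (q : ℕ) (A : ℝ) :
    UB.En (fun a : W => (a : Pt m)) (fun _ => A) q = A ^ (2 * q) * (En q W : ℝ) := by
  classical
  unfold UB.En En
  have h1 : ∀ x y : Fin q → W, (if (∀ i, ∑ j, (x j : Pt m) i = ∑ j, (y j : Pt m) i)
      then (∏ _j : Fin q, A) * ∏ _j : Fin q, A else 0) =
      A ^ (2 * q) * (if (∑ j, (x j : Pt m) = ∑ j, (y j : Pt m)) then (1 : ℝ) else 0) := by
    intro x y
    have : (∀ i, ∑ j, (x j : Pt m) i = ∑ j, (y j : Pt m) i) ↔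
        (∑ j, (x j : Pt m) = ∑ j, (y j : Pt m)) := by
      rw [funext_iff]
      simp only [Finset.sum_apply]
    rw [if_congr this rfl rfl]
    split_ifs
    · rw [prod_const, card_univ, Fintype.card_fin, mul_one]; ring
    · simp
  rw [sum_congr rfl fun x _ => sum_congr rfl fun y _ => h1 x y]
  simp_rw [← mul_sum]
  congr 1
  rw [← Fintype.sum_prod_type' (f := fun x y : Fin q → W =>
    if (∑ j, (x j : Pt m) = ∑ j, (y j : Pt m)) then (1 : ℝ) else 0), sum_boole]
  congr 1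
  refine card_bij' (fun p _ => (fun j => (p.1 j : Pt m), fun j => (p.2 j : Pt m)))
    (fun p hp => (fun j => ⟨p.1 j, by
        rw [mem_filter, mem_product, Fintype.mem_piFinset, Fintype.mem_piFinset] at hp
        exact hp.1.1 j⟩,
      fun j => ⟨p.2 j, by
        rw [mem_filter, mem_product, Fintype.mem_piFinset, Fintype.mem_piFinset] at hp
        exact hp.1.2 j⟩)) ?_ ?_ ?_ ?_
  · intro p hp
    rw [mem_filter] at hp
    rw [mem_filter, mem_product, Fintype.mem_piFinset, Fintype.mem_piFinset]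
    exact ⟨⟨fun j => (p.1 j).2, fun j => (p.2 j).2⟩, hp.2⟩
  · intro p hp
    rw [mem_filter] at hp ⊢
    exact ⟨mem_univ _, hp.2⟩
  · intro p hp
    rfl
  · intro p hp
    rfl

theorem prf_F3 (hF1 : S_F1) : S_F3 := by
  intro m H P rX q _ δ α t W g0 f hδ hδ1 hH hHP hP hq hα ht hbox hTV
  classical
  choose! Fp Fm hp using fun (g : Pt m) (hg : g ∈ W) => hF1 H P δ α (f g) hδ hδ1 hH hHP hα (hTV g hg)
  choose! c hc using fun (g : Pt m) (hg : g ∈ W) => (hp g hg).1
  choose! c' hc' using fun (g : Pt m) (hg : g ∈ W) => (hp g hg).2.1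
  have hHr : (0 : ℝ) < H := lt_of_lt_of_le (by positivity) hH
  have hH0 : 0 < H := by exact_mod_cast hHr
  have hHP' : H < P := by
    have h1 : H ≤ 4 * H * (2 * q + 1) * (rX + 1) := by
      have h2 : H * 1 ≤ H * (4 * (2 * q + 1) * (rX + 1)) := by
        gcongr
        nlinarith [Nat.zero_le q, Nat.zero_le rX, Nat.zero_le (q * rX)]
      calc H = H * 1 := (mul_one H).symm
        _ ≤ H * (4 * (2 * q + 1) * (rX + 1)) := h2
        _ = _ := by ring
    exact lt_of_le_of_lt h1 hP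
  have hqR : 2 * q * rX < P := by
    have h1 : 2 * q * rX ≤ 4 * H * (2 * q + 1) * (rX + 1) := by
      have h2 : 1 * (2 * q) * rX ≤ (4 * H) * (2 * q + 1) * (rX + 1) := by
        gcongr <;> omega
      simpa using h2
    exact lt_of_le_of_lt h1 hP
  have hup := osc_tail_shift (P := P) (ι := W) (fun a => (a : Pt m)) g0 (H := H) (R := rX) (s := q)
    (fun a i => hbox a a.2 i) hqR hHP' hq (fun a => Fp a) (fun a => c a)
    (fun a => 𝔼 x, Fp a x) (fun _ => 2 * α) (fun a x => (hc a a.2).2.2 x)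
    (fun a => (hc a a.2).2.1) (fun a k _ => (hc a a.2).1 k) ht
  have hlo := osc_tail_shift (P := P) (ι := W) (fun a => (a : Pt m)) g0 (H := H) (R := rX) (s := q)
    (fun a i => hbox a a.2 i) hqR hHP' hq (fun a => Fm a) (fun a => c' a)
    (fun a => 𝔼 x, Fm a x) (fun _ => 2 * α) (fun a x => (hc' a a.2).2.2 x)
    (fun a => (hc' a a.2).2.1) (fun a k _ => (hc' a a.2).1 k) ht
  rw [UBEn_const] at hup hlo
  rw [expect_Row]
  have key : avg (fun r : Row P m => if δ * α * W.card + t <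
        |∑ g ∈ W, f g (res r g) - ∑ g ∈ W, 𝔼 x, f g x| then (1 : ℝ) else 0) ≤
      pr (fun ω : RowΩ P m => t ≤ |∑ a : W, Fp a (xi ω (a : Pt m)) - ∑ a : W, 𝔼 x, Fp a x|) +
      pr (fun ω : RowΩ P m => t ≤ |∑ a : W, Fm a (xi ω (a : Pt m)) - ∑ a : W, 𝔼 x, Fm a x|) := by
    unfold avg pr
    rw [← add_div]
    gcongr
    rw [sum_boole, ← Nat.cast_add]
    norm_cast
    refine le_trans (card_le_card ?_) (card_union_le _ _)
    intro r hr
    rw [mem_filter] at hr
    rw [mem_union, mem_filter, mem_filter]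
    by_contra hcon
    push Not at hcon
    have h1 := hcon.1 (mem_univ _)
    have h2 := hcon.2 (mem_univ _)
    have h3 := hr.2
    rw [← sum_coe_sort W (fun g => f g (res r g)), ← sum_coe_sort W (fun g => 𝔼 x, f g x)] at h3
    have u1 : ∑ a : W, f a (res r (a : Pt m)) ≤ ∑ a : W, Fp a (xi r (a : Pt m)) :=
      sum_le_sum fun a _ => ((hp a a.2).2.2.1 _).2
    have l1 : ∑ a : W, Fm a (xi r (a : Pt m)) ≤ ∑ a : W, f a (res r (a : Pt m)) :=
      sum_le_sum fun a _ => ((hp a a.2).2.2.1 _).1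
    have u2 : ∑ a : W, 𝔼 x, Fp a x ≤ ∑ a : W, 𝔼 x, f a x + δ * α * W.card := by
      calc ∑ a : W, 𝔼 x, Fp a x ≤ ∑ a : W, ((𝔼 x, f a x) + δ * α) :=
            sum_le_sum fun a _ => (hp a a.2).2.2.2.1
        _ = _ := by
          rw [sum_add_distrib, sum_const, card_univ, Fintype.card_coe, nsmul_eq_mul]; ring
    have l2 : ∑ a : W, 𝔼 x, f a x - δ * α * W.card ≤ ∑ a : W, 𝔼 x, Fm a x := by
      calc ∑ a : W, 𝔼 x, f a x - δ * α * W.card = ∑ a : W, ((𝔼 x, f a x) - δ * α) := by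
            rw [sum_sub_distrib, sum_const, card_univ, Fintype.card_coe, nsmul_eq_mul]; ring
        _ ≤ _ := sum_le_sum fun a _ => (hp a a.2).2.2.2.2
    rw [abs_lt] at h1 h2
    rw [lt_abs] at h3
    rcases h3 with h3 | h3
    · linarith [h1.2]
    · linarith [h2.1]
  refine key.trans ((add_le_add hup hlo).trans ?_)
  have hE : (0 : ℝ) ≤ (En q W : ℝ) := by positivity
  have e1 : (2 * (H : ℝ) / t) ^ (2 * q) * ((2 * α) ^ (2 * q) * (En q W : ℝ)) =
      (4 * H * α / t) ^ (2 * q) * En q W := by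
    rw [← mul_assoc, ← mul_pow]; congr 2; ring
  rw [e1]
  have e2 : (4 * (H : ℝ) * α / t) ^ (2 * q) ≤ (8 * H * α / t) ^ (2 * q) := by
    gcongr; norm_num
  nlinarith [mul_le_mul_of_nonneg_right e2 hE]

end Crest.Agent.R225
end

-- ▼ part R225/Young
section

/-!
# Young's inequality with an exponentially small constant (row 225, S0347)

For all measurable `f h : (Fin m → ℝ) → ℝ≥0∞`, real `g ≥ 2` and `p = 2 g / (g + 1)`:
`∫ (f * h) ^ g ≤ κ ^ m (∫ f ^ p) ^ ((g + 1) / 2) (∫ h ^ p) ^ ((g + 1) / 2)`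
with `κ = 55 / 56` and with `κ = 2 √(2 / (g + 1))`.
-/

set_option autoImplicit false

open MeasureTheory Set
open scoped ENNReal

namespace Crest.Agent.R225.Young

/-- **Minkowski's integral inequality** for `lintegral`. -/
theorem minkowski_lintegral {α β : Type*} [MeasurableSpace α] [MeasurableSpace β]
    {μ : Measure α} {ν : Measure β} [SigmaFinite μ] [SFinite ν] {g : ℝ} (hg : 1 < g)
    {G : α → β → ℝ≥0∞} (hG : Measurable (Function.uncurry G)) :
    ∫⁻ x, (∫⁻ t, G x t ∂ν) ^ g ∂μ ≤ (∫⁻ t, (∫⁻ x, G x t ^ g ∂μ) ^ (1 / g) ∂ν) ^ g := by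
  have g0 : 0 < g := by linarith
  set B := ∫⁻ t, (∫⁻ x, G x t ^ g ∂μ) ^ (1 / g) ∂ν with hB
  set Φ : α → ℝ≥0∞ := fun x => ∫⁻ t, G x t ∂ν with hΦ
  have hΦm : Measurable Φ := hG.lintegral_prod_right'
  set S := spanningSets μ with hS
  set Ψ : ℕ → α → ℝ≥0∞ := fun n => (S n).indicator (fun x => min (Φ x) n) with hΨ
  have hΨm : ∀ n, Measurable (Ψ n) := fun n =>
    (hΦm.min measurable_const).indicator (measurableSet_spanningSets μ n)
  have hΨle : ∀ n x, Ψ n x ≤ Φ x := by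
    intro n x
    simp only [hΨ, indicator]
    split_ifs
    · exact min_le_left _ _
    · exact zero_le
  have hconj : g.HolderConjugate (g / (g - 1)) := Real.HolderConjugate.conjExponent hg
  have hq0 : 0 < g / (g - 1) := hconj.symm.pos
  have key : ∀ n, ∫⁻ x, Ψ n x ^ g ∂μ ≤ B ^ g := by
    intro n
    set A := ∫⁻ x, Ψ n x ^ g ∂μ with hA
    have hAtop : A ≠ ∞ := by
      have h1 : A ≤ ∫⁻ x, (S n).indicator (fun _ => (n : ℝ≥0∞) ^ g) x ∂μ := by
        refine lintegral_mono fun x => ?_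
        simp only [hΨ, indicator]
        split_ifs
        · exact ENNReal.rpow_le_rpow (min_le_right _ _) g0.le
        · simp [g0]
      rw [lintegral_indicator (measurableSet_spanningSets μ n), lintegral_const,
        Measure.restrict_apply_univ] at h1
      refine ne_top_of_le_ne_top ?_ h1
      exact ENNReal.mul_ne_top (ENNReal.rpow_ne_top_of_nonneg g0.le (ENNReal.natCast_ne_top n))
        (measure_spanningSets_lt_top μ n).ne
    have h2 : A ≤ B * A ^ (1 / (g / (g - 1))) := by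
      calc A = ∫⁻ x, Ψ n x * Ψ n x ^ (g - 1) ∂μ := by
            refine lintegral_congr fun x => ?_
            have hx : Ψ n x ≠ ∞ := by
              simp only [hΨ, indicator]
              split_ifs
              · exact ne_top_of_le_ne_top (ENNReal.natCast_ne_top n) (min_le_right _ _)
              · simp
            by_cases h0 : Ψ n x = 0
            · rw [h0, zero_mul, ENNReal.zero_rpow_of_pos g0]
            · have h1 : Ψ n x ^ g = Ψ n x ^ (1 + (g - 1)) := by congr 1; ring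
              rw [h1, ENNReal.rpow_add _ _ h0 hx, ENNReal.rpow_one]
        _ ≤ ∫⁻ x, Φ x * Ψ n x ^ (g - 1) ∂μ := lintegral_mono fun x => by
            gcongr
            exact hΨle n x
        _ = ∫⁻ x, ∫⁻ t, G x t * Ψ n x ^ (g - 1) ∂ν ∂μ := by
            refine lintegral_congr fun x => ?_
            rw [lintegral_mul_const _ (by fun_prop)]
        _ = ∫⁻ t, ∫⁻ x, G x t * Ψ n x ^ (g - 1) ∂μ ∂ν := by
            rw [lintegral_lintegral_swap]
            fun_prop
        _ ≤ ∫⁻ t, (∫⁻ x, G x t ^ g ∂μ) ^ (1 / g) * A ^ (1 / (g / (g - 1))) ∂ν := by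
            refine lintegral_mono fun t => ?_
            have := ENNReal.lintegral_mul_le_Lp_mul_Lq μ hconj (f := fun x => G x t)
              (g := fun x => Ψ n x ^ (g - 1)) (by fun_prop) (by fun_prop)
            refine this.trans (le_of_eq ?_)
            congr 2
            refine lintegral_congr fun x => ?_
            rw [← ENNReal.rpow_mul]
            congr 1
            have : g - 1 ≠ 0 := by linarith
            field_simp
        _ = B * A ^ (1 / (g / (g - 1))) := by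
            rw [lintegral_mul_const _ (by fun_prop)]
    by_cases hA0 : A = 0
    · rw [hA0]; exact zero_le
    have h3 : A = A ^ (1 / g) * A ^ (1 / (g / (g - 1))) := by
      rw [← ENNReal.rpow_add _ _ hA0 hAtop]
      have : 1 / g + 1 / (g / (g - 1)) = 1 := by
        have := hconj.inv_add_inv_eq_one
        simpa [one_div] using this
      rw [this, ENNReal.rpow_one]
    have h4 : A ^ (1 / g) ≤ B := by
      have hne0 : A ^ (1 / (g / (g - 1))) ≠ 0 := by
        simp [ENNReal.rpow_eq_zero_iff, hA0, hAtop]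
      have hnetop : A ^ (1 / (g / (g - 1))) ≠ ∞ :=
        ENNReal.rpow_ne_top_of_nonneg (by positivity) hAtop
      have h5 : A ^ (1 / g) * A ^ (1 / (g / (g - 1))) ≤ B * A ^ (1 / (g / (g - 1))) := by
        rw [← h3]; exact h2
      exact (ENNReal.mul_le_mul_iff_left hne0 hnetop).mp h5
    calc A = (A ^ (1 / g)) ^ g := by rw [← ENNReal.rpow_mul]; simp [g0.ne']
      _ ≤ B ^ g := ENNReal.rpow_le_rpow h4 g0.le
  have hmono : Monotone fun n => fun x => Ψ n x ^ g := by
    intro n m hnm x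
    refine ENNReal.rpow_le_rpow ?_ g0.le
    simp only [hΨ, indicator]
    split_ifs with h1 h2 h2
    · exact min_le_min le_rfl (by exact_mod_cast hnm)
    · exact absurd (monotone_spanningSets μ hnm h1) h2
    · exact zero_le
    · exact le_rfl
  have hlim : ∀ x, Φ x ^ g ≤ ⨆ n, Ψ n x ^ g := by
    intro x
    obtain ⟨N, hN⟩ : ∃ N, x ∈ S N := by
      have : x ∈ ⋃ n, S n := by rw [hS, iUnion_spanningSets]; trivial
      simpa using this
    have h1 : Φ x = ⨆ n : ℕ, min (Φ x) n := by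
      rw [← inf_iSup_eq, ENNReal.iSup_natCast]; simp
    have h2 : Φ x ^ g = ⨆ n : ℕ, (min (Φ x) n) ^ g := by
      conv_lhs => rw [h1]
      exact (ENNReal.monotone_rpow_of_nonneg g0.le).map_iSup_of_continuousAt
        (ENNReal.continuous_rpow_const.continuousAt) (by simp [g0])
    rw [h2]
    refine iSup_le fun n => ?_
    refine le_trans ?_ (le_iSup _ (max n N))
    refine ENNReal.rpow_le_rpow ?_ g0.le
    have : x ∈ S (max n N) := monotone_spanningSets μ (le_max_right n N) hN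
    simp only [hΨ, indicator, this, if_true]
    exact min_le_min le_rfl (by exact_mod_cast le_max_left n N)
  calc ∫⁻ x, Φ x ^ g ∂μ ≤ ∫⁻ x, ⨆ n, Ψ n x ^ g ∂μ := lintegral_mono hlim
    _ = ⨆ n, ∫⁻ x, Ψ n x ^ g ∂μ := lintegral_iSup (fun n => (hΨm n).pow_const g) hmono
    _ ≤ B ^ g := iSup_le key

/-- Young's inequality with exponents `(p, p; g)`, `p = 2 g / (g + 1)`, and constant `κ`. -/
def YP (E : Type*) [AddCommGroup E] [MeasurableSpace E] (μ : Measure E) (g : ℝ) (κ : ℝ≥0∞) :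
    Prop :=
  ∀ f h : E → ℝ≥0∞, Measurable f → Measurable h →
    ∫⁻ x, (∫⁻ y, f y * h (x - y) ∂μ) ^ g ∂μ ≤
      κ * (∫⁻ x, f x ^ (2 * g / (g + 1)) ∂μ) ^ ((g + 1) / 2) *
        (∫⁻ x, h x ^ (2 * g / (g + 1)) ∂μ) ^ ((g + 1) / 2)

theorem YP.prod {E F : Type*} [AddCommGroup E] [MeasurableSpace E] [MeasurableSub₂ E]
    [AddCommGroup F] [MeasurableSpace F] [MeasurableSub₂ F] {μ : Measure E} {ν : Measure F}
    [SigmaFinite μ] [SigmaFinite ν] {g : ℝ} (hg : 1 < g) {κ₁ κ₂ : ℝ≥0∞}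
    (hE : YP E μ g κ₁) (hF : YP F ν g κ₂) : YP (E × F) (μ.prod ν) g (κ₁ * κ₂) := by
  intro f h hf hh
  have g0 : 0 < g := by linarith
  set p := 2 * g / (g + 1) with hp
  set φ : F → ℝ≥0∞ := fun t => (∫⁻ y, f (y, t) ^ p ∂μ) ^ (1 / p) with hφ
  set η : F → ℝ≥0∞ := fun t => (∫⁻ y, h (y, t) ^ p ∂μ) ^ (1 / p) with hη
  have hp0 : 0 < p := by positivity
  have hφm : Measurable φ := by
    have : Measurable fun z : F × E => f (z.2, z.1) ^ p := by fun_prop
    exact this.lintegral_prod_right'.pow_const _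
  have hηm : Measurable η := by
    have : Measurable fun z : F × E => h (z.2, z.1) ^ p := by fun_prop
    exact this.lintegral_prod_right'.pow_const _
  have hsub : Measurable fun z : (E × F) × (E × F) => z.1 - z.2 :=
    (measurable_fst.fst.sub measurable_snd.fst).prodMk
      (measurable_fst.snd.sub measurable_snd.snd)
  have hsub' : ∀ x : E × F, Measurable fun z : E × F => x - z := fun x =>
    hsub.comp measurable_prodMk_left
  calc ∫⁻ x, (∫⁻ y, f y * h (x - y) ∂(μ.prod ν)) ^ g ∂(μ.prod ν)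
      = ∫⁻ s, ∫⁻ x, (∫⁻ t, ∫⁻ y, f (y, t) * h (x - y, s - t) ∂μ ∂ν) ^ g ∂μ ∂ν := by
        rw [lintegral_prod_symm']
        · refine lintegral_congr fun s => lintegral_congr fun x => ?_
          have h2 : Measurable fun y : E × F => f y * h ((x, s) - y) :=
            hf.mul (hh.comp (hsub' (x, s)))
          rw [lintegral_prod_symm' _ h2]
          rfl
        · have h1 : Measurable fun z : (E × F) × (E × F) => f z.2 * h (z.1 - z.2) :=
            (hf.comp measurable_snd).mul (hh.comp hsub)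
          exact h1.lintegral_prod_right'.pow_const g
    _ ≤ ∫⁻ s, (∫⁻ t, (∫⁻ x, (∫⁻ y, f (y, t) * h (x - y, s - t) ∂μ) ^ g ∂μ) ^ (1 / g) ∂ν) ^ g ∂ν := by
        refine lintegral_mono fun s => ?_
        refine minkowski_lintegral hg (G := fun x t => ∫⁻ y, f (y, t) * h (x - y, s - t) ∂μ) ?_
        have h1 : Measurable fun z : (E × F) × E => f (z.2, z.1.2) * h (z.1.1 - z.2, s - z.1.2) :=
          (hf.comp (by fun_prop)).mul (hh.comp
            ((measurable_fst.fst.sub measurable_snd).prodMk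
              (measurable_const.sub measurable_fst.snd)))
        exact h1.lintegral_prod_right'
    _ ≤ ∫⁻ s, (∫⁻ t, κ₁ ^ (1 / g) * (φ t * η (s - t)) ∂ν) ^ g ∂ν := by
        refine lintegral_mono fun s => ENNReal.rpow_le_rpow (lintegral_mono fun t => ?_) g0.le
        have := hE (fun y => f (y, t)) (fun y => h (y, s - t)) (by fun_prop) (by fun_prop)
        refine (ENNReal.rpow_le_rpow this (by positivity)).trans (le_of_eq ?_)
        rw [ENNReal.mul_rpow_of_nonneg _ _ (by positivity),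
          ENNReal.mul_rpow_of_nonneg _ _ (by positivity), ← ENNReal.rpow_mul, ← ENNReal.rpow_mul,
          mul_assoc]
        have : (g + 1) / 2 * (1 / g) = 1 / p := by rw [hp]; field_simp
        rw [this]
    _ = κ₁ * ∫⁻ s, (∫⁻ t, φ t * η (s - t) ∂ν) ^ g ∂ν := by
        have h1 : Measurable fun z : F × F => φ z.2 * η (z.1 - z.2) :=
          (hφm.comp measurable_snd).mul (hηm.comp (measurable_fst.sub measurable_snd))
        rw [← lintegral_const_mul _ (h1.lintegral_prod_right'.pow_const g)]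
        refine lintegral_congr fun s => ?_
        have h2 : Measurable fun t : F => φ t * η (s - t) :=
          hφm.mul (hηm.comp (measurable_const.sub measurable_id))
        rw [lintegral_const_mul _ h2, ENNReal.mul_rpow_of_nonneg _ _ g0.le, ← ENNReal.rpow_mul, one_div,
          inv_mul_cancel₀ g0.ne', ENNReal.rpow_one]
    _ ≤ κ₁ * (κ₂ * (∫⁻ x, φ x ^ p ∂ν) ^ ((g + 1) / 2) * (∫⁻ x, η x ^ p ∂ν) ^ ((g + 1) / 2)) := by
        gcongr
        exact hF φ η hφm hηm
    _ = κ₁ * κ₂ * (∫⁻ x, f x ^ p ∂(μ.prod ν)) ^ ((g + 1) / 2) *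
        (∫⁻ x, h x ^ p ∂(μ.prod ν)) ^ ((g + 1) / 2) := by
        have e1 : ∀ k : E × F → ℝ≥0∞, Measurable k →
            ∫⁻ x, (fun t => (∫⁻ y, k (y, t) ^ p ∂μ) ^ (1 / p)) x ^ p ∂ν =
              ∫⁻ x, k x ^ p ∂(μ.prod ν) := by
          intro k hk
          rw [lintegral_prod_symm' _ (hk.pow_const p)]
          refine lintegral_congr fun t => ?_
          simp only
          rw [← ENNReal.rpow_mul, one_div, inv_mul_cancel₀ hp0.ne', ENNReal.rpow_one]
        rw [← e1 f hf, ← e1 h hh]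
        ring

theorem YP.of_measurePreserving {E F : Type*} [AddCommGroup E] [MeasurableSpace E]
    [AddCommGroup F] [MeasurableSpace F] [MeasurableSub₂ F] {μ : Measure E} {ν : Measure F}
    [SFinite ν] {g : ℝ} {κ : ℝ≥0∞}
    (e : E → F) (he : MeasurePreserving e μ ν) (hlin : ∀ x y : E, e (x - y) = e x - e y)
    (hE : YP E μ g κ) : YP F ν g κ := by
  intro f h hf hh
  have h1 : Measurable fun z : F × F => f z.2 * h (z.1 - z.2) :=
    (hf.comp measurable_snd).mul (hh.comp (measurable_fst.sub measurable_snd))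
  have h2 : Measurable fun x : F => (∫⁻ y, f y * h (x - y) ∂ν) ^ g :=
    h1.lintegral_prod_right'.pow_const g
  have h3 : ∀ x, Measurable fun y : F => f y * h (x - y) := fun x =>
    h1.comp measurable_prodMk_left
  rw [← he.lintegral_comp h2, ← he.lintegral_comp (hf.pow_const _),
    ← he.lintegral_comp (hh.pow_const _)]
  have := hE (f ∘ e) (h ∘ e) (hf.comp he.measurable) (hh.comp he.measurable)
  refine le_trans (le_of_eq ?_) this
  refine lintegral_congr fun x => ?_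
  rw [← he.lintegral_comp (h3 _)]
  simp only [Function.comp_def, hlin]

theorem YP_pi {g : ℝ} (hg : 1 < g) {κ : ℝ≥0∞} (h1 : YP ℝ volume g κ) (n : ℕ) :
    YP (Fin n → ℝ) volume g (κ ^ n) := by
  induction n with
  | zero =>
    intro f h hf hh
    have : (volume : Measure (Fin 0 → ℝ)) = Measure.dirac 0 := by
      exact Measure.volume_pi_eq_dirac (ι := Fin 0) (α := fun _ => ℝ) 0
    rw [this, lintegral_dirac, lintegral_dirac, lintegral_dirac, lintegral_dirac, pow_zero,
      one_mul, sub_zero, ← ENNReal.rpow_mul, ← ENNReal.rpow_mul, ENNReal.mul_rpow_of_nonneg _ _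
      (by linarith)]
    have : 2 * g / (g + 1) * ((g + 1) / 2) = g := by
      have : g + 1 ≠ 0 := by linarith
      field_simp
    rw [this]
  | succ n ih =>
    rw [pow_succ']
    refine YP.of_measurePreserving
      (MeasurableEquiv.piFinSuccAbove (fun _ : Fin (n+1) => ℝ) 0).symm
      ((volume_preserving_piFinSuccAbove (fun _ : Fin (n+1) => ℝ) 0).symm) ?_ (h1.prod hg ih)
    intro x y
    ext i
    refine Fin.cases ?_ (fun j => ?_) i
    · simp [MeasurableEquiv.piFinSuccAbove]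
    · simp [MeasurableEquiv.piFinSuccAbove]

/-! ### The one-dimensional inequality -/

/-- Affinity versus total variation on one event. -/
theorem affinity_sq {α : Type*} [MeasurableSpace α] {μ : Measure α} {P R : α → ℝ≥0∞}
    (hP : Measurable P) (hR : Measurable R) (hP1 : ∫⁻ x, P x ∂μ = 1) (hR1 : ∫⁻ x, R x ∂μ = 1)
    {A : Set α} (hA : MeasurableSet A) :
    (∫⁻ x, P x ^ (1 / 2 : ℝ) * R x ^ (1 / 2 : ℝ) ∂μ).toReal ^ 2 +
      ((∫⁻ x in A, P x ∂μ).toReal - (∫⁻ x in A, R x ∂μ).toReal) ^ 2 ≤ 1 := by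
  have hconj : (2 : ℝ).HolderConjugate 2 := Real.HolderConjugate.two_two
  have cs : ∀ s : Set α, ∫⁻ x in s, P x ^ (1 / 2 : ℝ) * R x ^ (1 / 2 : ℝ) ∂μ ≤
      (∫⁻ x in s, P x ∂μ) ^ (1 / 2 : ℝ) * (∫⁻ x in s, R x ∂μ) ^ (1 / 2 : ℝ) := by
    intro s
    refine (ENNReal.lintegral_mul_le_Lp_mul_Lq (μ.restrict s) hconj
      (hP.pow_const _).aemeasurable (hR.pow_const _).aemeasurable).trans (le_of_eq ?_)
    simp only [← ENNReal.rpow_mul]
    norm_num
  set s := ∫⁻ x in A, P x ∂μ with hs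
  set t := ∫⁻ x in A, R x ∂μ with ht
  set s' := ∫⁻ x in Aᶜ, P x ∂μ with hs'
  set t' := ∫⁻ x in Aᶜ, R x ∂μ with ht'
  have hs1 : s + s' = 1 := by rw [hs, hs', lintegral_add_compl _ hA, hP1]
  have ht1 : t + t' = 1 := by rw [ht, ht', lintegral_add_compl _ hA, hR1]
  have hstop : s ≠ ∞ := ne_top_of_le_ne_top ENNReal.one_ne_top (hs1 ▸ le_self_add)
  have hs'top : s' ≠ ∞ := ne_top_of_le_ne_top ENNReal.one_ne_top (hs1 ▸ le_add_self)
  have httop : t ≠ ∞ := ne_top_of_le_ne_top ENNReal.one_ne_top (ht1 ▸ le_self_add)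
  have ht'top : t' ≠ ∞ := ne_top_of_le_ne_top ENNReal.one_ne_top (ht1 ▸ le_add_self)
  have hss : s.toReal + s'.toReal = 1 := by
    rw [← ENNReal.toReal_add hstop hs'top, hs1]; simp
  have htt : t.toReal + t'.toReal = 1 := by
    rw [← ENNReal.toReal_add httop ht'top, ht1]; simp
  have hle : ∫⁻ x, P x ^ (1 / 2 : ℝ) * R x ^ (1 / 2 : ℝ) ∂μ ≤
      s ^ (1 / 2 : ℝ) * t ^ (1 / 2 : ℝ) + s' ^ (1 / 2 : ℝ) * t' ^ (1 / 2 : ℝ) := by
    rw [← lintegral_add_compl _ hA]
    exact add_le_add (cs A) (cs Aᶜ)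
  have htop : s ^ (1 / 2 : ℝ) * t ^ (1 / 2 : ℝ) + s' ^ (1 / 2 : ℝ) * t' ^ (1 / 2 : ℝ) ≠ ∞ := by
    refine ENNReal.add_ne_top.mpr ⟨ENNReal.mul_ne_top ?_ ?_, ENNReal.mul_ne_top ?_ ?_⟩ <;>
    exact ENNReal.rpow_ne_top_of_nonneg (by norm_num) (by assumption)
  have hle' := ENNReal.toReal_mono htop hle
  rw [ENNReal.toReal_add, ENNReal.toReal_mul, ENNReal.toReal_mul, ← ENNReal.toReal_rpow,
    ← ENNReal.toReal_rpow, ← ENNReal.toReal_rpow, ← ENNReal.toReal_rpow] at hle'
  · have e1 := ENNReal.toReal_nonneg (a := s)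
    have e2 := ENNReal.toReal_nonneg (a := t)
    have e3 := ENNReal.toReal_nonneg (a := s')
    have e4 := ENNReal.toReal_nonneg (a := t')
    rw [← Real.sqrt_eq_rpow, ← Real.sqrt_eq_rpow, ← Real.sqrt_eq_rpow, ← Real.sqrt_eq_rpow] at hle'
    set a := (∫⁻ x, P x ^ (1 / 2 : ℝ) * R x ^ (1 / 2 : ℝ) ∂μ).toReal with ha
    have ha0 : 0 ≤ a := ENNReal.toReal_nonneg
    have q1 := Real.sq_sqrt e1
    have q2 := Real.sq_sqrt e2
    have q3 := Real.sq_sqrt e3
    have q4 := Real.sq_sqrt e4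
    set x1 := √s.toReal
    set x2 := √t.toReal
    set x3 := √s'.toReal
    set x4 := √t'.toReal
    have h1 : a ^ 2 ≤ (x1 * x2 + x3 * x4) ^ 2 := by gcongr
    have h2 : s'.toReal = 1 - s.toReal := by linarith
    have h3 : t'.toReal = 1 - t.toReal := by linarith
    nlinarith [sq_nonneg (x1 * x3 - x2 * x4)]
  · exact ENNReal.mul_ne_top (ENNReal.rpow_ne_top_of_nonneg (by norm_num) hstop)
      (ENNReal.rpow_ne_top_of_nonneg (by norm_num) httop)
  · exact ENNReal.mul_ne_top (ENNReal.rpow_ne_top_of_nonneg (by norm_num) hs'top)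
      (ENNReal.rpow_ne_top_of_nonneg (by norm_num) ht'top)

/-- The affinity of `F` and `H (x - ·)`. -/
noncomputable def aff (F H : ℝ → ℝ≥0∞) (x : ℝ) : ℝ≥0∞ :=
  ∫⁻ y, F y ^ (1 / 2 : ℝ) * H (x - y) ^ (1 / 2 : ℝ)

/-- The convolution of `F` and `H`. -/
noncomputable def conv (F H : ℝ → ℝ≥0∞) (x : ℝ) : ℝ≥0∞ := ∫⁻ y, F y * H (x - y)

theorem measurable_aff {F H : ℝ → ℝ≥0∞} (hF : Measurable F) (hH : Measurable H) :
    Measurable (aff F H) := by
  have h1 : Measurable fun z : ℝ × ℝ => F z.2 ^ (1 / 2 : ℝ) * H (z.1 - z.2) ^ (1 / 2 : ℝ) := by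
    fun_prop
  exact h1.lintegral_prod_right'

theorem measurable_conv {F H : ℝ → ℝ≥0∞} (hF : Measurable F) (hH : Measurable H) :
    Measurable (conv F H) := by
  have h1 : Measurable fun z : ℝ × ℝ => F z.2 * H (z.1 - z.2) := by
    fun_prop
  exact h1.lintegral_prod_right'

theorem lintegral_conv {F H : ℝ → ℝ≥0∞} (hF : Measurable F) (hH : Measurable H)
    (hF1 : ∫⁻ x, F x = 1) (hH1 : ∫⁻ x, H x = 1) : ∫⁻ x, conv F H x = 1 := by
  unfold conv
  rw [lintegral_lintegral_swap (by fun_prop)]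
  calc ∫⁻ y, ∫⁻ x, F y * H (x - y) = ∫⁻ y, F y * ∫⁻ x, H (x - y) := by
        refine lintegral_congr fun y => ?_
        rw [lintegral_const_mul _ (by fun_prop)]
    _ = ∫⁻ y, F y := by
        refine lintegral_congr fun y => ?_
        rw [lintegral_sub_right_eq_self (fun x => H x) y, hH1, mul_one]
    _ = 1 := hF1

theorem aff_le_one {F H : ℝ → ℝ≥0∞} (hF : Measurable F) (hH : Measurable H)
    (hF1 : ∫⁻ x, F x = 1) (hH1 : ∫⁻ x, H x = 1) (x : ℝ) : aff F H x ≤ 1 := by
  refine (ENNReal.lintegral_mul_le_Lp_mul_Lq volume Real.HolderConjugate.two_two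
      (hF.pow_const _).aemeasurable (by fun_prop)).trans ?_
  simp only [← ENNReal.rpow_mul]
  norm_num
  rw [hF1, lintegral_sub_left_eq_self (fun x => H x) x, hH1]
  simp

theorem window_le {F H : ℝ → ℝ≥0∞} (hF : Measurable F) (hH : Measurable H)
    (hF1 : ∫⁻ x, F x = 1) (hH1 : ∫⁻ x, H x = 1) {τ : ℝ} (hτ : 0 ≤ τ) {x x' : ℝ} (hxx : x ≤ x')
    (hx : τ ≤ (aff F H x).toReal) (hx' : τ ≤ (aff F H x').toReal) (w : ℝ) :
    ∫⁻ z in Ico (x - w) (x' - w), H z ≤ ENNReal.ofReal (2 * √(1 - τ ^ 2)) := by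
  have trans : ∀ u, ∫⁻ y in Iic w, H (u - y) = ∫⁻ z in Ici (u - w), H z := by
    intro u
    rw [← lintegral_indicator measurableSet_Iic, ← lintegral_indicator measurableSet_Ici,
      ← lintegral_sub_left_eq_self (fun z => (Ici (u - w)).indicator H z) u]
    refine lintegral_congr fun y => ?_
    simp only [indicator, mem_Iic, mem_Ici]
    by_cases h : y ≤ w
    · rw [if_pos h, if_pos (by linarith)]
    · rw [if_neg h, if_neg (by linarith)]
  have tot : ∀ u, ∫⁻ y, H (u - y) = 1 := by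
    intro u
    rw [lintegral_sub_left_eq_self (fun x => H x) u, hH1]
  have m : ∀ u, Measurable fun y => H (u - y) := fun u => by fun_prop
  have k1 := affinity_sq (μ := volume) hF (m x) hF1 (tot x) (measurableSet_Iic (a := w))
  have k2 := affinity_sq (μ := volume) hF (m x') hF1 (tot x') (measurableSet_Iic (a := w))
  rw [trans] at k1 k2
  set f := (∫⁻ x in Iic w, F x).toReal
  set s := ∫⁻ z in Ici (x - w), H z with hs
  set s' := ∫⁻ z in Ici (x' - w), H z with hs'
  set d := ∫⁻ z in Ico (x - w) (x' - w), H z with hd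
  have hsplit : s = d + s' := by
    rw [hs, hs', hd, ← lintegral_union measurableSet_Ici]
    · congr 2
      ext z; simp only [mem_Ici, mem_union, mem_Ico]
      constructor
      · intro h
        by_cases h' : z < x' - w
        · exact Or.inl ⟨h, h'⟩
        · exact Or.inr (not_lt.mp h')
      · rintro (h | h)
        · exact h.1
        · linarith
    · rw [Set.disjoint_left]
      rintro z hz hz'
      simp only [mem_Ici, mem_Ico] at hz hz'
      linarith
  have hstop : s ≠ ∞ := by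
    refine ne_top_of_le_ne_top ENNReal.one_ne_top ?_
    rw [← hH1, hs]
    exact setLIntegral_le_lintegral _ _
  have hs'top : s' ≠ ∞ := by
    refine ne_top_of_le_ne_top hstop ?_
    rw [hsplit]; exact le_add_self
  have hdtop : d ≠ ∞ := by
    refine ne_top_of_le_ne_top hstop ?_
    rw [hsplit]; exact le_self_add
  have hreal : s.toReal = d.toReal + s'.toReal := by
    rw [hsplit, ENNReal.toReal_add hdtop hs'top]
  rw [← ENNReal.ofReal_toReal hdtop]
  refine ENNReal.ofReal_le_ofReal ?_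
  have l1 : |f - s.toReal| ≤ √(1 - τ ^ 2) := by
    refine Real.abs_le_sqrt ?_
    have : τ ^ 2 ≤ (aff F H x).toReal ^ 2 := by gcongr
    unfold aff at this
    linarith
  have l2 : |f - s'.toReal| ≤ √(1 - τ ^ 2) := by
    refine Real.abs_le_sqrt ?_
    have : τ ^ 2 ≤ (aff F H x').toReal ^ 2 := by gcongr
    unfold aff at this
    linarith
  rw [abs_le] at l1 l2
  linarith [l1.1, l2.2]

theorem conv_Icc_le {F H : ℝ → ℝ≥0∞} (hF : Measurable F) (hH : Measurable H)
    (hF1 : ∫⁻ x, F x = 1) (hH1 : ∫⁻ x, H x = 1) {τ : ℝ} (hτ : 0 ≤ τ) {x x' : ℝ} (hxx : x ≤ x')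
    (hx : τ ≤ (aff F H x).toReal) (hx' : τ ≤ (aff F H x').toReal) :
    ∫⁻ z in Icc x x', conv F H z ≤ ENNReal.ofReal (2 * √(1 - τ ^ 2)) := by
  rw [← restrict_Ico_eq_restrict_Icc]
  unfold conv
  rw [lintegral_lintegral_swap (by fun_prop)]
  calc ∫⁻ y, ∫⁻ z in Ico x x', F y * H (z - y)
      = ∫⁻ y, F y * ∫⁻ z in Ico (x - y) (x' - y), H z := by
        refine lintegral_congr fun y => ?_
        rw [lintegral_const_mul _ (by fun_prop)]
        congr 1
        rw [← lintegral_indicator measurableSet_Ico, ← lintegral_indicator measurableSet_Ico,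
          ← lintegral_sub_right_eq_self (fun z => (Ico (x - y) (x' - y)).indicator H z) y]
        refine lintegral_congr fun z => ?_
        simp only [indicator, mem_Ico]
        by_cases h : x ≤ z ∧ z < x'
        · rw [if_pos h, if_pos ⟨by linarith [h.1], by linarith [h.2]⟩]
        · rw [if_neg h, if_neg]
          rintro ⟨h1, h2⟩
          exact h ⟨by linarith, by linarith⟩
    _ ≤ ∫⁻ y, F y * ENNReal.ofReal (2 * √(1 - τ ^ 2)) := by
        refine lintegral_mono fun y => ?_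
        gcongr
        exact window_le hF hH hF1 hH1 hτ hxx hx hx' y
    _ = ENNReal.ofReal (2 * √(1 - τ ^ 2)) := by
        rw [lintegral_mul_const _ hF, hF1, one_mul]

theorem tail_le {F H : ℝ → ℝ≥0∞} (hF : Measurable F) (hH : Measurable H)
    (hF1 : ∫⁻ x, F x = 1) (hH1 : ∫⁻ x, H x = 1) {τ : ℝ} (hτ : 0 ≤ τ) :
    (volume.withDensity (conv F H)) {x | τ < (aff F H x).toReal} ≤
      ENNReal.ofReal (2 * √(1 - τ ^ 2)) := by
  have hm : MeasurableSet {x | τ < (aff F H x).toReal} :=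
    measurableSet_lt measurable_const (measurable_aff hF hH).ennreal_toReal
  have : IsFiniteMeasure (volume.withDensity (conv F H)) := by
    refine isFiniteMeasure_withDensity ?_
    rw [lintegral_conv hF hH hF1 hH1]; simp
  rw [hm.measure_eq_iSup_isCompact]
  refine iSup₂_le fun K hK => iSup_le fun hKc => ?_
  rcases K.eq_empty_or_nonempty with rfl | hne
  · simp
  have h1 := hK (hKc.sInf_mem hne)
  have h2 := hK (hKc.sSup_mem hne)
  have h3 : sInf K ≤ sSup K := Real.sInf_le_sSup K hKc.bddBelow hKc.bddAbove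
  calc (volume.withDensity (conv F H)) K
      ≤ (volume.withDensity (conv F H)) (Icc (sInf K) (sSup K)) := by
        refine measure_mono fun z hz => ⟨csInf_le hKc.bddBelow hz, le_csSup hKc.bddAbove hz⟩
    _ = ∫⁻ z in Icc (sInf K) (sSup K), conv F H z := withDensity_apply _ measurableSet_Icc
    _ ≤ _ := conv_Icc_le hF hH hF1 hH1 hτ h3 (le_of_lt h1) (le_of_lt h2)

theorem moment_one {F H : ℝ → ℝ≥0∞} (hF : Measurable F) (hH : Measurable H)
    (hF1 : ∫⁻ x, F x = 1) (hH1 : ∫⁻ x, H x = 1) :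
    ∫⁻ x, aff F H x ∂(volume.withDensity (conv F H)) ≤ 52 / 53 := by
  set P := volume.withDensity (conv F H) with hP
  have hP1 : P univ = 1 := by
    rw [hP, withDensity_apply _ MeasurableSet.univ, Measure.restrict_univ,
      lintegral_conv hF hH hF1 hH1]
  have : IsProbabilityMeasure P := ⟨hP1⟩
  set S := {x | (35 / 37 : ℝ) < (aff F H x).toReal} with hS
  have hm : MeasurableSet S := measurableSet_lt measurable_const (measurable_aff hF hH).ennreal_toReal
  have htail : P S ≤ ENNReal.ofReal (2 * √(1 - (35 / 37 : ℝ) ^ 2)) :=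
    tail_le hF hH hF1 hH1 (by norm_num)
  have hsq : √(1 - (35 / 37 : ℝ) ^ 2) = 12 / 37 := by
    rw [show (1 - (35 / 37 : ℝ) ^ 2) = (12 / 37) ^ 2 by norm_num]
    exact Real.sqrt_sq (by norm_num)
  rw [hsq] at htail
  have h1 : ∫⁻ x in S, aff F H x ∂P ≤ P S := by
    calc ∫⁻ x in S, aff F H x ∂P ≤ ∫⁻ x in S, 1 ∂P :=
          lintegral_mono fun x => aff_le_one hF hH hF1 hH1 x
      _ = P S := by simp
  have h2 : ∫⁻ x in Sᶜ, aff F H x ∂P ≤ ENNReal.ofReal (35 / 37) * P Sᶜ := by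
    calc ∫⁻ x in Sᶜ, aff F H x ∂P ≤ ∫⁻ x in Sᶜ, ENNReal.ofReal (35 / 37) ∂P := by
          refine setLIntegral_mono' hm.compl fun x hx => ?_
          have hx' : (aff F H x).toReal ≤ 35 / 37 := not_lt.mp hx
          have hfin : aff F H x ≠ ∞ :=
            ne_top_of_le_ne_top ENNReal.one_ne_top (aff_le_one hF hH hF1 hH1 x)
          rw [← ENNReal.ofReal_toReal hfin]
          exact ENNReal.ofReal_le_ofReal hx'
      _ = ENNReal.ofReal (35 / 37) * P Sᶜ := by simp
  have hPS : P S ≠ ∞ := measure_ne_top P S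
  have hPSc : P Sᶜ ≠ ∞ := measure_ne_top P Sᶜ
  have hsum : P S + P Sᶜ = 1 := by rw [measure_add_measure_compl hm, hP1]
  have hsumr : (P S).toReal + (P Sᶜ).toReal = 1 := by
    rw [← ENNReal.toReal_add hPS hPSc, hsum]; simp
  have htailr : (P S).toReal ≤ 24 / 37 := by
    have := ENNReal.toReal_mono ENNReal.ofReal_ne_top htail
    rw [ENNReal.toReal_ofReal (by norm_num)] at this
    linarith
  rw [← lintegral_add_compl _ hm]
  refine (add_le_add h1 h2).trans ?_
  rw [← ENNReal.ofReal_toReal hPS, ← ENNReal.ofReal_toReal hPSc, ← ENNReal.ofReal_mul (by norm_num),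
    ← ENNReal.ofReal_add (by positivity) (by positivity)]
  have : (52 / 53 : ℝ≥0∞) = ENNReal.ofReal (52 / 53) := by
    rw [ENNReal.ofReal_div_of_pos (by norm_num)]
    norm_num
  rw [this]
  refine ENNReal.ofReal_le_ofReal ?_
  nlinarith

theorem moment_pow {F H : ℝ → ℝ≥0∞} (hF : Measurable F) (hH : Measurable H)
    (hF1 : ∫⁻ x, F x = 1) (hH1 : ∫⁻ x, H x = 1) {N : ℝ} (hN : 0 < N) :
    ∫⁻ x, aff F H x ^ N ∂(volume.withDensity (conv F H)) ≤
      ENNReal.ofReal (2 * √(2 / (N + 2))) := by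
  set P := volume.withDensity (conv F H) with hP
  set s := √(2 / (N + 2)) with hs
  have hs2 : s ^ 2 = 2 / (N + 2) := Real.sq_sqrt (by positivity)
  have hs0 : 0 < s := Real.sqrt_pos.mpr (by positivity)
  have e1 : ∫⁻ x, aff F H x ^ N ∂P = ∫⁻ x, ENNReal.ofReal ((aff F H x).toReal ^ N) ∂P := by
    refine lintegral_congr fun x => ?_
    have hfin : aff F H x ≠ ∞ :=
      ne_top_of_le_ne_top ENNReal.one_ne_top (aff_le_one hF hH hF1 hH1 x)
    rw [← ENNReal.ofReal_rpow_of_nonneg ENNReal.toReal_nonneg hN.le, ENNReal.ofReal_toReal hfin]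
  rw [e1, lintegral_rpow_eq_lintegral_meas_lt_mul P (Filter.Eventually.of_forall fun x =>
    ENNReal.toReal_nonneg) (measurable_aff hF hH).ennreal_toReal.aemeasurable hN]
  have e2 : ∀ t : ℝ, 0 < t → P {a | t < (aff F H a).toReal} * ENNReal.ofReal (t ^ (N - 1)) ≤
      (Ioc (0:ℝ) 1).indicator (fun t => ENNReal.ofReal (((1 - t ^ 2) / s + s) * t ^ (N - 1))) t := by
    intro t ht
    have h1 := tail_le hF hH hF1 hH1 ht.le
    simp only [indicator]
    split_ifs with h
    · refine (mul_le_mul_left h1 _).trans ?_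
      rw [← ENNReal.ofReal_mul (by positivity)]
      refine ENNReal.ofReal_le_ofReal ?_
      refine mul_le_mul_of_nonneg_right ?_ (Real.rpow_nonneg ht.le _)
      have h2 : 0 ≤ 1 - t ^ 2 := by
        have := h.2
        nlinarith
      have h3 : √(1 - t ^ 2) ^ 2 = 1 - t ^ 2 := Real.sq_sqrt h2
      have h4 : 0 ≤ (√(1 - t ^ 2) - s) ^ 2 / s := by positivity
      have h5 : (√(1 - t ^ 2) - s) ^ 2 / s = (1 - t ^ 2) / s + s - 2 * √(1 - t ^ 2) := by
        rw [← h3]
        field_simp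
        rw [Real.sqrt_sq (Real.sqrt_nonneg _)]
        ring
      linarith
    · have h2 : 1 < t := by
        by_contra h3
        exact h ⟨ht, not_lt.mp h3⟩
      have h3 : 1 - t ^ 2 ≤ 0 := by nlinarith
      rw [Real.sqrt_eq_zero_of_nonpos h3] at h1
      simp only [mul_zero, ENNReal.ofReal_zero, nonpos_iff_eq_zero] at h1
      rw [h1, zero_mul]
  have hI0 : IntervalIntegrable (fun t : ℝ => t ^ (N - 1)) volume 0 1 :=
    intervalIntegral.intervalIntegrable_rpow' (by linarith)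
  have hI1 : IntervalIntegrable (fun t : ℝ => t ^ (N + 1)) volume 0 1 :=
    intervalIntegral.intervalIntegrable_rpow' (by linarith)
  have hcongr : ∀ t ∈ Ioc (0:ℝ) 1, ((1 - t ^ 2) / s + s) * t ^ (N - 1) =
      (1 / s + s) * t ^ (N - 1) - 1 / s * t ^ (N + 1) := by
    intro t ht
    have : t ^ (N + 1) = t ^ 2 * t ^ (N - 1) := by
      rw [← Real.rpow_natCast t 2, ← Real.rpow_add ht.1]
      congr 1
      push_cast
      ring
    rw [this]
    ring
  have hint : IntegrableOn (fun t : ℝ => ((1 - t ^ 2) / s + s) * t ^ (N - 1)) (Ioc 0 1) := by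
    have h1 := ((hI0.const_mul (1 / s + s)).sub (hI1.const_mul (1 / s))).1
    exact h1.congr_fun (fun t ht => (hcongr t ht).symm) measurableSet_Ioc
  have hval : ∫ t in Ioc (0:ℝ) 1, ((1 - t ^ 2) / s + s) * t ^ (N - 1) = 2 * s / N := by
    rw [setIntegral_congr_fun measurableSet_Ioc hcongr, ← intervalIntegral.integral_of_le zero_le_one,
      intervalIntegral.integral_sub (hI0.const_mul _) (hI1.const_mul _),
      intervalIntegral.integral_const_mul, intervalIntegral.integral_const_mul,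
      integral_rpow (Or.inl (by linarith)), integral_rpow (Or.inl (by linarith))]
    have h1 : N - 1 + 1 = N := by ring
    have h2 : N + 1 + 1 = N + 2 := by ring
    rw [h1, h2, Real.one_rpow, Real.one_rpow, Real.zero_rpow hN.ne', Real.zero_rpow (by linarith)]
    have h3 : N + 2 ≠ 0 := by linarith
    have h4 : s ^ 2 * (N + 2) = 2 := by rw [hs2]; field_simp
    field_simp
    nlinarith
  calc ENNReal.ofReal N * ∫⁻ t in Ioi 0, P {a | t < (aff F H a).toReal} * ENNReal.ofReal (t ^ (N - 1))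
      ≤ ENNReal.ofReal N * ∫⁻ t in Ioi 0, (Ioc (0:ℝ) 1).indicator
          (fun t => ENNReal.ofReal (((1 - t ^ 2) / s + s) * t ^ (N - 1))) t := by
        gcongr ENNReal.ofReal N * ?_
        exact setLIntegral_mono' measurableSet_Ioi fun t ht => e2 t ht
    _ = ENNReal.ofReal N * ∫⁻ t in Ioc 0 1, ENNReal.ofReal (((1 - t ^ 2) / s + s) * t ^ (N - 1)) := by
        rw [lintegral_indicator measurableSet_Ioc, Measure.restrict_restrict measurableSet_Ioc,
          inter_eq_left.mpr Ioc_subset_Ioi_self]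
    _ = ENNReal.ofReal N * ENNReal.ofReal (2 * s / N) := by
        rw [← ofReal_integral_eq_lintegral_ofReal hint, hval]
        filter_upwards [self_mem_ae_restrict measurableSet_Ioc] with t ht
        have h1 : 0 ≤ t ^ (N - 1) := Real.rpow_nonneg ht.1.le _
        have h2 : 0 ≤ 1 - t ^ 2 := by nlinarith [ht.1, ht.2]
        exact mul_nonneg (by positivity) h1
    _ = ENNReal.ofReal (2 * s) := by
        rw [← ENNReal.ofReal_mul hN.le]
        congr 1
        field_simp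

/-- From a moment bound of the affinity to Young's inequality on `ℝ`. -/
theorem YP_real_of {g : ℝ} (hg : 1 < g) {κ : ℝ≥0∞} (hκ : κ ≠ 0)
    (hmom : ∀ F H : ℝ → ℝ≥0∞, Measurable F → Measurable H → ∫⁻ x, F x = 1 → ∫⁻ x, H x = 1 →
      ∫⁻ x, aff F H x ^ (g - 1) ∂(volume.withDensity (conv F H)) ≤ κ) :
    YP ℝ volume g κ := by
  intro f h hf hh
  have g0 : 0 < g := by linarith
  set p := 2 * g / (g + 1) with hp
  have hp0 : 0 < p := by positivity
  set A := ∫⁻ x, f x ^ p with hA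
  set B := ∫⁻ x, h x ^ p with hB
  have hgp : 0 < (g + 1) / 2 := by linarith
  by_cases hA0 : A = 0
  · have h1 : ∀ᵐ y, f y = 0 := by
      have := (lintegral_eq_zero_iff (hf.pow_const p)).mp hA0
      filter_upwards [this] with y hy
      simpa [ENNReal.rpow_eq_zero_iff, hp0, hp0.not_gt] using hy
    have h2 : ∀ x, ∫⁻ y, f y * h (x - y) = 0 := by
      intro x
      rw [lintegral_eq_zero_iff (by fun_prop)]
      filter_upwards [h1] with y hy
      simp [hy]
    simp only [h2, ENNReal.zero_rpow_of_pos g0, lintegral_zero]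
    exact zero_le
  by_cases hB0 : B = 0
  · have h1 : ∀ᵐ y, h y = 0 := by
      have := (lintegral_eq_zero_iff (hh.pow_const p)).mp hB0
      filter_upwards [this] with y hy
      simpa [ENNReal.rpow_eq_zero_iff, hp0, hp0.not_gt] using hy
    have h2 : ∀ x, ∫⁻ y, f y * h (x - y) = 0 := by
      intro x
      rw [← lintegral_sub_left_eq_self (fun y => f y * h (x - y)) x, lintegral_eq_zero_iff (by fun_prop)]
      filter_upwards [h1] with y hy
      simp [hy]
    simp only [h2, ENNReal.zero_rpow_of_pos g0, lintegral_zero]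
    exact zero_le
  by_cases hAt : A = ∞
  · have : κ * A ^ ((g + 1) / 2) * B ^ ((g + 1) / 2) = ∞ := by
      rw [hAt, ENNReal.top_rpow_of_pos hgp, ENNReal.mul_top hκ, ENNReal.top_mul]
      simp [ENNReal.rpow_eq_zero_iff, hB0, hgp.not_gt, hgp]
    rw [this]; exact le_top
  by_cases hBt : B = ∞
  · have : κ * A ^ ((g + 1) / 2) * B ^ ((g + 1) / 2) = ∞ := by
      rw [hBt, ENNReal.top_rpow_of_pos hgp, ENNReal.mul_top]
      refine mul_ne_zero hκ ?_
      simp [ENNReal.rpow_eq_zero_iff, hA0, hgp.not_gt, hgp]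
    rw [this]; exact le_top
  set F : ℝ → ℝ≥0∞ := fun x => f x ^ p / A with hF
  set H : ℝ → ℝ≥0∞ := fun x => h x ^ p / B with hH
  have hFm : Measurable F := by fun_prop
  have hHm : Measurable H := by fun_prop
  have hF1 : ∫⁻ x, F x = 1 := by
    simp only [hF, div_eq_mul_inv]
    rw [lintegral_mul_const _ (by fun_prop), ← hA, ENNReal.mul_inv_cancel hA0 hAt]
  have hH1 : ∫⁻ x, H x = 1 := by
    simp only [hH, div_eq_mul_inv]
    rw [lintegral_mul_const _ (by fun_prop), ← hB, ENNReal.mul_inv_cancel hB0 hBt]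
  have hconj : (g / (g - 1)).HolderConjugate g := (Real.HolderConjugate.conjExponent hg).symm
  set q := g / (g - 1) with hq
  have hq0 : 0 < q := hconj.pos
  have hg1 : g - 1 ≠ 0 := by linarith
  have hexp : 1 / p = 1 / 2 * (1 / q) + 1 / g := by
    rw [hp, hq]; field_simp; ring
  have hfF : ∀ y, f y = A ^ (1 / p) * F y ^ (1 / p) := by
    intro y
    simp only [hF]
    rw [← ENNReal.mul_rpow_of_nonneg _ _ (by positivity), ENNReal.mul_div_cancel hA0 hAt,
      ← ENNReal.rpow_mul, mul_one_div_cancel hp0.ne', ENNReal.rpow_one]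
  have hhH : ∀ y, h y = B ^ (1 / p) * H y ^ (1 / p) := by
    intro y
    simp only [hH]
    rw [← ENNReal.mul_rpow_of_nonneg _ _ (by positivity), ENNReal.mul_div_cancel hB0 hBt,
      ← ENNReal.rpow_mul, mul_one_div_cancel hp0.ne', ENNReal.rpow_one]
  have hsplit : ∀ z : ℝ≥0∞, z ^ (1 / p) = (z ^ (1 / 2 : ℝ)) ^ (1 / q) * z ^ (1 / g) := by
    intro z
    rw [hexp, ENNReal.rpow_add_of_nonneg _ _ (by positivity) (by positivity), ENNReal.rpow_mul]
  have hpt : ∀ x, (∫⁻ y, f y * h (x - y)) ^ g ≤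
      A ^ ((g + 1) / 2) * B ^ ((g + 1) / 2) * (conv F H x * aff F H x ^ (g - 1)) := by
    intro x
    have h1 : ∫⁻ y, f y * h (x - y) = A ^ (1 / p) * B ^ (1 / p) *
        ∫⁻ y, (F y ^ (1 / 2 : ℝ) * H (x - y) ^ (1 / 2 : ℝ)) ^ (1 / q) *
          (F y * H (x - y)) ^ (1 / g) := by
      rw [← lintegral_const_mul _ (by fun_prop)]
      refine lintegral_congr fun y => ?_
      rw [hfF y, hhH (x - y), hsplit (F y), hsplit (H (x - y)),
        ENNReal.mul_rpow_of_nonneg _ _ (by positivity : 0 ≤ 1 / q),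
        ENNReal.mul_rpow_of_nonneg _ _ (by positivity : 0 ≤ 1 / g)]
      ring
    have h2 : ∫⁻ y, (F y ^ (1 / 2 : ℝ) * H (x - y) ^ (1 / 2 : ℝ)) ^ (1 / q) *
          (F y * H (x - y)) ^ (1 / g) ≤ aff F H x ^ (1 / q) * conv F H x ^ (1 / g) := by
      refine (ENNReal.lintegral_mul_le_Lp_mul_Lq volume hconj
        (f := fun y => (F y ^ (1 / 2 : ℝ) * H (x - y) ^ (1 / 2 : ℝ)) ^ (1 / q))
        (g := fun y => (F y * H (x - y)) ^ (1 / g)) (by fun_prop) (by fun_prop)).trans
        (le_of_eq ?_)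
      simp only [← ENNReal.rpow_mul]
      rw [one_div_mul_cancel hq0.ne', one_div_mul_cancel g0.ne']
      simp only [ENNReal.rpow_one]
      rfl
    calc (∫⁻ y, f y * h (x - y)) ^ g
        ≤ (A ^ (1 / p) * B ^ (1 / p) * (aff F H x ^ (1 / q) * conv F H x ^ (1 / g))) ^ g := by
          rw [h1]
          exact ENNReal.rpow_le_rpow (by gcongr) g0.le
      _ = A ^ ((g + 1) / 2) * B ^ ((g + 1) / 2) * (conv F H x * aff F H x ^ (g - 1)) := by
          rw [ENNReal.mul_rpow_of_nonneg _ _ g0.le, ENNReal.mul_rpow_of_nonneg _ _ g0.le,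
            ENNReal.mul_rpow_of_nonneg _ _ g0.le, ← ENNReal.rpow_mul, ← ENNReal.rpow_mul,
            ← ENNReal.rpow_mul, ← ENNReal.rpow_mul]
          have e1 : 1 / p * g = (g + 1) / 2 := by rw [hp]; field_simp
          have e2 : 1 / q * g = g - 1 := by rw [hq]; field_simp
          have e3 : 1 / g * g = 1 := by field_simp
          rw [e1, e2, e3, ENNReal.rpow_one, mul_comm (conv F H x)]
  calc ∫⁻ x, (∫⁻ y, f y * h (x - y)) ^ g
      ≤ ∫⁻ x, A ^ ((g + 1) / 2) * B ^ ((g + 1) / 2) * (conv F H x * aff F H x ^ (g - 1)) :=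
        lintegral_mono hpt
    _ = A ^ ((g + 1) / 2) * B ^ ((g + 1) / 2) *
        ∫⁻ x, aff F H x ^ (g - 1) ∂(volume.withDensity (conv F H)) := by
        have m1 := measurable_conv hFm hHm
        have m2 := measurable_aff hFm hHm
        rw [lintegral_const_mul _ (by fun_prop),
          lintegral_withDensity_eq_lintegral_mul _ m1 (by fun_prop)]
        rfl
    _ ≤ A ^ ((g + 1) / 2) * B ^ ((g + 1) / 2) * κ := by
        gcongr
        exact hmom F H hFm hHm hF1 hH1
    _ = κ * A ^ ((g + 1) / 2) * B ^ ((g + 1) / 2) := by ring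

/-- Young's inequality on `ℝ` with constant `52 / 53`. -/
theorem YP_real_one {g : ℝ} (hg : 2 ≤ g) : YP ℝ volume g (52 / 53) := by
  refine YP_real_of (by linarith) (by norm_num) fun F H hF hH hF1 hH1 => ?_
  refine le_trans (lintegral_mono fun x => ?_) (moment_one hF hH hF1 hH1)
  exact ENNReal.rpow_le_self_of_le_one (aff_le_one hF hH hF1 hH1 x) (by linarith)

/-- Young's inequality on `ℝ` with constant `2 √(2 / (g + 1))`. -/
theorem YP_real_pow {g : ℝ} (hg : 1 < g) :
    YP ℝ volume g (ENNReal.ofReal (2 * √(2 / (g + 1)))) := by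
  refine YP_real_of hg ?_ fun F H hF hH hF1 hH1 => ?_
  · rw [Ne, ENNReal.ofReal_eq_zero, not_le]
    positivity
  · have := moment_pow hF hH hF1 hH1 (N := g - 1) (by linarith)
    rwa [show g - 1 + 2 = g + 1 by ring] at this

/-- **Young's inequality with exponentially small constant**, `p = 2 g / (g + 1)`. -/
theorem young_one {g : ℝ} (hg : 2 ≤ g) (n : ℕ) :
    YP (Fin n → ℝ) volume g ((52 / 53) ^ n) := YP_pi (by linarith) (YP_real_one hg) n

/-- **Young's inequality with exponentially small constant**, `p = 2 g / (g + 1)`. -/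
theorem young_pow {g : ℝ} (hg : 1 < g) (n : ℕ) :
    YP (Fin n → ℝ) volume g (ENNReal.ofReal (2 * √(2 / (g + 1))) ^ n) :=
  YP_pi hg (YP_real_pow hg) n

end Crest.Agent.R225.Young
end

-- ▼ part R225/A234
section

/-!
# Row 225 (S0347): the analytic inequality, nodes A1, A2, A3, A4
-/

set_option autoImplicit false

open MeasureTheory Set
open scoped ENNReal

namespace Crest.Agent.R225

namespace A234

theorem const_aux {g : ℕ} (hg : 2 ≤ g) :
    2 * √(2 / ((g : ℝ) + 1)) ≤ 2 * √2 / √g := by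
  have hg2 : (2 : ℝ) ≤ g := by exact_mod_cast hg
  rw [Real.sqrt_div (by norm_num), mul_div_assoc]
  have : 0 < √(g : ℝ) := Real.sqrt_pos.mpr (by linarith)
  have : √(g : ℝ) ≤ √((g : ℝ) + 1) := Real.sqrt_le_sqrt (by linarith)
  gcongr

/-- all measurable functions, natural exponents -/
theorem young_nat {g : ℕ} (hg : 2 ≤ g) (m : ℕ) {f h : (Fin m → ℝ) → ℝ≥0∞}
    (hf : Measurable f) (hh : Measurable h) :
    ∫⁻ y, (conv f h y) ^ g ≤ ENNReal.ofReal (min (52 / 53) (2 * √2 / √g)) ^ m *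
      (∫⁻ x, f x ^ (2 * g / (g + 1) : ℝ)) ^ ((g + 1 : ℝ) / 2) *
      (∫⁻ x, h x ^ (2 * g / (g + 1) : ℝ)) ^ ((g + 1 : ℝ) / 2) := by
  have hg2 : (2 : ℝ) ≤ g := by exact_mod_cast hg
  have h1 := Young.young_one (g := g) hg2 m f h hf hh
  have h2 := Young.young_pow (g := g) (by linarith) m f h hf hh
  simp only [ENNReal.rpow_natCast] at h1 h2
  rcases min_choice (52 / 53 : ℝ) (2 * √2 / √g) with h3 | h3
  · rw [h3]
    have : (52 / 53 : ℝ≥0∞) = ENNReal.ofReal (52 / 53) := by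
      rw [ENNReal.ofReal_div_of_pos (by norm_num)]
      norm_num
    rw [this] at h1
    exact h1
  · rw [h3]
    refine h2.trans ?_
    gcongr
    exact const_aux hg

end A234



namespace A234

variable {m : ℕ}

theorem measurable_conv {f h : (Fin m → ℝ) → ℝ≥0∞} (hf : Measurable f) (hh : Measurable h) :
    Measurable (conv f h) := by
  have h1 : Measurable fun z : (Fin m → ℝ) × (Fin m → ℝ) => f z.2 * h (z.1 - z.2) := by
    fun_prop
  exact h1.lintegral_prod_right'

theorem lintegral_conv {f h : (Fin m → ℝ) → ℝ≥0∞} (hf : Measurable f) (hh : Measurable h) :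
    ∫⁻ y, conv f h y = (∫⁻ x, f x) * ∫⁻ x, h x := by
  unfold conv
  rw [lintegral_lintegral_swap (by fun_prop)]
  calc ∫⁻ y, ∫⁻ x, f y * h (x - y) = ∫⁻ y, f y * ∫⁻ x, h x := by
        refine lintegral_congr fun y => ?_
        rw [lintegral_const_mul _ (by fun_prop), lintegral_sub_right_eq_self (fun x => h x) y]
    _ = (∫⁻ x, f x) * ∫⁻ x, h x := by
        rw [lintegral_mul_const _ hf]

theorem conv_le {f : (Fin m → ℝ) → ℝ≥0∞} (hf : Measurable f) (y : Fin m → ℝ) :
    conv f f y ≤ ∫⁻ x, f x ^ 2 := by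
  unfold conv
  have h1 : ∫⁻ x, f (y - x) ^ 2 = ∫⁻ x, f x ^ 2 := lintegral_sub_left_eq_self (fun x => f x ^ 2) y
  have h2 := ENNReal.lintegral_mul_le_Lp_mul_Lq (volume : Measure (Fin m → ℝ))
    Real.HolderConjugate.two_two (f := f) (g := fun x => f (y - x)) hf.aemeasurable
    (by fun_prop)
  refine h2.trans ?_
  have e2 : ∀ z : ℝ≥0∞, z ^ (2 : ℝ) = z ^ (2 : ℕ) := fun z => by
    rw [← ENNReal.rpow_natCast]; norm_num
  simp only [e2, h1]
  rw [← ENNReal.rpow_add_of_nonneg _ _ (by norm_num) (by norm_num)]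
  norm_num

theorem measurable_FF {S : Set (Fin m → ℝ)} (hS : MeasurableSet S) (j : ℕ) :
    Measurable (FF S j) := by
  induction j with
  | zero => exact measurable_one.indicator hS
  | succ j ih => exact measurable_conv ih ih

theorem lintegral_FF {S : Set (Fin m → ℝ)} (hS : MeasurableSet S) (j : ℕ) :
    ∫⁻ x, FF S j x = volume S ^ (2 ^ j) := by
  induction j with
  | zero => simp [FF, lintegral_indicator_one hS]
  | succ j ih =>
    rw [FF, lintegral_conv (measurable_FF hS j) (measurable_FF hS j), ih, ← pow_add, pow_succ]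
    congr 1; ring

end A234

theorem prf_A3 : S_A3 := by
  refine ⟨52 / 53, by norm_num, by norm_num, fun m j S _ hS hV => ?_⟩
  have hκ : (52 / 53 : ℝ≥0∞) = ENNReal.ofReal (52 / 53) := by
    rw [ENNReal.ofReal_div_of_pos (by norm_num)]
    norm_num
  rw [← hκ]
  set κ : ℝ≥0∞ := 52 / 53
  set V := volume S with hVdef
  -- one step
  have step : ∀ j, ∀ B : ℝ≥0∞, (∀ y, FF S j y ≤ B) →
      ∫⁻ y, FF S (j + 1) y ^ 2 ≤ κ ^ m * B * V ^ (3 * 2 ^ j) := by
    intro j B hB
    have h1 := Young.young_one (g := 2) le_rfl m (FF S j) (FF S j) (A234.measurable_FF hS j)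
      (A234.measurable_FF hS j)
    have e2 : ∀ z : ℝ≥0∞, z ^ (2 : ℝ) = z ^ (2 : ℕ) := fun z => by
      rw [← ENNReal.rpow_natCast]; norm_num
    simp only [e2] at h1
    have h2 : ∫⁻ x, FF S j x ^ (2 * 2 / (2 + 1) : ℝ) ≤ B ^ (1 / 3 : ℝ) * V ^ (2 ^ j) := by
      calc ∫⁻ x, FF S j x ^ (2 * 2 / (2 + 1) : ℝ) ≤ ∫⁻ x, B ^ (1 / 3 : ℝ) * FF S j x := by
            refine lintegral_mono fun x => ?_
            have : (2 * 2 / (2 + 1) : ℝ) = 1 / 3 + 1 := by norm_num
            simp only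
            rw [this, ENNReal.rpow_add_of_nonneg _ _ (by norm_num) (by norm_num),
              ENNReal.rpow_one]
            gcongr
            exact hB x
        _ = B ^ (1 / 3 : ℝ) * V ^ (2 ^ j) := by
            rw [lintegral_const_mul _ (A234.measurable_FF hS j), A234.lintegral_FF hS j]
    have h3 : (∫⁻ x, FF S j x ^ (2 * 2 / (2 + 1) : ℝ)) ^ ((2 + 1) / 2 : ℝ) ≤
        (B ^ (1 / 3 : ℝ) * V ^ (2 ^ j)) ^ ((2 + 1) / 2 : ℝ) := by
      gcongr
    calc ∫⁻ y, FF S (j + 1) y ^ 2 ≤ κ ^ m * (B ^ (1 / 3 : ℝ) * V ^ (2 ^ j)) ^ ((2 + 1) / 2 : ℝ) *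
          (B ^ (1 / 3 : ℝ) * V ^ (2 ^ j)) ^ ((2 + 1) / 2 : ℝ) := by
          refine le_trans ?_ (mul_le_mul' (mul_le_mul' le_rfl h3) h3)
          exact h1
      _ = κ ^ m * B * V ^ (3 * 2 ^ j) := by
          rw [mul_assoc, ← ENNReal.rpow_add_of_nonneg _ _ (by norm_num) (by norm_num),
            ENNReal.mul_rpow_of_nonneg _ _ (by norm_num), ← ENNReal.rpow_mul,
            ← ENNReal.rpow_natCast V, ← ENNReal.rpow_mul, ← ENNReal.rpow_natCast V, mul_assoc]
          congr 2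
          · norm_num
          · congr 1
            push_cast
            ring
  induction j using Nat.twoStepInduction with
  | zero =>
    simp only [FF, zero_add, pow_one, Nat.reduceDiv, mul_zero, pow_zero, one_mul]
    norm_num
    have : ∀ y, (S.indicator (1 : (Fin m → ℝ) → ℝ≥0∞) y) ^ 2 = S.indicator 1 y := by
      intro y
      by_cases hy : y ∈ S <;> simp [hy]
    simp only [this]
    rw [lintegral_indicator_one hS]
  | one =>
    have := step 0 1 (fun y => by
      simp only [FF]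
      by_cases hy : y ∈ S <;> simp [hy])
    simpa using this
  | more j ih _ =>
    have hB : ∀ y, FF S (j + 1) y ≤ κ ^ (m * ((j + 1) / 2)) * V ^ (2 ^ (j + 1) - 1) :=
      fun y => (A234.conv_le (A234.measurable_FF hS j) y).trans ih
    have h1 := step (j + 1) _ hB
    refine h1.trans (le_of_eq ?_)
    have h2 : (j + 2 + 1) / 2 = (j + 1) / 2 + 1 := by omega
    have h3 : 2 ^ (j + 2 + 1) - 1 = (2 ^ (j + 1) - 1) + 3 * 2 ^ (j + 1) := by
      have : 2 ^ (j + 2 + 1) = 4 * 2 ^ (j + 1) := by ring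
      have h4 : 1 ≤ 2 ^ (j + 1) := Nat.one_le_two_pow
      omega
    rw [h2, h3, mul_add, mul_one, pow_add κ, pow_add V]
    ring

theorem prf_A4 : S_A4 := by
  refine ⟨2 * √2, by positivity, fun g m S hg _ hS hV => ?_⟩
  have h1 : ∀ (f : (Fin m → ℝ) → ℝ≥0∞) (T : Set (Fin m → ℝ)), MeasurableSet T →
      volume T = volume S → f = T.indicator 1 →
      ∫⁻ y, (conv (S.indicator 1) f y) ^ g ≤
        ENNReal.ofReal (2 * √2 / √g) ^ m * volume S ^ (g + 1) := by
    intro f T hT hTV hf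
    have hm1 : Measurable (S.indicator (1 : (Fin m → ℝ) → ℝ≥0∞)) := measurable_one.indicator hS
    have hm2 : Measurable f := hf ▸ measurable_one.indicator hT
    have hg0 : (0 : ℝ) < g := by
      have : 0 < g := by omega
      exact_mod_cast this
    have hp : (0 : ℝ) < 2 * g / (g + 1) := by positivity
    have e1 : ∀ R : Set (Fin m → ℝ), MeasurableSet R →
        ∫⁻ x, (R.indicator (1 : (Fin m → ℝ) → ℝ≥0∞) x) ^ (2 * g / (g + 1) : ℝ) = volume R := by
      intro R hR
      have : ∀ x, (R.indicator (1 : (Fin m → ℝ) → ℝ≥0∞) x) ^ (2 * g / (g + 1) : ℝ) =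
          R.indicator 1 x := by
        intro x
        by_cases hx : x ∈ R
        · simp [hx]
        · simp [hx, hp]
      simp only [this]
      rw [lintegral_indicator_one hR]
    have h := A234.young_nat hg m hm1 hm2
    rw [e1 S hS, hf, e1 T hT, hTV, ← hf, mul_assoc,
      ← ENNReal.rpow_add_of_nonneg _ _ (by positivity) (by positivity)] at h
    have e3 : (g + 1 : ℝ) / 2 + (g + 1) / 2 = ((g + 1 : ℕ) : ℝ) := by push_cast; ring
    rw [e3, ENNReal.rpow_natCast] at h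
    refine h.trans ?_
    gcongr
    exact min_le_right _ _
  constructor
  · have h2 := h1 (S.indicator 1) S hS rfl rfl
    refine le_trans (le_of_eq ?_) h2
    refine lintegral_congr fun y => ?_
    congr 1
    unfold conv
    have : ∀ x, S.indicator (1 : (Fin m → ℝ) → ℝ≥0∞) x * S.indicator 1 (y - x) =
        (S ∩ {x | y - x ∈ S}).indicator 1 x := by
      intro x
      by_cases hx : x ∈ S <;> by_cases hy : y - x ∈ S <;> simp [hx, hy, indicator]
    simp only [this]
    rw [lintegral_indicator_one]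
    exact hS.inter (measurable_const.sub measurable_id hS)
  · have hneg : MeasurableSet (-S) := hS.neg
    have h2 := h1 ((-S).indicator 1) (-S) hneg (by simp) rfl
    refine le_trans (le_of_eq ?_) h2
    refine lintegral_congr fun y => ?_
    congr 1
    unfold conv
    have : ∀ x, S.indicator (1 : (Fin m → ℝ) → ℝ≥0∞) x * (-S).indicator 1 (y - x) =
        (S ∩ {x | x - y ∈ S}).indicator 1 x := by
      intro x
      by_cases hx : x ∈ S <;> by_cases hy : x - y ∈ S <;> simp [hx, hy, indicator]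
    simp only [this]
    rw [lintegral_indicator_one]
    exact hS.inter (measurable_id.sub measurable_const hS)

end Crest.Agent.R225
end

-- ▼ part R225/All347

/-! Row 225: all nodes of S0347 put together. -/

set_option autoImplicit false

open MeasureTheory

namespace Crest.Agent.R225.All347

theorem surv : S_Surv := prf_Surv (prf_F2 prf_F1) prf_Num

theorem b3 : S_B3 := B3.B3_of_num B3.prf_indep prf_B1 prf_B2 (B3.num_gen 1000 (by norm_num))

theorem b5 : S_B5 := prf_B5 prf_B0 prf_B2 prf_E3 prf_G3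

theorem base : S_Base := prf_Base b3 prf_B4 b5

theorem multi : S_Multi := prf_Multi (prf_F3 prf_F1) prf_Num
  (prf_HP1 surv prf_E1 prf_E2 prf_Num)
  (prf_HRC prf_E3 prf_G1 prf_G2 prf_G3 prf_Num surv)
  (prf_HP2 prf_E1 prf_G2 prf_Thin surv prf_Num)

theorem grid : S_Grid := prf_Grid (prf_GridConvex prf_A3 prf_A4 prf_E1 prf_E2) prf_D1

theorem main :
    ∃ C : ℝ, ∀ (n : ℕ), 2 ≤ n → ∀ (K : Set (Fin n → ℝ)),
      IsCompact K → Convex ℝ K → (interior K).Nonempty →
        ∃ g : Matrix (Fin n) (Fin n) ℝ, g.det ≠ 0 ∧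
          (∀ x : Fin n → ℝ, ∃ z : Fin n → ℤ, x - g.mulVec (fun i => (z i : ℝ)) ∈ K) ∧
          (volume K).toReal / |g.det| ≤ C * n * Real.log n :=
  main_of grid (prf_PMain base multi)

end Crest.Agent.R225.All347
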