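import Crest.Agent.R225.Iface

-- ▼ part R225/GridConvexB
section

/-!
# Row 225, node GridConvex, part B: the `pair` clause of `GridHyp`
-/

set_option autoImplicit false

open Finset MeasureTheory
open scoped BigOperators ENNReal

namespace Crest.Agent.R225

namespace GridB

variable {m : ℕ}

/-- half-open cube of side `L` at the lattice point `z` -/
def cube (z : Pt m) (L : ℝ) : Set (Fin m → ℝ) :=
  Set.pi Set.univ (fun k => Set.Ico (z k : ℝ) (z k + L))

lemma mem_cube {z : Pt m} {L : ℝ} {x : Fin m → ℝ} :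
    x ∈ cube z L ↔ ∀ k, (z k : ℝ) ≤ x k ∧ x k < z k + L := by
  simp [cube]

lemma measurable_cube (z : Pt m) (L : ℝ) : MeasurableSet (cube z L) :=
  MeasurableSet.univ_pi fun _ => measurableSet_Ico

lemma vol_cube (z : Pt m) (L : ℝ) : volume (cube z L) = ENNReal.ofReal L ^ m := by
  rw [cube, Real.volume_pi_Ico]
  simp

lemma card_mul_le {s : Finset (Pt m)} {L : ℝ} {A : Set (Fin m → ℝ)}
    (hd : (s : Set (Pt m)).PairwiseDisjoint (fun z => cube z L))
    (hA : ∀ z ∈ s, cube z L ⊆ A) : (s.card : ℝ≥0∞) * ENNReal.ofReal L ^ m ≤ volume A := by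
  calc (s.card : ℝ≥0∞) * ENNReal.ofReal L ^ m = ∑ z ∈ s, volume (cube z L) := by
        simp [vol_cube]
    _ = volume (⋃ z ∈ s, cube z L) :=
        (measure_biUnion_finset hd fun z _ => measurable_cube z L).symm
    _ ≤ volume A := measure_mono (Set.iUnion₂_subset hA)

lemma disj_one (s : Set (Pt m)) : s.PairwiseDisjoint (fun z => cube z 1) := by
  intro z _ z' _ hne
  rw [Function.onFun, Set.disjoint_left]
  intro x hx hx'
  apply hne
  funext k
  have h1 := mem_cube.mp hx k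
  have h2 := mem_cube.mp hx' k
  have a1 : (z k : ℝ) < z' k + 1 := by linarith [h1.1, h2.2]
  have a2 : (z' k : ℝ) < z k + 1 := by linarith [h2.1, h1.2]
  have b1 : z k < z' k + 1 := by exact_mod_cast a1
  have b2 : z' k < z k + 1 := by exact_mod_cast a2
  omega

lemma disj_two (s : Set (Pt m)) (z0 : Pt m) (d : ℤ) (hd : 2 ≤ |d|)
    (hs : ∀ z ∈ s, ∀ k, d ∣ z k - z0 k) : s.PairwiseDisjoint (fun z => cube z 2) := by
  intro z hz z' hz' hne
  rw [Function.onFun, Set.disjoint_left]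
  intro x hx hx'
  apply hne
  funext k
  have h1 := mem_cube.mp hx k
  have h2 := mem_cube.mp hx' k
  have a1 : (z k : ℝ) < z' k + 2 := by linarith [h1.1, h2.2]
  have a2 : (z' k : ℝ) < z k + 2 := by linarith [h2.1, h1.2]
  have b1 : z k < z' k + 2 := by exact_mod_cast a1
  have b2 : z' k < z k + 2 := by exact_mod_cast a2
  have hdiv : d ∣ z k - z' k := by
    have := dvd_sub (hs z hz k) (hs z' hz' k)
    simpa using this
  by_contra hkk
  have hne' : z k - z' k ≠ 0 := sub_ne_zero.mpr hkk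
  have := Int.le_of_dvd (abs_pos.mpr hne') ((abs_dvd_abs d (z k - z' k)).mpr hdiv)
  have h3 : |z k - z' k| < 2 := by
    rw [abs_lt]; constructor <;> omega
  omega

/-- number of solutions of `c z₁ + c' z₂ = y` -/
def NP (G : Finset (Pt m)) (c c' : ℤ) (y : Pt m) : ℕ :=
  ((G ×ˢ G).filter fun z => c • z.1 + c' • z.2 = y).card

lemma relCount_two (G : Finset (Pt m)) (c c' : ℤ) (y : Pt m) :
    relCount G ![c, c'] y ≤ NP G c c' y := by
  classical
  unfold relCount NP
  refine Finset.card_le_card_of_injOn (fun z => (z 0, z 1)) ?_ ?_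
  · intro z hz
    simp only [Finset.coe_filter, Set.mem_ofPred_eq, Fintype.mem_piFinset, Fin.sum_univ_two,
      Matrix.cons_val_zero, Matrix.cons_val_one, Finset.mem_product] at hz ⊢
    exact ⟨⟨hz.1 0, hz.1 1⟩, hz.2⟩
  · intro z _ z' _ h
    simp only [Prod.mk.injEq] at h
    funext i
    fin_cases i
    · exact h.1
    · exact h.2

/-- counting along one coordinate -/
lemma NP_le_left (G : Finset (Pt m)) (c c' : ℤ) (hc' : c' ≠ 0) (y : Pt m) (s : Finset (Pt m))
    (hs : ∀ z1 ∈ G, ∀ z2 ∈ G, c • z1 + c' • z2 = y → z1 ∈ s) : NP G c c' y ≤ s.card := by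
  unfold NP
  refine Finset.card_le_card_of_injOn Prod.fst ?_ ?_
  · intro z hz
    simp only [Finset.coe_filter, Set.mem_ofPred_eq, Finset.mem_product] at hz
    exact hs _ hz.1.1 _ hz.1.2 hz.2
  · intro z hz z' hz' h
    simp only [Finset.coe_filter, Set.mem_ofPred_eq, Finset.mem_product] at hz hz'
    have h1 : c • z.1 + c' • z.2 = c • z'.1 + c' • z'.2 := hz.2.trans hz'.2.symm
    rw [h] at h1
    have h2 : c' • z.2 = c' • z'.2 := add_left_cancel h1
    have h3 : z.2 = z'.2 := by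
      funext k
      have := congrFun h2 k
      simp only [Pi.smul_apply, smul_eq_mul] at this
      exact mul_left_cancel₀ hc' this
    exact Prod.ext h h3

lemma NP_le_right (G : Finset (Pt m)) (c c' : ℤ) (hc : c ≠ 0) (y : Pt m) (s : Finset (Pt m))
    (hs : ∀ z1 ∈ G, ∀ z2 ∈ G, c • z1 + c' • z2 = y → z2 ∈ s) : NP G c c' y ≤ s.card := by
  unfold NP
  refine Finset.card_le_card_of_injOn Prod.snd ?_ ?_
  · intro z hz
    simp only [Finset.coe_filter, Set.mem_ofPred_eq, Finset.mem_product] at hz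
    exact hs _ hz.1.1 _ hz.1.2 hz.2
  · intro z hz z' hz' h
    simp only [Finset.coe_filter, Set.mem_ofPred_eq, Finset.mem_product] at hz hz'
    have h1 : c • z.1 + c' • z.2 = c • z'.1 + c' • z'.2 := hz.2.trans hz'.2.symm
    rw [h] at h1
    have h2 : c • z.1 = c • z'.1 := add_right_cancel h1
    have h3 : z.1 = z'.1 := by
      funext k
      have := congrFun h2 k
      simp only [Pi.smul_apply, smul_eq_mul] at this
      exact mul_left_cancel₀ hc this
    exact Prod.ext h3 h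

/-- a coset of `dℤ^m`, `|d| ≥ 2`, contains few points of `G` -/
lemma coset_card (G : Finset (Pt m)) (Sp : Set (Fin m → ℝ))
    (hcube : ∀ g ∈ G, cube g 2 ⊆ Sp) (hvol : volume Sp ≤ 2 * (G.card : ℝ≥0∞))
    (z0 : Pt m) (d : ℤ) (hd : 2 ≤ |d|) :
    ((G.filter fun z => ∀ k, d ∣ z k - z0 k).card : ℝ) * 2 ^ m ≤ 2 * G.card := by
  have h := card_mul_le (s := G.filter fun z => ∀ k, d ∣ z k - z0 k) (L := 2) (A := Sp)
    (disj_two _ z0 d hd (by intro z hz; simpa using (Finset.mem_filter.mp hz).2))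
    (fun z hz => hcube z (Finset.mem_filter.mp hz).1)
  have h2 := h.trans hvol
  have e1 : ((G.filter fun z => ∀ k, d ∣ z k - z0 k).card : ℝ≥0∞) * ENNReal.ofReal 2 ^ m
      = ENNReal.ofReal (((G.filter fun z => ∀ k, d ∣ z k - z0 k).card : ℝ) * 2 ^ m) := by
    rw [ENNReal.ofReal_mul (by positivity), ENNReal.ofReal_natCast,
      ENNReal.ofReal_pow (by norm_num)]
  have e2 : 2 * (G.card : ℝ≥0∞) = ENNReal.ofReal (2 * G.card) := by
    rw [ENNReal.ofReal_mul (by norm_num), ENNReal.ofReal_natCast]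
    norm_num
  rw [e1, e2] at h2
  exact (ENNReal.ofReal_le_ofReal_iff (by positivity)).mp h2

/-- the non-proportional case -/
lemma NP_small (G : Finset (Pt m)) (Sp : Set (Fin m → ℝ))
    (hcube : ∀ g ∈ G, cube g 2 ⊆ Sp) (hvol : volume Sp ≤ 2 * (G.card : ℝ≥0∞))
    (c c' : ℤ) (hc : c ≠ 0) (hc' : c' ≠ 0) (h1 : c ≠ c') (h2 : c ≠ -c') (y : Pt m) :
    (NP G c c' y : ℝ) * 2 ^ m ≤ 2 * G.card := by
  classical
  by_cases hex : ∃ z ∈ G ×ˢ G, c • z.1 + c' • z.2 = y
  swap
  · have : NP G c c' y = 0 := by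
      unfold NP
      rw [Finset.card_eq_zero, Finset.filter_eq_empty_iff]
      intro z hz hzy
      exact hex ⟨z, hz, hzy⟩
    rw [this]; simp
  obtain ⟨z0, _, hz0⟩ := hex
  -- write c = g a, c' = g b
  set g : ℤ := ((Int.gcd c c' : ℕ) : ℤ) with hg
  have hgpos : 0 < g := by
    have : 0 < Int.gcd c c' := Int.gcd_pos_of_ne_zero_left _ hc
    rw [hg]
    exact_mod_cast this
  obtain ⟨a, ha⟩ : g ∣ c := by rw [hg]; exact Int.gcd_dvd_left ..
  obtain ⟨b, hb⟩ : g ∣ c' := by rw [hg]; exact Int.gcd_dvd_right ..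
  have hcop : IsCoprime a b := by
    rw [Int.isCoprime_iff_gcd_eq_one]
    have : Int.gcd (g * a) (g * b) = g.natAbs * Int.gcd a b := Int.gcd_mul_left ..
    rw [← ha, ← hb] at this
    have hgn : g.natAbs = Int.gcd c c' := by simp [hg]
    rw [hgn] at this
    have hpos : 0 < Int.gcd c c' := Int.gcd_pos_of_ne_zero_left _ hc
    nlinarith [this, Nat.eq_of_mul_eq_mul_left hpos (by rw [mul_one]; exact this.symm :
      Int.gcd c c' * Int.gcd a b = Int.gcd c c' * 1)]
  have key : ∀ z1 z2 : Pt m, c • z1 + c' • z2 = y → ∀ k,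
      a * (z1 k - z0.1 k) = -(b * (z2 k - z0.2 k)) := by
    intro z1 z2 hz k
    have e1 := congrFun hz k
    have e2 := congrFun hz0 k
    simp only [Pi.add_apply, Pi.smul_apply, smul_eq_mul] at e1 e2
    have e3 : g * (a * (z1 k - z0.1 k) + b * (z2 k - z0.2 k)) = 0 := by
      have : c * z1 k + c' * z2 k = c * z0.1 k + c' * z0.2 k := e1.trans e2.symm
      rw [ha, hb] at this
      linarith
    have e4 := (mul_eq_zero.mp e3).resolve_left hgpos.ne'
    linarith
  by_cases hb2 : 2 ≤ |b|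
  · have hle : NP G c c' y ≤ (G.filter fun z => ∀ k, b ∣ z k - z0.1 k).card := by
      refine NP_le_left G c c' hc' y _ ?_
      intro z1 hz1 z2 _ hz
      rw [Finset.mem_filter]
      refine ⟨hz1, fun k => ?_⟩
      have := key z1 z2 hz k
      have hdv : b ∣ a * (z1 k - z0.1 k) := by
        rw [this]; exact (dvd_mul_right b _).neg_right
      exact hcop.symm.dvd_of_dvd_mul_left hdv
    calc (NP G c c' y : ℝ) * 2 ^ m
        ≤ ((G.filter fun z => ∀ k, b ∣ z k - z0.1 k).card : ℝ) * 2 ^ m := by gcongr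
      _ ≤ 2 * G.card := coset_card G Sp hcube hvol z0.1 b hb2
  · by_cases ha2 : 2 ≤ |a|
    · have hle : NP G c c' y ≤ (G.filter fun z => ∀ k, a ∣ z k - z0.2 k).card := by
        refine NP_le_right G c c' hc y _ ?_
        intro z1 _ z2 hz2 hz
        rw [Finset.mem_filter]
        refine ⟨hz2, fun k => ?_⟩
        have := key z1 z2 hz k
        have hdv : a ∣ b * (z2 k - z0.2 k) := by
          have h5 : b * (z2 k - z0.2 k) = -(a * (z1 k - z0.1 k)) := by linarith
          rw [h5]; exact (dvd_mul_right a _).neg_right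
        exact hcop.dvd_of_dvd_mul_left hdv
      calc (NP G c c' y : ℝ) * 2 ^ m
          ≤ ((G.filter fun z => ∀ k, a ∣ z k - z0.2 k).card : ℝ) * 2 ^ m := by gcongr
        _ ≤ 2 * G.card := coset_card G Sp hcube hvol z0.2 a ha2
    · exfalso
      have hane : a ≠ 0 := by rintro rfl; simp at ha; exact hc ha
      have hbne : b ≠ 0 := by rintro rfl; simp at hb; exact hc' hb
      have ha1 : |a| = 1 := by
        have := abs_pos.mpr hane; omega
      have hb1 : |b| = 1 := by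
        have := abs_pos.mpr hbne; omega
      rcases (abs_eq (by norm_num : (0:ℤ) ≤ 1)).mp ha1 with h | h <;>
      rcases (abs_eq (by norm_num : (0:ℤ) ≤ 1)).mp hb1 with h' | h'
      · exact h1 (by rw [ha, hb, h, h'])
      · exact h2 (by rw [ha, hb, h, h']; ring)
      · exact h2 (by rw [ha, hb, h, h']; ring)
      · exact h1 (by rw [ha, hb, h, h'])

/-- lower bound for the overlap, sums -/
lemma lower_sum (G : Finset (Pt m)) (Sp : Set (Fin m → ℝ)) (hcube : ∀ g ∈ G, cube g 2 ⊆ Sp)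
    (u : Pt m) (x : Fin m → ℝ) (hx : x ∈ cube (u + 1) 1) :
    (NP G 1 1 u : ℝ≥0∞) ≤ volume (Sp ∩ {t | x - t ∈ Sp}) := by
  classical
  have h1 : NP G 1 1 u ≤ (G.filter fun z => u - z ∈ G).card := by
    refine NP_le_left G 1 1 one_ne_zero u _ ?_
    intro z1 hz1 z2 hz2 hz
    rw [Finset.mem_filter]
    refine ⟨hz1, ?_⟩
    have : u - z1 = z2 := by rw [← hz]; simp
    rwa [this]
  have h2 := card_mul_le (s := G.filter fun z => u - z ∈ G) (L := 1)
    (A := Sp ∩ {t | x - t ∈ Sp}) (disj_one _) (by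
      intro z hz t ht
      rw [Finset.mem_filter] at hz
      have ht' := mem_cube.mp ht
      have hx' := mem_cube.mp hx
      refine ⟨hcube z hz.1 (mem_cube.mpr fun k => ⟨(ht' k).1, by linarith [(ht' k).2]⟩), ?_⟩
      show x - t ∈ Sp
      refine hcube _ hz.2 (mem_cube.mpr fun k => ?_)
      have a1 := ht' k
      have a2 := hx' k
      simp only [Pi.add_apply, Pi.one_apply, Int.cast_add, Int.cast_one, Pi.sub_apply,
        Int.cast_sub] at a1 a2 ⊢
      constructor <;> linarith [a1.1, a1.2, a2.1, a2.2])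
  simp only [ENNReal.ofReal_one, one_pow, mul_one] at h2
  exact le_trans (by exact_mod_cast h1) h2

/-- lower bound for the overlap, differences -/
lemma lower_diff (G : Finset (Pt m)) (Sp : Set (Fin m → ℝ)) (hcube : ∀ g ∈ G, cube g 2 ⊆ Sp)
    (u : Pt m) (x : Fin m → ℝ) (hx : x ∈ cube (u - 1) 1) :
    (NP G 1 (-1) u : ℝ≥0∞) ≤ volume (Sp ∩ {t | t - x ∈ Sp}) := by
  classical
  have h1 : NP G 1 (-1) u ≤ (G.filter fun z => z - u ∈ G).card := by
    refine NP_le_left G 1 (-1) (by norm_num) u _ ?_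
    intro z1 hz1 z2 hz2 hz
    rw [Finset.mem_filter]
    refine ⟨hz1, ?_⟩
    have : z1 - u = z2 := by rw [← hz]; simp
    rwa [this]
  have h2 := card_mul_le (s := G.filter fun z => z - u ∈ G) (L := 1)
    (A := Sp ∩ {t | t - x ∈ Sp}) (disj_one _) (by
      intro z hz t ht
      rw [Finset.mem_filter] at hz
      have ht' := mem_cube.mp ht
      have hx' := mem_cube.mp hx
      refine ⟨hcube z hz.1 (mem_cube.mpr fun k => ⟨(ht' k).1, by linarith [(ht' k).2]⟩), ?_⟩
      show t - x ∈ Sp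
      refine hcube _ hz.2 (mem_cube.mpr fun k => ?_)
      have a1 := ht' k
      have a2 := hx' k
      simp only [Pi.one_apply, Int.cast_one, Pi.sub_apply, Int.cast_sub] at a1 a2 ⊢
      constructor <;> linarith [a1.1, a1.2, a2.1, a2.2])
  simp only [ENNReal.ofReal_one, one_pow, mul_one] at h2
  exact le_trans (by exact_mod_cast h1) h2

/-- Markov inequality over unit cubes -/
lemma markov {Y : Finset (Pt m)} (sh : Pt m → Pt m) (hinj : Function.Injective sh)
    (f : (Fin m → ℝ) → ℝ≥0∞) (θ : ℝ≥0∞) (h : ∀ u ∈ Y, ∀ x ∈ cube (sh u) 1, θ ≤ f x) :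
    (Y.card : ℝ≥0∞) * θ ≤ ∫⁻ x, f x := by
  classical
  set s : Finset (Pt m) := Y.image sh with hs
  have hcard : s.card = Y.card := Finset.card_image_of_injective _ hinj
  have hvol : volume (⋃ z ∈ s, cube z 1) = (Y.card : ℝ≥0∞) := by
    rw [measure_biUnion_finset (disj_one _) fun z _ => measurable_cube z 1]
    simp [vol_cube, hcard]
  have hmeas : MeasurableSet (⋃ z ∈ s, cube z 1) :=
    Finset.measurableSet_biUnion _ fun z _ => measurable_cube z 1
  calc (Y.card : ℝ≥0∞) * θ = ∫⁻ x, (⋃ z ∈ s, cube z 1).indicator (fun _ => θ) x := by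
        rw [lintegral_indicator_const hmeas, hvol, mul_comm]
    _ ≤ ∫⁻ x, f x := by
        refine lintegral_mono fun x => ?_
        by_cases hx : x ∈ ⋃ z ∈ s, cube z 1
        · rw [Set.indicator_of_mem hx]
          simp only [Set.mem_iUnion] at hx
          obtain ⟨z, hz, hxz⟩ := hx
          obtain ⟨u, hu, rfl⟩ := Finset.mem_image.mp hz
          exact h u hu x hxz
        · rw [Set.indicator_of_notMem hx]
          exact bot_le

/-- the exceptional set for `c = ±c'` -/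
lemma exc_card (G : Finset (Pt m)) (g : ℕ) (C θ : ℝ) (hC : 0 ≤ C) (hθ : 0 ≤ θ)
    (ε : ℤ) (V : (Fin m → ℝ) → ℝ≥0∞) (sh : Pt m → Pt m) (hinj : Function.Injective sh)
    (hlow : ∀ u, ∀ x ∈ cube (sh u) 1, (NP G 1 ε u : ℝ≥0∞) ≤ V x)
    (hint : ∫⁻ x, V x ^ g ≤ ENNReal.ofReal (C / Real.sqrt g) ^ m *
      (2 * (G.card : ℝ≥0∞)) ^ (g + 1)) :
    ∃ Y : Finset (Pt m), (Y.card : ℝ) * θ ^ g ≤ (C / Real.sqrt g) ^ m * (2 * G.card) ^ (g + 1) ∧
      ∀ u, u ∉ Y → (NP G 1 ε u : ℝ) ≤ θ := by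
  classical
  refine ⟨((G ×ˢ G).image fun z => z.1 + ε • z.2).filter fun u => θ < (NP G 1 ε u : ℝ), ?_, ?_⟩
  · set Y := ((G ×ˢ G).image fun z => z.1 + ε • z.2).filter fun u => θ < (NP G 1 ε u : ℝ)
    have h1 : (Y.card : ℝ≥0∞) * ENNReal.ofReal (θ ^ g) ≤ ∫⁻ x, V x ^ g := by
      refine markov sh hinj _ _ ?_
      intro u hu x hx
      have h2 := (Finset.mem_filter.mp hu).2
      have h3 : ENNReal.ofReal θ ≤ (NP G 1 ε u : ℝ≥0∞) := by
        rw [← ENNReal.ofReal_natCast]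
        exact ENNReal.ofReal_le_ofReal h2.le
      rw [ENNReal.ofReal_pow hθ]
      gcongr
      exact h3.trans (hlow u x hx)
    have h4 := h1.trans hint
    have e1 : (Y.card : ℝ≥0∞) * ENNReal.ofReal (θ ^ g)
        = ENNReal.ofReal ((Y.card : ℝ) * θ ^ g) := by
      rw [ENNReal.ofReal_mul (by positivity), ENNReal.ofReal_natCast]
    have hCs : 0 ≤ C / Real.sqrt g := by positivity
    have e2 : ENNReal.ofReal (C / Real.sqrt g) ^ m * (2 * (G.card : ℝ≥0∞)) ^ (g + 1)
        = ENNReal.ofReal ((C / Real.sqrt g) ^ m * (2 * G.card) ^ (g + 1)) := by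
      rw [ENNReal.ofReal_mul (by positivity), ENNReal.ofReal_pow hCs,
        ENNReal.ofReal_pow (by positivity), ENNReal.ofReal_mul (by norm_num),
        ENNReal.ofReal_natCast]
      norm_num
    rw [e1, e2] at h4
    exact (ENNReal.ofReal_le_ofReal_iff (by positivity)).mp h4
  · intro u hu
    by_contra hcon
    push Not at hcon
    apply hu
    rw [Finset.mem_filter]
    refine ⟨?_, hcon⟩
    have hne : NP G 1 ε u ≠ 0 := by
      intro h0
      rw [h0] at hcon
      simp at hcon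
      linarith
    unfold NP at hne
    rw [Finset.card_ne_zero] at hne
    obtain ⟨z, hz⟩ := hne
    rw [Finset.mem_filter] at hz
    rw [Finset.mem_image]
    exact ⟨z, hz.1, by simpa using hz.2⟩

/-- reduction of `c' = ε c` to `c = 1` -/
lemma NP_prop (G : Finset (Pt m)) (c ε : ℤ) (hc : c ≠ 0) (y u : Pt m) (hy : y = c • u) :
    NP G c (ε * c) y ≤ NP G 1 ε u := by
  unfold NP
  refine Finset.card_le_card ?_
  intro z hz
  rw [Finset.mem_filter] at hz ⊢
  refine ⟨hz.1, ?_⟩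
  have h1 := hz.2
  rw [hy] at h1
  funext k
  have := congrFun h1 k
  simp only [Pi.add_apply, Pi.smul_apply, smul_eq_mul] at this ⊢
  have h2 : c * (1 * z.1 k + ε * z.2 k) = c * u k := by linarith
  exact mul_left_cancel₀ hc h2

lemma exc_prop (G : Finset (Pt m)) (c ε : ℤ) (hc : c ≠ 0) (θ B : ℝ) (hθ : 0 ≤ θ)
    (h : ∃ Y : Finset (Pt m), (Y.card : ℝ) ≤ B ∧ ∀ u, u ∉ Y → (NP G 1 ε u : ℝ) ≤ θ) :
    ∃ Y : Finset (Pt m), (Y.card : ℝ) ≤ B ∧ ∀ y, y ∉ Y → (NP G c (ε * c) y : ℝ) ≤ θ := by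
  classical
  obtain ⟨Y, hY, hN⟩ := h
  refine ⟨Y.image fun u => c • u, ?_, ?_⟩
  · refine le_trans ?_ hY
    exact_mod_cast Finset.card_image_le
  · intro y hy
    by_cases hex : ∃ z ∈ G ×ˢ G, c • z.1 + (ε * c) • z.2 = y
    · obtain ⟨z, _, hz⟩ := hex
      have hyu : y = c • (z.1 + ε • z.2) := by
        rw [← hz, smul_add, smul_smul, mul_comm c ε]
      have h1 := NP_prop G c ε hc y _ hyu
      have h2 : z.1 + ε • z.2 ∉ Y := by
        intro hmem
        exact hy (Finset.mem_image.mpr ⟨_, hmem, hyu.symm⟩)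
      exact le_trans (by exact_mod_cast h1) (hN _ h2)
    · have : NP G c (ε * c) y = 0 := by
        unfold NP
        rw [Finset.card_eq_zero, Finset.filter_eq_empty_iff]
        intro z hz hzy
        exact hex ⟨z, hz, hzy⟩
      rw [this]
      simpa using hθ

/-! ### numerics -/

lemma num_two : ∃ n0 : ℕ, ∀ n ≥ n0, ∀ m : ℕ, n ≤ 2 * m →
    2 / 2 ^ m ≤ Real.exp (-(n : ℝ) ^ (6 / 10 : ℝ)) := by
  refine ⟨1024, fun n hn m hm => ?_⟩
  have hn' : (1024 : ℝ) ≤ n := by exact_mod_cast hn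
  have hnpos : (0 : ℝ) < n := by linarith
  have hm' : (n : ℝ) / 2 ≤ m := by
    have : (n : ℝ) ≤ 2 * m := by exact_mod_cast hm
    linarith
  have h1 : (n : ℝ) ^ (6 / 10 : ℝ) ≤ n / 4 := by
    have e : (n : ℝ) = (n : ℝ) ^ (6 / 10 : ℝ) * (n : ℝ) ^ (4 / 10 : ℝ) := by
      rw [← Real.rpow_add hnpos]; norm_num
    have h4 : (4 : ℝ) ≤ (n : ℝ) ^ (4 / 10 : ℝ) := by
      calc (4 : ℝ) ≤ (1024 : ℝ) ^ (4 / 10 : ℝ) := by
            have : (1024 : ℝ) = 2 ^ (10 : ℝ) := by norm_num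
            rw [this, ← Real.rpow_mul (by norm_num)]
            norm_num
        _ ≤ (n : ℝ) ^ (4 / 10 : ℝ) := Real.rpow_le_rpow (by norm_num) hn' (by norm_num)
    have hp : 0 ≤ (n : ℝ) ^ (6 / 10 : ℝ) := by positivity
    nlinarith
  have hl2 : 0.69 < Real.log 2 := by linarith [Real.log_two_gt_d9]
  have e2 : (2 : ℝ) / 2 ^ m = Real.exp (Real.log 2 - m * Real.log 2) := by
    rw [Real.exp_sub, Real.exp_log (by norm_num), ← Real.log_pow, Real.exp_log (by positivity)]
  rw [e2]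
  apply Real.exp_le_exp.mpr
  have hl3 : Real.log 2 ≤ 0.7 := by linarith [Real.log_two_lt_d9]
  nlinarith [mul_le_mul hm' hl2.le (by norm_num) (by positivity : (0:ℝ) ≤ (m:ℝ))]

/-- the main numerical inequality -/
lemma num_exc (C : ℝ) (hC : 1 ≤ C) : ∃ n0 : ℕ, ∀ n ≥ n0, ∀ m g : ℕ, n ≤ 2 * m →
    g = ⌈(n : ℝ) ^ (3 / 10 : ℝ)⌉₊ →
    2 ≤ g ∧ 2 ^ (g + 1) * (C / Real.sqrt g) ^ m * Real.exp (g * (n : ℝ) ^ (6 / 10 : ℝ))
      ≤ Real.exp (-(1 / 20 * NN n)) := by
  obtain ⟨n0, hn0⟩ := exists_nat_gt (Real.exp (240 + 20 * Real.log C))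
  refine ⟨max n0 1024, fun n hn m g hm hg => ?_⟩
  have hn1 : (n0 : ℝ) ≤ n := by exact_mod_cast (le_max_left _ _).trans hn
  have hn2 : (1024 : ℝ) ≤ n := by exact_mod_cast (le_max_right _ _).trans hn
  have hnpos : (0 : ℝ) < n := by linarith
  have hone : (1 : ℝ) ≤ n := by linarith
  have hlogC : 0 ≤ Real.log C := Real.log_nonneg hC
  have hlog : 240 + 20 * Real.log C ≤ Real.log n := by
    rw [Real.le_log_iff_exp_le hnpos]
    linarith
  have hm' : (n : ℝ) / 2 ≤ m := by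
    have : (n : ℝ) ≤ 2 * m := by exact_mod_cast hm
    linarith
  have hx3 : (2 : ℝ) ≤ (n : ℝ) ^ (3 / 10 : ℝ) := by
    calc (2 : ℝ) ≤ (1024 : ℝ) ^ (3 / 10 : ℝ) := by
          have : (1024 : ℝ) = 2 ^ (10 : ℝ) := by norm_num
          rw [this, ← Real.rpow_mul (by norm_num)]
          norm_num
      _ ≤ (n : ℝ) ^ (3 / 10 : ℝ) := Real.rpow_le_rpow (by norm_num) hn2 (by norm_num)
  have hgl : (n : ℝ) ^ (3 / 10 : ℝ) ≤ g := by rw [hg]; exact Nat.le_ceil _
  have hgu : (g : ℝ) ≤ (n : ℝ) ^ (3 / 10 : ℝ) + 1 := by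
    rw [hg]; exact (Nat.ceil_lt_add_one (by positivity)).le
  have hg2 : 2 ≤ g := by
    have : (2 : ℝ) ≤ g := by linarith
    exact_mod_cast this
  refine ⟨hg2, ?_⟩
  have hgpos : (0 : ℝ) < g := by linarith
  have hlogg : 3 / 10 * Real.log n ≤ Real.log g := by
    rw [← Real.log_rpow hnpos]
    exact Real.log_le_log (by positivity) hgl
  have hgn : (g : ℝ) * (n : ℝ) ^ (6 / 10 : ℝ) ≤ 2 * n := by
    have e9 : (n : ℝ) ^ (3 / 10 : ℝ) * (n : ℝ) ^ (6 / 10 : ℝ) = (n : ℝ) ^ (9 / 10 : ℝ) := by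
      rw [← Real.rpow_add hnpos]; norm_num
    have h9 : (n : ℝ) ^ (9 / 10 : ℝ) ≤ n := by
      calc (n : ℝ) ^ (9 / 10 : ℝ) ≤ (n : ℝ) ^ (1 : ℝ) :=
            Real.rpow_le_rpow_of_exponent_le hone (by norm_num)
        _ = n := Real.rpow_one _
    have h6 : 0 ≤ (n : ℝ) ^ (6 / 10 : ℝ) := by positivity
    calc (g : ℝ) * (n : ℝ) ^ (6 / 10 : ℝ)
        ≤ (2 * (n : ℝ) ^ (3 / 10 : ℝ)) * (n : ℝ) ^ (6 / 10 : ℝ) := by
          apply mul_le_mul_of_nonneg_right _ h6
          linarith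
      _ = 2 * (n : ℝ) ^ (9 / 10 : ℝ) := by rw [mul_assoc, e9]
      _ ≤ 2 * n := by linarith
  have hg1 : ((g : ℝ) + 1) * Real.log 2 ≤ 2 * n := by
    have h3 : (n : ℝ) ^ (3 / 10 : ℝ) ≤ n := by
      calc (n : ℝ) ^ (3 / 10 : ℝ) ≤ (n : ℝ) ^ (1 : ℝ) :=
            Real.rpow_le_rpow_of_exponent_le hone (by norm_num)
        _ = n := Real.rpow_one _
    have hl3 : Real.log 2 ≤ 0.7 := by linarith [Real.log_two_lt_d9]
    have hl0 : 0 ≤ Real.log 2 := Real.log_nonneg (by norm_num)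
    nlinarith
  have e1 : (2 : ℝ) ^ (g + 1) = Real.exp (((g : ℝ) + 1) * Real.log 2) := by
    rw [← Real.rpow_natCast, Real.rpow_def_of_pos (by norm_num)]
    push_cast
    ring_nf
  have e2 : (C / Real.sqrt g) ^ m = Real.exp (m * (Real.log C - 1 / 2 * Real.log g)) := by
    have hs : 0 < Real.sqrt g := Real.sqrt_pos.mpr hgpos
    rw [← Real.exp_log (show (0:ℝ) < C / Real.sqrt g by positivity), ← Real.exp_nat_mul,
      Real.log_div (by positivity) hs.ne', Real.log_sqrt hgpos.le]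
    ring_nf
  rw [e1, e2, ← Real.exp_add, ← Real.exp_add]
  apply Real.exp_le_exp.mpr
  have hneg : Real.log C - 1 / 2 * Real.log g ≤ Real.log C - 3 / 20 * Real.log n := by linarith
  have hneg2 : Real.log C - 3 / 20 * Real.log n ≤ 0 := by nlinarith
  have hmm : (m : ℝ) * (Real.log C - 1 / 2 * Real.log g)
      ≤ (n : ℝ) / 2 * (Real.log C - 3 / 20 * Real.log n) := by
    calc (m : ℝ) * (Real.log C - 1 / 2 * Real.log g)
        ≤ m * (Real.log C - 3 / 20 * Real.log n) := by gcongr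
      _ ≤ (n : ℝ) / 2 * (Real.log C - 3 / 20 * Real.log n) := by
          exact mul_le_mul_of_nonpos_right hm' hneg2
  unfold NN
  have hfin : (n : ℝ) * (240 + 20 * Real.log C) ≤ n * Real.log n := by gcongr
  nlinarith

end GridB

/-- the `pair` clause of `GridHyp` -/
theorem grid_pair (hA4 : S_A4) : ∃ n0 : ℕ, ∀ n ≥ n0, ∀ m : ℕ, n ≤ 2 * m → m ≤ n →
    ∀ (G : Finset (Pt m)) (Sp : Set (Fin m → ℝ)), Convex ℝ Sp → MeasurableSet Sp →
    (∀ g ∈ G, ∀ x : Fin m → ℝ, (∀ k, (g k : ℝ) ≤ x k ∧ x k < g k + 2) → x ∈ Sp) →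
    volume Sp ≤ 2 * (G.card : ℝ≥0∞) → ∀ c1 : ℝ, c1 ≤ 1 / 20 →
    ∀ c c' : ℤ, c ≠ 0 → c' ≠ 0 → ∃ Y : Finset (Pt m),
      (Y.card : ℝ) ≤ G.card * Real.exp (-(c1 * NN n)) ∧
      ∀ y, y ∉ Y → (relCount G ![c, c'] y : ℝ) ≤ G.card * Real.exp (-(n : ℝ) ^ (6 / 10 : ℝ)) := by
  classical
  obtain ⟨C0, hC0, hA⟩ := hA4
  set C : ℝ := max C0 1 with hCdef
  have hC1 : 1 ≤ C := le_max_right _ _
  obtain ⟨n1, hn1⟩ := GridB.num_two
  obtain ⟨n2, hn2⟩ := GridB.num_exc C hC1
  refine ⟨max (max n1 n2) 1, fun n hn m hm hmn G Sp hconv hmeas hc2 hvol c1 hc1 c c' hc hc' => ?_⟩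
  have hn1' := hn1 n (((le_max_left _ _).trans (le_max_left _ _)).trans hn) m hm
  have hone : (1 : ℝ) ≤ n := by exact_mod_cast (le_max_right _ _).trans hn
  obtain ⟨hg2, hnum⟩ := hn2 n (((le_max_right _ _).trans (le_max_left _ _)).trans hn) m
    ⌈(n : ℝ) ^ (3 / 10 : ℝ)⌉₊ hm rfl
  set g : ℕ := ⌈(n : ℝ) ^ (3 / 10 : ℝ)⌉₊ with hgdef
  set E : ℝ := Real.exp (-(n : ℝ) ^ (6 / 10 : ℝ)) with hE
  have hEpos : 0 < E := Real.exp_pos _
  have hNN : 0 ≤ NN n := by
    unfold NN; exact mul_nonneg (by positivity) (Real.log_nonneg hone)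
  have hcube : ∀ z ∈ G, GridB.cube z 2 ⊆ Sp := fun z hz x hx => hc2 z hz x (GridB.mem_cube.mp hx)
  have hvolfin : volume Sp ≠ ∞ := by
    refine ne_top_of_le_ne_top ?_ hvol
    exact ENNReal.mul_ne_top (by norm_num) (ENNReal.natCast_ne_top _)
  -- reduction to NP
  suffices h : ∃ Y : Finset (Pt m), (Y.card : ℝ) ≤ G.card * Real.exp (-(c1 * NN n)) ∧
      ∀ y, y ∉ Y → (GridB.NP G c c' y : ℝ) ≤ G.card * E by
    obtain ⟨Y, h1, h2⟩ := h
    refine ⟨Y, h1, fun y hy => ?_⟩
    refine le_trans ?_ (h2 y hy)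
    exact_mod_cast GridB.relCount_two G c c' y
  by_cases hG : G.card = 0
  · refine ⟨∅, by simp [hG], fun y _ => ?_⟩
    have hG' : G = ∅ := Finset.card_eq_zero.mp hG
    have : GridB.NP G c c' y = 0 := by simp [GridB.NP, hG']
    rw [this, hG]; simp
  have hGpos : (0 : ℝ) < G.card := by exact_mod_cast Nat.pos_of_ne_zero hG
  -- exceptional sets
  have main : ∀ (ε : ℤ) (V : (Fin m → ℝ) → ℝ≥0∞) (sh : Pt m → Pt m), Function.Injective sh →
      (∀ u, ∀ x ∈ GridB.cube (sh u) 1, (GridB.NP G 1 ε u : ℝ≥0∞) ≤ V x) →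
      (∫⁻ x, V x ^ g ≤ ENNReal.ofReal (C0 / Real.sqrt g) ^ m * volume Sp ^ (g + 1)) →
      ∃ Y : Finset (Pt m), (Y.card : ℝ) ≤ G.card * Real.exp (-(c1 * NN n)) ∧
        ∀ u, u ∉ Y → (GridB.NP G 1 ε u : ℝ) ≤ G.card * E := by
    intro ε V sh hinj hlow hint
    obtain ⟨Y, hY1, hY2⟩ := GridB.exc_card G g C (G.card * E) (by linarith) (by positivity) ε V sh
      hinj hlow (by
        refine hint.trans ?_
        have : C0 / Real.sqrt g ≤ C / Real.sqrt g := by
          gcongr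
          exact le_max_left _ _
        gcongr)
    refine ⟨Y, ?_, hY2⟩
    have hEg : E ^ g * Real.exp (g * (n : ℝ) ^ (6 / 10 : ℝ)) = 1 := by
      rw [hE, ← Real.exp_nat_mul, ← Real.exp_add]
      simp
    have hexp0 : 0 < Real.exp (g * (n : ℝ) ^ (6 / 10 : ℝ)) := Real.exp_pos _
    have h3 : (Y.card : ℝ) * (G.card : ℝ) ^ g ≤
        (G.card : ℝ) ^ (g + 1) * (2 ^ (g + 1) * (C / Real.sqrt g) ^ m *
          Real.exp (g * (n : ℝ) ^ (6 / 10 : ℝ))) := by
      have h5 := mul_le_mul_of_nonneg_right hY1 hexp0.le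
      calc (Y.card : ℝ) * (G.card : ℝ) ^ g
          = (Y.card : ℝ) * (G.card : ℝ) ^ g *
            (E ^ g * Real.exp (g * (n : ℝ) ^ (6 / 10 : ℝ))) := by rw [hEg, mul_one]
        _ = (Y.card : ℝ) * (G.card * E) ^ g * Real.exp (g * (n : ℝ) ^ (6 / 10 : ℝ)) := by
            rw [mul_pow]; ring
        _ ≤ (C / Real.sqrt g) ^ m * (2 * G.card) ^ (g + 1) *
            Real.exp (g * (n : ℝ) ^ (6 / 10 : ℝ)) := h5
        _ = _ := by rw [mul_pow]; ring
    have h4 : (Y.card : ℝ) * (G.card : ℝ) ^ g ≤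
        (G.card * Real.exp (-(c1 * NN n))) * (G.card : ℝ) ^ g := by
      refine h3.trans ?_
      calc (G.card : ℝ) ^ (g + 1) * (2 ^ (g + 1) * (C / Real.sqrt g) ^ m *
            Real.exp (g * (n : ℝ) ^ (6 / 10 : ℝ)))
          ≤ (G.card : ℝ) ^ (g + 1) * Real.exp (-(1 / 20 * NN n)) := by gcongr
        _ ≤ (G.card : ℝ) ^ (g + 1) * Real.exp (-(c1 * NN n)) := by
            gcongr
        _ = (G.card * Real.exp (-(c1 * NN n))) * (G.card : ℝ) ^ g := by ring
    exact le_of_mul_le_mul_right h4 (by positivity)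
  obtain ⟨hA1, hA2⟩ := hA g m Sp hg2 hconv hmeas hvolfin
  by_cases h1 : c = c'
  · have hres := GridB.exc_prop G c 1 hc (G.card * E) (G.card * Real.exp (-(c1 * NN n)))
      (by positivity) (main 1 (fun x => volume (Sp ∩ {t | x - t ∈ Sp})) (fun u => u + 1)
        (add_left_injective 1) (GridB.lower_sum G Sp hcube) hA1)
    rw [one_mul] at hres
    rwa [← h1]
  · by_cases h2 : c = -c'
    · have hres := GridB.exc_prop G c (-1) hc (G.card * E) (G.card * Real.exp (-(c1 * NN n)))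
        (by positivity) (main (-1) (fun x => volume (Sp ∩ {t | t - x ∈ Sp})) (fun u => u - 1)
          (sub_left_injective) (GridB.lower_diff G Sp hcube) hA2)
      have e : -1 * c = c' := by rw [h2]; ring
      rwa [e] at hres
    · refine ⟨∅, by simp only [Finset.card_empty, Nat.cast_zero]; positivity, fun y _ => ?_⟩
      have hs := GridB.NP_small G Sp hcube hvol c c' hc hc' h1 h2 y
      have h2m : (0 : ℝ) < 2 ^ m := by positivity
      calc (GridB.NP G c c' y : ℝ) ≤ 2 * G.card / 2 ^ m := by rwa [le_div_iff₀ h2m]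
        _ = G.card * (2 / 2 ^ m) := by ring
        _ ≤ G.card * E := by gcongr

end Crest.Agent.R225
end

-- ▼ part R225/GridConvexC
section

/-!
# Row 225, node GridConvex, part C: lattice energies versus continuous energies
-/

set_option autoImplicit false

open Finset MeasureTheory
open scoped BigOperators ENNReal

namespace Crest.Agent.R225

namespace GridC

open GridB

variable {m : ℕ}

open scoped Classical in
/-- number of `z ∈ G^k` with sum `y`, in `[0,∞]` -/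
noncomputable def NS (G : Finset (Pt m)) (k : ℕ) (y : Pt m) : ℝ≥0∞ :=
  ∑ z ∈ Fintype.piFinset (fun _ : Fin k => G), if ∑ i, z i = y then 1 else 0

lemma tsum_ite_mul (a b : Pt m) :
    ∑' w : Pt m, ((if a = w then (1 : ℝ≥0∞) else 0) * (if b = w then 1 else 0)) =
      if a = b then 1 else 0 := by
  classical
  rw [tsum_eq_single a]
  · by_cases h : a = b
    · subst h; simp
    · simp [h, Ne.symm h]
  · intro w hw
    simp [Ne.symm hw]

open scoped Classical in
/-- the energy as an `ℓ²` norm -/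
lemma En_eq (G : Finset (Pt m)) (k : ℕ) :
    ∑' y : Pt m, NS G k y ^ 2 = (En k G : ℝ≥0∞) := by
  set A := Fintype.piFinset (fun _ : Fin k => G) with hA
  have h1 : ∀ y : Pt m, NS G k y ^ 2 = ∑ z ∈ A, ∑ z' ∈ A,
      ((if ∑ i, z i = y then (1 : ℝ≥0∞) else 0) * (if ∑ i, z' i = y then 1 else 0)) := by
    intro y
    rw [sq, NS, Finset.sum_mul_sum]
  simp_rw [h1]
  rw [Summable.tsum_finsetSum (fun _ _ => ENNReal.summable)]
  have h2 : ∀ z ∈ A, ∑' y : Pt m, ∑ z' ∈ A,
      ((if ∑ i, z i = y then (1 : ℝ≥0∞) else 0) * (if ∑ i, z' i = y then 1 else 0))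
      = ∑ z' ∈ A, if ∑ i, z i = ∑ i, z' i then (1 : ℝ≥0∞) else 0 := by
    intro z _
    rw [Summable.tsum_finsetSum (fun _ _ => ENNReal.summable)]
    refine Finset.sum_congr rfl fun z' _ => ?_
    exact tsum_ite_mul _ _
  rw [Finset.sum_congr rfl h2]
  unfold En
  rw [Finset.card_filter, Finset.sum_product]
  push_cast
  rfl

/-- splitting a configuration of length `a + b` -/
lemma NS_add (G : Finset (Pt m)) (a b : ℕ) (y : Pt m) :
    NS G (a + b) y = ∑' w : Pt m, NS G a w * NS G b (y - w) := by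
  classical
  have h1 : ∀ w : Pt m, NS G a w * NS G b (y - w) =
      ∑ z ∈ Fintype.piFinset (fun _ : Fin a => G), ∑ z' ∈ Fintype.piFinset (fun _ : Fin b => G),
      ((if ∑ i, z i = w then (1 : ℝ≥0∞) else 0) * (if ∑ i, z' i = y - w then 1 else 0)) := by
    intro w
    rw [NS, NS, Finset.sum_mul_sum]
  simp_rw [h1]
  rw [Summable.tsum_finsetSum (fun _ _ => ENNReal.summable)]
  have h2 : ∀ z ∈ Fintype.piFinset (fun _ : Fin a => G), ∑' w : Pt m,
      ∑ z' ∈ Fintype.piFinset (fun _ : Fin b => G),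
      ((if ∑ i, z i = w then (1 : ℝ≥0∞) else 0) * (if ∑ i, z' i = y - w then 1 else 0))
      = ∑ z' ∈ Fintype.piFinset (fun _ : Fin b => G),
        if ∑ i, z i + ∑ i, z' i = y then (1 : ℝ≥0∞) else 0 := by
    intro z _
    rw [Summable.tsum_finsetSum (fun _ _ => ENNReal.summable)]
    refine Finset.sum_congr rfl fun z' _ => ?_
    rw [tsum_eq_single (∑ i, z i)]
    · have : (∑ i, z' i = y - ∑ i, z i) ↔ (∑ i, z i + ∑ i, z' i = y) := by
        constructor
        · intro h; rw [h]; abel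
        · intro h; rw [← h]; abel
      simp [this]
    · intro w hw
      simp [Ne.symm hw]
  rw [Finset.sum_congr rfl h2, NS, ← Finset.sum_product'
    (f := fun (z : Fin a → Pt m) (z' : Fin b → Pt m) =>
      if ∑ i, z i + ∑ i, z' i = y then (1 : ℝ≥0∞) else 0)]
  symm
  refine Finset.sum_bij' (fun p _ => Fin.append p.1 p.2)
    (fun z _ => (fun i => z (Fin.castAdd b i), fun i => z (Fin.natAdd a i))) ?_ ?_ ?_ ?_ ?_
  · intro p hp
    rw [Finset.mem_product, Fintype.mem_piFinset, Fintype.mem_piFinset] at hp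
    rw [Fintype.mem_piFinset]
    intro i
    refine Fin.addCases (fun i => ?_) (fun i => ?_) i
    · rw [Fin.append_left]; exact hp.1 i
    · rw [Fin.append_right]; exact hp.2 i
  · intro z hz
    rw [Fintype.mem_piFinset] at hz
    rw [Finset.mem_product, Fintype.mem_piFinset, Fintype.mem_piFinset]
    exact ⟨fun i => hz _, fun i => hz _⟩
  · intro p _
    ext i
    · simp
    · simp
  · intro z _
    funext i
    refine Fin.addCases (fun i => ?_) (fun i => ?_) i
    · rw [Fin.append_left]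
    · rw [Fin.append_right]
  · intro p _
    rw [Fin.sum_univ_add]
    simp

/-- lattice sums versus integrals -/
lemma tsum_le_lintegral (c : Pt m → ℝ≥0∞) (f : (Fin m → ℝ) → ℝ≥0∞)
    (h : ∀ k, ∀ t ∈ cube k 1, c k ≤ f t) : ∑' k, c k ≤ ∫⁻ t, f t := by
  have hd : Pairwise (Function.onFun Disjoint fun k : Pt m => cube k 1) := by
    intro z z' hne
    exact disj_one Set.univ (Set.mem_univ z) (Set.mem_univ z') hne
  calc ∑' k, c k = ∑' k, ∫⁻ _ in cube k 1, c k := by
        refine tsum_congr fun k => ?_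
        rw [setLIntegral_const, vol_cube]
        simp
    _ ≤ ∑' k, ∫⁻ t in cube k 1, f t := by
        refine ENNReal.tsum_le_tsum fun k => ?_
        exact setLIntegral_mono' (measurable_cube k 1) (fun t ht => h k t ht)
    _ = ∫⁻ t in ⋃ k, cube k 1, f t :=
        (lintegral_iUnion (fun k => measurable_cube k 1) hd f).symm
    _ ≤ ∫⁻ t, f t := setLIntegral_le_lintegral _ _

/-- integer part -/
noncomputable def flo (x : Fin m → ℝ) : Pt m := fun k => ⌊x k⌋

lemma flo_of_mem {z : Pt m} {x : Fin m → ℝ} (hx : x ∈ cube z 1) : flo x = z := by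
  funext k
  have := mem_cube.mp hx k
  exact Int.floor_eq_iff.mpr this

lemma step_le (G : Finset (Pt m)) (Sp : Set (Fin m → ℝ)) (hcube : ∀ g ∈ G, cube g 2 ⊆ Sp) :
    ∀ (j : ℕ) (x : Fin m → ℝ) (v : Pt m), (∀ k, v k = 2 ^ j ∨ v k = 2 ^ j - 1) →
      NS G (2 ^ j) (flo x - v) ≤ FF Sp j x := by
  classical
  intro j
  induction j with
  | zero =>
    intro x v hv
    have hNS : NS G (2 ^ 0) (flo x - v) = if flo x - v ∈ G then 1 else 0 := by
      unfold NS
      rw [show (2 : ℕ) ^ 0 = 1 from rfl]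
      rw [Finset.sum_ite, Finset.sum_const_zero, add_zero, Finset.sum_const, nsmul_one]
      by_cases hmem : flo x - v ∈ G
      · rw [if_pos hmem]
        have : (Fintype.piFinset (fun _ : Fin 1 => G)).filter
            (fun z => ∑ i, z i = flo x - v) = {fun _ => flo x - v} := by
          ext z
          simp only [Finset.mem_filter, Fintype.mem_piFinset, Finset.mem_singleton,
            Fin.sum_univ_one]
          constructor
          · rintro ⟨_, h⟩
            funext i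
            rw [Fin.fin_one_eq_zero i, h]
          · rintro rfl
            exact ⟨fun _ => hmem, rfl⟩
        rw [this]; simp
      · rw [if_neg hmem]
        have : (Fintype.piFinset (fun _ : Fin 1 => G)).filter
            (fun z => ∑ i, z i = flo x - v) = ∅ := by
          rw [Finset.filter_eq_empty_iff]
          intro z hz h
          rw [Fin.sum_univ_one] at h
          rw [Fintype.mem_piFinset] at hz
          exact hmem (h ▸ hz 0)
        rw [this]; simp
    rw [hNS]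
    by_cases hmem : flo x - v ∈ G
    · rw [if_pos hmem]
      have hx : x ∈ Sp := by
        refine hcube _ hmem (mem_cube.mpr fun k => ?_)
        have h1 := Int.floor_le (x k)
        have h2 := Int.lt_floor_add_one (x k)
        have hk := hv k
        simp only [Pi.sub_apply, flo, Int.cast_sub]
        rcases hk with hk | hk <;> rw [hk] <;> push_cast <;> constructor <;> norm_num <;> linarith
      simp [FF, Set.indicator_of_mem hx]
    · rw [if_neg hmem]
      exact bot_le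
  | succ j ih =>
    intro x v hv
    have hpow : (2 : ℕ) ^ (j + 1) = 2 ^ j + 2 ^ j := by ring
    rw [hpow, NS_add]
    -- shift of the summation variable
    set v1 : Pt m := fun k => v k - 2 ^ j with hv1
    have hv1' : ∀ k, v1 k = 2 ^ j ∨ v1 k = 2 ^ j - 1 := by
      intro k
      have h := hv k
      simp only [hv1]
      rw [pow_succ] at h
      rcases h with h | h
      · left; rw [h]; ring
      · right; rw [h]; ring
    rw [← (Equiv.subRight v1).tsum_eq (fun w => NS G (2 ^ j) w * NS G (2 ^ j) (flo x - v - w))]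
    show _ ≤ conv (FF Sp j) (FF Sp j) x
    unfold conv
    refine tsum_le_lintegral _ _ ?_
    intro k t ht
    have hft : flo t = k := flo_of_mem ht
    have e1 : NS G (2 ^ j) ((Equiv.subRight v1) k) ≤ FF Sp j t := by
      have := ih t v1 hv1'
      rw [hft] at this
      simpa using this
    have e2 : NS G (2 ^ j) (flo x - v - (Equiv.subRight v1) k) ≤ FF Sp j (x - t) := by
      set v2 : Pt m := fun i => ⌊x i - t i⌋ + k i + 2 ^ j - ⌊x i⌋ with hv2
      have hv2' : ∀ i, v2 i = 2 ^ j ∨ v2 i = 2 ^ j - 1 := by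
        intro i
        have hk : k i = ⌊t i⌋ := by rw [← hft]; rfl
        have a1 := Int.floor_le (x i)
        have a2 := Int.lt_floor_add_one (x i)
        have b1 := Int.floor_le (t i)
        have b2 := Int.lt_floor_add_one (t i)
        have c1 := Int.floor_le (x i - t i)
        have c2 := Int.lt_floor_add_one (x i - t i)
        have d1 : (⌊x i⌋ : ℝ) - ⌊t i⌋ - 1 < ⌊x i - t i⌋ + 1 := by linarith
        have d2 : (⌊x i - t i⌋ : ℝ) < ⌊x i⌋ - ⌊t i⌋ + 1 := by linarith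
        have f1 : ⌊x i⌋ - ⌊t i⌋ - 1 < ⌊x i - t i⌋ + 1 := by exact_mod_cast d1
        have f2 : ⌊x i - t i⌋ < ⌊x i⌋ - ⌊t i⌋ + 1 := by exact_mod_cast d2
        simp only [hv2, hk]
        omega
      have := ih (x - t) v2 hv2'
      have e3 : flo (x - t) - v2 = flo x - v - (Equiv.subRight v1) k := by
        funext i
        simp only [Pi.sub_apply, flo, hv2, Equiv.subRight_apply, hv1]
        ring
      rw [e3] at this
      exact this
    exact mul_le_mul' e1 e2

end GridC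

open GridB GridC in
/-- the discrete energy is bounded by the continuous energy -/
theorem grid_energy {m : ℕ} (G : Finset (Pt m)) (Sp : Set (Fin m → ℝ))
    (hc2 : ∀ g ∈ G, ∀ x : Fin m → ℝ, (∀ k, (g k : ℝ) ≤ x k ∧ x k < g k + 2) → x ∈ Sp) (j : ℕ) :
    (En (2 ^ j) G : ℝ≥0∞) ≤ ∫⁻ y, (FF Sp j y) ^ 2 := by
  have hcube : ∀ z ∈ G, cube z 2 ⊆ Sp := fun z hz x hx => hc2 z hz x (mem_cube.mp hx)
  rw [← En_eq]
  set v : Pt m := fun _ => 2 ^ j with hv
  rw [← (Equiv.subRight v).tsum_eq (fun y => NS G (2 ^ j) y ^ 2)]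
  refine tsum_le_lintegral _ _ ?_
  intro k t ht
  have h := step_le G Sp hcube j t v (fun _ => Or.inl rfl)
  rw [flo_of_mem ht] at h
  have : (Equiv.subRight v) k = k - v := rfl
  rw [this]
  gcongr

/-- with A3 -/
theorem grid_energy_le (hA3 : S_A3) : ∃ κ : ℝ, 0 < κ ∧ κ < 1 ∧
    ∀ (m j : ℕ) (G : Finset (Pt m)) (Sp : Set (Fin m → ℝ)), Convex ℝ Sp → MeasurableSet Sp →
    (∀ g ∈ G, ∀ x : Fin m → ℝ, (∀ k, (g k : ℝ) ≤ x k ∧ x k < g k + 2) → x ∈ Sp) →
    volume Sp ≤ 2 * (G.card : ℝ≥0∞) →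
    (En (2 ^ j) G : ℝ) ≤ κ ^ (m * ((j + 1) / 2)) * (2 * G.card) ^ (2 ^ (j + 1) - 1) := by
  obtain ⟨κ, h0, h1, hA⟩ := hA3
  refine ⟨κ, h0, h1, fun m j G Sp hconv hmeas hc2 hvol => ?_⟩
  have hfin : volume Sp ≠ ∞ := by
    refine ne_top_of_le_ne_top ?_ hvol
    exact ENNReal.mul_ne_top (by norm_num) (ENNReal.natCast_ne_top _)
  have h2 := (grid_energy G Sp hc2 j).trans (hA m j Sp hconv hmeas hfin)
  have h3 : (En (2 ^ j) G : ℝ≥0∞) ≤ ENNReal.ofReal κ ^ (m * ((j + 1) / 2)) *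
      (2 * (G.card : ℝ≥0∞)) ^ (2 ^ (j + 1) - 1) := by
    refine h2.trans ?_
    gcongr
  have e2 : ENNReal.ofReal κ ^ (m * ((j + 1) / 2)) * (2 * (G.card : ℝ≥0∞)) ^ (2 ^ (j + 1) - 1)
      = ENNReal.ofReal (κ ^ (m * ((j + 1) / 2)) * (2 * G.card) ^ (2 ^ (j + 1) - 1)) := by
    rw [ENNReal.ofReal_mul (by positivity), ENNReal.ofReal_pow h0.le,
      ENNReal.ofReal_pow (by positivity), ENNReal.ofReal_mul (by norm_num),
      ENNReal.ofReal_natCast]
    norm_num
  rw [e2, ← ENNReal.ofReal_natCast] at h3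
  exact (ENNReal.ofReal_le_ofReal_iff (by positivity)).mp h3

end Crest.Agent.R225
end

-- ▼ part R225/GridConvexD

/-!
# Row 225, node GridConvex, part D: the clauses `rel3`, `relL` of `GridHyp`
-/

set_option autoImplicit false

open Finset MeasureTheory
open scoped BigOperators ENNReal

namespace Crest.Agent.R225

namespace GridD

/-- choice of the energy level -/
lemma exists_j : ∃ n0 : ℕ, ∀ n ≥ n0, ∃ j : ℕ, ((2 : ℝ) ^ (j + 1) ≤ (n : ℝ) ^ (2 / 100 : ℝ)) ∧
    1 / 400 * Real.log n ≤ (((j + 1) / 2 : ℕ) : ℝ) := by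
  obtain ⟨n0, hn0⟩ := exists_nat_gt (Real.exp 1000)
  refine ⟨n0, fun n hn => ?_⟩
  have hn1 : (n0 : ℝ) ≤ n := by exact_mod_cast hn
  have hnpos : (0 : ℝ) < n := by
    have := Real.exp_pos 1000
    linarith
  have hlog : 1000 ≤ Real.log n := by
    rw [Real.le_log_iff_exp_le hnpos]
    linarith
  have hl2 : 0.69 < Real.log 2 := by linarith [Real.log_two_gt_d9]
  have hl3 : Real.log 2 < 0.7 := by linarith [Real.log_two_lt_d9]
  set t : ℝ := 2 / 100 * Real.log n / Real.log 2 with ht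
  have htpos : 20 ≤ t := by
    rw [ht, le_div_iff₀ (by linarith)]
    nlinarith
  set J : ℕ := ⌊t⌋₊ with hJ
  have hJle : (J : ℝ) ≤ t := Nat.floor_le (by linarith)
  have hJlt : t < J + 1 := Nat.lt_floor_add_one t
  have hJ1 : 1 ≤ J := by
    have : (1 : ℝ) ≤ t := by linarith
    exact Nat.le_floor (by exact_mod_cast this)
  obtain ⟨j, hj⟩ : ∃ j, J = j + 1 := ⟨J - 1, by omega⟩
  rw [hj] at hJle hJlt
  refine ⟨j, ?_, ?_⟩
  · have e1 : (2 : ℝ) ^ (j + 1) = Real.exp (((j + 1 : ℕ) : ℝ) * Real.log 2) := by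
      rw [← Real.rpow_natCast, Real.rpow_def_of_pos (by norm_num), mul_comm]
    have e2 : (n : ℝ) ^ (2 / 100 : ℝ) = Real.exp (2 / 100 * Real.log n) := by
      rw [Real.rpow_def_of_pos hnpos, mul_comm]
    rw [e1, e2]
    apply Real.exp_le_exp.mpr
    have := mul_le_mul_of_nonneg_right hJle (by linarith : (0:ℝ) ≤ Real.log 2)
    calc ((j + 1 : ℕ) : ℝ) * Real.log 2 ≤ t * Real.log 2 := by
          convert this using 2
      _ = 2 / 100 * Real.log n := by
          rw [ht]; field_simp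
  · have h1 : ((j + 1 : ℕ) : ℝ) ≤ 2 * (((j + 1) / 2 : ℕ) : ℝ) + 1 := by
      have : j + 1 ≤ 2 * ((j + 1) / 2) + 1 := by omega
      exact_mod_cast this
    have h2 : 2 / 70 * Real.log n ≤ t := by
      rw [ht, le_div_iff₀ (by linarith)]
      nlinarith
    have h3 : t < ((j + 1 : ℕ) : ℝ) + 1 := hJlt
    linarith

end GridD

set_option maxHeartbeats 2000000 in
/-- the clauses `rel3` and `relL` of `GridHyp` -/
theorem grid_rel (hA3 : S_A3) (hE1 : S_E1) (hE2 : S_E2) :
    ∃ c1 : ℝ, 0 < c1 ∧ c1 ≤ 1 / 20 ∧ ∃ n0 : ℕ, ∀ n ≥ n0, ∀ m : ℕ, n ≤ 2 * m → m ≤ n →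
    ∀ (G : Finset (Pt m)) (Sp : Set (Fin m → ℝ)), Convex ℝ Sp → MeasurableSet Sp →
    (∀ g ∈ G, ∀ x : Fin m → ℝ, (∀ k, (g k : ℝ) ≤ x k ∧ x k < g k + 2) → x ∈ Sp) →
    volume Sp ≤ 2 * (G.card : ℝ≥0∞) →
    (∀ (s : ℕ) (h : Fin s → ℤ) (y : Pt m), 3 ≤ s → (∀ i, h i ≠ 0) →
      (relCount G h y : ℝ) ≤ (G.card : ℝ) ^ (s - 1) * Real.exp (-(c1 * n))) ∧
    (∀ (s : ℕ) (h : Fin s → ℤ) (y : Pt m), (n : ℝ) ^ (2 / 100 : ℝ) ≤ s → (∀ i, h i ≠ 0) →
      (relCount G h y : ℝ) ≤ (G.card : ℝ) ^ (s - 1) * Real.exp (-(c1 * NN n))) := by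
  obtain ⟨κ, hκ0, hκ1, hEn⟩ := grid_energy_le hA3
  set L : ℝ := -Real.log κ with hL
  have hLpos : 0 < L := by
    have := Real.log_neg hκ0 hκ1
    rw [hL]; linarith
  have hκpow : ∀ k : ℕ, κ ^ k = Real.exp (-(k * L)) := by
    intro k
    rw [hL, ← Real.rpow_natCast, Real.rpow_def_of_pos hκ0]
    ring_nf
  obtain ⟨nj, hnj⟩ := GridD.exists_j
  obtain ⟨nl, hnl⟩ := exists_nat_gt (Real.exp (1600 / L))
  obtain ⟨nk, hnk⟩ := exists_nat_gt (100 / L)
  refine ⟨min (1 / 20) (L / 1600), by positivity, min_le_left _ _,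
    max (max nj nl) (max nk 1), fun n hn m hm hmn G Sp hconv hmeas hc2 hvol => ?_⟩
  set c1 : ℝ := min (1 / 20) (L / 1600) with hc1
  have hc1L : c1 ≤ L / 1600 := min_le_right _ _
  have hc1pos : 0 < c1 := by rw [hc1]; positivity
  have hn1 : nj ≤ n := ((le_max_left _ _).trans (le_max_left _ _)).trans hn
  have hn2 : (nl : ℝ) ≤ n := by
    exact_mod_cast ((le_max_right _ _).trans (le_max_left _ _)).trans hn
  have hn3 : (nk : ℝ) ≤ n := by
    exact_mod_cast ((le_max_left _ _).trans (le_max_right _ _)).trans hn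
  have hn4 : 1 ≤ n := ((le_max_right _ _).trans (le_max_right _ _)).trans hn
  have hn4' : (1 : ℝ) ≤ n := by exact_mod_cast hn4
  have hnpos : (0 : ℝ) < n := by linarith
  have hlog : 1600 / L ≤ Real.log n := by
    rw [Real.le_log_iff_exp_le hnpos]; linarith
  have hlin : 100 ≤ L * n := by
    have : 100 / L ≤ n := by linarith
    rw [div_le_iff₀ hLpos] at this
    linarith
  have hm' : (n : ℝ) / 2 ≤ m := by
    have : (n : ℝ) ≤ 2 * m := by exact_mod_cast hm
    linarith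
  have hGnn : (0 : ℝ) ≤ G.card := by positivity
  -- fourth-moment energy
  have hE2' : (En 2 G : ℝ) ≤ κ ^ m * (2 * G.card) ^ 3 := by
    have := hEn m 1 G Sp hconv hmeas hc2 hvol
    norm_num at this
    exact this
  have h8 : 8 * κ ^ m ≤ Real.exp (-(2 * (c1 * n))) := by
    rw [hκpow]
    have e8 : (8 : ℝ) = Real.exp (3 * Real.log 2) := by
      rw [show (3 : ℝ) * Real.log 2 = Real.log (2 ^ (3 : ℕ)) by rw [Real.log_pow]; norm_num,
        Real.exp_log (by norm_num)]
      norm_num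
    rw [e8, ← Real.exp_add]
    apply Real.exp_le_exp.mpr
    have hl3 : Real.log 2 ≤ 0.7 := by linarith [Real.log_two_lt_d9]
    have a1 : (n : ℝ) / 2 * L ≤ m * L := by gcongr
    have a2 : 2 * (c1 * n) ≤ 2 * (L / 1600 * n) := by gcongr
    nlinarith
  constructor
  · intro s h y hs hh
    rcases Nat.lt_or_ge s 4 with hs4 | hs4
    · -- s = 3
      obtain rfl : s = 3 := by omega
      have h1 := hE2 m 3 2 G h y hh (by norm_num) (by norm_num) (by norm_num)
      norm_num at h1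
      have hEnn : (0 : ℝ) ≤ En 2 G := by positivity
      have h2 : (En 2 G : ℝ) ≤ (Real.exp (-(c1 * n))) ^ 2 * (G.card : ℝ) ^ 3 := by
        calc (En 2 G : ℝ) ≤ κ ^ m * (2 * G.card) ^ 3 := hE2'
          _ = (8 * κ ^ m) * (G.card : ℝ) ^ 3 := by ring
          _ ≤ Real.exp (-(2 * (c1 * n))) * (G.card : ℝ) ^ 3 := by gcongr
          _ = (Real.exp (-(c1 * n))) ^ 2 * (G.card : ℝ) ^ 3 := by
              rw [← Real.exp_nat_mul]; congr 2; push_cast; ring
      calc (relCount G h y : ℝ) ≤ (G.card : ℝ) ^ (1 / 2 : ℝ) * (En 2 G : ℝ) ^ (1 / 2 : ℝ) := h1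
        _ = Real.sqrt (G.card * En 2 G) := by
            rw [← Real.mul_rpow hGnn hEnn, Real.sqrt_eq_rpow]
        _ ≤ Real.sqrt (((G.card : ℝ) ^ 2 * Real.exp (-(c1 * n))) ^ 2) := by
            apply Real.sqrt_le_sqrt
            calc (G.card : ℝ) * En 2 G
                ≤ G.card * ((Real.exp (-(c1 * n))) ^ 2 * (G.card : ℝ) ^ 3) := by gcongr
              _ = ((G.card : ℝ) ^ 2 * Real.exp (-(c1 * n))) ^ 2 := by ring
        _ = (G.card : ℝ) ^ 2 * Real.exp (-(c1 * n)) := Real.sqrt_sq (by positivity)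
        _ = (G.card : ℝ) ^ (3 - 1) * Real.exp (-(c1 * n)) := by norm_num
    · have h1 := hE1 m s 2 G h y hh (by omega)
      have h1' : (relCount G h y : ℝ) ≤ (G.card : ℝ) ^ (s - 2 * 2) * En 2 G := by
        exact_mod_cast h1
      have hle : Real.exp (-(2 * (c1 * n))) ≤ Real.exp (-(c1 * n)) := by
        apply Real.exp_le_exp.mpr
        have : 0 ≤ c1 * n := by positivity
        linarith
      calc (relCount G h y : ℝ) ≤ (G.card : ℝ) ^ (s - 2 * 2) * En 2 G := h1'
        _ ≤ (G.card : ℝ) ^ (s - 2 * 2) * (κ ^ m * (2 * G.card) ^ 3) := by gcongr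
        _ = ((G.card : ℝ) ^ (s - 2 * 2) * (G.card : ℝ) ^ 3) * (8 * κ ^ m) := by ring
        _ = (G.card : ℝ) ^ (s - 1) * (8 * κ ^ m) := by
            rw [← pow_add]
            congr 2
            omega
        _ ≤ (G.card : ℝ) ^ (s - 1) * Real.exp (-(c1 * n)) := by
            have := h8.trans hle
            gcongr
  · intro s h y hs hh
    obtain ⟨j, hj1, hj2⟩ := hnj n hn1
    have hjs : 2 ^ (j + 1) ≤ s := by
      have : (2 : ℝ) ^ (j + 1) ≤ s := hj1.trans hs
      exact_mod_cast this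
    have hj' : 2 * 2 ^ j ≤ s := by rw [pow_succ] at hjs; omega
    have h1 := hE1 m s (2 ^ j) G h y hh hj'
    have h1' : (relCount G h y : ℝ) ≤ (G.card : ℝ) ^ (s - 2 * 2 ^ j) * En (2 ^ j) G := by
      exact_mod_cast h1
    have h2 := hEn m j G Sp hconv hmeas hc2 hvol
    have hpos : 1 ≤ 2 ^ (j + 1) := Nat.one_le_two_pow
    have hbig : (2 : ℝ) ^ (2 ^ (j + 1) - 1) * κ ^ (m * ((j + 1) / 2))
        ≤ Real.exp (-(c1 * NN n)) := by
      rw [hκpow]
      have e1 : (2 : ℝ) ^ (2 ^ (j + 1) - 1) ≤ Real.exp n := by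
        have a1 : (2 : ℝ) ^ (2 ^ (j + 1) - 1) ≤ (2 : ℝ) ^ (2 ^ (j + 1)) :=
          pow_le_pow_right₀ (by norm_num) (Nat.sub_le _ _)
        have a2 : (2 : ℝ) ^ (2 ^ (j + 1)) = Real.exp (((2 ^ (j + 1) : ℕ) : ℝ) * Real.log 2) := by
          rw [← Real.rpow_natCast, Real.rpow_def_of_pos (by norm_num), mul_comm]
        rw [a2] at a1
        refine a1.trans (Real.exp_le_exp.mpr ?_)
        have a3 : ((2 ^ (j + 1) : ℕ) : ℝ) ≤ n := by
          push_cast
          refine hj1.trans ?_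
          calc (n : ℝ) ^ (2 / 100 : ℝ) ≤ (n : ℝ) ^ (1 : ℝ) :=
                Real.rpow_le_rpow_of_exponent_le hn4' (by norm_num)
            _ = n := Real.rpow_one _
        have hl3 : Real.log 2 ≤ 0.7 := by linarith [Real.log_two_lt_d9]
        have hl0 : 0 ≤ Real.log 2 := Real.log_nonneg (by norm_num)
        nlinarith
      have e2 : Real.exp (-(((m * ((j + 1) / 2) : ℕ) : ℝ) * L))
          ≤ Real.exp (-(L / 800 * (n * Real.log n))) := by
        apply Real.exp_le_exp.mpr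
        have hlogn : 0 ≤ Real.log n := Real.log_nonneg hn4'
        have a1 : (n : ℝ) / 2 * (1 / 400 * Real.log n) ≤ m * (((j + 1) / 2 : ℕ) : ℝ) := by
          gcongr
        have a2 := mul_le_mul_of_nonneg_right a1 hLpos.le
        push_cast at a2 ⊢
        nlinarith
      calc (2 : ℝ) ^ (2 ^ (j + 1) - 1) * Real.exp (-(((m * ((j + 1) / 2) : ℕ) : ℝ) * L))
          ≤ Real.exp n * Real.exp (-(L / 800 * (n * Real.log n))) := by gcongr
        _ = Real.exp (n - L / 800 * (n * Real.log n)) := by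
            rw [← Real.exp_add]; ring_nf
        _ ≤ Real.exp (-(c1 * NN n)) := by
            apply Real.exp_le_exp.mpr
            unfold NN
            have hlogn : 0 ≤ Real.log n := Real.log_nonneg hn4'
            have hb : 1600 ≤ L * Real.log n := by
              rw [div_le_iff₀ hLpos] at hlog; linarith
            have hb2 : 1600 * (n : ℝ) ≤ L * Real.log n * n := by gcongr
            have hc : c1 * (n * Real.log n) ≤ L / 1600 * (n * Real.log n) := by gcongr
            nlinarith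
    calc (relCount G h y : ℝ) ≤ (G.card : ℝ) ^ (s - 2 * 2 ^ j) * En (2 ^ j) G := h1'
      _ ≤ (G.card : ℝ) ^ (s - 2 * 2 ^ j) *
          (κ ^ (m * ((j + 1) / 2)) * (2 * G.card) ^ (2 ^ (j + 1) - 1)) := by gcongr
      _ = ((G.card : ℝ) ^ (s - 2 * 2 ^ j) * (G.card : ℝ) ^ (2 ^ (j + 1) - 1)) *
          ((2 : ℝ) ^ (2 ^ (j + 1) - 1) * κ ^ (m * ((j + 1) / 2))) := by
          rw [mul_pow]; ring
      _ = (G.card : ℝ) ^ (s - 1) *
          ((2 : ℝ) ^ (2 ^ (j + 1) - 1) * κ ^ (m * ((j + 1) / 2))) := by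
          rw [← pow_add]
          congr 2
          have : 2 * 2 ^ j = 2 ^ (j + 1) := by ring
          omega
      _ ≤ (G.card : ℝ) ^ (s - 1) * Real.exp (-(c1 * NN n)) := by gcongr

end Crest.Agent.R225
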