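import Crest.Agent.R225.Iface
import Crest.Agent.Lib.PrekopaLeindler

-- ▼ part R225/GridChange
section

/-!
# Row 225 (S0347): change of variables and marginals in the split `Fin (m + r)`
-/

set_option autoImplicit false

open Finset MeasureTheory
open scoped BigOperators ENNReal

namespace Crest.Agent.R225

namespace GridChange

theorem append_eq_elim {m r : ℕ} (u : Fin m → ℝ) (y : Fin r → ℝ) (i : Fin (m + r)) :
    Fin.append u y i = Sum.elim u y (finSumFinEquiv.symm i) := by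
  refine Fin.addCases (fun j => ?_) (fun j => ?_) i
  · simp
  · simp

/-- appending is measure preserving -/
theorem mp_append (m r : ℕ) :
    MeasurePreserving (fun p : (Fin m → ℝ) × (Fin r → ℝ) => (Fin.append p.1 p.2 : Fin (m + r) → ℝ))
      (volume.prod volume) volume := by
  have h1 := volume_measurePreserving_sumPiEquivProdPi_symm (fun _ : Fin m ⊕ Fin r => ℝ)
  have h2 := volume_measurePreserving_piCongrLeft (fun _ : Fin (m + r) => ℝ)
    (finSumFinEquiv : Fin m ⊕ Fin r ≃ Fin (m + r))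
  have h3 := h2.comp h1
  have heq : (fun p : (Fin m → ℝ) × (Fin r → ℝ) => (Fin.append p.1 p.2 : Fin (m + r) → ℝ)) =
      (MeasurableEquiv.piCongrLeft (fun _ : Fin (m + r) => ℝ)
        (finSumFinEquiv : Fin m ⊕ Fin r ≃ Fin (m + r))) ∘
      (MeasurableEquiv.sumPiEquivProdPi (fun _ : Fin m ⊕ Fin r => ℝ)).symm := by
    funext p i
    rw [append_eq_elim]
    simp only [Function.comp]
    obtain ⟨j, rfl⟩ := (finSumFinEquiv : Fin m ⊕ Fin r ≃ Fin (m + r)).surjective i
    rw [Equiv.symm_apply_apply]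
    rw [MeasurableEquiv.coe_piCongrLeft, Equiv.piCongrLeft_apply_apply]
    rcases j with j | j <;> rfl
  rw [heq]
  exact h3

theorem measurable_append (m r : ℕ) :
    Measurable (fun p : (Fin m → ℝ) × (Fin r → ℝ) => (Fin.append p.1 p.2 : Fin (m + r) → ℝ)) :=
  (mp_append m r).measurable

/-- Fubini in the split coordinates (slice variable outside) -/
theorem lintegral_append {m r : ℕ} (f : (Fin (m + r) → ℝ) → ℝ≥0∞) (hf : Measurable f) :
    ∫⁻ x, f x = ∫⁻ y : Fin r → ℝ, ∫⁻ u : Fin m → ℝ, f (Fin.append u y) := by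
  rw [← (mp_append m r).lintegral_comp hf]
  exact lintegral_prod_symm (fun p : (Fin m → ℝ) × (Fin r → ℝ) => f (Fin.append p.1 p.2))
    (hf.comp (measurable_append m r)).aemeasurable

end GridChange

open GridChange in
/-- GV. change of variables. -/
theorem grid_change {m r : ℕ} (f : (Fin (m + r) → ℝ) → ℝ≥0∞) (hf : Measurable f)
    (t : Fin (m + r) → ℝ) (A : Matrix (Fin (m + r)) (Fin (m + r)) ℝ) (hA : A.det ≠ 0) :
    ∫⁻ x, f x = ENNReal.ofReal |A.det| * ∫⁻ y : Fin r → ℝ, ∫⁻ u : Fin m → ℝ,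
      f (t + A.mulVec (Fin.append u y)) := by
  have hmA : Measurable (fun x : Fin (m + r) → ℝ => A.mulVec x) := by
    have : Continuous (fun x : Fin (m + r) → ℝ => A.mulVec x) :=
      (Matrix.toLin' A).continuous_of_finiteDimensional
    exact this.measurable
  have hg : Measurable (fun x : Fin (m + r) → ℝ => f (t + x)) := hf.comp (measurable_const_add t)
  have h1 : ∫⁻ x, f x = ∫⁻ x, f (t + x) := (lintegral_add_left_eq_self f t).symm
  have h2 : ∫⁻ x, f (t + A.mulVec x) = ENNReal.ofReal |A.det⁻¹| * ∫⁻ x, f (t + x) := by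
    have h := Real.map_matrix_volume_pi_eq_smul_volume_pi hA
    have h3 : ∫⁻ x, f (t + x) ∂(Measure.map (Matrix.toLin' A) volume) =
        ∫⁻ x, f (t + A.mulVec x) := by
      rw [lintegral_map hg]
      · rfl
      · exact hmA
    rw [← h3, h, lintegral_smul_measure]
    rfl
  have h4 : ∫⁻ x, f x = ENNReal.ofReal |A.det| * ∫⁻ x, f (t + A.mulVec x) := by
    rw [h2, ← mul_assoc, ← ENNReal.ofReal_mul (abs_nonneg _), ← abs_mul, mul_inv_cancel₀ hA,
      abs_one, ENNReal.ofReal_one, one_mul, h1]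
  rw [h4, lintegral_append (fun x => f (t + A.mulVec x)) (hg.comp hmA)]

namespace GridChange

theorem append_comb {m r : ℕ} (a b : ℝ) (u u' : Fin m → ℝ) (y y' : Fin r → ℝ) :
    (Fin.append (a • u + b • u') (a • y + b • y') : Fin (m + r) → ℝ) =
      a • Fin.append u y + b • Fin.append u' y' := by
  funext i
  refine Fin.addCases (fun j => ?_) (fun j => ?_) i
  · simp
  · simp

end GridChange

open GridChange in
/-- GP. marginals of log-concave functions are log-concave. -/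
theorem grid_marginal {m r : ℕ} {f : (Fin (m + r) → ℝ) → ℝ≥0∞} (hf : Measurable f) (hLC : LC f) :
    Measurable (fun y : Fin r → ℝ => ∫⁻ u : Fin m → ℝ, f (Fin.append u y)) ∧
    LC (fun y : Fin r → ℝ => ∫⁻ u : Fin m → ℝ, f (Fin.append u y)) := by
  have hfa := hf.comp (measurable_append m r)
  refine ⟨hfa.lintegral_prod_left', ?_⟩
  intro y y' t ht0 ht1
  have hs : ∀ z : Fin r → ℝ, Measurable (fun u : Fin m → ℝ => f (Fin.append u z)) := fun z =>
    hfa.comp measurable_prodMk_right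
  refine Crest.Agent.Lib.PrekopaLeindler.PL_pi m t ht0 ht1 _ _ _ (hs y) (hs y') (hs _) ?_
  intro u u'
  have := hLC (Fin.append u y) (Fin.append u' y') t ht0 ht1
  rwa [← append_comb] at this

end Crest.Agent.R225
end

-- ▼ part R225/GridRiemann
section

/-!
# Row 225 (S0347), node Grid, part GR: grid sums versus integrals of a
log-concave function (helper227)
-/

set_option autoImplicit false

open Finset MeasureTheory
open scoped BigOperators ENNReal

namespace Crest.Agent.R225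

namespace GridB

theorem lint_biUnion_le {α β : Type*} [MeasurableSpace α] {μ : Measure α} (G : Finset β)
    (s : β → Set α) (f : α → ℝ≥0∞) : ∫⁻ x in ⋃ g ∈ G, s g, f x ∂μ ≤ ∑ g ∈ G, ∫⁻ x in s g, f x ∂μ := by
  classical
  induction G using Finset.induction_on with
  | empty => simp
  | insert a G ha ih =>
    rw [Finset.set_biUnion_insert, Finset.sum_insert ha]
    exact le_trans (lintegral_union_le _ _ _) (add_le_add le_rfl ih)

/-- homothety argument: `w` close to `(1-t) x + t p` -/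
theorem key {m : ℕ} {U : (Fin m → ℝ) → ℝ≥0∞} (hU : LC U) {α τ : ℝ}
    (hτ : 0 < τ) (hV : Vals α τ U) {p : Fin m → ℝ} {L t : ℝ} (ht0 : 0 < t)
    (ht1 : t < 1)
    (hp : ∀ x : Fin m → ℝ, (∀ k, 0 ≤ x k - p k ∧ x k - p k ≤ L) → U x ≠ 0)
    {x w : Fin m → ℝ}
    (hw : ∀ k, 0 ≤ w k - ((1 - t) * x k + t * p k) ∧ w k - ((1 - t) * x k + t * p k) ≤ t * L) :
    ENNReal.ofReal (τ ^ t) * U x ≤ U w := by
  by_cases hx : U x = 0
  · simp [hx]
  set z : Fin m → ℝ := fun k => (w k - (1 - t) * x k) / t with hz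
  have hzC : U z ≠ 0 := by
    apply hp
    intro k
    obtain ⟨h1, h2⟩ := hw k
    have e : z k - p k = (w k - ((1 - t) * x k + t * p k)) / t := by
      simp only [hz]; field_simp; ring
    rw [e]
    refine ⟨div_nonneg h1 ht0.le, ?_⟩
    rw [div_le_iff₀ ht0]; linarith
  have hwz : w = (1 - t) • x + t • z := by
    funext k
    simp only [hz, Pi.add_apply, Pi.smul_apply, smul_eq_mul]
    field_simp; ring
  have hUx : U x ≤ ENNReal.ofReal α := by
    rcases hV x with h | h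
    · exact absurd h hx
    · exact h.2
  have hUz : ENNReal.ofReal (τ * α) ≤ U z := by
    rcases hV z with h | h
    · exact absurd h hzC
    · exact h.1
  have hUx' : U x ≠ ∞ := ne_top_of_le_ne_top ENNReal.ofReal_ne_top hUx
  have h3 : ENNReal.ofReal τ * U x ≤ U z := by
    refine le_trans ?_ hUz
    rw [ENNReal.ofReal_mul hτ.le]
    exact mul_le_mul_right hUx _
  have h4 := hU x z t ht0 ht1
  rw [← hwz] at h4
  refine le_trans ?_ h4
  have h5 : (ENNReal.ofReal τ * U x) ^ t ≤ U z ^ t := ENNReal.rpow_le_rpow h3 ht0.le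
  have h6 : U x ^ (1 - t) * (ENNReal.ofReal τ * U x) ^ t = ENNReal.ofReal (τ ^ t) * U x := by
    rw [ENNReal.mul_rpow_of_nonneg _ _ ht0.le, ENNReal.ofReal_rpow_of_pos hτ]
    have : U x ^ (1 - t) * U x ^ t = U x := by
      rw [← ENNReal.rpow_add _ _ hx hUx']
      simp
    calc U x ^ (1 - t) * (ENNReal.ofReal (τ ^ t) * U x ^ t)
        = ENNReal.ofReal (τ ^ t) * (U x ^ (1 - t) * U x ^ t) := by ring
      _ = _ := by rw [this]
  rw [← h6]
  exact mul_le_mul_right h5 _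

/-- integral ≤ sum -/
theorem int_le_sum {m : ℕ} {U : (Fin m → ℝ) → ℝ≥0∞} (hU : LC U) {α τ : ℝ}
    (hτ : 0 < τ) (hV : Vals α τ U) {p : Fin m → ℝ} {L t : ℝ} (ht0 : 0 < t)
    (ht1 : t < 1) (htL : 1 ≤ t * L)
    (hp : ∀ x : Fin m → ℝ, (∀ k, 0 ≤ x k - p k ∧ x k - p k ≤ L) → U x ≠ 0)
    (G : Finset (Pt m)) (hG : ∀ g, g ∈ G ↔ U (fun k => (g k : ℝ)) ≠ 0) :
    ENNReal.ofReal (τ ^ t * (1 - t) ^ m) * ∫⁻ x, U x ≤ ∑ g ∈ G, U (fun k => (g k : ℝ)) := by
  have h1t : 0 < 1 - t := by linarith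
  -- the cells
  set cell : Pt m → Set (Fin m → ℝ) := fun g =>
    Set.pi Set.univ (fun k => Set.Ico (((g k : ℝ) - 1 - t * p k) / (1 - t))
      (((g k : ℝ) - t * p k) / (1 - t))) with hcell
  have hvol : ∀ g, volume (cell g) = ENNReal.ofReal (((1 - t) ^ m)⁻¹) := by
    intro g
    rw [hcell]
    simp only [Real.volume_pi_Ico]
    have : ∀ k, ((g k : ℝ) - t * p k) / (1 - t) - ((g k : ℝ) - 1 - t * p k) / (1 - t) =
        (1 - t)⁻¹ := by
      intro k; field_simp; ring
    simp_rw [this]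
    rw [Finset.prod_const, Finset.card_univ, Fintype.card_fin, ← inv_pow,
      ENNReal.ofReal_pow (by positivity)]
  have hcl : ∀ g x, x ∈ cell g → ENNReal.ofReal (τ ^ t) * U x ≤ U (fun k => (g k : ℝ)) := by
    intro g x hx
    refine key hU hτ hV ht0 ht1 hp ?_
    intro k
    have := hx k (Set.mem_univ _)
    obtain ⟨h1, h2⟩ := this
    rw [div_le_iff₀ h1t] at h1
    rw [lt_div_iff₀ h1t] at h2
    constructor <;> nlinarith
  have hcov : Function.support U ⊆ ⋃ g ∈ G, cell g := by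
    intro x hx
    set g : Pt m := fun k => ⌊(1 - t) * x k + t * p k + 1⌋ with hg
    have hxg : x ∈ cell g := by
      intro k _
      have h1 := Int.floor_le ((1 - t) * x k + t * p k + 1)
      have h2 := Int.lt_floor_add_one ((1 - t) * x k + t * p k + 1)
      constructor
      · rw [div_le_iff₀ h1t]; simp only [hg]; nlinarith
      · rw [lt_div_iff₀ h1t]; simp only [hg]; nlinarith
    have hgG : g ∈ G := by
      rw [hG]
      have h3 := hcl g x hxg
      intro h0
      rw [h0] at h3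
      have h4 : ENNReal.ofReal (τ ^ t) * U x = 0 := le_antisymm h3 bot_le
      rcases mul_eq_zero.1 h4 with h | h
      · rw [ENNReal.ofReal_eq_zero] at h
        have := Real.rpow_pos_of_pos hτ t
        linarith
      · exact hx h
    exact Set.mem_biUnion hgG hxg
  have hle : ∫⁻ x, U x ≤ ∑ g ∈ G, ∫⁻ x in cell g, U x := by
    calc ∫⁻ x, U x = ∫⁻ x in Function.support U, U x := by
          exact (setLIntegral_eq_of_support_subset subset_rfl).symm
      _ ≤ ∫⁻ x in ⋃ g ∈ G, cell g, U x := lintegral_mono_set hcov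
      _ ≤ ∑ g ∈ G, ∫⁻ x in cell g, U x := by
          exact lint_biUnion_le _ _ _
  have hcell' : ∀ g, ENNReal.ofReal (τ ^ t * (1 - t) ^ m) * ∫⁻ x in cell g, U x ≤
      U (fun k => (g k : ℝ)) := by
    intro g
    have hτt : 0 < τ ^ t := Real.rpow_pos_of_pos hτ t
    rw [mul_comm (τ ^ t), ENNReal.ofReal_mul (by positivity), mul_assoc]
    have h1 : ENNReal.ofReal (τ ^ t) * ∫⁻ x in cell g, U x ≤
        ∫⁻ x in cell g, U (fun k => (g k : ℝ)) := by
      rw [← lintegral_const_mul' _ _ ENNReal.ofReal_ne_top]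
      apply setLIntegral_mono_ae' (MeasurableSet.univ_pi fun k => measurableSet_Ico)
      exact Filter.Eventually.of_forall (fun x hx => hcl g x hx)
    rw [setLIntegral_const, hvol] at h1
    refine le_trans (mul_le_mul_right h1 _) ?_
    have h2 : ENNReal.ofReal ((1 - t) ^ m) * ENNReal.ofReal (((1 - t) ^ m)⁻¹) = 1 := by
      rw [← ENNReal.ofReal_mul (by positivity), mul_inv_cancel₀ (by positivity)]
      simp
    calc ENNReal.ofReal ((1 - t) ^ m) * (U (fun k => (g k : ℝ)) *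
          ENNReal.ofReal (((1 - t) ^ m)⁻¹))
        = (ENNReal.ofReal ((1 - t) ^ m) * ENNReal.ofReal (((1 - t) ^ m)⁻¹)) *
          U (fun k => (g k : ℝ)) := by ring
      _ ≤ _ := by rw [h2, one_mul]
  calc ENNReal.ofReal (τ ^ t * (1 - t) ^ m) * ∫⁻ x, U x
      ≤ ENNReal.ofReal (τ ^ t * (1 - t) ^ m) * ∑ g ∈ G, ∫⁻ x in cell g, U x :=
        mul_le_mul_right hle _
    _ = ∑ g ∈ G, ENNReal.ofReal (τ ^ t * (1 - t) ^ m) * ∫⁻ x in cell g, U x := by
        rw [Finset.mul_sum]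
    _ ≤ ∑ g ∈ G, U (fun k => (g k : ℝ)) := Finset.sum_le_sum fun g _ => hcell' g

/-- sum ≤ integral -/
theorem sum_le_int {m : ℕ} {U : (Fin m → ℝ) → ℝ≥0∞} (hU : LC U) {α τ : ℝ}
    (hτ : 0 < τ) (hV : Vals α τ U) {p : Fin m → ℝ} {L t : ℝ} (ht0 : 0 < t)
    (ht1 : t < 1) (htL : 1 ≤ t * L)
    (hp : ∀ x : Fin m → ℝ, (∀ k, 0 ≤ x k - p k ∧ x k - p k ≤ L) → U x ≠ 0)
    (G : Finset (Pt m)) :
    ENNReal.ofReal (τ ^ t * (1 - t) ^ m) * ∑ g ∈ G, U (fun k => (g k : ℝ)) ≤ ∫⁻ x, U x := by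
  have h1t : 0 < 1 - t := by linarith
  set cell : Pt m → Set (Fin m → ℝ) := fun g =>
    Set.pi Set.univ (fun k => Set.Ico ((1 - t) * (g k : ℝ) + t * p k)
      ((1 - t) * (g k : ℝ) + t * p k + (1 - t))) with hcell
  have hvol : ∀ g, volume (cell g) = ENNReal.ofReal ((1 - t) ^ m) := by
    intro g
    rw [hcell]
    simp only [Real.volume_pi_Ico]
    have : ∀ k, ((1 - t) * (g k : ℝ) + t * p k + (1 - t)) - ((1 - t) * (g k : ℝ) + t * p k) =
        (1 - t) := by
      intro k; ring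
    simp_rw [this]
    rw [Finset.prod_const, Finset.card_univ, Fintype.card_fin,
      ENNReal.ofReal_pow (by positivity)]
  have hcl : ∀ g x, x ∈ cell g → ENNReal.ofReal (τ ^ t) * U (fun k => (g k : ℝ)) ≤ U x := by
    intro g x hx
    refine key hU hτ hV ht0 ht1 hp ?_
    intro k
    obtain ⟨h1, h2⟩ := hx k (Set.mem_univ _)
    constructor
    · linarith
    · have : x k - ((1 - t) * (g k : ℝ) + t * p k) ≤ 1 - t := by linarith
      linarith
  have hdisj : (G : Set (Pt m)).PairwiseDisjoint cell := by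
    intro g _ g' _ hne
    rw [Function.onFun, Set.disjoint_left]
    intro x hx hx'
    apply hne
    funext k
    obtain ⟨h1, h2⟩ := hx k (Set.mem_univ _)
    obtain ⟨h3, h4⟩ := hx' k (Set.mem_univ _)
    have a1 : (1 - t) * (g k : ℝ) < (1 - t) * ((g' k : ℝ) + 1) := by linarith
    have a2 : (1 - t) * (g' k : ℝ) < (1 - t) * ((g k : ℝ) + 1) := by linarith
    have b1 := lt_of_mul_lt_mul_left a1 h1t.le
    have b2 := lt_of_mul_lt_mul_left a2 h1t.le
    have c1 : g k < g' k + 1 := by exact_mod_cast b1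
    have c2 : g' k < g k + 1 := by exact_mod_cast b2
    omega
  have hcell' : ∀ g, ENNReal.ofReal (τ ^ t * (1 - t) ^ m) * U (fun k => (g k : ℝ)) ≤
      ∫⁻ x in cell g, U x := by
    intro g
    have hτt : 0 < τ ^ t := Real.rpow_pos_of_pos hτ t
    have h1 : ∫⁻ x in cell g, ENNReal.ofReal (τ ^ t) * U (fun k => (g k : ℝ)) ≤
        ∫⁻ x in cell g, U x := by
      apply setLIntegral_mono_ae' (MeasurableSet.univ_pi fun k => measurableSet_Ico)
      exact Filter.Eventually.of_forall (fun x hx => hcl g x hx)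
    rw [setLIntegral_const, hvol] at h1
    refine le_trans (le_of_eq ?_) h1
    rw [ENNReal.ofReal_mul hτt.le]
    ring
  rw [Finset.mul_sum]
  calc ∑ g ∈ G, ENNReal.ofReal (τ ^ t * (1 - t) ^ m) * U (fun k => (g k : ℝ))
      ≤ ∑ g ∈ G, ∫⁻ x in cell g, U x := Finset.sum_le_sum fun g _ => hcell' g
    _ = ∫⁻ x in ⋃ g ∈ G, cell g, U x := by
        rw [lintegral_biUnion_finset hdisj (fun g _ => MeasurableSet.univ_pi fun k =>
          measurableSet_Ico)]
    _ ≤ ∫⁻ x, U x := setLIntegral_le_lintegral _ _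

end GridB


/-- the form with absolute constants -/
theorem grid_riemann_two {n m : ℕ} {f : (Fin m → ℝ) → ℝ≥0∞} {α τ : ℝ} {p : Fin m → ℝ}
    {G : Finset (Pt m)} (hn : 2 ≤ n) (hmn : m ≤ n) (hLC : LC f) (hτ : Real.exp (-(m : ℝ)) ≤ τ)
    (hval : Vals α τ f)
    (hp : ∀ x : Fin m → ℝ, (∀ k, 0 ≤ x k - p k ∧ x k - p k ≤ (n : ℝ) ^ 7) → f x ≠ 0)
    (hG : ∀ g, g ∈ G ↔ f (fun k => (g k : ℝ)) ≠ 0) :
    ∫⁻ x, f x ≤ 2 * ∑ g ∈ G, f (fun k => (g k : ℝ)) ∧
    ∑ g ∈ G, f (fun k => (g k : ℝ)) ≤ 2 * ∫⁻ x, f x := by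
  have hτ0 : 0 < τ := lt_of_lt_of_le (Real.exp_pos _) hτ
  have hn' : (2 : ℝ) ≤ n := by exact_mod_cast hn
  have hm' : (m : ℝ) ≤ n := by exact_mod_cast hmn
  have hn7 : (64 : ℝ) * n ≤ (n : ℝ) ^ 7 := by
    have : (2 : ℝ) ^ 6 ≤ (n : ℝ) ^ 6 := pow_le_pow_left₀ (by norm_num) hn' 6
    calc (64 : ℝ) * n = 2 ^ 6 * n := by norm_num
      _ ≤ (n : ℝ) ^ 6 * n := by nlinarith
      _ = (n : ℝ) ^ 7 := by ring
  set L : ℝ := (n : ℝ) ^ 7 with hLdef
  have hL1 : 1 < L := by linarith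
  have hL0 : 0 < L := by linarith
  have hmL : (m : ℝ) / L ≤ 1 / 64 := by
    rw [div_le_iff₀ hL0]; linarith
  have h0 : 0 < 1 / L := by positivity
  have h1 : 1 / L < 1 := by
    rw [div_lt_iff₀ hL0]; linarith
  have h2 : 1 ≤ 1 / L * L := by
    rw [one_div, inv_mul_cancel₀ hL0.ne']
  have hc : (1 / 2 : ℝ) ≤ τ ^ (1 / L) * (1 - 1 / L) ^ m := by
    have a1 : 1 - (m : ℝ) / L ≤ τ ^ (1 / L) := by
      have : Real.exp (-(m : ℝ)) ^ (1 / L) ≤ τ ^ (1 / L) :=
        Real.rpow_le_rpow (Real.exp_pos _).le hτ h0.le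
      refine le_trans ?_ this
      rw [← Real.exp_mul]
      have := Real.add_one_le_exp (-(m : ℝ) * (1 / L))
      refine le_trans (le_of_eq ?_) this
      ring
    have a2 : 1 - (m : ℝ) / L ≤ (1 - 1 / L) ^ m := by
      have := one_add_mul_le_pow (a := -(1 / L)) (by linarith) m
      refine le_trans (le_of_eq ?_) (le_trans this (le_of_eq ?_))
      · ring
      · ring
    have a3 : (63 / 64 : ℝ) ≤ 1 - (m : ℝ) / L := by linarith
    nlinarith
  have hc2 : (1 : ℝ≥0∞) ≤ 2 * ENNReal.ofReal (τ ^ (1 / L) * (1 - 1 / L) ^ m) := by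
    have : ENNReal.ofReal (1 / 2) ≤ ENNReal.ofReal (τ ^ (1 / L) * (1 - 1 / L) ^ m) :=
      ENNReal.ofReal_le_ofReal hc
    calc (1 : ℝ≥0∞) = 2 * ENNReal.ofReal (1 / 2) := by
          rw [show (2 : ℝ≥0∞) = ENNReal.ofReal 2 by simp, ← ENNReal.ofReal_mul (by norm_num)]
          norm_num
      _ ≤ _ := mul_le_mul_right this _
  constructor
  · calc ∫⁻ x, f x = 1 * ∫⁻ x, f x := by rw [one_mul]
      _ ≤ (2 * ENNReal.ofReal (τ ^ (1 / L) * (1 - 1 / L) ^ m)) * ∫⁻ x, f x :=
          mul_le_mul_left hc2 _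
      _ = 2 * (ENNReal.ofReal (τ ^ (1 / L) * (1 - 1 / L) ^ m) * ∫⁻ x, f x) := by rw [mul_assoc]
      _ ≤ _ := mul_le_mul_right (GridB.int_le_sum hLC hτ0 hval h0 h1 h2 hp G hG) _
  · calc ∑ g ∈ G, f (fun k => (g k : ℝ)) = 1 * ∑ g ∈ G, f (fun k => (g k : ℝ)) := by rw [one_mul]
      _ ≤ (2 * ENNReal.ofReal (τ ^ (1 / L) * (1 - 1 / L) ^ m)) *
            ∑ g ∈ G, f (fun k => (g k : ℝ)) := mul_le_mul_left hc2 _
      _ = 2 * (ENNReal.ofReal (τ ^ (1 / L) * (1 - 1 / L) ^ m) *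
            ∑ g ∈ G, f (fun k => (g k : ℝ))) := by rw [mul_assoc]
      _ ≤ _ := mul_le_mul_right (GridB.sum_le_int hLC hτ0 hval h0 h1 h2 hp G) _

end Crest.Agent.R225
end

-- ▼ part R225/GridA
section

/-!
# Row 225 (S0347), node Grid: block matrices, marginals, slices, numerics
-/

set_option autoImplicit false

open Finset MeasureTheory
open scoped BigOperators ENNReal

namespace Crest.Agent.R225

namespace GridPf


variable {m r : ℕ}

/-- block diagonal matrix `diag(s, …, s, B)` -/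
noncomputable def blk (m : ℕ) {r : ℕ} (s : ℝ) (B : Matrix (Fin r) (Fin r) ℝ) :
    Matrix (Fin (m + r)) (Fin (m + r)) ℝ :=
  Matrix.reindex finSumFinEquiv finSumFinEquiv
    (Matrix.fromBlocks (s • (1 : Matrix (Fin m) (Fin m) ℝ)) 0 0 B)

theorem append_comp (u : Fin m → ℝ) (y : Fin r → ℝ) :
    Fin.append u y ∘ finSumFinEquiv = Sum.elim u y := by
  funext i
  rcases i with i | i <;> simp

theorem blk_mulVec (s : ℝ) (B : Matrix (Fin r) (Fin r) ℝ) (u : Fin m → ℝ) (y : Fin r → ℝ) :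
    (blk m s B).mulVec (Fin.append u y) = Fin.append (s • u) (B.mulVec y) := by
  have h1 : (blk m s B).mulVec (Fin.append u y) =
      ((Matrix.fromBlocks (s • (1 : Matrix (Fin m) (Fin m) ℝ)) 0 0 B).mulVec
        (Fin.append u y ∘ finSumFinEquiv)) ∘ finSumFinEquiv.symm := by
    rw [blk, Matrix.reindex_apply, Matrix.submatrix_mulVec_equiv]
    rfl
  rw [h1, append_comp, Matrix.fromBlocks_mulVec]
  funext i
  refine Fin.addCases (fun i => ?_) (fun i => ?_) i
  · simp [Matrix.smul_mulVec]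
  · simp

theorem blk_det (s : ℝ) (B : Matrix (Fin r) (Fin r) ℝ) : (blk m s B).det = s ^ m * B.det := by
  rw [blk, Matrix.det_reindex_self, Matrix.det_fromBlocks_zero₂₁, Matrix.det_smul,
    Matrix.det_one, Fintype.card_fin, mul_one]

theorem append_add (u u' : Fin m → ℝ) (y y' : Fin r → ℝ) :
    Fin.append u y + Fin.append u' y' = Fin.append (u + u') (y + y') := by
  funext i
  refine Fin.addCases (fun i => ?_) (fun i => ?_) i <;> simp

theorem append_sub (u u' : Fin m → ℝ) (y y' : Fin r → ℝ) :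
    Fin.append u y - Fin.append u' y' = Fin.append (u - u') (y - y') := by
  funext i
  refine Fin.addCases (fun i => ?_) (fun i => ?_) i <;> simp

theorem append_smul (c : ℝ) (u : Fin m → ℝ) (y : Fin r → ℝ) :
    c • Fin.append u y = Fin.append (c • u) (c • y) := by
  funext i
  refine Fin.addCases (fun i => ?_) (fun i => ?_) i <;> simp

theorem LC_affine {k l : ℕ} {f : (Fin k → ℝ) → ℝ≥0∞} (hf : LC f) (t : Fin k → ℝ)
    (A : Matrix (Fin k) (Fin l) ℝ) : LC (fun z : Fin l → ℝ => f (t + A.mulVec z)) := by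
  intro x y c h0 h1
  have := hf (t + A.mulVec x) (t + A.mulVec y) c h0 h1
  refine this.trans (le_of_eq ?_)
  congr 1
  rw [Matrix.mulVec_add, Matrix.mulVec_smul, Matrix.mulVec_smul]
  module

/-- the points where a LC function does not vanish form a convex set -/
theorem LC_convex {E : Type*} [AddCommGroup E] [Module ℝ E] {f : E → ℝ≥0∞} (hf : LC f)
    (hfin : ∀ x, f x ≠ ∞) : Convex ℝ {x | f x ≠ 0} := by
  intro x hx y hy a b ha hb hab
  rcases eq_or_lt_of_le ha with h | ha'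
  · subst h
    have : b = 1 := by linarith
    subst this
    simpa using hy
  rcases eq_or_lt_of_le hb with h | hb'
  · subst h
    have : a = 1 := by linarith
    subst this
    simpa using hx
  have h1 := hf x y b hb' (by linarith)
  have h2 : a = 1 - b := by linarith
  rw [h2]
  intro h3
  rw [h3, nonpos_iff_eq_zero] at h1
  have hx' : f x ≠ 0 := hx
  have hy' : f y ≠ 0 := hy
  rcases mul_eq_zero.1 h1 with h | h
  · rw [ENNReal.rpow_eq_zero_iff] at h
    rcases h with h | h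
    · exact hx' h.1
    · exact hfin x h.1
  · rw [ENNReal.rpow_eq_zero_iff] at h
    rcases h with h | h
    · exact hy' h.1
    · exact hfin y h.1




/-- the marginal -/
noncomputable def Fm (V : (Fin (m + r) → ℝ) → ℝ≥0∞) (w : Fin r → ℝ) : ℝ≥0∞ :=
  ∫⁻ u : Fin m → ℝ, V (Fin.append u w)

theorem Vals.ne_top {E : Type*} {α τ : ℝ} {f : E → ℝ≥0∞} (h : Vals α τ f) (x : E) : f x ≠ ∞ := by
  rcases h x with h1 | h1
  · rw [h1]; exact ENNReal.zero_ne_top
  · exact ne_top_of_le_ne_top ENNReal.ofReal_ne_top h1.2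

theorem Fm_le {V : (Fin (m + r) → ℝ) → ℝ≥0∞} {α τ : ℝ} (hα : 0 < α) (hval : Vals α τ V)
    (hbox : ∀ z, V z ≠ 0 → ∀ k, |z k| ≤ 2) (w : Fin r → ℝ) :
    Fm V w ≤ ENNReal.ofReal (α * 4 ^ m) := by
  have h1 : ∀ u : Fin m → ℝ, V (Fin.append u w) ≤
      (Set.Icc (fun _ : Fin m => (-2:ℝ)) (fun _ => 2)).indicator (fun _ => ENNReal.ofReal α) u := by
    intro u
    by_cases hu : V (Fin.append u w) = 0
    · rw [hu]; exact zero_le
    · have hb := hbox _ hu
      have hmem : u ∈ Set.Icc (fun _ : Fin m => (-2:ℝ)) (fun _ => 2) := by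
        constructor
        · intro k
          have := hb (Fin.castAdd r k)
          rw [Fin.append_left, abs_le] at this
          exact this.1
        · intro k
          have := hb (Fin.castAdd r k)
          rw [Fin.append_left, abs_le] at this
          exact this.2
      rw [Set.indicator_of_mem hmem]
      rcases hval (Fin.append u w) with h | h
      · exact absurd h hu
      · exact h.2
  calc Fm V w ≤ ∫⁻ u : Fin m → ℝ, (Set.Icc (fun _ : Fin m => (-2:ℝ)) (fun _ => 2)).indicator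
        (fun _ => ENNReal.ofReal α) u := lintegral_mono h1
    _ = ENNReal.ofReal α * volume (Set.Icc (fun _ : Fin m => (-2:ℝ)) (fun _ => 2)) := by
        rw [lintegral_indicator measurableSet_Icc, setLIntegral_const]
    _ = ENNReal.ofReal (α * 4 ^ m) := by
        rw [Real.volume_Icc_pi, ENNReal.ofReal_mul hα.le]
        congr 1
        simp only [Finset.prod_const, Finset.card_univ, Fintype.card_fin]
        rw [← ENNReal.ofReal_pow (by norm_num)]
        norm_num

theorem Fm_ge {V : (Fin (m + r) → ℝ) → ℝ≥0∞} {α τ δ : ℝ} (hα : 0 < α) (hτ : 0 < τ)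
    (hδ : 0 < δ) (hval : Vals α τ V)
    (hcube : ∀ z : Fin (m + r) → ℝ, (∀ k, 0 ≤ z k ∧ z k ≤ δ) → V z ≠ 0)
    {w : Fin r → ℝ} (hw : ∀ l, 0 ≤ w l ∧ w l ≤ δ) :
    ENNReal.ofReal (τ * α * δ ^ m) ≤ Fm V w := by
  have h1 : ∀ u : Fin m → ℝ,
      (Set.Icc (fun _ : Fin m => (0:ℝ)) (fun _ => δ)).indicator (fun _ => ENNReal.ofReal (τ * α)) u
      ≤ V (Fin.append u w) := by
    intro u
    by_cases hmem : u ∈ Set.Icc (fun _ : Fin m => (0:ℝ)) (fun _ => δ)
    · rw [Set.indicator_of_mem hmem]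
      have hne : V (Fin.append u w) ≠ 0 := by
        apply hcube
        intro k
        refine Fin.addCases (fun k => ?_) (fun k => ?_) k
        · rw [Fin.append_left]; exact ⟨hmem.1 k, hmem.2 k⟩
        · rw [Fin.append_right]; exact hw k
      rcases hval (Fin.append u w) with h | h
      · exact absurd h hne
      · exact h.1
    · rw [Set.indicator_of_notMem hmem]; exact zero_le
  calc ENNReal.ofReal (τ * α * δ ^ m)
      = ENNReal.ofReal (τ * α) * volume (Set.Icc (fun _ : Fin m => (0:ℝ)) (fun _ => δ)) := by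
        rw [Real.volume_Icc_pi, ENNReal.ofReal_mul (by positivity)]
        congr 1
        simp only [Finset.prod_const, Finset.card_univ, Fintype.card_fin, sub_zero]
        rw [← ENNReal.ofReal_pow hδ.le]
    _ = ∫⁻ u : Fin m → ℝ, (Set.Icc (fun _ : Fin m => (0:ℝ)) (fun _ => δ)).indicator
        (fun _ => ENNReal.ofReal (τ * α)) u := by
        rw [lintegral_indicator measurableSet_Icc, setLIntegral_const]
    _ ≤ Fm V w := lintegral_mono h1

theorem Fm_bdd {V : (Fin (m + r) → ℝ) → ℝ≥0∞} (hbox : ∀ z, V z ≠ 0 → ∀ k, |z k| ≤ 2) :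
    BddSupp (Fm V) := by
  refine ⟨2, fun w hw i => ?_⟩
  by_contra hcon
  apply hw
  unfold Fm
  rw [lintegral_eq_zero_of_ae_eq_zero]
  refine Filter.Eventually.of_forall fun u => ?_
  by_contra hne
  have := hbox _ hne (Fin.natAdd m i)
  rw [Fin.append_right] at this
  exact hcon this

/-- if the marginal is nonzero then the slice is nonempty -/
theorem exists_of_Fm {V : (Fin (m + r) → ℝ) → ℝ≥0∞} {w : Fin r → ℝ} (h : Fm V w ≠ 0) :
    ∃ u : Fin m → ℝ, V (Fin.append u w) ≠ 0 := by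
  by_contra hcon
  push Not at hcon
  apply h
  unfold Fm
  rw [lintegral_eq_zero_of_ae_eq_zero]
  exact Filter.Eventually.of_forall fun u => hcon u

theorem slice_cube {V : (Fin (m + r) → ℝ) → ℝ≥0∞} {α τ δ lm : ℝ} (hval : Vals α τ V)
    (hLC : LC V) (hcube : ∀ z : Fin (m + r) → ℝ, (∀ k, 0 ≤ z k ∧ z k ≤ δ) → V z ≠ 0)
    (h0 : 0 < lm) (h1 : lm < 1)
    {w w0 : Fin r → ℝ} (hw0 : ∀ l, 0 ≤ w0 l ∧ w0 l ≤ δ) {u : Fin m → ℝ}
    (hu : V (Fin.append u w) ≠ 0) {u2 : Fin m → ℝ} (hu2 : ∀ k, 0 ≤ u2 k ∧ u2 k ≤ δ) :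
    V (Fin.append ((1 - lm) • u + lm • u2) ((1 - lm) • w + lm • w0)) ≠ 0 := by
  have hne : V (Fin.append u2 w0) ≠ 0 := by
    apply hcube
    intro k
    refine Fin.addCases (fun k => ?_) (fun k => ?_) k
    · rw [Fin.append_left]; exact hu2 k
    · rw [Fin.append_right]; exact hw0 k
  have hconv := LC_convex hLC (Vals.ne_top hval)
  have := hconv (show Fin.append u w ∈ {x | V x ≠ 0} from hu)
    (show Fin.append u2 w0 ∈ {x | V x ≠ 0} from hne) (show 0 ≤ 1 - lm by linarith) h0.le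
    (by ring)
  have h3 : V ((1 - lm) • Fin.append u w + lm • Fin.append u2 w0) ≠ 0 := this
  rwa [append_smul, append_smul, append_add] at h3

theorem Fm_shrunk {V : (Fin (m + r) → ℝ) → ℝ≥0∞} {α τ δ lm M : ℝ} (hα : 0 < α) (hτ : 0 < τ)
    (hδ : 0 < δ) (hval : Vals α τ V) (hV : Measurable V) (hLC : LC V)
    (hcube : ∀ z : Fin (m + r) → ℝ, (∀ k, 0 ≤ z k ∧ z k ≤ δ) → V z ≠ 0)
    (hbox : ∀ z, V z ≠ 0 → ∀ k, |z k| ≤ 2)
    (h0 : 0 < lm) (h1 : lm < 1) (hM : 0 < M) (h2 : (4 ^ m / (τ * δ ^ m)) ^ lm ≤ 2)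
    {w w0 : Fin r → ℝ} (hw0 : ∀ l, 0 ≤ w0 l ∧ w0 l ≤ δ)
    (hw : ENNReal.ofReal (M / 2) ≤ Fm V w) :
    ENNReal.ofReal (M / 4) ≤ Fm V ((1 - lm) • w + lm • w0) := by
  have hF := (grid_marginal hV hLC).2 w w0 lm h0 h1
  have hM2 : M / 2 ≤ α * 4 ^ m := by
    have := hw.trans (Fm_le hα hval hbox w)
    exact (ENNReal.ofReal_le_ofReal_iff (by positivity)).1 this
  have hb := Fm_ge hα hτ hδ hval hcube hw0
  have hτδ : 0 < τ * δ ^ m := by positivity
  have hreal : M / 4 ≤ (M / 2) ^ (1 - lm) * (τ * α * δ ^ m) ^ lm := by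
    have e1 : (M / 2) ^ (1 - lm) = (M / 2) / (M / 2) ^ lm := by
      rw [Real.rpow_sub (by positivity), Real.rpow_one]
    have e2 : (M / 2) ^ lm ≤ 2 * (τ * α * δ ^ m) ^ lm := by
      calc (M / 2) ^ lm ≤ (α * 4 ^ m) ^ lm := by
            apply Real.rpow_le_rpow (by positivity) hM2 h0.le
        _ = ((4 ^ m / (τ * δ ^ m)) * (τ * α * δ ^ m)) ^ lm := by
            congr 1
            field_simp
        _ = (4 ^ m / (τ * δ ^ m)) ^ lm * (τ * α * δ ^ m) ^ lm := by
            rw [Real.mul_rpow (by positivity) (by positivity)]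
        _ ≤ 2 * (τ * α * δ ^ m) ^ lm := by
            apply mul_le_mul_of_nonneg_right h2 (by positivity)
    rw [e1, div_mul_eq_mul_div, le_div_iff₀ (by positivity)]
    calc M / 4 * (M / 2) ^ lm ≤ M / 4 * (2 * (τ * α * δ ^ m) ^ lm) :=
          mul_le_mul_of_nonneg_left e2 (by positivity)
      _ = M / 2 * (τ * α * δ ^ m) ^ lm := by ring
  calc ENNReal.ofReal (M / 4)
      ≤ ENNReal.ofReal ((M / 2) ^ (1 - lm) * (τ * α * δ ^ m) ^ lm) :=
        ENNReal.ofReal_le_ofReal hreal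
    _ = ENNReal.ofReal (M / 2) ^ (1 - lm) * ENNReal.ofReal (τ * α * δ ^ m) ^ lm := by
        rw [ENNReal.ofReal_mul (by positivity), ENNReal.ofReal_rpow_of_pos (by positivity),
          ENNReal.ofReal_rpow_of_pos (by positivity)]
    _ ≤ Fm V w ^ (1 - lm) * Fm V w0 ^ lm := by
        gcongr
    _ ≤ Fm V ((1 - lm) • w + lm • w0) := hF



/-- numerical facts used in the grid node -/
theorem numerics (r : ℕ) : ∃ n2 : ℕ, ∀ n ≥ n2, ∀ m : ℕ, n ≤ 2 * m → m ≤ n →
    ∃ lm : ℝ, 0 < lm ∧ lm < 1 ∧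
      (∀ τ : ℝ, Real.exp (-(m : ℝ)) ≤ τ → (4 ^ m / (τ * (1 / ((m : ℝ) + r + 1)) ^ m)) ^ lm ≤ 2) ∧
      1 / 2 ≤ (1 - lm) ^ r ∧
      4 ≤ lm * (1 / ((m : ℝ) + r + 1)) * (n : ℝ) ^ 3 ∧
      48 * ((m : ℝ) + r + 1) ≤ (n : ℝ) ^ 3 := by
  have hlim : ∀ᶠ n : ℕ in Filter.atTop, Real.log (24 * n) / Real.sqrt n ≤ Real.log 2 := by
    have h1 : ∀ᶠ n : ℕ in Filter.atTop, (10 : ℝ) ^ 8 ≤ n := by
      have := tendsto_natCast_atTop_atTop (R := ℝ)
      exact this.eventually_ge_atTop _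
    filter_upwards [h1] with n hn
    have hn0 : (0:ℝ) < n := by linarith [show (0:ℝ) < 10 ^ 8 by norm_num]
    have hlog2 : (0.69 : ℝ) ≤ Real.log 2 := by linarith [Real.log_two_gt_d9]
    have h3 : Real.log (24 * n) ≤ (24 * n : ℝ) ^ (1 / 4 : ℝ) / (1 / 4) :=
      Real.log_le_rpow_div (by positivity) (by norm_num)
    have h4 : (24 * n : ℝ) ^ (1 / 4 : ℝ) ≤ 3 * (n : ℝ) ^ (1 / 4 : ℝ) := by
      rw [Real.mul_rpow (by norm_num) hn0.le]
      apply mul_le_mul_of_nonneg_right _ (by positivity)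
      have : (24 : ℝ) ^ (1 / 4 : ℝ) ≤ (81 : ℝ) ^ (1 / 4 : ℝ) :=
        Real.rpow_le_rpow (by norm_num) (by norm_num) (by norm_num)
      refine this.trans (le_of_eq ?_)
      rw [show (81 : ℝ) = 3 ^ (4 : ℕ) by norm_num, ← Real.rpow_natCast, ← Real.rpow_mul (by norm_num)]
      norm_num
    have h5 : Real.sqrt n = (n : ℝ) ^ (1 / 4 : ℝ) * (n : ℝ) ^ (1 / 4 : ℝ) := by
      rw [Real.sqrt_eq_rpow, ← Real.rpow_add hn0]; norm_num
    have h6 : (100 : ℝ) ≤ (n : ℝ) ^ (1 / 4 : ℝ) := by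
      have : ((10 : ℝ) ^ 8) ^ (1 / 4 : ℝ) ≤ (n : ℝ) ^ (1 / 4 : ℝ) :=
        Real.rpow_le_rpow (by norm_num) hn (by norm_num)
      refine le_trans (le_of_eq ?_) this
      rw [show (10 : ℝ) ^ 8 = 100 ^ (4 : ℕ) by norm_num, ← Real.rpow_natCast,
        ← Real.rpow_mul (by norm_num)]
      norm_num
    rw [div_le_iff₀ (Real.sqrt_pos.2 hn0), h5]
    set x := (n : ℝ) ^ (1 / 4 : ℝ)
    have : Real.log (24 * n) ≤ 12 * x := by
      calc _ ≤ _ := h3
        _ ≤ (3 * x) / (1 / 4) := by gcongr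
        _ = 12 * x := by ring
    nlinarith
  obtain ⟨N, hN⟩ := Filter.eventually_atTop.1 hlim
  refine ⟨max N (max 100 (2 * r + 1)), fun n hn m hnm hmn => ?_⟩
  have hnN : N ≤ n := (le_max_left _ _).trans hn
  have hn100 : 100 ≤ n := (le_max_left _ _).trans ((le_max_right _ _).trans hn)
  have hnr : 2 * r + 1 ≤ n := (le_max_right _ _).trans ((le_max_right _ _).trans hn)
  have hN' := hN n hnN
  have hn' : (100 : ℝ) ≤ n := by exact_mod_cast hn100
  have hn0 : (0 : ℝ) < n := by linarith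
  have hr' : 2 * (r : ℝ) + 1 ≤ n := by exact_mod_cast hnr
  have hm' : (m : ℝ) ≤ n := by exact_mod_cast hmn
  have hmr : (m : ℝ) + r + 1 ≤ 2 * n := by linarith [(Nat.cast_nonneg r : (0:ℝ) ≤ r)]
  have hmr0 : (0 : ℝ) < (m : ℝ) + r + 1 := by positivity
  have hlm1 : (n : ℝ) ^ (-(3 / 2) : ℝ) ≤ 1 / n := by
    rw [one_div, ← Real.rpow_neg_one]
    exact Real.rpow_le_rpow_of_exponent_le (by linarith) (by norm_num)
  have hsq : (n : ℝ) ^ (-(3 / 2) : ℝ) * n = 1 / Real.sqrt n := by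
    rw [Real.sqrt_eq_rpow, one_div, ← Real.rpow_neg hn0.le]
    nth_rewrite 2 [← Real.rpow_one (n : ℝ)]
    rw [← Real.rpow_add hn0]
    norm_num
  have hsq2 : (n : ℝ) ^ (-(3 / 2) : ℝ) * (n : ℝ) ^ 2 = Real.sqrt n := by
    rw [Real.sqrt_eq_rpow, ← Real.rpow_natCast (n : ℝ) 2, ← Real.rpow_add hn0]
    norm_num
  have hsqrt : 10 ≤ Real.sqrt n := by
    rw [show (10 : ℝ) = Real.sqrt (10 ^ 2) by rw [Real.sqrt_sq (by norm_num)]]
    exact Real.sqrt_le_sqrt (by linarith)
  refine ⟨(n : ℝ) ^ (-(3 / 2) : ℝ), by positivity, ?_, ?_, ?_, ?_, ?_⟩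
  · refine lt_of_le_of_lt hlm1 ?_
    rw [div_lt_one hn0]; linarith
  · intro τ hτ
    have hτ0 : 0 < τ := lt_of_lt_of_le (Real.exp_pos _) hτ
    have h1 : 4 ^ m / (τ * (1 / ((m : ℝ) + r + 1)) ^ m) ≤ (24 * (n : ℝ)) ^ m := by
      rw [div_le_iff₀ (by positivity)]
      have e1 : (Real.exp 1)⁻¹ ^ m ≤ τ := by
        refine le_trans (le_of_eq ?_) hτ
        rw [← Real.exp_neg, ← Real.exp_nat_mul]
        congr 1; ring
      have e2 : (4 : ℝ) ≤ 24 * n * ((Real.exp 1)⁻¹ * (1 / ((m : ℝ) + r + 1))) := by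
        have hexp : Real.exp 1 ≤ 3 := by linarith [Real.exp_one_lt_d9]
        rw [← one_div, ← mul_assoc, mul_one_div, mul_one_div, div_div, le_div_iff₀ (by positivity)]
        nlinarith [Real.exp_pos 1]
      calc (4 : ℝ) ^ m ≤ (24 * n * ((Real.exp 1)⁻¹ * (1 / ((m : ℝ) + r + 1)))) ^ m :=
            pow_le_pow_left₀ (by norm_num) e2 m
        _ = (24 * n) ^ m * ((Real.exp 1)⁻¹ ^ m * (1 / ((m : ℝ) + r + 1)) ^ m) := by
            rw [mul_pow (24 * (n : ℝ)), mul_pow (Real.exp 1)⁻¹]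
        _ ≤ (24 * n) ^ m * (τ * (1 / ((m : ℝ) + r + 1)) ^ m) := by gcongr
    have h24 : (1 : ℝ) ≤ 24 * n := by linarith
    calc (4 ^ m / (τ * (1 / ((m : ℝ) + r + 1)) ^ m)) ^ ((n : ℝ) ^ (-(3 / 2) : ℝ))
        ≤ ((24 * (n : ℝ)) ^ m) ^ ((n : ℝ) ^ (-(3 / 2) : ℝ)) := by
          apply Real.rpow_le_rpow (by positivity) h1 (by positivity)
      _ = (24 * (n : ℝ)) ^ ((m : ℝ) * (n : ℝ) ^ (-(3 / 2) : ℝ)) := by
          rw [← Real.rpow_natCast, ← Real.rpow_mul (by positivity)]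
      _ ≤ (24 * (n : ℝ)) ^ (1 / Real.sqrt n) := by
          apply Real.rpow_le_rpow_of_exponent_le h24
          rw [← hsq, mul_comm]
          gcongr
      _ = Real.exp (Real.log (24 * n) / Real.sqrt n) := by
          rw [Real.rpow_def_of_pos (by positivity)]
          congr 1; ring
      _ ≤ 2 := by
          calc _ ≤ Real.exp (Real.log 2) := Real.exp_le_exp.2 hN'
            _ = 2 := Real.exp_log (by norm_num)
  · have hb := one_add_mul_le_pow (R := ℝ) (a := -((n : ℝ) ^ (-(3 / 2) : ℝ))) (by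
      have : (1 : ℝ) / n ≤ 1 := by rw [div_le_one hn0]; linarith
      linarith) r
    have : (r : ℝ) * (n : ℝ) ^ (-(3 / 2) : ℝ) ≤ 1 / 2 := by
      calc (r : ℝ) * (n : ℝ) ^ (-(3 / 2) : ℝ) ≤ r * (1 / n) := by gcongr
        _ ≤ 1 / 2 := by
          rw [mul_one_div, div_le_iff₀ hn0]; linarith
    calc (1 / 2 : ℝ) ≤ 1 + r * -((n : ℝ) ^ (-(3 / 2) : ℝ)) := by linarith
      _ ≤ (1 + -((n : ℝ) ^ (-(3 / 2) : ℝ))) ^ r := hb
      _ = (1 - (n : ℝ) ^ (-(3 / 2) : ℝ)) ^ r := by ring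
  · have : (n : ℝ) ^ (-(3 / 2) : ℝ) * (1 / ((m : ℝ) + r + 1)) * (n : ℝ) ^ 3
        = Real.sqrt n * (n / ((m : ℝ) + r + 1)) := by
      rw [← hsq2]; ring
    rw [this]
    have h2 : (1 / 2 : ℝ) ≤ n / ((m : ℝ) + r + 1) := by
      rw [le_div_iff₀ hmr0]; linarith
    nlinarith
  · nlinarith [sq_nonneg ((n : ℝ) - 100), mul_pos hn0 hn0]


end GridPf

end Crest.Agent.R225
end

-- ▼ part R225/GridB
section

/-!
# Row 225 (S0347), node Grid: assembly, assuming the r-dimensional region lemma `S_GridRegion`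
-/

set_option autoImplicit false

open Finset MeasureTheory
open scoped BigOperators ENNReal

namespace Crest.Agent.R225

namespace GridPf

variable {m r : ℕ}

theorem lint_smul {g : (Fin m → ℝ) → ℝ≥0∞} (hg : Measurable g) {s : ℝ} (hs : 0 < s) :
    ∫⁻ u, g (s • u) = ENNReal.ofReal ((s ^ m)⁻¹) * ∫⁻ u, g u := by
  rw [← lintegral_map hg (measurable_const_smul s), Measure.map_addHaar_smul volume hs.ne',
    lintegral_smul_measure, Module.finrank_fin_fun, abs_of_pos (by positivity)]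
  rfl

theorem LC_slice {V : (Fin (m + r) → ℝ) → ℝ≥0∞} (hV : LC V) (y : Fin r → ℝ) :
    LC (fun u : Fin m → ℝ => V (Fin.append u y)) := by
  intro u u' c h0 h1
  have := hV (Fin.append u y) (Fin.append u' y) c h0 h1
  refine this.trans (le_of_eq ?_)
  congr 1
  rw [append_smul, append_smul, append_add]
  congr 1
  module

theorem interior_nonempty_of {k : ℕ} {f : (Fin k → ℝ) → ℝ≥0∞} (hconv : Convex ℝ {x | f x ≠ 0})
    (hint : ∫⁻ x, f x ≠ 0) : (interior {x | f x ≠ 0}).Nonempty := by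
  by_contra hcon
  rw [Set.not_nonempty_iff_eq_empty] at hcon
  apply hint
  have h1 : volume {x | f x ≠ 0} = 0 := by
    refine measure_mono_null ?_ (hconv.addHaar_frontier volume)
    intro x hx
    rw [frontier, Set.mem_sdiff, hcon]
    exact ⟨subset_closure hx, fun h => h⟩
  rw [lintegral_eq_zero_of_ae_eq_zero]
  exact h1

theorem bounded_of {k : ℕ} {f : (Fin k → ℝ) → ℝ≥0∞} (hb : BddSupp f) :
    Bornology.IsBounded {x | f x ≠ 0} := by
  obtain ⟨B, hB⟩ := hb
  refine (isCompact_Icc (a := fun _ : Fin k => -B) (b := fun _ => B)).isBounded.subset ?_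
  intro x hx
  have := hB x hx
  exact ⟨fun i => (abs_le.1 (this i)).1, fun i => (abs_le.1 (this i)).2⟩

end GridPf

/-- the r-dimensional region lemma (GM), proved in `GridRegion.lean` from `S_D1` -/
def S_GridRegion : Prop := ∀ r : ℕ, ∃ C : ℝ, 1 ≤ C ∧ ∀ F : (Fin r → ℝ) → ℝ≥0∞,
    LC F → Measurable F → BddSupp F → (∃ A : ℝ≥0∞, A ≠ ∞ ∧ ∀ x, F x ≤ A) → ∫⁻ x, F x ≠ 0 →
    ∃ (M : ℝ) (B : Matrix (Fin r) (Fin r) ℝ) (t : Fin r → ℝ), 0 < M ∧ B.det ≠ 0 ∧
      (∀ x, F x ≤ ENNReal.ofReal M) ∧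
      (∀ y : Fin r → ℝ, (∀ l, 0 ≤ y l ∧ y l ≤ 2) → ENNReal.ofReal (M / 2) ≤ F (t + B.mulVec y)) ∧
      ∫⁻ x, F x ≤ ENNReal.ofReal (C * M * |B.det|)

open GridPf in
open scoped Classical in
theorem prf_Grid_of (hGC : S_GridConvex) (hD1 : S_D1) (hGR : S_GridRegion) : S_Grid := by
  obtain ⟨c1, hc1, hc1', n1, hGC⟩ := hGC
  refine ⟨c1, hc1, hc1', fun r => ?_⟩
  obtain ⟨C, hC, hreg⟩ := hGR r
  obtain ⟨n2, hnum⟩ := GridPf.numerics r
  refine ⟨16, 16 * C, by norm_num, by linarith, max (max n1 n2) 2, ?_⟩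
  intro n hn m hnm hmn U0 τ0 α0 D hLC hmeas hbdd hτ hτ1 hτm hα hval hint hD hDlo hDhi
  have hnn1 : n1 ≤ n := (le_max_left _ _).trans ((le_max_left _ _).trans hn)
  have hnn2 : n2 ≤ n := (le_max_right _ _).trans ((le_max_left _ _).trans hn)
  have hn2 : 2 ≤ n := (le_max_right _ _).trans hn
  have hnR : (2 : ℝ) ≤ n := by exact_mod_cast hn2
  have hn0 : (0 : ℝ) < n := by linarith
  have hm1 : 1 ≤ m := by omega
  obtain ⟨lm, hlm0, hlm1, hlmτ, hlmr, hlm3, hn3⟩ := hnum n hnn2 m hnm hmn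
  have hlm2 := hlmτ τ0 hτm
  -- the position
  have hfin : ∀ x, U0 x ≠ ∞ := Vals.ne_top hval
  have hSconv := LC_convex hLC hfin
  obtain ⟨A0, p0, hdet0, hcube0, hbox0⟩ := hD1 (m + r) {x | U0 x ≠ 0} hSconv (bounded_of hbdd)
    (interior_nonempty_of hSconv hint)
  set δ : ℝ := 1 / ((m : ℝ) + r + 1) with hδdef
  have hmr0 : (0 : ℝ) < (m : ℝ) + r + 1 := by positivity
  have hδ : 0 < δ := by positivity
  set V : (Fin (m + r) → ℝ) → ℝ≥0∞ := fun z => U0 (p0 + A0.mulVec z) with hVdef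
  have hVLC : LC V := LC_affine hLC p0 A0
  have hVm : Measurable V := by
    refine hmeas.comp (Continuous.measurable ?_)
    exact continuous_const.add (continuous_const.matrix_mulVec continuous_id)
  have hVval : Vals α0 τ0 V := fun z => hval _
  have hVcube : ∀ z : Fin (m + r) → ℝ, (∀ k, 0 ≤ z k ∧ z k ≤ δ) → V z ≠ 0 := by
    intro z hz
    refine hcube0 z fun k => ⟨(hz k).1, (hz k).2.trans (le_of_eq ?_)⟩
    rw [hδdef]; push_cast; ring
  have hVbox : ∀ z, V z ≠ 0 → ∀ k, |z k| ≤ 2 := by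
    intro z hz
    obtain ⟨z', hz', he⟩ := hbox0 (p0 + A0.mulVec z) hz
    have : z = z' := Matrix.mulVec_injective_of_det_ne_zero hdet0 (add_left_cancel he)
    rw [this]; exact hz'
  have hchange := grid_change U0 hmeas p0 A0 hdet0
  have hchange' : ∫⁻ x, U0 x = ENNReal.ofReal |A0.det| * ∫⁻ y, Fm V y := hchange
  have hFint : ∫⁻ y, Fm V y ≠ 0 := by
    intro h
    rw [h, mul_zero] at hchange'
    exact hint hchange'
  obtain ⟨hFm, hFLC⟩ := grid_marginal hVm hVLC
  obtain ⟨M, B, t, hM, hdetB, hFM, hFlow, hFmass⟩ := hreg (Fm V) hFLC hFm (Fm_bdd hVbox)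
    ⟨ENNReal.ofReal (α0 * 4 ^ m), ENNReal.ofReal_ne_top, Fm_le hα hVval hVbox⟩ hFint
  -- bounds for M
  have hMhi : M / 2 ≤ α0 * 4 ^ m := by
    have h1 := (hFlow 0 (fun l => by simp)).trans (Fm_le hα hVval hVbox _)
    exact (ENNReal.ofReal_le_ofReal_iff (by positivity)).1 h1
  have hMlo : τ0 * α0 * δ ^ m ≤ M := by
    have h1 := (Fm_ge hα hτ hδ hVval hVcube (w := 0) (fun l => ⟨le_rfl, hδ.le⟩)).trans (hFM 0)
    exact (ENNReal.ofReal_le_ofReal_iff hM.le).1 h1
  -- the scale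
  obtain ⟨s, hs0, hsm⟩ : ∃ s : ℝ, 0 < s ∧ s ^ m = M / (8 * D) := by
    refine ⟨(M / (8 * D)) ^ ((m : ℝ)⁻¹), by positivity, ?_⟩
    exact Real.rpow_inv_natCast_pow (by positivity) (by omega)
  have hs1 : s * (n : ℝ) ^ 10 ≤ 4 := by
    have h1 : (s * (n : ℝ) ^ 10) ^ m ≤ 4 ^ m := by
      rw [mul_pow, hsm, ← pow_mul, div_mul_eq_mul_div, div_le_iff₀ (by positivity)]
      calc M * (n : ℝ) ^ (10 * m) ≤ (2 * (α0 * 4 ^ m)) * (n : ℝ) ^ (10 * m) := by
            gcongr; linarith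
        _ = 2 * 4 ^ m * ((n : ℝ) ^ (10 * m) * α0) := by ring
        _ ≤ 2 * 4 ^ m * D := by gcongr
        _ ≤ 4 ^ m * (8 * D) := by nlinarith [mul_pos (show (0:ℝ) < 4 ^ m by positivity) hD]
    exact (pow_le_pow_iff_left₀ (by positivity) (by norm_num) (by omega)).1 h1
  have hs2 : 1 ≤ s * (24 * ((m : ℝ) + r + 1) * (n : ℝ) ^ 12) := by
    have h1 : (1 : ℝ) ^ m ≤ (s * (24 * ((m : ℝ) + r + 1) * (n : ℝ) ^ 12)) ^ m := by
      have e1 : (1 / 3 : ℝ) ^ m ≤ τ0 := by
        refine le_trans ?_ hτm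
        have : (1 / 3 : ℝ) ≤ (Real.exp 1)⁻¹ := by
          rw [one_div]
          exact inv_anti₀ (Real.exp_pos 1) (by linarith [Real.exp_one_lt_d9])
        calc (1 / 3 : ℝ) ^ m ≤ ((Real.exp 1)⁻¹) ^ m := pow_le_pow_left₀ (by norm_num) this m
          _ = Real.exp (-(m : ℝ)) := by
              rw [← Real.exp_neg, ← Real.exp_nat_mul]; congr 1; ring
      have e2 : (8 : ℝ) ≤ 8 ^ m := by
        calc (8 : ℝ) = 8 ^ 1 := by norm_num
          _ ≤ 8 ^ m := pow_le_pow_right₀ (by norm_num) hm1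
      rw [one_pow, mul_pow, hsm, div_mul_eq_mul_div, le_div_iff₀ (by positivity), one_mul]
      calc 8 * D ≤ 8 ^ m * ((n : ℝ) ^ (12 * m) * α0) := by gcongr
        _ = α0 * (1 / 3) ^ m * δ ^ m * (24 * ((m : ℝ) + r + 1) * (n : ℝ) ^ 12) ^ m := by
            rw [pow_mul, hδdef]
            have : (24 * ((m : ℝ) + r + 1) * (n : ℝ) ^ 12) ^ m
                = 8 ^ m * 3 ^ m * ((m : ℝ) + r + 1) ^ m * ((n : ℝ) ^ 12) ^ m := by
              rw [← mul_pow, ← mul_pow, ← mul_pow]; norm_num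
            rw [this, one_div_pow, one_div_pow]
            field_simp
        _ ≤ α0 * τ0 * δ ^ m * (24 * ((m : ℝ) + r + 1) * (n : ℝ) ^ 12) ^ m := by gcongr
        _ ≤ M * (24 * ((m : ℝ) + r + 1) * (n : ℝ) ^ 12) ^ m := by
            gcongr; linarith
    rw [one_pow] at h1
    by_contra hcon
    push Not at hcon
    have := pow_lt_one₀ (by positivity) hcon (show m ≠ 0 by omega)
    linarith
  have hs3 : s * (n : ℝ) ^ 7 ≤ lm * δ := by
    have h1 : 4 * (s * (n : ℝ) ^ 7) ≤ 4 * (lm * δ) := by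
      calc 4 * (s * (n : ℝ) ^ 7) ≤ (lm * δ * (n : ℝ) ^ 3) * (s * (n : ℝ) ^ 7) := by
            gcongr
        _ = lm * δ * (s * (n : ℝ) ^ 10) := by ring
        _ ≤ lm * δ * 4 := by gcongr
        _ = 4 * (lm * δ) := by ring
    linarith
  have hs4 : 2 ≤ s * (n : ℝ) ^ 15 := by
    calc (2 : ℝ) ≤ 2 * (s * (24 * ((m : ℝ) + r + 1) * (n : ℝ) ^ 12)) := by linarith
      _ = s * (48 * ((m : ℝ) + r + 1) * (n : ℝ) ^ 12) := by ring
      _ ≤ s * ((n : ℝ) ^ 3 * (n : ℝ) ^ 12) := by gcongr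
      _ = s * (n : ℝ) ^ 15 := by ring
  -- the frame
  set A : Matrix (Fin (m + r)) (Fin (m + r)) ℝ := A0 * blk m s ((1 - lm) • B) with hAdef
  set tt : Fin (m + r) → ℝ := p0 + A0.mulVec (Fin.append 0 ((1 - lm) • t)) with httdef
  have hframe : ∀ (u : Fin m → ℝ) (y : Fin r → ℝ), U0 (tt + A.mulVec (Fin.append u y)) =
      V (Fin.append (s • u) ((1 - lm) • (t + B.mulVec y) + lm • (0 : Fin r → ℝ))) := by
    intro u y
    rw [hVdef]
    simp only
    congr 1
    rw [httdef, hAdef, ← Matrix.mulVec_mulVec, blk_mulVec, add_assoc, ← Matrix.mulVec_add,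
      append_add]
    congr 2
    congr 1
    · simp
    · rw [Matrix.smul_mulVec, smul_zero, add_zero, smul_add]
  have hdetA : A.det = A0.det * (s ^ m * ((1 - lm) ^ r * B.det)) := by
    rw [hAdef, Matrix.det_mul, blk_det, Matrix.det_smul, Fintype.card_fin]
  -- slices
  have hslice : ∀ y : Fin r → ℝ, (∀ l, 0 ≤ y l ∧ y l ≤ 2) → ∃ p : Fin m → ℝ,
      ∀ x : Fin m → ℝ, (∀ k, 0 ≤ x k - p k ∧ x k - p k ≤ (n : ℝ) ^ 7) →
        U0 (tt + A.mulVec (Fin.append x y)) ≠ 0 := by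
    intro y hy
    have h1 : Fm V (t + B.mulVec y) ≠ 0 := by
      intro h0
      have := hFlow y hy
      rw [h0, nonpos_iff_eq_zero, ENNReal.ofReal_eq_zero] at this
      linarith
    obtain ⟨u1, hu1⟩ := exists_of_Fm h1
    refine ⟨s⁻¹ • ((1 - lm) • u1), fun x hx => ?_⟩
    rw [hframe]
    have hx2 : s • x = (1 - lm) • u1 + lm • (fun k => s * (x k - s⁻¹ * ((1 - lm) * u1 k)) / lm) := by
      funext k
      simp only [Pi.add_apply, Pi.smul_apply, smul_eq_mul]
      field_simp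
      ring
    rw [hx2]
    refine slice_cube hVval hVLC hVcube hlm0 hlm1 (fun l => ⟨le_rfl, hδ.le⟩) hu1 ?_
    intro k
    have hk := hx k
    simp only [Pi.smul_apply, smul_eq_mul] at hk
    constructor
    · exact div_nonneg (mul_nonneg hs0.le hk.1) hlm0.le
    · rw [div_le_iff₀ hlm0]
      calc s * (x k - s⁻¹ * ((1 - lm) * u1 k)) ≤ s * (n : ℝ) ^ 7 := by
            gcongr; exact hk.2
        _ ≤ lm * δ := hs3
        _ = δ * lm := by ring
  have hsbox : ∀ y : Fin r → ℝ, ∀ x : Fin m → ℝ, U0 (tt + A.mulVec (Fin.append x y)) ≠ 0 →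
      ∀ k, |x k| ≤ (n : ℝ) ^ 15 := by
    intro y x hx k
    rw [hframe] at hx
    have h1 := hVbox _ hx (Fin.castAdd r k)
    rw [Fin.append_left, Pi.smul_apply, smul_eq_mul, abs_mul, abs_of_pos hs0] at h1
    have h2 : s * |x k| ≤ s * (n : ℝ) ^ 15 := h1.trans hs4
    exact le_of_mul_le_mul_left h2 hs0
  have hfinite : ∀ y : Fin r → ℝ, {g : Pt m | U0 (bp tt A g y) ≠ 0}.Finite := by
    intro y
    refine (Set.finite_Icc (fun _ : Fin m => -((n ^ 15 : ℕ) : ℤ))
      (fun _ : Fin m => ((n ^ 15 : ℕ) : ℤ))).subset ?_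
    intro g hg
    have h1 := hsbox y (fun k => (g k : ℝ)) hg
    have h2 : ∀ k, |g k| ≤ ((n ^ 15 : ℕ) : ℤ) := by
      intro k
      have := h1 k
      have h3 : ((|g k| : ℤ) : ℝ) ≤ (((n ^ 15 : ℕ) : ℤ) : ℝ) := by push_cast; exact this
      exact_mod_cast h3
    exact ⟨fun k => (abs_le.1 (h2 k)).1, fun k => (abs_le.1 (h2 k)).2⟩
  set G : (Fin r → ℝ) → Finset (Pt m) := fun y => (hfinite y).toFinset with hGdef
  have hGmem : ∀ y g, g ∈ G y ↔ U0 (bp tt A g y) ≠ 0 := by
    intro y g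
    rw [hGdef]
    simp
  have hsl : ∀ y : Fin r → ℝ, LC (fun u : Fin m → ℝ => U0 (tt + A.mulVec (Fin.append u y))) :=
    fun y => LC_slice (LC_affine hLC tt A) y
  -- integrals of slices
  have hslint : ∀ y : Fin r → ℝ, ∫⁻ u : Fin m → ℝ, U0 (tt + A.mulVec (Fin.append u y)) =
      ENNReal.ofReal (8 * D / M) * Fm V ((1 - lm) • (t + B.mulVec y) + lm • (0 : Fin r → ℝ)) := by
    intro y
    have h0 : Measurable (fun v : Fin m → ℝ =>
        V (Fin.append v ((1 - lm) • (t + B.mulVec y) + lm • (0 : Fin r → ℝ)))) :=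
      hVm.comp ((GridChange.measurable_append m r).comp (measurable_id.prodMk measurable_const))
    have h1 := lint_smul h0 hs0
    rw [hsm, inv_div] at h1
    rw [← show _ = ENNReal.ofReal (8 * D / M) *
      Fm V ((1 - lm) • (t + B.mulVec y) + lm • (0 : Fin r → ℝ)) from h1]
    exact lintegral_congr fun u => hframe u y
  have hsum : ∀ y : Fin r → ℝ, (∀ l, 0 ≤ y l ∧ y l ≤ 2) →
      ENNReal.ofReal D ≤ ∑ g ∈ G y, U0 (bp tt A g y) ∧
      ∑ g ∈ G y, U0 (bp tt A g y) ≤ ENNReal.ofReal (16 * D) := by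
    intro y hy
    obtain ⟨p, hp⟩ := hslice y hy
    obtain ⟨h1, h2⟩ := grid_riemann_two (f := fun u : Fin m → ℝ =>
      U0 (tt + A.mulVec (Fin.append u y))) hn2 hmn (hsl y) hτm (fun x => hval _) hp (hGmem y)
    rw [hslint] at h1 h2
    have hlow := Fm_shrunk hα hτ hδ hVval hVm hVLC hVcube hVbox hlm0 hlm1 hM hlm2
      (w0 := 0) (fun l => ⟨le_rfl, hδ.le⟩) (hFlow y hy)
    constructor
    · have h3 : ENNReal.ofReal (2 * D) ≤ 2 * ∑ g ∈ G y, U0 (bp tt A g y) := by
        calc ENNReal.ofReal (2 * D) = ENNReal.ofReal (8 * D / M) * ENNReal.ofReal (M / 4) := by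
              rw [← ENNReal.ofReal_mul (by positivity)]
              congr 1
              field_simp
              ring
          _ ≤ ENNReal.ofReal (8 * D / M) *
              Fm V ((1 - lm) • (t + B.mulVec y) + lm • (0 : Fin r → ℝ)) := by gcongr
          _ ≤ _ := h1
      rw [ENNReal.ofReal_mul (by norm_num), ENNReal.ofReal_ofNat] at h3
      exact (ENNReal.mul_le_mul_iff_right (by norm_num) (by norm_num)).1 h3
    · calc ∑ g ∈ G y, U0 (bp tt A g y) ≤ 2 * (ENNReal.ofReal (8 * D / M) *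
            Fm V ((1 - lm) • (t + B.mulVec y) + lm • (0 : Fin r → ℝ))) := h2
        _ ≤ 2 * (ENNReal.ofReal (8 * D / M) * ENNReal.ofReal M) := by
            gcongr; exact hFM _
        _ = ENNReal.ofReal (16 * D) := by
            rw [← ENNReal.ofReal_mul (by positivity), ← ENNReal.ofReal_ofNat 2,
              ← ENNReal.ofReal_mul (by norm_num)]
            congr 1
            field_simp
            ring
  have hsumR : ∀ y : Fin r → ℝ, ∑ g ∈ G y, (U0 (bp tt A g y)).toReal =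
      (∑ g ∈ G y, U0 (bp tt A g y)).toReal := fun y =>
    (ENNReal.toReal_sum fun g _ => hfin _).symm
  refine ⟨tt, A, G, ?_⟩
  refine ⟨?_, fun y _ g => hGmem y g, ?_, ?_, ?_, ?_, ?_, ?_⟩
  · rw [hdetA]
    have : (1 - lm) ≠ 0 := by linarith
    exact mul_ne_zero hdet0 (mul_ne_zero (pow_ne_zero _ hs0.ne')
      (mul_ne_zero (pow_ne_zero _ this) hdetB))
  · intro y hy
    refine hGC n hnn1 m hnm hmn {u | U0 (tt + A.mulVec (Fin.append u y)) ≠ 0} (G y)
      (LC_convex (hsl y) fun x => hfin _) (hslice y hy) ⟨0, fun x hx k => ?_⟩ (hGmem y)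
    simpa using hsbox y x hx k
  · intro y hy
    rw [hsumR, ← ENNReal.ofReal_le_iff_le_toReal]
    · exact (hsum y hy).1
    · exact ne_top_of_le_ne_top ENNReal.ofReal_ne_top (hsum y hy).2
  · intro y hy
    rw [hsumR]
    exact ENNReal.toReal_le_of_le_ofReal (by positivity) (hsum y hy).2
  · -- mass
    rw [hchange', hdetA]
    calc ENNReal.ofReal |A0.det| * ∫⁻ y, Fm V y
        ≤ ENNReal.ofReal |A0.det| * ENNReal.ofReal (C * M * |B.det|) := by gcongr
      _ = ENNReal.ofReal (|A0.det| * (C * M * |B.det|)) := by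
          rw [ENNReal.ofReal_mul (abs_nonneg _)]
      _ ≤ _ := by
          apply ENNReal.ofReal_le_ofReal
          have hlm' : (0 : ℝ) < 1 - lm := by linarith
          rw [abs_mul, abs_mul, abs_mul, abs_of_pos (pow_pos hs0 m), abs_of_pos (pow_pos hlm' r),
            hsm]
          have e1 : 16 * C * D * (|A0.det| * (M / (8 * D) * ((1 - lm) ^ r * |B.det|))) =
              |A0.det| * (C * M * |B.det|) * (2 * (1 - lm) ^ r) := by
            field_simp
            ring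
          rw [e1]
          have h3 : 0 ≤ |A0.det| * (C * M * |B.det|) := by positivity
          nlinarith
  · -- segx
    intro l
    obtain ⟨p, hp⟩ := hslice 0 (fun l => by simp)
    refine ⟨tt + A.mulVec (Fin.append p 0),
      tt + A.mulVec (Fin.append (p + Pi.single l ((n : ℝ) ^ 4)) 0), ?_, ?_, ?_⟩
    · exact hp p fun k => by simp
    · apply hp
      intro k
      simp only [Pi.add_apply, add_sub_cancel_left]
      by_cases hk : k = l
      · subst hk
        rw [Pi.single_eq_same]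
        exact ⟨by positivity, pow_le_pow_right₀ (by linarith) (by norm_num)⟩
      · rw [Pi.single_eq_of_ne hk]
        exact ⟨le_rfl, by positivity⟩
    · rw [add_sub_add_left_eq_sub, ← Matrix.mulVec_sub, append_sub]
      congr 2
      · simp
      · simp
  · -- segy
    intro l
    obtain ⟨p, hp⟩ := hslice 0 (fun l => by simp)
    obtain ⟨q, hq⟩ := hslice (Pi.single l 1) (fun k => by
      by_cases hk : k = l
      · subst hk; rw [Pi.single_eq_same]; norm_num
      · rw [Pi.single_eq_of_ne hk]; norm_num)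
    refine ⟨tt + A.mulVec (Fin.append p 0), tt + A.mulVec (Fin.append q (Pi.single l 1)), q - p,
      ?_, ?_, ?_⟩
    · exact hp p fun k => by simp
    · exact hq q fun k => by simp
    · rw [add_sub_add_left_eq_sub, ← Matrix.mulVec_sub, append_sub, sub_zero]

end Crest.Agent.R225
end

-- ▼ part R225/GridRegion

/-!
# Row 225 (S0347), node Grid: the r-dimensional region lemma
-/

set_option autoImplicit false

open Finset MeasureTheory
open scoped BigOperators ENNReal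

namespace Crest.Agent.R225

namespace GridR

variable {r : ℕ}

theorem level_convex {F : (Fin r → ℝ) → ℝ≥0∞} (hLC : LC F) {c : ℝ} (hc : 0 < c) :
    Convex ℝ {x | ENNReal.ofReal c < F x} := by
  intro x hx y hy a b ha hb hab
  rcases eq_or_lt_of_le ha with h | ha'
  · subst h
    have : b = 1 := by linarith
    subst this
    simpa using hy
  rcases eq_or_lt_of_le hb with h | hb'
  · subst h
    have : a = 1 := by linarith
    subst this
    simpa using hx
  have h1 := hLC x y b hb' (by linarith)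
  have h2 : a = 1 - b := by linarith
  have hx' : ENNReal.ofReal c < F x := hx
  have hy' : ENNReal.ofReal c < F y := hy
  have hc0 : ENNReal.ofReal c ≠ 0 := by
    rw [Ne, ENNReal.ofReal_eq_zero]; linarith
  rw [h2]
  refine lt_of_lt_of_le ?_ h1
  have e : ENNReal.ofReal c = ENNReal.ofReal c ^ (1 - b) * ENNReal.ofReal c ^ b := by
    rw [← ENNReal.rpow_add _ _ hc0 ENNReal.ofReal_ne_top]
    simp
  calc ENNReal.ofReal c = ENNReal.ofReal c ^ (1 - b) * ENNReal.ofReal c ^ b := e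
    _ < F x ^ (1 - b) * F y ^ b :=
        ENNReal.mul_lt_mul (ENNReal.rpow_lt_rpow hx' (by linarith)) (ENNReal.rpow_lt_rpow hy' hb')

theorem exists_level {F : (Fin r → ℝ) → ℝ≥0∞} (hint : ∫⁻ x, F x ≠ 0) :
    ∃ δ : ℝ, 0 < δ ∧ volume {x | ENNReal.ofReal δ < F x} ≠ 0 := by
  by_contra hcon
  push Not at hcon
  apply hint
  have h1 : volume (⋃ k : ℕ, {x | ENNReal.ofReal (1 / ((k : ℝ) + 1)) < F x}) = 0 :=
    measure_iUnion_null fun k => hcon _ (by positivity)
  rw [lintegral_eq_zero_of_ae_eq_zero]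
  refine measure_mono_null ?_ h1
  intro x hx
  have hx' : 0 < F x := pos_iff_ne_zero.2 hx
  rw [Set.mem_iUnion]
  obtain ⟨c, hc0, hc1⟩ := ENNReal.lt_iff_exists_real_btwn.1 hx'
  obtain ⟨hc2, hc3⟩ := hc1
  have hcpos : 0 < c := by
    by_contra h
    rw [ENNReal.ofReal_of_nonpos (not_lt.1 h)] at hc2
    exact lt_irrefl _ hc2
  obtain ⟨k, hk⟩ := exists_nat_one_div_lt hcpos
  exact ⟨k, lt_of_le_of_lt (ENNReal.ofReal_le_ofReal hk.le) hc3⟩

theorem homothety_mem (w x : Fin r → ℝ) (c : ℝ) :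
    AffineMap.homothety w c x = (1 - c) • w + c • x := by
  rw [AffineMap.homothety_apply]
  simp only [vsub_eq_sub, vadd_eq_add]
  module

/-- key interpolation of levels -/
theorem level_interp {F : (Fin r → ℝ) → ℝ≥0∞} (hLC : LC F) {a b t : ℝ} (ha : 0 < a) (hb : 0 < b)
    (ht0 : 0 < t) (ht1 : t < 1) {w x : Fin r → ℝ} (hw : ENNReal.ofReal a < F w)
    (hx : ENNReal.ofReal b < F x) :
    ENNReal.ofReal (a ^ (1 - t) * b ^ t) < F ((1 - t) • w + t • x) := by
  refine lt_of_lt_of_le ?_ (hLC w x t ht0 ht1)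
  rw [ENNReal.ofReal_mul (by positivity), ← ENNReal.ofReal_rpow_of_pos ha,
    ← ENNReal.ofReal_rpow_of_pos hb]
  exact ENNReal.mul_lt_mul (ENNReal.rpow_lt_rpow hw (by linarith)) (ENNReal.rpow_lt_rpow hx ht0)

theorem level_pos {F : (Fin r → ℝ) → ℝ≥0∞} (hLC : LC F) (hint : ∫⁻ x, F x ≠ 0) {a c : ℝ}
    (ha : 0 < a) (hca : c < a) {w : Fin r → ℝ} (hw : ENNReal.ofReal a < F w) :
    volume {x | ENNReal.ofReal c < F x} ≠ 0 := by
  obtain ⟨δ, hδ, hvol⟩ := exists_level hint
  have hcont : Filter.Tendsto (fun t : ℝ => a ^ (1 - t) * δ ^ t) (nhdsWithin 0 (Set.Ioi 0))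
      (nhds (a ^ (1 - 0 : ℝ) * δ ^ (0 : ℝ))) := by
    have : ContinuousAt (fun t : ℝ => a ^ (1 - t) * δ ^ t) 0 := by
      apply ContinuousAt.mul
      · exact ContinuousAt.comp (g := fun s : ℝ => a ^ s) (f := fun t : ℝ => 1 - t)
          (Real.continuousAt_const_rpow ha.ne') (by fun_prop)
      · exact Real.continuousAt_const_rpow hδ.ne'
    exact this.tendsto.mono_left nhdsWithin_le_nhds
  rw [sub_zero, Real.rpow_one, Real.rpow_zero, mul_one] at hcont
  have hev := hcont.eventually (lt_mem_nhds hca)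
  have hev2 : ∀ᶠ t : ℝ in nhdsWithin 0 (Set.Ioi 0), t < 1 := by
    have : ∀ᶠ t : ℝ in nhds 0, t < 1 := gt_mem_nhds (by norm_num)
    exact this.filter_mono nhdsWithin_le_nhds
  have hev3 : ∀ᶠ t : ℝ in nhdsWithin 0 (Set.Ioi 0), 0 < t := self_mem_nhdsWithin
  obtain ⟨t, ht1, ht2, ht3⟩ := (hev.and (hev2.and hev3)).exists
  have hsub : AffineMap.homothety w t '' {x | ENNReal.ofReal δ < F x} ⊆
      {x | ENNReal.ofReal c < F x} := by
    rintro _ ⟨x, hx, rfl⟩
    rw [homothety_mem]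
    exact lt_of_le_of_lt (ENNReal.ofReal_le_ofReal ht1.le) (level_interp hLC ha hδ ht3 ht2 hw hx)
  intro h0
  have h1 := measure_mono_null hsub h0
  rw [Measure.addHaar_image_homothety, mul_eq_zero] at h1
  rcases h1 with h1 | h1
  · rw [ENNReal.ofReal_eq_zero] at h1
    have : 0 < |t ^ Module.finrank ℝ (Fin r → ℝ)| := by positivity
    linarith
  · exact hvol h1

/-- decay: `{F > a q^j}` is contained in a homothetic copy of `{F > a q}`. -/
theorem level_decay {F : (Fin r → ℝ) → ℝ≥0∞} (hLC : LC F) {M q : ℝ} (hM : 0 < M) (hq : 0 < q)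
    (hq1 : q < 1) {w : Fin r → ℝ} (hw : ENNReal.ofReal (M * q) < F w) (j : ℕ) :
    {x | ENNReal.ofReal (M * q ^ (j + 1)) < F x} ⊆
      AffineMap.homothety w ((j : ℝ) + 1) '' {x | ENNReal.ofReal (M * q ^ 2) < F x} := by
  intro x hx
  rcases Nat.eq_zero_or_pos j with rfl | hj
  · refine ⟨x, ?_, by simp⟩
    have hx' : ENNReal.ofReal (M * q ^ (0 + 1)) < F x := hx
    refine lt_of_le_of_lt ?_ hx'
    apply ENNReal.ofReal_le_ofReal
    have : q ^ 2 ≤ q ^ (0 + 1) := pow_le_pow_of_le_one hq.le hq1.le (by norm_num)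
    gcongr
  · have hj0 : (0 : ℝ) < (j : ℝ) + 1 := by positivity
    have hj1 : (1 : ℝ) < (j : ℝ) + 1 := by
      have : (0 : ℝ) < j := by exact_mod_cast hj
      linarith
    set t : ℝ := ((j : ℝ) + 1)⁻¹ with ht
    have ht0 : 0 < t := by positivity
    have ht1 : t < 1 := inv_lt_one_of_one_lt₀ hj1
    have htj : t * ((j : ℝ) + 1) = 1 := inv_mul_cancel₀ hj0.ne'
    refine ⟨(1 - t) • w + t • x, ?_, ?_⟩
    · have h1 := level_interp hLC (by positivity) (by positivity) ht0 ht1 hw hx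
      refine lt_of_le_of_lt ?_ h1
      apply ENNReal.ofReal_le_ofReal
      rw [Real.mul_rpow hM.le hq.le, Real.mul_rpow hM.le (by positivity), ← Real.rpow_natCast q (j+1),
        ← Real.rpow_mul hq.le]
      have e1 : (((j + 1 : ℕ) : ℝ)) * t = 1 := by push_cast; rw [mul_comm]; exact htj
      rw [e1]
      have e2 : M ^ (1 - t) * q ^ (1 - t) * (M ^ t * q ^ (1 : ℝ)) = M * q ^ (2 - t) := by
        have e3 : M ^ (1 - t) * M ^ t = M := by
          rw [← Real.rpow_add hM]; simp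
        have e4 : q ^ (1 - t) * q ^ (1 : ℝ) = q ^ (2 - t) := by
          rw [← Real.rpow_add hq]; congr 1; ring
        calc _ = (M ^ (1 - t) * M ^ t) * (q ^ (1 - t) * q ^ (1 : ℝ)) := by ring
          _ = _ := by rw [e3, e4]
      rw [e2]
      have e5 : q ^ 2 ≤ q ^ (2 - t) := by
        rw [← Real.rpow_natCast q 2]
        apply Real.rpow_le_rpow_of_exponent_ge hq hq1.le
        push_cast; linarith
      gcongr
    · rw [homothety_mem]
      have : ((j : ℝ) + 1) • ((1 - t) • w + t • x) = (((j : ℝ) + 1) * (1 - t)) • w +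
          (((j : ℝ) + 1) * t) • x := by module
      rw [this, mul_comm ((j : ℝ) + 1) t, htj]
      have h2 : ((j : ℝ) + 1) * (1 - t) = j := by
        rw [mul_sub, mul_comm ((j : ℝ) + 1) t, htj]; ring
      rw [h2]
      module

end GridR

open GridR in
/-- GM. central parallelepiped of a log-concave function on `ℝ^r` (r = 0 allowed). -/
theorem grid_region (hD1 : S_D1) (r : ℕ) : ∃ C : ℝ, 1 ≤ C ∧ ∀ F : (Fin r → ℝ) → ℝ≥0∞,
    LC F → Measurable F → BddSupp F → (∃ A : ℝ≥0∞, A ≠ ∞ ∧ ∀ x, F x ≤ A) → ∫⁻ x, F x ≠ 0 →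
    ∃ (M : ℝ) (B : Matrix (Fin r) (Fin r) ℝ) (t : Fin r → ℝ), 0 < M ∧ B.det ≠ 0 ∧
      (∀ x, F x ≤ ENNReal.ofReal M) ∧
      (∀ y : Fin r → ℝ, (∀ l, 0 ≤ y l ∧ y l ≤ 2) → ENNReal.ofReal (M / 2) ≤ F (t + B.mulVec y)) ∧
      ∫⁻ x, F x ≤ ENNReal.ofReal (C * M * |B.det|) := by
  obtain ⟨q, hq0, hq1, hq2⟩ : ∃ q : ℝ, 0 < q ∧ q < 1 ∧ q ^ 2 = 1 / 2 := by
    refine ⟨Real.sqrt (1 / 2), by positivity, ?_, Real.sq_sqrt (by norm_num)⟩
    rw [Real.sqrt_lt' (by norm_num)]; norm_num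
  have hsum : Summable (fun j : ℕ => q ^ j * ((j : ℝ) + 1) ^ r) := by
    have h1 : Summable (fun n : ℕ => (n : ℝ) ^ r * q ^ n) :=
      summable_pow_mul_geometric_of_norm_lt_one r (by rwa [Real.norm_of_nonneg hq0.le])
    have h2 := ((summable_nat_add_iff 1).2 h1).mul_left q⁻¹
    refine h2.congr fun j => ?_
    push_cast
    rw [pow_succ]
    field_simp
  set T : ℝ := ∑' j : ℕ, q ^ j * ((j : ℝ) + 1) ^ r with hT
  have hT0 : 0 ≤ T := tsum_nonneg fun j => by positivity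
  refine ⟨T * 4 ^ r * (2 * ((r : ℝ) + 1)) ^ r + 1, ?_, ?_⟩
  · have : 0 ≤ T * 4 ^ r * (2 * ((r : ℝ) + 1)) ^ r := by positivity
    linarith
  intro F hLC hFm hbdd ⟨A, hA, hFA⟩ hint
  -- the maximum
  set Ms : ℝ≥0∞ := ⨆ x, F x with hMs
  have hMstop : Ms ≠ ∞ := ne_top_of_le_ne_top hA (iSup_le hFA)
  have hMs0 : Ms ≠ 0 := by
    intro h0
    apply hint
    have : ∀ x, F x = 0 := fun x => by
      have := le_iSup F x
      rw [← hMs, h0, nonpos_iff_eq_zero] at this
      exact this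
    simp [this]
  set M : ℝ := Ms.toReal with hMdef
  have hM : 0 < M := ENNReal.toReal_pos hMs0 hMstop
  have hMof : ENNReal.ofReal M = Ms := ENNReal.ofReal_toReal hMstop
  have hFM : ∀ x, F x ≤ ENNReal.ofReal M := fun x => by rw [hMof]; exact le_iSup F x
  obtain ⟨w, hw⟩ : ∃ w, ENNReal.ofReal (M * q) < F w := by
    apply lt_iSup_iff.1
    rw [← hMs, ← hMof]
    rw [ENNReal.ofReal_lt_ofReal_iff hM]
    nlinarith
  set L : Set (Fin r → ℝ) := {x | ENNReal.ofReal (M * q ^ 2) < F x} with hL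
  have hMq2 : 0 < M * q ^ 2 := by positivity
  have hLconv : Convex ℝ L := level_convex hLC hMq2
  have hLpos : volume L ≠ 0 := level_pos hLC hint (a := M * q) (by positivity) (by
    have : q ^ 2 < q := by nlinarith
    gcongr) hw
  have hLint : (interior L).Nonempty := by
    by_contra hcon
    rw [Set.not_nonempty_iff_eq_empty] at hcon
    apply hLpos
    refine measure_mono_null ?_ (hLconv.addHaar_frontier volume)
    intro x hx
    rw [frontier, Set.mem_sdiff, hcon]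
    exact ⟨subset_closure hx, fun h => h⟩
  have hLbdd : Bornology.IsBounded L := by
    obtain ⟨R, hR⟩ := hbdd
    refine (isCompact_Icc (a := fun _ : Fin r => -R) (b := fun _ => R)).isBounded.subset ?_
    intro x hx
    have hx0 : F x ≠ 0 := (lt_of_le_of_lt zero_le hx).ne'
    have := hR x hx0
    exact ⟨fun i => (abs_le.1 (this i)).1, fun i => (abs_le.1 (this i)).2⟩
  obtain ⟨A0, p, hdet, hcube, hbox⟩ := hD1 r L hLconv hLbdd hLint
  -- volume of L
  have hLvol : volume L ≤ ENNReal.ofReal (|A0.det| * 4 ^ r) := by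
    have hsub : L ⊆ (fun z : Fin r → ℝ => p + z) ''
        ((Matrix.toLin' A0) '' (Set.Icc (fun _ : Fin r => (-2:ℝ)) (fun _ => 2))) := by
      intro x hx
      obtain ⟨z, hz, he⟩ := hbox x hx
      refine ⟨A0.mulVec z, ⟨z, ⟨fun i => (abs_le.1 (hz i)).1, fun i => (abs_le.1 (hz i)).2⟩, ?_⟩,
        he.symm⟩
      rw [Matrix.toLin'_apply]
    calc volume L ≤ _ := measure_mono hsub
      _ = volume ((Matrix.toLin' A0) '' (Set.Icc (fun _ : Fin r => (-2:ℝ)) (fun _ => 2))) := by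
          rw [Set.image_add_left, measure_preimage_add]
      _ = ENNReal.ofReal (|A0.det| * 4 ^ r) := by
          rw [Measure.addHaar_image_linearMap, LinearMap.det_toLin', Real.volume_Icc_pi,
            ENNReal.ofReal_mul (abs_nonneg _)]
          congr 1
          simp only [Finset.prod_const, Finset.card_univ, Fintype.card_fin]
          rw [← ENNReal.ofReal_pow (by norm_num)]
          norm_num
  have hr1 : (0 : ℝ) < (r : ℝ) + 1 := by positivity
  refine ⟨M, (1 / (2 * ((r : ℝ) + 1))) • A0, p, hM, ?_, hFM, ?_, ?_⟩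
  · rw [Matrix.det_smul]
    exact mul_ne_zero (by positivity) hdet
  · intro y hy
    have h1 := hcube ((1 / (2 * ((r : ℝ) + 1))) • y) (fun k => by
      rw [Pi.smul_apply, smul_eq_mul]
      have := hy k
      constructor
      · exact mul_nonneg (by positivity) this.1
      · rw [one_div_mul_eq_div, div_le_div_iff₀ (by positivity) (by positivity)]
        nlinarith)
    rw [Matrix.mulVec_smul, ← Matrix.smul_mulVec] at h1
    have h2 : ENNReal.ofReal (M * q ^ 2) < F (p + ((1 / (2 * ((r : ℝ) + 1))) • A0).mulVec y) := h1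
    rw [hq2, mul_one_div] at h2
    exact h2.le
  · -- the integral
    have hE : ∀ j : ℕ, volume {x | ENNReal.ofReal (M * q ^ (j + 1)) < F x} ≤
        ENNReal.ofReal (((j : ℝ) + 1) ^ r * (|A0.det| * 4 ^ r)) := by
      intro j
      calc volume {x | ENNReal.ofReal (M * q ^ (j + 1)) < F x}
          ≤ volume (AffineMap.homothety w ((j : ℝ) + 1) '' L) :=
            measure_mono (level_decay hLC hM hq0 hq1 hw j)
        _ = ENNReal.ofReal (((j : ℝ) + 1) ^ r) * volume L := by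
            rw [Measure.addHaar_image_homothety, Module.finrank_fin_fun, abs_of_pos (by positivity)]
        _ ≤ ENNReal.ofReal (((j : ℝ) + 1) ^ r) * ENNReal.ofReal (|A0.det| * 4 ^ r) := by gcongr
        _ = _ := by rw [← ENNReal.ofReal_mul (by positivity)]
    have hmeasE : ∀ j : ℕ, MeasurableSet {x | ENNReal.ofReal (M * q ^ (j + 1)) < F x} := fun j =>
      measurableSet_lt measurable_const hFm
    have hpt : ∀ x, F x ≤ ∑' j : ℕ, ({x | ENNReal.ofReal (M * q ^ (j + 1)) < F x}).indicator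
        (fun _ => ENNReal.ofReal (M * q ^ j)) x := by
      intro x
      by_cases hx : F x = 0
      · rw [hx]; exact zero_le
      · -- smallest j with F x > M q^(j+1)
        have hex : ∃ j : ℕ, ENNReal.ofReal (M * q ^ (j + 1)) < F x := by
          have hx' : 0 < F x := pos_iff_ne_zero.2 hx
          obtain ⟨c, hc0, hc1⟩ := ENNReal.lt_iff_exists_real_btwn.1 hx'
          obtain ⟨hc2, hc3⟩ := hc1
          have hcpos : 0 < c := by
            by_contra h
            rw [ENNReal.ofReal_of_nonpos (not_lt.1 h)] at hc2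
            exact lt_irrefl _ hc2
          obtain ⟨j, hj⟩ := exists_pow_lt_of_lt_one (show 0 < c / M by positivity) hq1
          refine ⟨j, lt_of_le_of_lt (ENNReal.ofReal_le_ofReal ?_) hc3⟩
          have h3 : q ^ (j + 1) ≤ q ^ j := pow_le_pow_of_le_one hq0.le hq1.le (by omega)
          have h4 : q ^ (j + 1) < c / M := lt_of_le_of_lt h3 hj
          rw [lt_div_iff₀ hM] at h4
          linarith
        classical
        set j := Nat.find hex with hj
        have hj1 : ENNReal.ofReal (M * q ^ (j + 1)) < F x := Nat.find_spec hex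
        have hj2 : F x ≤ ENNReal.ofReal (M * q ^ j) := by
          rcases Nat.eq_zero_or_pos j with h0 | h0
          · rw [h0, pow_zero, mul_one]; exact hFM x
          · have := Nat.find_min hex (m := j - 1) (by omega)
            rw [Nat.sub_add_cancel h0] at this
            exact not_lt.1 this
        calc F x ≤ ENNReal.ofReal (M * q ^ j) := hj2
          _ = ({x | ENNReal.ofReal (M * q ^ (j + 1)) < F x}).indicator
              (fun _ => ENNReal.ofReal (M * q ^ j)) x := by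
              rw [Set.indicator_of_mem]; exact hj1
          _ ≤ _ := ENNReal.le_tsum j
    calc ∫⁻ x, F x ≤ ∫⁻ x, ∑' j : ℕ, ({x | ENNReal.ofReal (M * q ^ (j + 1)) < F x}).indicator
          (fun _ => ENNReal.ofReal (M * q ^ j)) x := lintegral_mono hpt
      _ = ∑' j : ℕ, ENNReal.ofReal (M * q ^ j) *
          volume {x | ENNReal.ofReal (M * q ^ (j + 1)) < F x} := by
          rw [lintegral_tsum]
          · congr 1
            funext j
            rw [lintegral_indicator (hmeasE j), setLIntegral_const]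
          · intro j
            exact (measurable_const.indicator (hmeasE j)).aemeasurable
      _ ≤ ∑' j : ℕ, ENNReal.ofReal (M * |A0.det| * 4 ^ r * (q ^ j * ((j : ℝ) + 1) ^ r)) := by
          apply ENNReal.tsum_le_tsum
          intro j
          calc _ ≤ ENNReal.ofReal (M * q ^ j) *
                ENNReal.ofReal (((j : ℝ) + 1) ^ r * (|A0.det| * 4 ^ r)) := by
                gcongr; exact hE j
            _ = _ := by
                rw [← ENNReal.ofReal_mul (by positivity)]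
                congr 1; ring
      _ = ENNReal.ofReal (M * |A0.det| * 4 ^ r * T) := by
          rw [← ENNReal.ofReal_tsum_of_nonneg (fun j => by positivity) (hsum.mul_left _),
            tsum_mul_left]
      _ ≤ _ := by
          apply ENNReal.ofReal_le_ofReal
          have habs : |(1 / (2 * ((r : ℝ) + 1))) ^ r| = 1 / (2 * ((r : ℝ) + 1)) ^ r := by
            rw [abs_of_pos (by positivity), one_div_pow]
          rw [Matrix.det_smul, abs_mul, Fintype.card_fin, habs]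
          have h2r : (0:ℝ) < (2 * ((r : ℝ) + 1)) ^ r := by positivity
          have e1 : (T * 4 ^ r * (2 * ((r : ℝ) + 1)) ^ r + 1) * M *
              (1 / (2 * ((r : ℝ) + 1)) ^ r * |A0.det|) = M * |A0.det| * 4 ^ r * T +
              M * (1 / (2 * ((r : ℝ) + 1)) ^ r * |A0.det|) := by
            field_simp
          rw [e1]
          have : 0 ≤ M * (1 / (2 * ((r : ℝ) + 1)) ^ r * |A0.det|) := by positivity
          linarith

end Crest.Agent.R225
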